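import Vale.Agent.P073.H399.PassP
import Vale.Agent.P073.H880.RP1

/-!
# P073, H399: **[K3-RP]**, the passive faces of ROUND P for `K3C`

`ROut3.passFace`: for all small thicknesses of the flats in the direction `tg s true`, then in the
direction `tg s false`, every face of the mesh is a `PassFace` for `κ true ∘ κ false` and the fibres
over the vertices are points (= `hpass`, `hN` of `exists_stage3`).
`ROut3.exists_ins`: existence of the thin levels and of the maps, with all these properties.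
-/

open Set Metric Topology Filter

namespace P073.H880.RP

open _root_.P073 _root_.P073.Net _root_.P073.PA691 _root_.P073.H236 _root_.P073.H579
  _root_.P073.H345 _root_.P073.H880
open Vale.Agent.P073.St (V)
open Vale.Agent.P073.H471 Vale.Agent.P073.H267 Vale.Agent.P073.H267.Geo
open Vale.Agent.P073.H73 (Mesh)
open Vale.Agent.P073.H193 (Edges Cyc)
open P073.H399 (SgnB)

variable {Ω Λ : Set V} {v : V} {K : BoxCx Λ v} {S : Rad K} {W : Wid K S} {B : Boxes W}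
  {M : Mesh Ω} {E : Edges M} {G : Geo B} {D : Dat K M} {h1 h2 : ConHomeo Ω Λ} {L : PLev G}
  {ι : Type} {F : ι → Set V}

/-- the box of the exchange is in the support of the square -/
theorem Dat.PE_sub_PK {s : K.S} (ht : ∀ β, D.ht s β ≤ 3 / 2 * B.τ s) : D.PE G s ⊆ PK G s := by
  rintro y ⟨h1, h2, h3⟩
  have hp := Geo.p_pos (G := G) s
  have e1 := ht true
  have e2 := ht false
  refine ⟨fun j hj => ?_, ?_⟩
  · have := h1 j hj
    constructor <;> linarith [this.1, this.2]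
  · rw [abs_le]
    constructor <;> linarith

theorem isOpen_ss (s : K.S) : IsOpen (W.ss s) := isOpen_spt width_marg

/-- the supports of the squares miss the boxes of the exchange of the other squares -/
theorem Dat.notMem_PE {s s' : K.S} (ht : ∀ β, D.ht s' β ≤ 3 / 2 * B.τ s') (hne : s' ≠ s) {y : V}
    (hy : y ∈ W.ss s) : y ∉ D.PE G s' := fun h =>
  Set.disjoint_left.1 (disjoint_ss (W := W) hne) (PK_sub_ss s' (D.PE_sub_PK ht h)) hy

/-- **the sign functions of the two directions** -/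
theorem ROut3.exists_sgnB (O : ROut3 G E D h1 h2 L.lv F)
    (ht : ∀ s ∈ D.S₀, ∀ β, D.ht s β ≤ 3 / 2 * B.τ s) :
    ∃ u : Bool → D.S₀ → V → ℝ,
      (∀ β, SgnB Ω h2.toFun (fun s : D.S₀ => L.bx β s.1) (fun s => W.ss s.1) (u β) F) ∧
      ∀ s : D.S₀, ∀ x ∈ Ω, u false s x ∈ L.lv s.1 (tg s.1 false) →
        u true s x ∈ L.lv s.1 (tg s.1 true) →
        H805.Reg (fun y => (u false s y, u true s y)) F x := by
  choose u hu1 hu2 hu3 hu4 using fun s : D.S₀ => O.reg s.1 s.2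
  refine ⟨fun β s => u s β, fun β => ?_, fun s x hx => hu4 s x hx⟩
  have hmem : ∀ s : D.S₀, ∀ m < ((L.bx β s.1)).N, (L.bx β s.1).a m ∈ L.lv s.1 (tg s.1 β) := by
    intro s m hm
    rw [PLev.lv_tg]
    exact (L.lvs s.1 β).mem_L.2 ⟨m, hm, rfl⟩
  refine ⟨fun s => ⟨(hu1 s β).2, (hu1 s β).1⟩, fun s x hx hxR m hm => ?_,
    fun s x hx m hm hxm => hu3 s β x hx (by simp only at hxm; rw [hxm]; exact hmem s m hm)⟩
  have h3 : x ∈ {x | x ∈ Ω ∧ ∀ s' ∈ D.S₀, s' ≠ s.1 → h1.toFun x ∉ D.PE G s'} :=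
    ⟨hx, fun s' hs' hne h4 => D.notMem_PE (ht s' hs') hne hxR ((O.box s' hs' x hx).2 h4)⟩
  exact hu2 s β _ (hmem s m hm) x h3

/-- **`hpass` and `hN` of `exists_stage3`** -/
theorem ROut3.passFace (hΛ : IsOpen Λ) (O : ROut3 G E D h1 h2 L.lv F)
    (ht : ∀ s ∈ D.S₀, ∀ β, D.ht s β ≤ 3 / 2 * B.τ s) (hM : ∀ t, ∃ i, H345.fam M E t = F i) :
    ∃ m₁ : K.S → ℝ, (∀ s, 0 < m₁ s) ∧ ∀ (c₁ : K.S → ℝ) (p₁ : ∀ s, 0 < c₁ s)
      (q₁ : ∀ s, c₁ s ≤ L.c s true), (∀ s, c₁ s ≤ m₁ s) →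
      ∀ κ₁, IsQ (fun s : D.S₀ => thin (L.bx true s.1) (c₁ s.1) (p₁ s.1) (q₁ s.1)) κ₁ →
      ∃ m₀ : K.S → ℝ, (∀ s, 0 < m₀ s) ∧ ∀ (c₀ : K.S → ℝ) (p₀ : ∀ s, 0 < c₀ s)
        (q₀ : ∀ s, c₀ s ≤ L.c s false), (∀ s, c₀ s ≤ m₀ s) →
        ∀ κ₀, IsQ (fun s : D.S₀ => thin (L.bx false s.1) (c₀ s.1) (p₀ s.1) (q₀ s.1)) κ₀ →
          (∀ k, PassFace M E h2 (κ₁ ∘ κ₀) k) ∧
          ∀ x ∈ E.verts, (Pre (κ₁ ∘ κ₀) Λ h2 {x}).Subsingleton := by
  classical
  obtain ⟨u, hu, huv⟩ := O.exists_sgnB ht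
  have hfam : ∀ β, Fam Λ (fun s : D.S₀ => L.bx β s.1) := fun β =>
    P073.H919.Fam.comp (L.fam hΛ β) Subtype.val_injective
  have hK : ∀ β (s : D.S₀), (L.bx β s.1).K ⊆ W.ss s.1 := fun β s y hy =>
    PK_sub_ss s.1 (PLev.mem_bxK.1 hy).1
  have hS : ∀ β, SgnB Ω h2.toFun (fun s : D.S₀ => L.bx β s.1) (fun s => W.ss s.1) (u β)
      (H345.fam M E) := fun β => ⟨(hu β).cc, (hu β).lev, fun s x hx m hm hxm =>
        ((hu β).reg s x hx m hm hxm).reindex hM⟩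
  have hmem : ∀ β (s : D.S₀), ∀ m < ((L.bx β s.1)).N,
      (L.bx β s.1).a m ∈ L.lv s.1 (tg s.1 β) := by
    intro β s m hm
    rw [PLev.lv_tg]
    exact (L.lvs s.1 β).mem_L.2 ⟨m, hm, rfl⟩
  obtain ⟨m₁, hm₁, hmain⟩ := H399.exists_pass2_mesh M E h2 (hfam true) (hfam false)
    (fun s => isOpen_ss s.1)
    (fun s s' hne => disjoint_ss (W := W) fun e => hne (Subtype.ext e))
    (hK true) (hK false) (fun s => tg_ne_not s.1 true) (hS true) (hS false)
    (by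
      intro s x hx m hm m' hm' e1 e2
      exact H399.reg_swap ((huv s x hx (by rw [e2]; exact hmem false s m' hm')
        (by rw [e1]; exact hmem true s m hm)).reindex hM))
  refine ⟨fun s => if hs : s ∈ D.S₀ then m₁ ⟨s, hs⟩ else 1, fun s => ?_, ?_⟩
  · by_cases hs : s ∈ D.S₀
    · simp only [hs, dite_true]; exact hm₁ _
    · simp only [hs, dite_false]; exact one_pos
  intro c₁ p₁ q₁ hc₁ κ₁ hκ₁
  obtain ⟨m₀, hm₀, hmain'⟩ := hmain (fun s => c₁ s.1) (fun s => p₁ s.1) (fun s => q₁ s.1)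
    (fun s => by
      have := hc₁ s.1
      simp only at this
      rwa [dif_pos s.2] at this) κ₁ hκ₁
  refine ⟨fun s => if hs : s ∈ D.S₀ then m₀ ⟨s, hs⟩ else 1, fun s => ?_, ?_⟩
  · by_cases hs : s ∈ D.S₀
    · simp only [hs, dite_true]; exact hm₀ _
    · simp only [hs, dite_false]; exact one_pos
  intro c₀ p₀ q₀ hc₀ κ₀ hκ₀
  exact hmain' (fun s => c₀ s.1) (fun s => p₀ s.1) (fun s => q₀ s.1)
    (fun s => by
      have := hc₀ s.1
      simp only at this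
      rwa [dif_pos s.2] at this) κ₀ hκ₀

/-- **the thin levels and the insertion maps**; `cm` is any bound, chosen after `h2` -/
theorem ROut3.exists_ins (hΛ : IsOpen Λ) (O : ROut3 G E D h1 h2 L.lv F)
    (ht : ∀ s ∈ D.S₀, ∀ β, D.ht s β ≤ 3 / 2 * B.τ s) (hM : ∀ t, ∃ i, H345.fam M E t = F i)
    {cm : K.S → Bool → ℝ} (hcm : ∀ s β, 0 < cm s β) :
    ∃ (c : K.S → Bool → ℝ) (p : ∀ s β, 0 < c s β) (q : ∀ s β, c s β ≤ L.c s β)
      (κ : Bool → V → V), (∀ s β, c s β ≤ cm s β) ∧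
      (∀ β, IsQ (fun s : D.S₀ => (thinL L c p q).bx β s.1) (κ β)) ∧
      (∀ β, InsMap (κ β) Λ Λ) ∧ InsMap (κ true ∘ κ false) Λ Λ ∧
      (∀ A, Inv L D.S₀ A → ∀ y, (κ true ∘ κ false) y ∈ A ↔ y ∈ A) ∧
      (∀ x ∈ E.verts, (Pre (κ true ∘ κ false) Λ h2 {x}).Subsingleton) ∧
      ∀ k, PassFace M E h2 (κ true ∘ κ false) k := by
  classical
  have hfam : ∀ β, Fam Λ (fun s : D.S₀ => L.bx β s.1) := fun β =>
    P073.H919.Fam.comp (L.fam hΛ β) Subtype.val_injective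
  have hLc : ∀ s β, 0 < L.c s β := fun s β => (L.lvs s β).c0
  obtain ⟨m₁, hm₁, h3⟩ := O.passFace hΛ ht hM
  set c₁ : K.S → ℝ := fun s => min (m₁ s) (min (cm s true) (L.c s true)) with hc₁
  have p₁ : ∀ s, 0 < c₁ s := fun s => lt_min (hm₁ s) (lt_min (hcm s true) (hLc s true))
  have q₁ : ∀ s, c₁ s ≤ L.c s true := fun s => (min_le_right _ _).trans (min_le_right _ _)
  obtain ⟨κ₁, k1, k2, -⟩ := ((hfam true).thin (c := fun s : D.S₀ => c₁ s.1)
    (fun s => p₁ s.1) (fun s => q₁ s.1)).exists_isQ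
  obtain ⟨m₀, hm₀, h4⟩ := h3 c₁ p₁ q₁ (fun s => min_le_left _ _) κ₁ k1
  set c₀ : K.S → ℝ := fun s => min (m₀ s) (min (cm s false) (L.c s false)) with hc₀
  have p₀ : ∀ s, 0 < c₀ s := fun s => lt_min (hm₀ s) (lt_min (hcm s false) (hLc s false))
  have q₀ : ∀ s, c₀ s ≤ L.c s false := fun s => (min_le_right _ _).trans (min_le_right _ _)
  obtain ⟨κ₀, k3, k4, -⟩ := ((hfam false).thin (c := fun s : D.S₀ => c₀ s.1)
    (fun s => p₀ s.1) (fun s => q₀ s.1)).exists_isQ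
  obtain ⟨h5, h6⟩ := h4 c₀ p₀ q₀ (fun s => min_le_left _ _) κ₀ k3
  have hp : ∀ s β, 0 < (fun (s : K.S) (β : Bool) => bif β then c₁ s else c₀ s) s β := by
    intro s β
    cases β
    · exact p₀ s
    · exact p₁ s
  have hq : ∀ s β, (fun (s : K.S) (β : Bool) => bif β then c₁ s else c₀ s) s β ≤ L.c s β := by
    intro s β
    cases β
    · exact q₀ s
    · exact q₁ s
  have hIQ : ∀ β, IsQ (fun s : D.S₀ => (thinL L (fun s β => bif β then c₁ s else c₀ s)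
      hp hq).bx β s.1) (bif β then κ₁ else κ₀) := by
    intro β
    cases β
    · exact k3
    · exact k1
  refine ⟨fun s β => bif β then c₁ s else c₀ s, hp, hq, fun β => bif β then κ₁ else κ₀,
    fun s β => ?_, hIQ, fun β => ?_, insMap_comp k2 k4, fun A hA y => ?_, h6, h5⟩
  · cases β
    · exact (min_le_right _ _).trans (min_le_left _ _)
    · exact (min_le_right _ _).trans (min_le_left _ _)
  · cases β
    · exact k4
    · exact k2
  · exact (mem_iff_κ (hIQ true) hA _).trans (mem_iff_κ (hIQ false) hA y)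

end P073.H880.RP
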