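import Vale.Agent.P073.GB73.Iso

/-!
# P073 / H399: conical pseudo-isotopies with control of the size
-/

open Set Metric Topology Filter

namespace P073.H399

open P073 P073.GB73

variable {E F : Type*} [NormedAddCommGroup E] [NormedSpace ℝ E]
  [NormedAddCommGroup F] [NormedSpace ℝ F]

/-- `φ` is (conically, pseudo-) isotopic to the identity relative to `A`, and no point moves more
than `ε`. -/
def IsoE (S A : Set E) (ε : ℝ) (φ : ConHomeo S S) : Prop :=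
  ∃ F : ConHomeo (S ×ˢ Icc (0:ℝ) 1) (S ×ˢ Icc (0:ℝ) 1),
    (∀ x ∈ S, F.toFun (x, 1) = (φ.toFun x, 1)) ∧ (∀ x ∈ S, F.toFun (x, 0) = (x, 0)) ∧
    (∀ x ∈ A, ∀ t ∈ Icc (0:ℝ) 1, F.toFun (x, t) = (x, t)) ∧
    ∀ x ∈ S, ∀ t ∈ Icc (0:ℝ) 1, ‖(F.toFun (x, t)).1 - x‖ ≤ ε

theorem IsoE.toIso {S A : Set E} {ε : ℝ} {φ : ConHomeo S S} (h : IsoE S A ε φ) : Iso S A φ := by
  obtain ⟨F, h1, h2, h3, -⟩ := h
  exact ⟨F, h1, h2, h3⟩

theorem IsoE.refl {S : Set E} (hS : ConicalSet S) (A : Set E) {ε : ℝ} (hε : 0 ≤ ε) :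
    IsoE S A ε (ConHomeo.refl hS) :=
  ⟨ConHomeo.refl (conicalSet_prod hS conicalSet_Icc01), fun _ _ => rfl, fun _ _ => rfl,
    fun _ _ _ _ => rfl, fun x _ t _ => by
      show ‖x - x‖ ≤ ε
      rw [sub_self, norm_zero]; exact hε⟩

theorem IsoE.mono {S A A' : Set E} {ε ε' : ℝ} {φ : ConHomeo S S} (h : IsoE S A ε φ)
    (hA : A' ⊆ A) (hε : ε ≤ ε') : IsoE S A' ε' φ := by
  obtain ⟨F, h1, h2, h3, h4⟩ := h
  exact ⟨F, h1, h2, fun x hx => h3 x (hA hx), fun x hx t ht => (h4 x hx t ht).trans hε⟩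

theorem IsoE.congr {S A : Set E} {ε : ℝ} {φ ψ : ConHomeo S S} (h : IsoE S A ε φ)
    (he : ∀ x ∈ S, φ.toFun x = ψ.toFun x) : IsoE S A ε ψ := by
  obtain ⟨F, h1, h2, h3, h4⟩ := h
  exact ⟨F, fun x hx => by rw [h1 x hx, he x hx], h2, h3, h4⟩

theorem IsoE.trans {S A : Set E} {ε ε' : ℝ} {φ ψ : ConHomeo S S} (h : IsoE S A ε φ)
    (h' : IsoE S A ε' ψ) : IsoE S A (ε + ε') (φ.trans ψ) := by
  obtain ⟨F, h1, h2, h3, h4⟩ := h
  obtain ⟨F', h1', h2', h3', h4'⟩ := h'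
  refine ⟨F.trans F', ?_, ?_, ?_, ?_⟩
  · intro x hx
    simp only [ConHomeo.trans_toFun, Function.comp]
    rw [h1 x hx, h1' _ (φ.mapsTo hx)]
  · intro x hx
    simp only [ConHomeo.trans_toFun, Function.comp]
    rw [h2 x hx, h2' x hx]
  · intro x hx t ht
    simp only [ConHomeo.trans_toFun, Function.comp]
    rw [h3 x hx t ht, h3' x hx t ht]
  · intro x hx t ht
    simp only [ConHomeo.trans_toFun, Function.comp]
    have hm : F.toFun (x, t) ∈ S ×ˢ Icc (0:ℝ) 1 := F.mapsTo ⟨hx, ht⟩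
    have a1 := h4' _ hm.1 _ hm.2
    have a2 := h4 x hx t ht
    have e : (F'.toFun (F.toFun (x, t))).1 - x =
        ((F'.toFun ((F.toFun (x, t)).1, (F.toFun (x, t)).2)).1 - (F.toFun (x, t)).1) +
          ((F.toFun (x, t)).1 - x) := by
      rw [Prod.mk.eta]; abel
    rw [e]
    exact (norm_add_le _ _).trans (by linarith)

theorem IsoE.symm {S A : Set E} {ε : ℝ} {φ : ConHomeo S S} (h : IsoE S A ε φ) (hA : A ⊆ S) :
    IsoE S A ε φ.symm := by
  obtain ⟨F, h1, h2, h3, h4⟩ := h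
  refine ⟨F.symm, ?_, ?_, ?_, ?_⟩
  · intro x hx
    simp only [ConHomeo.symm_toFun]
    have hy := φ.mapsTo_inv hx
    have h4 : F.invFun (F.toFun (φ.invFun x, 1)) = (φ.invFun x, 1) :=
      F.left_inv ⟨hy, by simp⟩
    rw [h1 _ hy, φ.right_inv hx] at h4
    exact h4
  · intro x hx
    simp only [ConHomeo.symm_toFun]
    have h4 : F.invFun (F.toFun (x, 0)) = (x, 0) := F.left_inv ⟨hx, by simp⟩
    rwa [h2 _ hx] at h4
  · intro x hx t ht
    simp only [ConHomeo.symm_toFun]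
    have h4 : F.invFun (F.toFun (x, t)) = (x, t) := F.left_inv ⟨hA hx, ht⟩
    rwa [h3 _ hx t ht] at h4
  · intro x hx t ht
    simp only [ConHomeo.symm_toFun]
    have hm : F.invFun (x, t) ∈ S ×ˢ Icc (0:ℝ) 1 := F.mapsTo_inv ⟨hx, ht⟩
    have a1 := h4 _ hm.1 _ hm.2
    rw [Prod.mk.eta, F.right_inv (show (x, t) ∈ S ×ˢ Icc (0:ℝ) 1 from ⟨hx, ht⟩)] at a1
    rw [norm_sub_rev]
    exact a1

/-- if `φ ∘ η` is isotopic to the identity and `η` is, then `φ` is. -/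
theorem IsoE.of_trans {S A : Set E} {ε ε' : ℝ} {φ η : ConHomeo S S}
    (h : IsoE S A ε (η.trans φ)) (h' : IsoE S A ε' η) (hA : A ⊆ S) :
    IsoE S A (ε' + ε) φ := by
  refine ((h'.symm hA).trans h).congr ?_
  intro x hx
  show φ.toFun (η.toFun (η.invFun x)) = φ.toFun x
  rw [η.right_inv hx]

/-- if `φ` followed by `η` is isotopic to the identity and `η` is, then `φ` is. -/
theorem IsoE.of_trans' {S A : Set E} {ε ε' : ℝ} {φ η : ConHomeo S S}
    (h : IsoE S A ε (φ.trans η)) (h' : IsoE S A ε' η) (hA : A ⊆ S) :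
    IsoE S A (ε + ε') φ := by
  refine (h.trans (h'.symm hA)).congr ?_
  intro x hx
  show η.invFun (η.toFun (φ.toFun x)) = φ.toFun x
  rw [η.left_inv (φ.mapsTo hx)]

/-- conjugation -/
theorem IsoE.conj {S : Set E} {S' : Set F} {A : Set E} {ε ε' : ℝ} {φ : ConHomeo S S}
    (g : ConHomeo S S') (hA : A ⊆ S)
    (h : IsoE S' (g.toFun '' A) ε' (g.symm.trans (φ.trans g)))
    (hg : ∀ x ∈ S', ∀ y ∈ S', ‖x - y‖ ≤ ε' → ‖g.invFun x - g.invFun y‖ ≤ ε) :
    IsoE S A ε φ := by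
  obtain ⟨F, h1, h2, h3, h4⟩ := h
  let G := prodId g conicalSet_Icc01
  refine ⟨G.trans (F.trans G.symm), ?_, ?_, ?_, ?_⟩
  · intro x hx
    show G.invFun (F.toFun (g.toFun x, 1)) = _
    rw [h1 _ (g.mapsTo hx)]
    show (g.invFun (g.toFun (φ.toFun (g.invFun (g.toFun x)))), (1:ℝ)) = _
    rw [g.left_inv hx, g.left_inv (φ.mapsTo hx)]
  · intro x hx
    show G.invFun (F.toFun (g.toFun x, 0)) = _
    rw [h2 _ (g.mapsTo hx)]
    show (g.invFun (g.toFun x), (0:ℝ)) = _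
    rw [g.left_inv hx]
  · intro x hx t ht
    show G.invFun (F.toFun (g.toFun x, t)) = _
    rw [h3 _ (mem_image_of_mem _ hx) t ht]
    show (g.invFun (g.toFun x), t) = _
    rw [g.left_inv (hA hx)]
  · intro x hx t ht
    show ‖g.invFun (F.toFun (g.toFun x, t)).1 - x‖ ≤ ε
    have hm : F.toFun (g.toFun x, t) ∈ S' ×ˢ Icc (0:ℝ) 1 := F.mapsTo ⟨g.mapsTo hx, ht⟩
    have := hg _ hm.1 _ (g.mapsTo hx) (h4 _ (g.mapsTo hx) t ht)
    rwa [g.left_inv hx] at this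

/-- **Gluing** of isotopies over a finite closed cover; the overlaps are fixed. -/
theorem IsoE.glue {ι : Type*} [Finite ι] {S A : Set E} {ε : ℝ} {φ : ConHomeo S S}
    (C : ι → Set E) (hC : ∀ i, IsClosed (C i)) (hS : S = ⋃ i, C i)
    (k : ∀ i, ConHomeo (C i) (C i)) (hk : ∀ i, EqOn φ.toFun (k i).toFun (C i))
    (h : ∀ i, IsoE (C i) ((A ∩ C i) ∪ ⋃ j ∈ {j | j ≠ i}, C i ∩ C j) ε (k i)) (hA : A ⊆ S) :
    IsoE S A ε φ := by
  choose Fi f1 f2 f3 f4 using h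
  have hcl : ∀ i, IsClosed (C i ×ˢ Icc (0:ℝ) 1) := fun i => (hC i).prod isClosed_Icc
  have hid : ∀ i j, i ≠ j → ∀ x ∈ C i ∩ C j, ∀ t ∈ Icc (0:ℝ) 1, (Fi i).toFun (x, t) = (x, t) :=
    fun i j hij x hx t ht => f3 i x (Or.inr (mem_biUnion (show j ∈ {j | j ≠ i} from hij.symm) hx)) t ht
  obtain ⟨G, hG⟩ := ConHomeo.exists_glue_family (RelLF.of_finite hcl) (RelLF.of_finite hcl) Fi
    (by
      rintro i j ⟨x, t⟩ ⟨hx, hx'⟩
      by_cases hij : i = j
      · subst hij; rfl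
      · rw [hid i j hij x ⟨hx.1, hx'.1⟩ t hx.2, hid j i (Ne.symm hij) x ⟨hx'.1, hx.1⟩ t hx.2])
    (by
      rintro i j ⟨x, t⟩ ⟨hx, hx'⟩
      by_cases hij : i = j
      · subst hij
        rw [inter_self, (Fi i).image_eq]; exact hx
      · exact ⟨(x, t), ⟨hx, hx'⟩, hid i j hij x ⟨hx.1, hx'.1⟩ t hx.2⟩)
  have hU : (⋃ i, C i ×ˢ Icc (0:ℝ) 1) = S ×ˢ Icc (0:ℝ) 1 := by
    rw [hS, iUnion_prod_const]
  refine ⟨G.cast hU hU, ?_, ?_, ?_, ?_⟩
  · intro x hx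
    rw [hS] at hx
    obtain ⟨i, hi⟩ := mem_iUnion.1 hx
    have h1 : (x, (1:ℝ)) ∈ C i ×ˢ Icc (0:ℝ) 1 := ⟨hi, by simp⟩
    rw [ConHomeo.cast_toFun, (hG i).1 h1, f1 i x hi, hk i hi]
  · intro x hx
    rw [hS] at hx
    obtain ⟨i, hi⟩ := mem_iUnion.1 hx
    have h1 : (x, (0:ℝ)) ∈ C i ×ˢ Icc (0:ℝ) 1 := ⟨hi, by simp⟩
    rw [ConHomeo.cast_toFun, (hG i).1 h1, f2 i x hi]
  · intro x hx t ht
    have hxS := hA hx
    rw [hS] at hxS
    obtain ⟨i, hi⟩ := mem_iUnion.1 hxS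
    have h1 : (x, t) ∈ C i ×ˢ Icc (0:ℝ) 1 := ⟨hi, ht⟩
    rw [ConHomeo.cast_toFun, (hG i).1 h1, f3 i x (Or.inl ⟨hx, hi⟩) t ht]
  · intro x hx t ht
    rw [hS] at hx
    obtain ⟨i, hi⟩ := mem_iUnion.1 hx
    have h1 : (x, t) ∈ C i ×ˢ Icc (0:ℝ) 1 := ⟨hi, ht⟩
    rw [ConHomeo.cast_toFun, (hG i).1 h1]
    exact f4 i x hi t ht

/-- a conical disc has charts with any given interior point at the centre -/
theorem exists_center {P B : Set E} (h : ConBall 2 P B) {c : E} (hc : c ∈ P) (hcB : c ∉ B) :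
    ∃ g : ConHomeo P (closedBall (0 : Fin 2 → ℝ) 1), g.toFun '' B = sphere 0 1 ∧
      g.toFun c = 0 := by
  obtain ⟨hBP, g, hg⟩ := h
  have hc1 : g.toFun c ∈ closedBall (0 : Fin 2 → ℝ) 1 := g.mapsTo hc
  have hc2 : ‖g.toFun c‖ < 1 := by
    rcases lt_or_eq_of_le (mem_closedBall_zero_iff.1 hc1) with h1 | h1
    · exact h1
    · exfalso
      apply hcB
      have h2 : g.toFun c ∈ g.toFun '' B := by
        rw [hg]; exact mem_sphere_zero_iff_norm.2 h1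
      obtain ⟨b, hb, hbe⟩ := h2
      rw [← g.injOn (hBP hb) hc hbe]; exact hb
  have hK : IsCompact (closedBall (0 : Fin 2 → ℝ) 1) := isCompact_closedBall _ _
  have ha : closedBall (0 : Fin 2 → ℝ) 1 ∈ 𝓝 (g.toFun c) :=
    mem_of_superset (isOpen_ball.mem_nhds (mem_ball_zero_iff.2 hc2)) ball_subset_closedBall
  have hfr : frontier (closedBall (0 : Fin 2 → ℝ) 1) = sphere 0 1 :=
    frontier_closedBall _ one_ne_zero
  have hcf : ConicalSet (frontier (closedBall (0 : Fin 2 → ℝ) 1)) := by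
    rw [hfr]; exact conicalSet_sphere_pi 2
  obtain ⟨Φ, h1, h2⟩ := ConHomeo.exists_extend_convexBody hK (convex_closedBall _ _) ha hK
    (convex_closedBall _ _) (closedBall_mem_nhds (0 : Fin 2 → ℝ) one_pos)
    (ConHomeo.refl hcf)
  refine ⟨g.trans Φ, ?_, ?_⟩
  · have h3 : (g.trans Φ).toFun '' B = Φ.toFun '' (g.toFun '' B) := by
      rw [image_image]; rfl
    rw [h3, hg, ← hfr, h1.image_eq, ConHomeo.image_eq]
  · obtain ⟨x, hx⟩ : (frontier (closedBall (0 : Fin 2 → ℝ) 1)).Nonempty := by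
      rw [hfr]; exact NormedSpace.sphere_nonempty.2 zero_le_one
    have := h2 x hx 0 (by simp)
    rw [zero_smul, add_zero, zero_smul, add_zero] at this
    exact this

/-- **Alexander trick** with a marked point: a conical homeomorphism of a conical disc which is
the identity on the boundary and fixes an interior point is isotopic to the identity rel
boundary and point. -/
theorem isoE_disc_marked {P B : Set E} (h : ConBall 2 P B) {k : ConHomeo P P}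
    (hk : ∀ x ∈ B, k.toFun x = x) {c : E} (hc : c ∈ P) (hcB : c ∉ B) {ε : ℝ}
    (hε : ∀ x ∈ P, ∀ y ∈ P, ‖x - y‖ ≤ ε) :
    ∀ A ⊆ B ∪ {c}, (c ∈ A → k.toFun c = c) → IsoE P A ε k := by
  intro A hA hkc
  have hBP := h.1
  obtain ⟨g, hg, hg0⟩ := exists_center h hc hcB
  have hg1 : g.invFun 0 = c := by
    have := g.left_inv hc
    rwa [hg0] at this
  obtain ⟨F, h1, h2, h3, h0⟩ := exists_cyl (g.symm.trans (k.trans g)) (by
    intro x hx
    rw [← hg] at hx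
    obtain ⟨b, hb, rfl⟩ := hx
    show g.toFun (k.toFun (g.invFun (g.toFun b))) = g.toFun b
    rw [g.left_inv (hBP hb), hk b hb])
  let G := prodId g conicalSet_Icc01
  refine ⟨G.trans (F.trans G.symm), ?_, ?_, ?_, ?_⟩
  · intro x hx
    show G.invFun (F.toFun (g.toFun x, 1)) = _
    rw [h1 _ (g.mapsTo hx)]
    show (g.invFun (g.toFun (k.toFun (g.invFun (g.toFun x)))), (1:ℝ)) = _
    rw [g.left_inv hx, g.left_inv (k.mapsTo hx)]
  · intro x hx
    show G.invFun (F.toFun (g.toFun x, 0)) = _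
    rw [h2 _ (g.mapsTo hx)]
    show (g.invFun (g.toFun x), (0:ℝ)) = _
    rw [g.left_inv hx]
  · intro x hx t ht
    show G.invFun (F.toFun (g.toFun x, t)) = _
    rcases hA hx with hx' | hx'
    · rw [h3 _ (hg ▸ mem_image_of_mem _ hx') t ht]
      show (g.invFun (g.toFun x), t) = _
      rw [g.left_inv (hBP hx')]
    · rw [mem_singleton_iff] at hx'
      subst hx'
      rw [hg0, h0 _ t ht]
      · show (g.invFun 0, t) = _
        rw [hg1]
      · show g.toFun (k.toFun (g.invFun 0)) = 0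
        rw [hg1, hkc hx, hg0]
  · intro x hx t ht
    show ‖g.invFun (F.toFun (g.toFun x, t)).1 - x‖ ≤ ε
    have hm : F.toFun (g.toFun x, t) ∈ KK ×ˢ Icc (0:ℝ) 1 := F.mapsTo ⟨g.mapsTo hx, ht⟩
    exact hε _ (g.mapsTo_inv hm.1) _ hx

/-- the open disc is not empty -/
theorem exists_mem_open {P B : Set E} (h : ConBall 2 P B) : ∃ c ∈ P, c ∉ B := by
  obtain ⟨hBP, g, hg⟩ := h
  have h0 : (0 : Fin 2 → ℝ) ∈ closedBall (0 : Fin 2 → ℝ) 1 := by simp
  refine ⟨g.invFun 0, g.mapsTo_inv h0, fun hB => ?_⟩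
  have h1 : g.toFun (g.invFun 0) ∈ g.toFun '' B := mem_image_of_mem _ hB
  rw [hg, g.right_inv h0] at h1
  simp at h1

/-- **Alexander trick**: a conical homeomorphism of a conical disc which is the identity on the
boundary is isotopic to the identity rel boundary. -/
theorem isoE_disc {P B : Set E} (h : ConBall 2 P B) {k : ConHomeo P P}
    (hk : ∀ x ∈ B, k.toFun x = x) {ε : ℝ} (hε : ∀ x ∈ P, ∀ y ∈ P, ‖x - y‖ ≤ ε) :
    IsoE P B ε k := by
  obtain ⟨c, hc, hcB⟩ := exists_mem_open h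
  exact isoE_disc_marked h hk hc hcB hε B subset_union_left (fun h' => absurd h' hcB)

end P073.H399
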