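import Vale.Agent.P073.H240.PD
import Vale.Agent.P073.SCH.Min
import Vale.Agent.P073.H339.SpecPlanar
import Vale.Agent.P073.H399.IsoE

/-!
# P073 / H399: planar discs, rectangles
-/

open Set Metric Topology Filter

namespace P073.H399

open P073 P073.H339

/-- a conical disc in the plane is an ambient disc -/
theorem ambDisc_of_conBall {D c : Set (ℝ × ℝ)} (h : ConBall 2 D c) : H339.AmbDisc D c := by
  obtain ⟨D₀, hD₀⟩ := H339.sch c (conSphere_iff.1 h.conSphere)
  have h1 := H240.disc_unique h hD₀.sch hD₀.frontier_eq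
  rw [h1]; exact hD₀

/-- a disc whose boundary lies in a ball lies in the ball -/
theorem subset_closedBall_of {P J : Set (ℝ × ℝ)} (h : H339.AmbDisc P J) {c : ℝ × ℝ} {r : ℝ}
    (hr : 0 < r) (hJ : J ⊆ closedBall c r) : P ⊆ closedBall c r :=
  (ambDisc_closedBall c hr).jdisc.subset_of_bdry h.jdisc hJ

/-- closed rectangles -/
def rc (a b c d : ℝ) : Set (ℝ × ℝ) := Icc a b ×ˢ Icc c d

/-- the boundary of a rectangle -/
def rb (a b c d : ℝ) : Set (ℝ × ℝ) := {p | p ∈ rc a b c d ∧ (p.1 = a ∨ p.1 = b ∨ p.2 = c ∨ p.2 = d)}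

theorem mem_rc {a b c d : ℝ} {p : ℝ × ℝ} : p ∈ rc a b c d ↔ (a ≤ p.1 ∧ p.1 ≤ b) ∧ c ≤ p.2 ∧ p.2 ≤ d :=
  Iff.rfl

theorem isClosed_rc (a b c d : ℝ) : IsClosed (rc a b c d) := isClosed_Icc.prod isClosed_Icc

theorem isCompact_rc (a b c d : ℝ) : IsCompact (rc a b c d) := isCompact_Icc.prod isCompact_Icc

theorem convex_rc (a b c d : ℝ) : Convex ℝ (rc a b c d) := (convex_Icc _ _).prod (convex_Icc _ _)

theorem conicalSet_rc (a b c d : ℝ) : ConicalSet (rc a b c d) := (convex_rc a b c d).conicalSet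

theorem rb_subset (a b c d : ℝ) : rb a b c d ⊆ rc a b c d := fun _ hp => hp.1

theorem isClosed_rb (a b c d : ℝ) : IsClosed (rb a b c d) := by
  refine (isClosed_rc a b c d).inter ?_
  refine (isClosed_eq continuous_fst continuous_const).union
    ((isClosed_eq continuous_fst continuous_const).union
    ((isClosed_eq continuous_snd continuous_const).union
      (isClosed_eq continuous_snd continuous_const)))

/-- the affine map of the plane, coordinatewise `x ↦ o + h x` -/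
def rmf (o h p : ℝ × ℝ) : ℝ × ℝ := (o.1 + h.1 * p.1, o.2 + h.2 * p.2)

/-- its inverse -/
noncomputable def rmi (o h p : ℝ × ℝ) : ℝ × ℝ := ((p.1 - o.1) / h.1, (p.2 - o.2) / h.2)

theorem rmi_rmf {o h : ℝ × ℝ} (h1 : 0 < h.1) (h2 : 0 < h.2) (p : ℝ × ℝ) :
    rmi o h (rmf o h p) = p := by
  unfold rmi rmf
  refine Prod.ext ?_ ?_
  · simp only; field_simp; ring
  · simp only; field_simp; ring

theorem rmf_rmi {o h : ℝ × ℝ} (h1 : 0 < h.1) (h2 : 0 < h.2) (p : ℝ × ℝ) :
    rmf o h (rmi o h p) = p := by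
  unfold rmi rmf
  refine Prod.ext ?_ ?_
  · simp only; field_simp; ring
  · simp only; field_simp; ring

/-- the affine homeomorphism -/
noncomputable def rmH (o h : ℝ × ℝ) (h1 : 0 < h.1) (h2 : 0 < h.2) :
    ConHomeo (univ : Set (ℝ × ℝ)) (univ : Set (ℝ × ℝ)) where
  toFun := rmf o h
  invFun := rmi o h
  mapsTo := mapsTo_univ _ _
  mapsTo_inv := mapsTo_univ _ _
  left_inv := fun p _ => rmi_rmf h1 h2 p
  right_inv := fun p _ => rmf_rmi h1 h2 p
  cont := by unfold rmf; fun_prop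
  cont_inv := by
    apply Continuous.continuousOn
    unfold rmi
    have h1' := h1.ne'
    have h2' := h2.ne'
    fun_prop (disch := assumption)
  conical := by
    have hu : ConicalSet (univ : Set (ℝ × ℝ)) := IsOpen.conicalSet isOpen_univ
    have e1 : ConicalOn (fun p : ℝ × ℝ => p.1) univ := conicalOn_linear (LinearMap.fst ℝ ℝ ℝ) hu
    have e2 : ConicalOn (fun p : ℝ × ℝ => p.2) univ := conicalOn_linear (LinearMap.snd ℝ ℝ ℝ) hu
    exact ((conicalOn_const o.1 hu).add (e1.const_smul h.1)).prodMk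
      ((conicalOn_const o.2 hu).add (e2.const_smul h.2))

@[simp] theorem rmH_toFun (o h : ℝ × ℝ) (h1 : 0 < h.1) (h2 : 0 < h.2) :
    (rmH o h h1 h2).toFun = rmf o h := rfl

@[simp] theorem rmH_invFun (o h : ℝ × ℝ) (h1 : 0 < h.1) (h2 : 0 < h.2) :
    (rmH o h h1 h2).invFun = rmi o h := rfl

theorem mem_closedBall_prod {p : ℝ × ℝ} {s : ℝ} :
    p ∈ closedBall (0 : ℝ × ℝ) s ↔ (-s ≤ p.1 ∧ p.1 ≤ s) ∧ -s ≤ p.2 ∧ p.2 ≤ s := by
  rw [mem_closedBall_zero_iff, Prod.norm_def, max_le_iff, Real.norm_eq_abs, Real.norm_eq_abs,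
    abs_le, abs_le]

theorem mem_sphere_prod {p : ℝ × ℝ} {s : ℝ} :
    p ∈ sphere (0 : ℝ × ℝ) s ↔ p ∈ closedBall (0 : ℝ × ℝ) s ∧
      (p.1 = -s ∨ p.1 = s ∨ p.2 = -s ∨ p.2 = s) := by
  constructor
  · intro h
    refine ⟨sphere_subset_closedBall h, ?_⟩
    rw [mem_sphere_zero_iff_norm, Prod.norm_def] at h
    rcases max_choice ‖p.1‖ ‖p.2‖ with h3 | h3
    · rw [h3, Real.norm_eq_abs] at h
      rcases eq_or_eq_neg_of_abs_eq h with h4 | h4
      · exact Or.inr (Or.inl h4)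
      · exact Or.inl h4
    · rw [h3, Real.norm_eq_abs] at h
      rcases eq_or_eq_neg_of_abs_eq h with h4 | h4
      · exact Or.inr (Or.inr (Or.inr h4))
      · exact Or.inr (Or.inr (Or.inl h4))
  · rintro ⟨h1, h2⟩
    rw [mem_closedBall_zero_iff] at h1
    rw [mem_sphere_zero_iff_norm]
    have hs : 0 ≤ s := (norm_nonneg p).trans h1
    apply le_antisymm h1
    rw [Prod.norm_def, Real.norm_eq_abs, Real.norm_eq_abs]
    rcases h2 with h2 | h2 | h2 | h2
    · rw [h2, abs_neg, abs_of_nonneg hs]; exact le_max_left _ _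
    · rw [h2, abs_of_nonneg hs]; exact le_max_left _ _
    · rw [h2, abs_neg, abs_of_nonneg hs]; exact le_max_right _ _
    · rw [h2, abs_of_nonneg hs]; exact le_max_right _ _

theorem rmf_mem_rc {o h : ℝ × ℝ} (h1 : 0 < h.1) (h2 : 0 < h.2) {s : ℝ} {p : ℝ × ℝ} :
    rmf o h p ∈ rc (o.1 - s * h.1) (o.1 + s * h.1) (o.2 - s * h.2) (o.2 + s * h.2) ↔
      p ∈ closedBall (0 : ℝ × ℝ) s := by
  rw [mem_rc, mem_closedBall_prod]
  unfold rmf
  simp only
  constructor
  · rintro ⟨⟨a1, a2⟩, a3, a4⟩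
    refine ⟨⟨?_, ?_⟩, ?_, ?_⟩
    · nlinarith
    · nlinarith
    · nlinarith
    · nlinarith
  · rintro ⟨⟨a1, a2⟩, a3, a4⟩
    refine ⟨⟨?_, ?_⟩, ?_, ?_⟩
    · nlinarith
    · nlinarith
    · nlinarith
    · nlinarith

theorem rmf_image_closedBall {o h : ℝ × ℝ} (h1 : 0 < h.1) (h2 : 0 < h.2) (s : ℝ) :
    rmf o h '' closedBall 0 s =
      rc (o.1 - s * h.1) (o.1 + s * h.1) (o.2 - s * h.2) (o.2 + s * h.2) := by
  ext p
  constructor
  · rintro ⟨q, hq, rfl⟩; exact (rmf_mem_rc h1 h2).2 hq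
  · intro hp
    refine ⟨rmi o h p, ?_, rmf_rmi h1 h2 p⟩
    rw [← rmf_mem_rc h1 h2, rmf_rmi h1 h2]; exact hp

theorem rmf_image_sphere {o h : ℝ × ℝ} (h1 : 0 < h.1) (h2 : 0 < h.2) (s : ℝ) :
    rmf o h '' sphere 0 s =
      rb (o.1 - s * h.1) (o.1 + s * h.1) (o.2 - s * h.2) (o.2 + s * h.2) := by
  have key : ∀ q : ℝ × ℝ, (rmf o h q).1 = o.1 - s * h.1 ↔ q.1 = -s := by
    intro q
    unfold rmf
    constructor
    · intro hq
      have : h.1 * q.1 = h.1 * (-s) := by simp only at hq; linarith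
      exact mul_left_cancel₀ h1.ne' this
    · intro hq; simp only; rw [hq]; ring
  have key2 : ∀ q : ℝ × ℝ, (rmf o h q).1 = o.1 + s * h.1 ↔ q.1 = s := by
    intro q
    unfold rmf
    constructor
    · intro hq
      have : h.1 * q.1 = h.1 * s := by simp only at hq; linarith
      exact mul_left_cancel₀ h1.ne' this
    · intro hq; simp only; rw [hq]; ring
  have key3 : ∀ q : ℝ × ℝ, (rmf o h q).2 = o.2 - s * h.2 ↔ q.2 = -s := by
    intro q
    unfold rmf
    constructor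
    · intro hq
      have : h.2 * q.2 = h.2 * (-s) := by simp only at hq; linarith
      exact mul_left_cancel₀ h2.ne' this
    · intro hq; simp only; rw [hq]; ring
  have key4 : ∀ q : ℝ × ℝ, (rmf o h q).2 = o.2 + s * h.2 ↔ q.2 = s := by
    intro q
    unfold rmf
    constructor
    · intro hq
      have : h.2 * q.2 = h.2 * s := by simp only at hq; linarith
      exact mul_left_cancel₀ h2.ne' this
    · intro hq; simp only; rw [hq]; ring
  ext p
  constructor
  · rintro ⟨q, hq, rfl⟩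
    rw [mem_sphere_prod] at hq
    refine ⟨(rmf_mem_rc h1 h2).2 hq.1, ?_⟩
    rw [key, key2, key3, key4]; exact hq.2
  · intro hp
    refine ⟨rmi o h p, ?_, rmf_rmi h1 h2 p⟩
    have hp' : rmf o h (rmi o h p) ∈
      rb (o.1 - s * h.1) (o.1 + s * h.1) (o.2 - s * h.2) (o.2 + s * h.2) := by
      rw [rmf_rmi h1 h2]; exact hp
    rw [mem_sphere_prod]
    refine ⟨(rmf_mem_rc h1 h2).1 hp'.1, ?_⟩
    rw [← key, ← key2, ← key3, ← key4]; exact hp'.2

/-- centre and half sizes of a rectangle -/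
theorem rc_eq_image {a b c d : ℝ} (hab : a < b) (hcd : c < d) :
    ∃ o h : ℝ × ℝ, 0 < h.1 ∧ 0 < h.2 ∧ rmf o h '' closedBall 0 1 = rc a b c d ∧
      rmf o h '' sphere 0 1 = rb a b c d := by
  have h1 : 0 < (b - a) / 2 := by linarith
  have h2 : 0 < (d - c) / 2 := by linarith
  refine ⟨((a + b) / 2, (c + d) / 2), ((b - a) / 2, (d - c) / 2), h1, h2, ?_, ?_⟩
  · rw [rmf_image_closedBall h1 h2]
    simp only
    congr 1 <;> ring
  · rw [rmf_image_sphere h1 h2]
    simp only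
    congr 1 <;> ring

theorem ambDisc_rc {a b c d : ℝ} (hab : a < b) (hcd : c < d) :
    H339.AmbDisc (rc a b c d) (rb a b c d) := by
  obtain ⟨o, h, h1, h2, e1, e2⟩ := rc_eq_image hab hcd
  rw [← e1, ← e2]
  exact ambDisc_std.image (rmH o h h1 h2)

theorem conBall_rc {a b c d : ℝ} (hab : a < b) (hcd : c < d) :
    ConBall 2 (rc a b c d) (rb a b c d) := (ambDisc_rc hab hcd).conBall

theorem frontier_rc {a b c d : ℝ} (hab : a < b) (hcd : c < d) :
    frontier (rc a b c d) = rb a b c d := (ambDisc_rc hab hcd).frontier_eq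

theorem interior_rc (a b c d : ℝ) : interior (rc a b c d) = Ioo a b ×ˢ Ioo c d := by
  unfold rc
  rw [interior_prod_eq, interior_Icc, interior_Icc]

/-- a conical homeomorphism of a planar disc onto a subset of the plane which is the identity on
the boundary maps the disc onto itself -/
theorem image_disc_eq {P B X Y : Set (ℝ × ℝ)} (h : ConBall 2 P B) (φ : ConHomeo X Y) (hPX : P ⊆ X)
    (hφ : ∀ x ∈ B, φ.toFun x = x) : φ.toFun '' P = P := by
  have h1 := ambDisc_of_conBall (h.image φ hPX)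
  have h2 : φ.toFun '' B = B := by
    rw [image_congr hφ, image_id']
  rw [h2] at h1
  exact h1.unique (ambDisc_of_conBall h)

end P073.H399
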