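import Vale.Agent.P073.H399.PassG
import Vale.Agent.P073.H155.Stage2G

/-!
# P073, H399: **[RT-GIV]**, the interface of the inserted map on the given cells

`GVch`: the input (605: one macroscopic product structure `Γ g m` for every level of every box, on a
compact set `C g` which contains the part of the given cells in the window `R g`).
`GVout`: the output of `exists_gv` (H399/GivM.lean): explicit maps on all given cells.
-/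

open Set Metric Topology Filter

namespace P073.H399

open P073 P073.TR P073.H936 P073.H345 P073.H236 P073.H579
open Vale.Agent.P073.H73 (Mesh)
open Vale.Agent.P073.H193 (Edges)

variable {γ : Type*} {Ω Λ : Set (Fin 3 → ℝ)}

/-- the given cells, the faces, the edges, the vertices -/
def famG (M : Mesh Ω) (E : Edges M) (Gv : Set M.ι) :
    Gv ⊕ (M.κ ⊕ (E.ε ⊕ E.verts)) → Set (Fin 3 → ℝ) :=
  Sum.elim (fun j => M.Q j.1) (fam M E)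

/-- the coordinate of the old map which is cut by the box `g` -/
def uG (h : ConHomeo Ω Λ) (B : γ → BX 3) (g : γ) (x : Fin 3 → ℝ) : ℝ := h.toFun x (B g).j

/-- **the macroscopic charts of the given cells** (input). `h`: the old map, `h'`: the new map -/
structure GVch (M : Mesh Ω) (E : Edges M) (h h' : ConHomeo Ω Λ) (B : γ → BX 3) (Gv : Set M.ι)
    (W R : γ → Set (Fin 3 → ℝ)) (C : γ → Set (Fin 3 → ℝ)) (w : γ → ℝ)
    (Γ : ∀ (g : γ) (m : Fin (B g).N), ConHomeo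
      (lev (C g) (uG h B g) ((B g).a m) ×ˢ Icc (-1:ℝ) 1)
      (band (C g) (uG h B g) ((B g).a m) (w g))) : Prop where
  Wo : ∀ g, IsOpen (W g)
  Ro : ∀ g, IsOpen (R g)
  /-- two boxes may touch in their end planes -/
  KW : ∀ g, ∀ y ∈ (B g).K, (B g).al < y (B g).j → y (B g).j < (B g).be → y ∈ W g
  WR : ∀ g, W g ⊆ R g
  dis : ∀ g g', g ≠ g' → Disjoint (R g) (R g')
  /-- level components are only deleted -/
  keep : ∀ j ∈ Gv, ∀ g, ∀ x ∈ M.Q j, h'.toFun x ∈ R g → ∀ m < (B g).N,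
    h'.toFun x (B g).j = (B g).a m → ∀ᶠ y in 𝓝 x, h'.toFun y = h.toFun y
  w0 : ∀ g, 0 < w g
  sep : ∀ g, ∀ m < (B g).N, ∀ m' < (B g).N, m < m' → 2 * w g < (B g).a m' - (B g).a m
  Ccpt : ∀ g, IsCompact (C g)
  Ccon : ∀ g, ConicalSet (C g)
  Ccov : ∀ j ∈ Gv, ∀ g, ∀ x ∈ M.Q j, h'.toFun x ∈ R g → x ∈ C g
  level : ∀ g (m : Fin (B g).N), ∀ z ∈ lev (C g) (uG h B g) ((B g).a m), ∀ s ∈ Icc (-1:ℝ) 1,
    h.toFun ((Γ g m).toFun (z, s)) (B g).j = (B g).a m + w g * s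
  zero : ∀ g (m : Fin (B g).N), ∀ z ∈ lev (C g) (uG h B g) ((B g).a m), (Γ g m).toFun (z, 0) = z
  inv : ∀ g (m : Fin (B g).N) t, ∀ z ∈ lev (C g) (uG h B g) ((B g).a m), ∀ s ∈ Icc (-1:ℝ) 1,
    ((Γ g m).toFun (z, s) ∈ famG M E Gv t ↔ z ∈ famG M E Gv t)
  win : ∀ j ∈ Gv, ∀ g (m : Fin (B g).N), ∀ z ∈ lev (C g) (uG h B g) ((B g).a m), z ∈ M.Q j →
    h'.toFun z ∈ W g → ∀ s ∈ Icc (-1:ℝ) 1, h'.toFun ((Γ g m).toFun (z, s)) ∈ R g

/-- **the inserted map on the given cells** (output). `c g`: half the thickness of the thin boxes,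
`φ j`: the collapse of the cell `j` -/
structure GVout (M : Mesh Ω) (E : Edges M) (h h' : ConHomeo Ω Λ) (B : γ → BX 3) (Gv : Set M.ι)
    (W : γ → Set (Fin 3 → ℝ)) (C : γ → Set (Fin 3 → ℝ)) (w : γ → ℝ)
    (Γ : ∀ (g : γ) (m : Fin (B g).N), ConHomeo
      (lev (C g) (uG h B g) ((B g).a m) ×ˢ Icc (-1:ℝ) 1)
      (band (C g) (uG h B g) ((B g).a m) (w g)))
    (c : γ → ℝ) (h0 : ∀ g, 0 < c g) (h1 : ∀ g, c g ≤ (B g).c) (κ : (Fin 3 → ℝ) → Fin 3 → ℝ)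
    (Ψ : ∀ j ∈ Gv, ConHomeo (M.Q j) (Pre κ Λ h' (M.Q j)))
    (φ : M.ι → (Fin 3 → ℝ) → Fin 3 → ℝ) : Prop where
  /-- the formulas on the charts -/
  form : ∀ j (hj : j ∈ Gv) g (m : Fin (B g).N), ∀ z ∈ M.Q j, h'.toFun z (B g).j = (B g).a m →
    h'.toFun z ∈ W g → ∀ s ∈ Icc (-1:ℝ) 1,
    φ j ((Γ g m).toFun (z, s)) = cm h'.toFun (1 / (2 * c g)) (mu (thin (B g) (c g) (h0 g) (h1 g)))
      (Γ g m).toFun (z, s) ∧
    (Ψ j hj).toFun ((Γ g m).toFun (z, s)) = ym h'.toFun (B g).j ((B g).a m) (2 * c g)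
      (1 / (2 * c g)) (mu (thin (B g) (c g) (h0 g) (h1 g))) (Γ g m).toFun (z, s)
  /-- off the charts -/
  off : ∀ j (hj : j ∈ Gv), ∀ x ∈ M.Q j, (∀ g (m : Fin (B g).N), ∀ z ∈ M.Q j,
    h'.toFun z (B g).j = (B g).a m → h'.toFun z ∈ W g → ∀ s ∈ Icc (-1:ℝ) 1,
      (Γ g m).toFun (z, s) ≠ x) → (Ψ j hj).toFun x = h'.toFun x ∧ φ j x = x
  /-- the closed form: a closed set where nothing changes, and compact pieces of levels -/
  closed : ∀ j (hj : j ∈ Gv), ∃ (A : Set (Fin 3 → ℝ))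
    (L : (Σ g, Fin (B g).N) → Set (Fin 3 → ℝ)), IsClosed A ∧ A ⊆ M.Q j ∧
    (∀ p, IsCompact (L p)) ∧ {p | (L p).Nonempty}.Finite ∧
    (∀ p, ∀ z ∈ L p, z ∈ M.Q j ∧ z ∈ C p.1 ∧ uG h B p.1 z = (B p.1).a p.2 ∧
      h'.toFun z (B p.1).j = (B p.1).a p.2 ∧ h'.toFun z ∈ W p.1) ∧
    (M.Q j ⊆ A ∪ ⋃ p, (Γ p.1 p.2).toFun '' (L p ×ˢ Icc (-1:ℝ) 1)) ∧
    ∀ x ∈ A, (Ψ j hj).toFun x = h'.toFun x ∧ φ j x = x
  maps : ∀ j ∈ Gv, MapsTo (φ j) (M.Q j) (M.Q j)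
  cc : ∀ j ∈ Gv, CC (φ j) (M.Q j)
  eq : ∀ j (hj : j ∈ Gv), ∀ x ∈ M.Q j, κ ((Ψ j hj).toFun x) = h'.toFun (φ j x)
  iff : ∀ j ∈ Gv, ∀ t, ∀ x ∈ M.Q j, (φ j x ∈ famG M E Gv t ↔ x ∈ famG M E Gv t)
  img : ∀ j (hj : j ∈ Gv) t, (Ψ j hj).toFun '' (famG M E Gv t ∩ M.Q j) =
    Pre κ Λ h' (famG M E Gv t ∩ M.Q j)

end P073.H399
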