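import Vale.Agent.P073.H399.Caps

/-!
# P073 / H399: small GB4, the controlled isotopy theorem on the two-sphere
-/

open Set Metric Topology Filter

namespace P073.H399

open P073 P073.H339 GB73
open Vale.Agent.P073.St (V)

theorem rmf_zero (c : ℝ × ℝ) (r : ℝ) : rmf c (r, r) 0 = c := by
  unfold rmf; simp

theorem rmf_image_ball_c {c : ℝ × ℝ} {r : ℝ} (hr : 0 < r) (s : ℝ) :
    rmf c (r, r) '' closedBall 0 s = closedBall c (r * s) := by
  have key : ∀ p, ‖rmf c (r, r) p - c‖ = r * ‖p‖ := by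
    intro p
    have := rmf_sub c p 0 r
    rw [rmf_zero, sub_zero] at this
    rw [this, norm_smul, Real.norm_of_nonneg hr.le]
  ext z
  constructor
  · rintro ⟨p, hp, rfl⟩
    rw [mem_closedBall, dist_eq_norm, key]
    exact mul_le_mul_of_nonneg_left (mem_closedBall_zero_iff.1 hp) hr.le
  · intro hz
    refine ⟨rmi c (r, r) z, ?_, rmf_rmi (h := (r, r)) hr hr z⟩
    rw [mem_closedBall, dist_eq_norm] at hz
    rw [mem_closedBall_zero_iff]
    have h1 := key (rmi c (r, r) z)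
    rw [rmf_rmi (h := (r, r)) hr hr] at h1
    rw [h1] at hz
    exact le_of_mul_le_mul_left hz hr

theorem rmf_image_sphere_c {c : ℝ × ℝ} {r : ℝ} (hr : 0 < r) (s : ℝ) :
    rmf c (r, r) '' sphere 0 s = sphere c (r * s) := by
  have key : ∀ p, ‖rmf c (r, r) p - c‖ = r * ‖p‖ := by
    intro p
    have := rmf_sub c p 0 r
    rw [rmf_zero, sub_zero] at this
    rw [this, norm_smul, Real.norm_of_nonneg hr.le]
  ext z
  constructor
  · rintro ⟨p, hp, rfl⟩
    rw [mem_sphere, dist_eq_norm, key, mem_sphere_zero_iff_norm.1 hp]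
  · intro hz
    refine ⟨rmi c (r, r) z, ?_, rmf_rmi (h := (r, r)) hr hr z⟩
    rw [mem_sphere, dist_eq_norm] at hz
    rw [mem_sphere_zero_iff_norm]
    have h1 := key (rmi c (r, r) z)
    rw [rmf_rmi (h := (r, r)) hr hr] at h1
    rw [h1] at hz
    exact mul_left_cancel₀ hr.ne' hz

/-- local straightening near a cap -/
theorem exists_K0 {X : Set V} (hXS : X ⊆ S2) {ε : ℝ} {κ : ConHomeo upperHemi (closedBall (0 : ℝ × ℝ) 1)}
    {c : ℝ × ℝ} {r₀ : ℝ} (h : Cap X ε κ c r₀) (hε : 0 ≤ ε) {η : ℝ} (hη : 0 < η) :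
    ∃ ρ > 0, ∀ φ : ConHomeo S2 S2, (∀ x ∈ S2, ‖φ.toFun x - x‖ ≤ ρ) →
      ∃ K : ConHomeo S2 S2, (∀ x ∈ κ.invFun '' closedBall c (r₀ / 2), K.toFun x = φ.toFun x) ∧
        (∀ x ∈ S2 \ κ.invFun '' closedBall c r₀, K.toFun x = x) ∧ (∀ x ∈ X, K.toFun x = x) ∧
        (∀ x ∈ S2, ‖K.toFun x - x‖ ≤ η) ∧ IsoE S2 X ε K := by
  have hr₀ := h.pos
  obtain ⟨r, hrdef⟩ : ∃ r, r = r₀ / 2 := ⟨_, rfl⟩
  have hr : 0 < r := by rw [hrdef]; linarith
  have hrr : r ≤ r₀ := by rw [hrdef]; linarith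
  rw [← hrdef]
  obtain ⟨δ', hδ', hpos⟩ := h.pos2
  obtain ⟨δ, hδ, Hδ⟩ := exists_unif (isCompact_closedBall (0 : ℝ × ℝ) 1) κ.cont_inv hη
  obtain ⟨w₁, hw₁, H⟩ := t1small (η := δ / r) (by positivity)
  obtain ⟨w, hwdef⟩ : ∃ w, w = min w₁ 1 := ⟨_, rfl⟩
  have hw : 0 < w := by rw [hwdef]; exact lt_min hw₁ one_pos
  have hww : w ≤ w₁ := hwdef ▸ min_le_left _ _
  have hw1 : w ≤ 1 := hwdef ▸ min_le_right _ _
  obtain ⟨ρ₁, hρ₁, H'⟩ := H w hw hww
  have hUc : IsCompact upperHemi := κ.symm.isCompact_right (isCompact_closedBall _ _)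
  obtain ⟨ρ₂, hρ₂, Hρ⟩ := exists_unif hUc κ.cont (η := r * ρ₁) (by positivity)
  refine ⟨min ρ₂ δ', lt_min hρ₂ hδ', fun φ hφ => ?_⟩
  obtain ⟨r', hr'def⟩ : ∃ r', r' = r * (1 + w) := ⟨_, rfl⟩
  have hr' : 0 < r' := by rw [hr'def]; positivity
  have hr'r : r' ≤ r₀ := by rw [hr'def, hrdef]; nlinarith
  have hrr' : r ≤ r' := by rw [hr'def]; nlinarith
  have up : ∀ x ∈ κ.invFun '' closedBall c r, φ.toFun x ∈ upperHemi := by
    rintro _ ⟨z, hz, rfl⟩
    have hz' := closedBall_subset_closedBall hrr hz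
    have hx := (h.sub_upper hz').1
    refine ⟨φ.mapsTo hx, ?_⟩
    have h1 := (norm_le_pi_norm (φ.toFun (κ.invFun z) - κ.invFun z) 2).trans
      ((hφ _ hx).trans (min_le_right _ _))
    have h2 := hpos z hz'
    rw [Pi.sub_apply, Real.norm_eq_abs, abs_le] at h1
    show 0 ≤ (φ.toFun (κ.invFun z)) 2
    linarith [h1.1]
  -- the map in the chart
  have e1 : rmf c (r, r) '' closedBall 0 1 = closedBall c r := by rw [rmf_image_ball_c hr, mul_one]
  have e2 : rmf c (r, r) '' closedBall 0 (1 + w) = closedBall c r' := by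
    rw [rmf_image_ball_c hr, hr'def]
  have e3 : rmf c (r, r) '' sphere 0 (1 + w) = sphere c r' := by
    rw [rmf_image_sphere_c hr, hr'def]
  let A := rmH c (r, r) hr hr
  let A1 : ConHomeo (closedBall (0 : ℝ × ℝ) 1) (closedBall c r) :=
    (A.restr (conicalSet_closedBall_prod 1) (subset_univ _)).cast rfl e1
  let κ1 := κ.symm.restr (X' := closedBall c r) (convex_closedBall c r).conicalSet (h.le1 hrr)
  have hsub1 : κ.invFun '' closedBall c r ⊆ S2 := by
    rintro _ ⟨z, hz, rfl⟩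
    exact (h.sub_upper (closedBall_subset_closedBall hrr hz)).1
  let φ1 := φ.restr κ1.conicalSet_right hsub1
  have hsub2 : φ.toFun '' (κ.invFun '' closedBall c r) ⊆ upperHemi := by
    rintro _ ⟨x, hx, rfl⟩; exact up x hx
  let κ2 := κ.restr φ1.conicalSet_right hsub2
  let A2 := A.symm.restr κ2.conicalSet_right (subset_univ _)
  let ψ := A1.trans (κ1.trans (φ1.trans (κ2.trans A2)))
  have hψ : ∀ x, ψ.toFun x = rmi c (r, r) (κ.toFun (φ.toFun (κ.invFun (rmf c (r, r) x)))) :=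
    fun x => rfl
  obtain ⟨K, k1, k2, k3⟩ := H' _ ψ (by
    intro p hp
    have hz : rmf c (r, r) p ∈ closedBall c r := by rw [← e1]; exact mem_image_of_mem _ hp
    have hz1 := h.le1 hrr hz
    have hx := κ.mapsTo_inv hz1
    have h1 := Hρ _ (up _ ⟨_, hz, rfl⟩) _ hx ((hφ _ hx.1).trans (min_le_left _ _))
    rw [κ.right_inv hz1] at h1
    have h2 : κ.toFun (φ.toFun (κ.invFun (rmf c (r, r) p))) - rmf c (r, r) p =
        r • (ψ.toFun p - p) := by
      rw [← rmf_sub c, hψ, rmf_rmi (h := (r, r)) hr hr]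
    rw [h2, norm_smul, Real.norm_of_nonneg hr.le] at h1
    exact le_of_mul_le_mul_left h1 hr)
  let A3 : ConHomeo (closedBall (0 : ℝ × ℝ) (1 + w)) (closedBall c r') :=
    (A.restr (conicalSet_closedBall_prod (1 + w)) (subset_univ _)).cast rfl e2
  let κ3 := κ.symm.restr (X' := closedBall c r') (convex_closedBall c r').conicalSet (h.le1 hr'r)
  let k := (A3.trans κ3).symm.trans (K.trans (A3.trans κ3))
  have hkv : ∀ x, k.toFun x =
      κ.invFun (rmf c (r, r) (K.toFun (rmi c (r, r) (κ.toFun x)))) := fun x => rfl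
  have hk : ∀ p ∈ closedBall (0 : ℝ × ℝ) (1 + w), k.toFun (κ.invFun (rmf c (r, r) p)) =
      κ.invFun (rmf c (r, r) (K.toFun p)) := by
    intro p hp
    have hz : rmf c (r, r) p ∈ closedBall c r' := by rw [← e2]; exact mem_image_of_mem _ hp
    rw [hkv, κ.right_inv (h.le1 hr'r hz), rmi_rmf (h := (r, r)) hr hr]
  have hkB : ∀ x ∈ κ.invFun '' sphere c r', k.toFun x = x := by
    rintro _ ⟨z, hz, rfl⟩
    rw [← e3] at hz
    obtain ⟨p, hp, rfl⟩ := hz
    rw [hk p (sphere_subset_closedBall hp), k2 p hp]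
  have hT := h.tiles hr' hr'r
  obtain ⟨G, g1, g2⟩ := hT.exists_glue (fun _ => k) (fun _ => hkB)
  have g1' : ∀ x ∈ κ.invFun '' closedBall c r', G.toFun x = k.toFun x := fun x hx => g1 () hx
  have hXR : X ⊆ S2 \ κ.invFun '' ball c r' := by
    intro x hx
    refine ⟨hXS hx, ?_⟩
    rintro ⟨z, hz, rfl⟩
    exact h.av z (closedBall_subset_closedBall hr'r (ball_subset_closedBall hz)) hx
  have hXC : ∀ x ∈ X, x ∉ κ.invFun '' closedBall c r' := by
    rintro _ hx ⟨z, hz, rfl⟩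
    exact h.av z (closedBall_subset_closedBall hr'r hz) hx
  refine ⟨G, ?_, ?_, ?_, ?_, ?_⟩
  · rintro _ ⟨z, hz, rfl⟩
    rw [← e1] at hz
    obtain ⟨p, hp, rfl⟩ := hz
    have hp' : p ∈ closedBall (0 : ℝ × ℝ) (1 + w) :=
      closedBall_subset_closedBall (by linarith) hp
    have hz' : rmf c (r, r) p ∈ closedBall c r' := by rw [← e2]; exact mem_image_of_mem _ hp'
    rw [g1' _ ⟨_, hz', rfl⟩, hk p hp', k1 hp, hψ, rmf_rmi (h := (r, r)) hr hr]
    apply κ.left_inv
    apply up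
    exact ⟨_, by rw [← e1]; exact mem_image_of_mem _ hp, rfl⟩
  · intro x hx
    apply g2
    refine ⟨hx.1, fun h' => hx.2 ?_⟩
    exact image_mono (ball_subset_closedBall.trans (closedBall_subset_closedBall hr'r)) h'
  · intro x hx
    exact g2 x (hXR hx)
  · intro x hx
    rw [h.cov hr'r] at hx
    rcases hx with hx | ⟨z, hz, rfl⟩
    · rw [g2 x hx, sub_self, norm_zero]; exact hη.le
    · rw [g1' _ ⟨z, hz, rfl⟩]
      rw [← e2] at hz
      obtain ⟨p, hp, rfl⟩ := hz
      rw [hk p hp]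
      have hq := K.mapsTo hp
      have hz1 : rmf c (r, r) p ∈ closedBall c r' := by rw [← e2]; exact mem_image_of_mem _ hp
      have hz2 : rmf c (r, r) (K.toFun p) ∈ closedBall c r' := by
        rw [← e2]; exact mem_image_of_mem _ hq
      apply Hδ _ (h.le1 hr'r hz2) _ (h.le1 hr'r hz1)
      rw [rmf_sub, norm_smul, Real.norm_of_nonneg hr.le]
      have h1 := k3 p hp
      rw [le_div_iff₀ hr] at h1
      linarith
  · refine hT.isoE hε ?_ hXS ?_ g2 ?_ ?_ ?_
    · rintro _ _ ⟨z, hz, rfl⟩ _ ⟨z', hz', rfl⟩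
      exact h.di z (closedBall_subset_closedBall hr'r hz) z' (closedBall_subset_closedBall hr'r hz')
    · intro _ x hx y _ hxC
      exact absurd hxC (hXC x hx)
    · intro _ x hx
      rw [g1' x (image_mono sphere_subset_closedBall hx)]
      exact hkB x hx
    · intro _
      have : EqOn G.toFun k.toFun (κ.invFun '' closedBall c r') := g1 ()
      rw [this.image_eq]
      exact k.image_eq
    · intro x hx
      exact g2 x (hXR hx)

/-- **Small GB4**: conical homeomorphisms of the sphere which fix a finite set and are close to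
the identity are isotopic to the identity by a small isotopy, relative to the finite set. -/
theorem small_gb4 (X : Set V) (hX : X.Finite) (hXS : X ⊆ S2) (ε : ℝ) (hε : 0 < ε) :
    ∃ ρ > 0, ∀ φ : ConHomeo S2 S2, (∀ x ∈ X, φ.toFun x = x) →
      (∀ x ∈ S2, ‖φ.toFun x - x‖ ≤ ρ) → IsoE S2 X ε φ := by
  obtain ⟨κ, c, r₀, h⟩ := exists_cap hX (ε := ε / 2) (by linarith)
  have hr₀ := h.pos
  obtain ⟨r, hrdef⟩ : ∃ r, r = r₀ / 2 := ⟨_, rfl⟩
  have hr : 0 < r := by rw [hrdef]; linarith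
  have hrr : r ≤ r₀ := by rw [hrdef]; linarith
  have hT := h.tiles hr hrr
  have hE := h.codisc hr hrr
  have hD := h.disc hr hrr
  have hXE : X ⊆ S2 \ κ.invFun '' ball c r := by
    intro x hx
    refine ⟨hXS hx, ?_⟩
    rintro ⟨z, hz, rfl⟩
    exact h.av z (closedBall_subset_closedBall hrr (ball_subset_closedBall hz)) hx
  obtain ⟨ρ₁, hρ₁, H₁⟩ := small_disc hE hX hXE (ε := ε / 2) (by linarith)
  obtain ⟨ρ₂, hρ₂, H₂⟩ := exists_K0 hXS h (by linarith) (η := ρ₁ / 2) (by linarith)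
  refine ⟨min ρ₂ (ρ₁ / 2), lt_min hρ₂ (by linarith), fun φ hφX hφ => ?_⟩
  obtain ⟨K, k1, -, k3, k4, k5⟩ := H₂ φ fun x hx => (hφ x hx).trans (min_le_left _ _)
  rw [← hrdef] at k1
  -- the new map
  obtain ⟨χ, hχ⟩ : ∃ χ : ConHomeo S2 S2, χ = φ.trans K.symm := ⟨_, rfl⟩
  have hχv : ∀ x, χ.toFun x = K.invFun (φ.toFun x) := fun x => by rw [hχ]; rfl
  have hDS : κ.invFun '' closedBall c r ⊆ S2 := by
    rw [h.cov hrr]; exact subset_union_right
  have hES : S2 \ κ.invFun '' ball c r ⊆ S2 := sdiff_subset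
  have hχD : ∀ x ∈ κ.invFun '' closedBall c r, χ.toFun x = x := by
    intro x hx
    rw [hχv, ← k1 x hx, K.left_inv (hDS hx)]
  have hχX : ∀ x ∈ X, χ.toFun x = x := by
    intro x hx
    rw [hχv, hφX x hx]
    have := K.left_inv (hXS hx)
    rwa [k3 x hx] at this
  have hχc : ∀ x ∈ S2, ‖χ.toFun x - x‖ ≤ ρ₁ := by
    intro x hx
    have h1 := (hφ x hx).trans (min_le_right _ _)
    have hz := φ.mapsTo hx
    have h2 := k4 _ (K.mapsTo_inv hz)
    rw [K.right_inv hz, norm_sub_rev] at h2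
    have e : χ.toFun x - x = (K.invFun (φ.toFun x) - φ.toFun x) + (φ.toFun x - x) := by
      rw [hχv]; abel
    rw [e]
    exact (norm_add_le _ _).trans (by linarith)
  have hχE : χ.toFun '' (S2 \ κ.invFun '' ball c r) = S2 \ κ.invFun '' ball c r := by
    have hbS : κ.invFun '' ball c r ⊆ S2 := (image_mono ball_subset_closedBall).trans hDS
    have hb : χ.toFun '' (κ.invFun '' ball c r) = κ.invFun '' ball c r := by
      rw [image_congr fun x hx => hχD x (image_mono ball_subset_closedBall hx), image_id']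
    apply Subset.antisymm
    · rintro _ ⟨x, ⟨hx, hx'⟩, rfl⟩
      refine ⟨χ.mapsTo hx, fun hmem => hx' ?_⟩
      have h1 := hχD _ (image_mono ball_subset_closedBall hmem)
      have h2 := χ.injOn (χ.mapsTo hx) hx h1
      rw [h2] at hmem; exact hmem
    · rintro y ⟨hy, hy'⟩
      refine ⟨χ.invFun y, ⟨χ.mapsTo_inv hy, fun hmem => hy' ?_⟩, χ.right_inv hy⟩
      have h1 := hχD _ (image_mono ball_subset_closedBall hmem)
      rw [χ.right_inv hy] at h1
      rw [← h1] at hmem; exact hmem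
  -- glue
  have hI : IsoE S2 X (ε / 2) χ := by
    let kE : ConHomeo (S2 \ κ.invFun '' ball c r) (S2 \ κ.invFun '' ball c r) :=
      (χ.restr hE.conicalSet hES).cast rfl hχE
    have hkE : IsoE (S2 \ κ.invFun '' ball c r) (κ.invFun '' sphere c r ∪ X) (ε / 2) kE := by
      refine H₁ kE ?_ ?_ ?_
      · intro x hx
        exact hχD x (image_mono sphere_subset_closedBall hx)
      · intro x hx; exact hχX x hx
      · intro x hx; exact hχc x (hES hx)
    refine IsoE.glue (fun b : Bool => cond b (κ.invFun '' closedBall c r)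
      (S2 \ κ.invFun '' ball c r)) ?_ ?_ (fun b => match b with
        | true => ConHomeo.refl hD.conicalSet
        | false => kE) ?_ ?_ hXS
    · intro b
      cases b
      · exact hE.isClosed
      · exact hD.isClosed
    · rw [← union_eq_iUnion, union_comm]; exact h.cov hrr
    · intro b
      cases b
      · intro x _; rfl
      · intro x hx; exact hχD x hx
    · intro b
      cases b
      · refine hkE.mono ?_ (le_refl _)
        rintro x (hx | hx)
        · exact Or.inr hx.1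
        · left
          obtain ⟨j, hj, hx⟩ := mem_iUnion₂.1 hx
          cases j
          · exact absurd rfl hj
          · rw [← h.inter hrr]; exact ⟨hx.2, hx.1⟩
      · exact IsoE.refl _ _ (by linarith)
  have h3 : IsoE S2 X (ε / 2 + ε / 2) φ := by
    refine IsoE.of_trans' (η := K.symm) ?_ (k5.symm hXS) hXS
    rw [← hχ]; exact hI
  exact h3.mono subset_rfl (by linarith)

end P073.H399
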