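import Vale.Agent.P073.H16.UnifE
import Vale.Agent.P073.H407.CellE
import Vale.Agent.P073.H399.SGB4

/-!
# P073 / H399: the closed form of the collar input (GAP-CLOSE)
-/

open Set Metric Topology Filter

namespace P073.H399

/-- helper16's interface -/
theorem smallGB4 : P073.H16.SmallGB4 := fun X hX hXS ε hε => small_gb4 X hX hXS ε hε

/-- helper407's collar input -/
theorem specUE : P073.Cell.SpecUE := P073.H16.specUE smallGB4

/-- helper333's cell input -/
theorem specCellE : Vale.Agent.P073.H333.SpecCellE := P073.Cell.specCellE_of specUE

end P073.H399
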