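import Vale.Agent.P073.H399.GivL
import Vale.Agent.P073.H669.GamG
import Vale.Agent.P073.H196.LipDefs

/-!
# P073, H399: **[LP]**, the local structure of the inserted map on a given cell (round T of `K3C`)

`lps_of`: H196's `LPs` for the map `Ψ i` of `GVout`.
-/

open Set Metric Topology Filter

namespace P073.H399

open _root_.P073 _root_.P073.Net _root_.P073.PA691 _root_.P073.H579 _root_.P073.H236
open _root_.P073.TR
open _root_.P073.H345 (mu thin thk_mu mu_nonneg mu_le IsQ Q_eq_kap Q_eq_self kap kap_self kap_ne ph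
  ph_of_nonneg ph_neg ph_zero_iff fam)
open Vale.Agent.P073.St (V)
open Vale.Agent.P073.H471 Vale.Agent.P073.H267 Vale.Agent.P073.H267.Geo
open Vale.Agent.P073.H73 (Mesh)
open Vale.Agent.P073.H193 (Edges)
open _root_.P073.H936 (lev band bnd)
open Vale.Agent.P073.H669 (TLv Cht rtO bxG rtO_sub mem_TB sep_lev)
open Vale.Agent.P073.H579 (TStageW skelW cell_subW)
open Vale.Agent.P073.H238 (TMid TMid_sub)
open _root_.P073.H196 (LP LPs SameGap Off19)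

/-! ### real functions -/

/-- inside the cell the collapse moves strictly -/
theorem ph_fix {c t : ℝ} (hc : 0 < c) (ht : |t| < 2 * c) (he : ph (2 * c) c t = t) : t = 0 := by
  have key : ∀ t, 0 ≤ t → t < 2 * c → ph (2 * c) c t = t → t = 0 := by
    intro t h0 h1 h2
    by_contra hne
    have h3 : 0 < t := lt_of_le_of_ne h0 (Ne.symm hne)
    rw [ph_of_nonneg h0] at h2
    have h4 : max 0 (max (t - c) (2 * t - 2 * c)) < t := by
      refine max_lt h3 (max_lt (by linarith) (by linarith))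
    have h5 := min_le_right t (max 0 (max (t - c) (2 * t - 2 * c)))
    linarith
  rcases le_total 0 t with h | h
  · rw [abs_of_nonneg h] at ht
    exact key t h ht he
  · rw [abs_of_nonpos h] at ht
    have h1 := key (-t) (by linarith) ht (by rw [ph_neg, he])
    linarith

/-- the gap which contains a point -/
theorem exists_gap {a : ℕ → ℝ} {N : ℕ} {t : ℝ} (h0 : a 0 ≤ t) (h1 : t ≤ a (N - 1)) (hN : 0 < N)
    (hne : ∀ k < N, t ≠ a k) : ∃ m, m + 1 < N ∧ a m < t ∧ t < a (m + 1) := by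
  classical
  have hex : ∃ k, k < N ∧ t < a k := ⟨N - 1, by omega, lt_of_le_of_ne h1 (hne _ (by omega))⟩
  obtain ⟨hk, htk⟩ := Nat.find_spec hex
  have hk0 : Nat.find hex ≠ 0 := by
    intro h2
    rw [h2] at htk
    linarith
  obtain ⟨m, hm⟩ := Nat.exists_eq_succ_of_ne_zero hk0
  have hmin := Nat.find_min hex (m := m) (by omega)
  rw [hm] at hk htk
  refine ⟨m, hk, ?_, htk⟩
  have h3 : ¬ t < a m := fun h3 => hmin ⟨by omega, h3⟩
  exact lt_of_le_of_ne (not_lt.1 h3) fun h4 => hne m (by omega) h4.symm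

/-! ### the fibres between the levels -/

section gen

variable {γ : Type*} {Ω Λ : Set (Fin 3 → ℝ)} {M : Mesh Ω} {E : Edges M} {h h' : ConHomeo Ω Λ}
  {B : γ → BX 3} {Gv : Set M.ι} {W R : γ → Set (Fin 3 → ℝ)} {C : γ → Set (Fin 3 → ℝ)} {w : γ → ℝ}
  {Γ : ∀ (g : γ) (m : Fin (B g).N), ConHomeo
    (lev (C g) (uG h B g) ((B g).a m) ×ˢ Icc (-1:ℝ) 1)
    (band (C g) (uG h B g) ((B g).a m) (w g))}

/-- a fibre of the level `m` does not meet the new level `m'` -/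
theorem GVch.ne_lev (G : GVch M E h h' B Gv W R C w Γ) {j : M.ι} (hj : j ∈ Gv) {g : γ}
    {m m' : Fin (B g).N} (hmm : m ≠ m') {z : Fin 3 → ℝ} (hz : z ∈ M.Q j)
    (hza : h'.toFun z (B g).j = (B g).a m) (hzW : h'.toFun z ∈ W g) {s : ℝ}
    (hs : s ∈ Icc (-1:ℝ) 1) : h'.toFun ((Γ g m).toFun (z, s)) (B g).j ≠ (B g).a m' := by
  intro he
  have hzR := G.WR g hzW
  have hzl := G.mem_lev hj m hz hza hzR
  have hp : (Γ g m).toFun (z, s) ∈ M.Q j := (G.mem_cell hj m hzl hs).2 hz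
  have h1 := (G.mem_lev hj m' hp he (G.win j hj g m z hzl hz hzW s hs)).2
  have h2 := G.level g m z hzl s hs
  have h3 : h.toFun ((Γ g m).toFun (z, s)) (B g).j = (B g).a m' := h1
  rw [h3] at h2
  have hw := G.w0 g
  have h4 : |w g * s| ≤ w g := by
    rw [abs_mul, abs_of_pos hw]
    exact mul_le_of_le_one_right hw.le (abs_le.2 hs)
  obtain ⟨h5, h6⟩ := abs_le.1 h4
  rcases lt_or_gt_of_ne (fun hh => hmm (Fin.ext hh) : (m : ℕ) ≠ (m' : ℕ)) with h7 | h7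
  · have := G.sep g m m.2 m' m'.2 h7
    linarith
  · have := G.sep g m' m'.2 m m.2 h7
    linarith

/-- the fibres of the level `m` are between the levels `m - 1` and `m + 1` -/
theorem GVch.between (G : GVch M E h h' B Gv W R C w Γ) {j : M.ι} (hj : j ∈ Gv) {g : γ}
    {m m' : Fin (B g).N} {z : Fin 3 → ℝ} (hz : z ∈ M.Q j)
    (hza : h'.toFun z (B g).j = (B g).a m) (hzW : h'.toFun z ∈ W g) {s : ℝ}
    (hs : s ∈ Icc (-1:ℝ) 1) :
    ((m : ℕ) < m' → h'.toFun ((Γ g m).toFun (z, s)) (B g).j < (B g).a m') ∧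
      ((m' : ℕ) < m → (B g).a m' < h'.toFun ((Γ g m).toFun (z, s)) (B g).j) := by
  have hzR := G.WR g hzW
  have hzl := G.mem_lev hj m hz hza hzR
  have hw := G.w0 g
  have i0 : (0:ℝ) ∈ Icc (-1:ℝ) 1 := by norm_num
  have hf : ContinuousOn (fun s => h'.toFun ((Γ g m).toFun (z, s)) (B g).j) (Icc (-1:ℝ) 1) := by
    refine ((mesh_cc h' j).apply (B g).j).cont.comp ?_
      (fun s hs => (G.mem_cell hj m hzl hs).2 hz)
    exact (Γ g m).cont.comp (by fun_prop) fun s hs => ⟨hzl, hs⟩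
  have hf0 : h'.toFun ((Γ g m).toFun (z, 0)) (B g).j = (B g).a m := by
    rw [G.zero g m z hzl, hza]
  have key : ∀ b' : ℝ, (∀ t ∈ Icc (-1:ℝ) 1, h'.toFun ((Γ g m).toFun (z, t)) (B g).j ≠ b') →
      ((B g).a m < b' → h'.toFun ((Γ g m).toFun (z, s)) (B g).j < b') ∧
      (b' < (B g).a m → b' < h'.toFun ((Γ g m).toFun (z, s)) (B g).j) := by
    intro b' hb'
    constructor
    · intro h1
      by_contra hc
      push Not at hc
      obtain ⟨t, ht, hte⟩ := (isPreconnected_Icc (a := (-1:ℝ)) (b := 1)).intermediate_value i0 hs hf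
        ⟨by rw [hf0]; exact h1.le, hc⟩
      exact hb' t ht hte
    · intro h1
      by_contra hc
      push Not at hc
      obtain ⟨t, ht, hte⟩ := (isPreconnected_Icc (a := (-1:ℝ)) (b := 1)).intermediate_value hs i0 hf
        ⟨hc, by rw [hf0]; exact h1.le⟩
      exact hb' t ht hte
  constructor
  · intro hlt
    have hne : m ≠ m' := fun hh => by rw [hh] at hlt; exact lt_irrefl _ hlt
    have h1 := G.sep g m m.2 m' m'.2 hlt
    exact (key _ fun t ht => G.ne_lev hj hne hz hza hzW ht).1 (by linarith)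
  · intro hlt
    have hne : m ≠ m' := fun hh => by rw [hh] at hlt; exact lt_irrefl _ hlt
    have h1 := G.sep g m' m'.2 m m.2 hlt
    exact (key _ fun t ht => G.ne_lev hj hne hz hza hzW ht).2 (by linarith)

variable {c : γ → ℝ} {h0 : ∀ g, 0 < c g} {h1 : ∀ g, c g ≤ (B g).c} {j : M.ι}
  {ψ ϕ : (Fin 3 → ℝ) → Fin 3 → ℝ} {k : Fin 3} {g : γ} {m : Fin (B g).N}
  {x z : Fin 3 → ℝ} {s : ℝ}

theorem GPt.r_pos (_P : GPt M h h' B W C w Γ c h0 h1 j ψ ϕ k g m x z s) :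
    0 < 1 / (2 * c g) := by
  have := h0 g
  positivity

theorem GPt.rmu (_P : GPt M h h' B W C w Γ c h0 h1 j ψ ϕ k g m x z s) (y : Fin 3 → ℝ) :
    1 / (2 * c g) * mu (thin (B g) (c g) (h0 g) (h1 g)) y ≤ 1 / 2 := by
  have h2 : mu (thin (B g) (c g) (h0 g) (h1 g)) y ≤ c g := mu_le _ y
  have h3 := h0 g
  rw [one_div_mul_eq_div, div_le_iff₀ (by positivity)]
  linarith

/-- the flat part -/
theorem GPt.fl (I : GVch M E h h' B Gv W R C w Γ)
    (P : GPt M h h' B W C w Γ c h0 h1 j ψ ϕ 0 g m x z s) :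
    |s| ≤ 1 / 2 ∧ ψ x = Function.update (h'.toFun z) (B g).j ((B g).a m + 2 * c g * s) := by
  have h2 : |s| ≤ 1 / (2 * c g) * mu (thin (B g) (c g) (h0 g) (h1 g)) (h'.toFun z) := by
    rcases P.part with ⟨-, h2⟩ | ⟨h2, -⟩ | ⟨h2, -⟩
    · exact h2
    · exact absurd h2 (by decide)
    · exact absurd h2 (by decide)
  refine ⟨h2.trans (P.rmu _), ?_⟩
  rw [P.ym, ym_fl P.r_pos (mu_nonneg _ _) (P.rmu _) (I.zero g m z P.mem_lev) P.hz' h2]
  have h3 := (h0 g).ne'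
  congr 1
  field_simp

/-- above the flat part -/
theorem GPt.up (I : GVch M E h h' B Gv W R C w Γ) (hj : j ∈ Gv)
    (P : GPt M h h' B W C w Γ c h0 h1 j ψ ϕ 1 g m x z s) :
    0 ≤ s ∧
    0 ≤ h'.toFun (H399.cm h'.toFun (1 / (2 * c g)) (mu (thin (B g) (c g) (h0 g) (h1 g)))
      (Γ g m).toFun (z, s)) (B g).j - (B g).a m ∧
    ψ x = Function.update (h'.toFun (H399.cm h'.toFun (1 / (2 * c g))
      (mu (thin (B g) (c g) (h0 g) (h1 g))) (Γ g m).toFun (z, s))) (B g).j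
      ((B g).a m + br (2 * c g) (mu (thin (B g) (c g) (h0 g) (h1 g)) (h'.toFun (H399.cm h'.toFun
        (1 / (2 * c g)) (mu (thin (B g) (c g) (h0 g) (h1 g))) (Γ g m).toFun (z, s))))
        (h'.toFun (H399.cm h'.toFun (1 / (2 * c g)) (mu (thin (B g) (c g) (h0 g) (h1 g)))
          (Γ g m).toFun (z, s)) (B g).j - (B g).a m)) := by
  have h2 : 1 / (2 * c g) * mu (thin (B g) (c g) (h0 g) (h1 g)) (h'.toFun z) ≤ s := by
    rcases P.part with ⟨h2, -⟩ | ⟨-, h2⟩ | ⟨h2, -⟩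
    · exact absurd h2 (by decide)
    · exact h2
    · exact absurd h2 (by decide)
  have h3 : mu (thin (B g) (c g) (h0 g) (h1 g)) (h'.toFun z) ≤ c g := mu_le _ _
  have h4 := ym_up (η := 2 * c g) P.r_pos (mu_nonneg _ _) (by linarith)
    (I.zero g m z P.mem_lev) P.hz' P.hs.2 (I.sign hj m P.zQ P.hz' P.zW).1 h2
  refine ⟨le_trans (mul_nonneg P.r_pos.le (mu_nonneg _ _)) h2, h4.2.1, ?_⟩
  rw [P.ym]
  exact h4.2.2

/-- below the flat part -/
theorem GPt.dn (I : GVch M E h h' B Gv W R C w Γ) (hj : j ∈ Gv)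
    (P : GPt M h h' B W C w Γ c h0 h1 j ψ ϕ 2 g m x z s) :
    s ≤ 0 ∧
    h'.toFun (H399.cm h'.toFun (1 / (2 * c g)) (mu (thin (B g) (c g) (h0 g) (h1 g)))
      (Γ g m).toFun (z, s)) (B g).j - (B g).a m ≤ 0 ∧
    ψ x = Function.update (h'.toFun (H399.cm h'.toFun (1 / (2 * c g))
      (mu (thin (B g) (c g) (h0 g) (h1 g))) (Γ g m).toFun (z, s))) (B g).j
      ((B g).a m - br (2 * c g) (mu (thin (B g) (c g) (h0 g) (h1 g)) (h'.toFun (H399.cm h'.toFun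
        (1 / (2 * c g)) (mu (thin (B g) (c g) (h0 g) (h1 g))) (Γ g m).toFun (z, s))))
        (-(h'.toFun (H399.cm h'.toFun (1 / (2 * c g)) (mu (thin (B g) (c g) (h0 g) (h1 g)))
          (Γ g m).toFun (z, s)) (B g).j - (B g).a m))) := by
  have h2 : s ≤ -(1 / (2 * c g) * mu (thin (B g) (c g) (h0 g) (h1 g)) (h'.toFun z)) := by
    rcases P.part with ⟨h2, -⟩ | ⟨h2, -⟩ | ⟨-, h2⟩
    · exact absurd h2 (by decide)
    · exact absurd h2 (by decide)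
    · exact h2
  have h3 : mu (thin (B g) (c g) (h0 g) (h1 g)) (h'.toFun z) ≤ c g := mu_le _ _
  have h4 := ym_dn (η := 2 * c g) P.r_pos (mu_nonneg _ _) (by linarith)
    (I.zero g m z P.mem_lev) P.hz' P.hs.1 (I.sign hj m P.zQ P.hz' P.zW).2 h2
  have h5 := mul_nonneg P.r_pos.le (mu_nonneg (thin (B g) (c g) (h0 g) (h1 g)) (h'.toFun z))
  refine ⟨by linarith, h4.2.1, ?_⟩
  rw [P.ym]
  exact h4.2.2

/-- the parameter of the collapsed point -/
theorem GPt.cm_mem (P : GPt M h h' B W C w Γ c h0 h1 j ψ ϕ k g m x z s) :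
    ∃ ρ ∈ Icc (-1:ℝ) 1, H399.cm h'.toFun (1 / (2 * c g)) (mu (thin (B g) (c g) (h0 g) (h1 g)))
      (Γ g m).toFun (z, s) = (Γ g m).toFun (z, ρ) :=
  ⟨_, rm_mem (q := (z, s)) P.hs, rfl⟩

end gen

/-! ### the boxes of round T -/

section round

variable {Ω Λ : Set V} {v : V} {K : BoxCx Λ v} {S : Rad K} {Wd : Wid K S} {B : Boxes Wd}
  {G : Geo B} {M : Mesh Ω} {E : Edges M} {h h' : ConHomeo Ω Λ} {ω : TBx K → ℝ}
  {T : TBx K → Finset (ℝ × ℝ)} {ηn : ℝ} {τ : Type*} {A : τ → Set V} {C : Set ℝ} {εE : E.ε → ℝ}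
  {δ : TBx K → ℝ}

/-- laterally within `u ω b` of the box -/
def Lat (G : Geo B) (ω : TBx K → ℝ) (b : TBx K) (u : ℝ) (y : V) : Prop :=
  ∀ i, i ≠ b.ax → G.tlo true b i - u * ω b ≤ y i ∧ y i ≤ G.thi true b i + u * ω b

theorem Lat.near {b : TBx K} {u u' d : ℝ} {y z : V} (hz : Lat G ω b u z) (hd : ‖y - z‖ ≤ d)
    (hu : u * ω b + d ≤ u' * ω b) : Lat G ω b u' y := by
  intro i hi
  obtain ⟨h1, h2⟩ := hz i hi
  have h3 := norm_le_pi_norm (y - z) i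
  rw [Pi.sub_apply, Real.norm_eq_abs] at h3
  obtain ⟨h4, h5⟩ := abs_le.1 (h3.trans hd)
  constructor <;> linarith

theorem Lat.mono {b : TBx K} (h0 : 0 < ω b) {u u' : ℝ} (hu : u ≤ u') {y : V}
    (hy : Lat G ω b u y) : Lat G ω b u' y :=
  hy.near (d := 0) (by rw [sub_self, norm_zero])
    (by have := mul_le_mul_of_nonneg_right hu h0.le; linarith)

theorem Lat.update {b : TBx K} {u : ℝ} {y : V} (hy : Lat G ω b u y) (t : ℝ) :
    Lat G ω b u (Function.update y b.ax t) := by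
  intro i hi
  rw [Function.update_of_ne hi]
  exact hy i hi

theorem lat_of_rtO {b : TBx K} {u : ℝ} {y : V} (hy : y ∈ rtO G ω b u) : Lat G ω b u y :=
  fun i hi => ⟨(hy.2 i hi).1.le, (hy.2 i hi).2.le⟩

theorem mem_rtK {b : TBx K} {u : ℝ} {y : V} (h1 : G.tlo true b b.ax ≤ y b.ax)
    (h2 : y b.ax ≤ G.thi true b b.ax) (h3 : Lat G ω b u y) : y ∈ rtK G ω b u := ⟨⟨h1, h2⟩, h3⟩

/-- off the neighbourhood -/
theorem not_lat {b : TBx K} {u : ℝ} {y : V} (hy : ¬ Lat G ω b u y) :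
    ∃ i, i ≠ b.ax ∧ (y i < G.tlo true b i - u * ω b ∨ G.thi true b i + u * ω b < y i) := by
  unfold Lat at hy
  push Not at hy
  obtain ⟨i, hi, h1⟩ := hy
  refine ⟨i, hi, ?_⟩
  by_contra h2
  push Not at h2
  exact absurd (h1 h2.1) (not_lt.2 h2.2)

/-- the middle zone -/
theorem of_TMid {b : TBx K} {y : V} (hy : y ∈ interior (TMid G b (ω b))) :
    (G.tlo true b b.ax ≤ y b.ax ∧ y b.ax ≤ G.thi true b b.ax) ∧ Lat G ω b 10 y := by
  have h1 := interior_subset hy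
  have h2 : ∀ k, _ := h1.1
  have h3 : ∀ k, _ := h1.2
  refine ⟨⟨?_, ?_⟩, fun i hi => ⟨?_, ?_⟩⟩
  · have := h2 b.ax
    simpa using this
  · have := h3 b.ax
    simpa using this
  · have := h2 i
    simpa [hi] using this
  · have := h3 i
    simpa [hi] using this

section thick

variable (L : TLv G E h ω T ηn A C εE δ) {c : TBx K → ℝ} (hc0 : ∀ b, 0 < c b)
  (hc : ∀ b, c b ≤ δ b / 8) {c₁ : ℝ} {b : TBx K} (h0 : 0 < c₁)
  (h1 : c₁ ≤ (L.bxQ c hc0 hc b).c)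

theorem muT_full {y : V} (hy : Lat G ω b 20 y) :
    mu (thin (L.bxQ c hc0 hc b) c₁ h0 h1) y = c₁ :=
  bmp_full (thin (L.bxQ c hc0 hc b) c₁ h0 h1).hr fun i hi => hy i hi

theorem muT_lip (y y' : V) :
    |mu (thin (L.bxQ c hc0 hc b) c₁ h0 h1) y - mu (thin (L.bxQ c hc0 hc b) c₁ h0 h1) y'| ≤
      c₁ / (20 * ω b) * ‖y - y'‖ := by
  have hω := L.ω0 b
  have key := abs_bmp_sub_le (j := b.ax) (lo := (thin (L.bxQ c hc0 hc b) c₁ h0 h1).lo)
    (hi := (thin (L.bxQ c hc0 hc b) c₁ h0 h1).hi) (r := fun _ => 20 * ω b) (C := c₁) h0.le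
    (d := ‖y - y'‖) (δ := 20 * ω b) (by positivity) (fun _ => le_rfl) (y := y) (y' := y')
    (fun i _ => by
      have := norm_le_pi_norm (y - y') i
      rwa [Pi.sub_apply, Real.norm_eq_abs] at this) (norm_nonneg _)
  have e : c₁ / (20 * ω b) * ‖y - y'‖ = c₁ * (‖y - y'‖ / (20 * ω b)) := by ring
  rw [e]
  exact key

/-- the insertion map in the full zone, near the level `k` -/
theorem QT_full {y : V} (hy : Lat G ω b 20 y) {k : ℕ} (hk : k < L.N b)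
    (hyk : |y b.ax - L.a b k| ≤ 2 * c₁) :
    (thin (L.bxQ c hc0 hc b) c₁ h0 h1).Q y b.ax =
      L.a b k + ph (2 * c₁) c₁ (y b.ax - L.a b k) := by
  have h2 := Q_eq_kap (thin (L.bxQ c hc0 hc b) c₁ h0 h1) (k := k) hk (y := y) hyk
  rw [h2]
  have h3 := kap_self (thin (L.bxQ c hc0 hc b) c₁ h0 h1).j
    ((thin (L.bxQ c hc0 hc b) c₁ h0 h1).a k) (2 * c₁)
    (mu (thin (L.bxQ c hc0 hc b) c₁ h0 h1)) y
  rw [muT_full L hc0 hc h0 h1 hy] at h3
  exact h3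

end thick

section main

variable {L : TLv G E h ω T ηn A C εE δ} {c : TBx K → ℝ} {hc0 : ∀ b, 0 < c b}
  {hc : ∀ b, c b ≤ δ b / 8} {Pr Wt : Set M.ι} {Act₀ : Set M.κ} {G₀ : Set (TBx K)}
  {Gv : Set M.ι} {X : TBx K → Set V} {η : TBx K → ℝ}
  {Γ : ∀ (b : G₀) (m : Fin (L.N b.1)), Cht h (X b.1) b.1.ax (L.a b.1 m) (η b.1)}
  {c₁ : TBx K → ℝ} {h0 : ∀ g : G₀, 0 < c₁ g.1} {h1 : ∀ g : G₀, c₁ g.1 ≤ (bxG L hc0 hc G₀ g).c}
  {κ : V → V} {Ψ : ∀ j ∈ Gv, ConHomeo (M.Q j) (Pre κ Λ h' (M.Q j))} {φ : M.ι → V → V}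

/-- in a box: the map is the old one, or both images are in the middle zone -/
theorem eq_or_mid (L : TLv G E h ω T ηn A C εE δ)
    (O : TStageW G M h h' Pr Wt Act₀ G₀ L.lev ω) {b : TBx K} {p : V}
    (hp : p ∈ Ω) (hpT : h.toFun p ∈ G.TB false b) :
    (∀ᶠ y in 𝓝 p, h'.toFun y = h.toFun y) ∨
      (h.toFun p ∈ interior (TMid G b (ω b)) ∧ h'.toFun p ∈ interior (TMid G b (ω b))) := by
  by_cases hm : h.toFun p ∈ interior (TMid G b (ω b))
  · exact Or.inr ⟨hm, (O.memM b p hp).2 hm⟩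
  · refine Or.inl (O.off' p hp fun b' _ hc' => ?_)
    by_cases hbb : b' = b
    · exact hm (hbb ▸ hc')
    · exact (disjoint_TB (G := G) hbb).notMem_of_mem_left
        (interior_mono (TMid_sub G b' (L.ω0 b') (L.ωo b')) hc') hpT

/-- the insertion map of the family, in the full zone, near the level `k` -/
theorem kap_full (hκ : IsQ (fun g => thin (bxG L hc0 hc G₀ g) (c₁ g.1) (h0 g) (h1 g)) κ)
    {b : TBx K} (hb : b ∈ G₀) {y : V} (hy : Lat G ω b 20 y) (h2 : G.tlo true b b.ax ≤ y b.ax)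
    (h3 : y b.ax ≤ G.thi true b b.ax) {k : ℕ} (hk : k < L.N b)
    (hyk : |y b.ax - L.a b k| ≤ 2 * c₁ b) :
    κ y b.ax = L.a b k + ph (2 * c₁ b) (c₁ b) (y b.ax - L.a b k) := by
  have hω := L.ω0 b
  have hyK : y ∈ (thin (bxG L hc0 hc G₀ ⟨b, hb⟩) (c₁ b) (h0 ⟨b, hb⟩) (h1 ⟨b, hb⟩)).K := by
    refine (_root_.P073.H345.mem_K _).2 ⟨⟨h2, h3⟩, fun i hi => ?_⟩
    obtain ⟨h4, h5⟩ := hy i hi
    change G.tlo true b i - 20 * ω b - 20 * ω b ≤ y i ∧
      y i ≤ G.thi true b i + 20 * ω b + 20 * ω b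
    constructor <;> linarith
  rw [hκ.on ⟨b, hb⟩ y hyK]
  exact QT_full L hc0 hc (h0 ⟨b, hb⟩) (h1 ⟨b, hb⟩) hy hk hyk

/-- a fixed point in the full zone is on a level or outside of the cells -/
theorem fix_full (hκ : IsQ (fun g => thin (bxG L hc0 hc G₀ g) (c₁ g.1) (h0 g) (h1 g)) κ)
    {b : TBx K} (hb : b ∈ G₀) {y : V} (hy : Lat G ω b 20 y) (h2 : G.tlo true b b.ax ≤ y b.ax)
    (h3 : y b.ax ≤ G.thi true b b.ax) (hf : κ y = y) {k : ℕ} (hk : k < L.N b) :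
    y b.ax = L.a b k ∨ 2 * c₁ b ≤ |y b.ax - L.a b k| := by
  by_contra hcon
  push Not at hcon
  obtain ⟨h4, h5⟩ := hcon
  have h6 := kap_full hκ hb hy h2 h3 hk h5.le
  rw [hf] at h6
  have h7 := ph_fix (h0 ⟨b, hb⟩) h5 (by linarith : ph (2 * c₁ b) (c₁ b) (y b.ax - L.a b k) =
    y b.ax - L.a b k)
  exact h4 (by linarith)

/-- both points where nothing changes -/
theorem lp_off (O : TStageW G M h h' Pr Wt Act₀ G₀ L.lev ω)
    (hκ : IsQ (fun g => thin (bxG L hc0 hc G₀ g) (c₁ g.1) (h0 g) (h1 g)) κ)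
    {b : TBx K} (hb : b ∈ G₀) {i : M.ι} (hiW : i ∈ Wt) {x y : V} (hx : x ∈ M.Q i)
    (hxT : h.toFun x ∈ G.TB false b) {g : V → V}
    (hgx : g x = h'.toFun x) (hgy : g y = h'.toFun y) (hκx : κ (h'.toFun x) = h'.toFun x)
    (hκy : κ (h'.toFun y) = h'.toFun y)
    (hx40 : i ∈ Pr ∨ (G.tlo true b b.ax + 40 * ω b ≤ h.toFun x b.ax ∧
      h.toFun x b.ax ≤ G.thi true b b.ax - 40 * ω b))
    (hends : L.a b 0 ≤ G.tlo true b b.ax + 34 * ω b ∧
      G.thi true b b.ax - 34 * ω b ≤ L.a b (L.N b - 1))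
    (hnear : ‖h'.toFun y - h'.toFun x‖ < c₁ b)
    (hyo : (∀ᶠ y in 𝓝 x, h'.toFun y = h.toFun y) → h'.toFun y = h.toFun y)
    (hym : h'.toFun x ∈ interior (TMid G b (ω b)) → h'.toFun y ∈ interior (TMid G b (ω b)))
    {w L₁ L₂ ξ : ℝ} : LP L c₁ κ g b w L₁ L₂ ξ x y := by
  have hω := L.ω0 b
  have hc1 : 0 < c₁ b := h0 ⟨b, hb⟩
  have hev : (∀ᶠ y in 𝓝 x, h'.toFun y = h.toFun y) → LP L c₁ κ g b w L₁ L₂ ξ x y := by
    intro h2
    have h3 := h2.self_of_nhds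
    have h4 := hyo h2
    refine LP.off (hgx.trans h3) (hgy.trans h4) ?_ ?_
    · rw [← h3]; exact hκx
    · rw [← h4]; exact hκy
  rcases eq_or_mid L O (M.sub i hx) hxT with h2 | ⟨-, h2⟩
  · exact hev h2
  · rcases hx40 with h3 | ⟨h3, h4⟩
    · exact hev (O.wall i h3 x hx)
    · obtain ⟨⟨w1, w2⟩, l1⟩ := of_TMid h2
      obtain ⟨⟨w3, w4⟩, l2⟩ := of_TMid (hym h2)
      have hd := O.near b x (cell_subW M hiW hx) hxT
      rw [dist_eq_norm] at hd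
      have hda := norm_le_pi_norm (h'.toFun x - h.toFun x) b.ax
      rw [Pi.sub_apply, Real.norm_eq_abs] at hda
      obtain ⟨d1, d2⟩ := abs_le.1 (hda.trans hd)
      have hna := norm_le_pi_norm (h'.toFun y - h'.toFun x) b.ax
      rw [Pi.sub_apply, Real.norm_eq_abs] at hna
      obtain ⟨n1, n2⟩ := abs_lt.1 (hna.trans_lt hnear)
      have fx := fun k (hk : k < L.N b) =>
        fix_full hκ hb (l1.mono hω (by norm_num)) w1 w2 hκx hk
      have fy := fun k (hk : k < L.N b) =>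
        fix_full hκ hb (l2.mono hω (by norm_num)) w3 w4 hκy hk
      refine LP.mid (by rw [hgx]; exact mem_rtK w1 w2 (l1.mono hω (by norm_num)))
        (by rw [hgy]; exact mem_rtK w3 w4 (l2.mono hω (by norm_num))) ?_
      rw [hgx, hgy]
      by_cases hk : ∃ k < L.N b, h'.toFun x b.ax = L.a b k
      · obtain ⟨k, hk, he⟩ := hk
        left
        rcases fy k hk with h5 | h5
        · rw [he, h5]
        · exfalso
          rw [← he] at h5
          have := abs_lt.2 ⟨n1, n2⟩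
          linarith
      · push Not at hk
        right
        obtain ⟨m, hm, m1, m2⟩ := exists_gap (a := L.a b) (N := L.N b) (t := h'.toFun x b.ax)
          (by linarith [hends.1]) (by linarith [hends.2]) (L.pos b) hk
        have g1 := (fx m (by omega)).resolve_left (hk m (by omega))
        have g2 := (fx (m + 1) hm).resolve_left (hk (m + 1) hm)
        rw [abs_of_pos (by linarith)] at g1
        rw [abs_of_neg (by linarith)] at g2
        exact ⟨m, hm, ⟨by linarith, by linarith⟩, by linarith, by linarith⟩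

/-- both points in the flat part -/
theorem lp_flat
    (I : GVch M E h h' (bxG L hc0 hc G₀) Gv (fun b => rtO G ω b.1 45) (fun b => rtO G ω b.1 60)
      (fun b => X b.1) (fun b => η b.1) Γ)
    {i : M.ι} (hi : i ∈ Gv) {b : TBx K} (hb : b ∈ G₀) (hcω : c₁ b ≤ ω b)
    {ψ ϕ : V → V} {m : Fin (L.N b)} {x y z z' : V} {s s' : ℝ}
    (P : GPt M h h' (bxG L hc0 hc G₀) (fun b => rtO G ω b.1 45) (fun b => X b.1)
      (fun b => η b.1) Γ (fun b => c₁ b.1) h0 h1 i ψ ϕ 0 ⟨b, hb⟩ m x z s)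
    (P' : GPt M h h' (bxG L hc0 hc G₀) (fun b => rtO G ω b.1 45) (fun b => X b.1)
      (fun b => η b.1) Γ (fun b => c₁ b.1) h0 h1 i ψ ϕ 0 ⟨b, hb⟩ m y z' s')
    {L₁ L₂ ξ : ℝ} (hz : ‖h.toFun z - h.toFun z'‖ ≤ L₁ * ‖x - y‖) :
    LP L c₁ κ ψ b (η b) L₁ L₂ ξ x y := by
  have hω := L.ω0 b
  have hc1 : 0 < c₁ b := h0 ⟨b, hb⟩
  have hm := L.mem_win (b := b) (k := m) m.2
  have key : ∀ {x z : V} {s : ℝ}, GPt M h h' (bxG L hc0 hc G₀) (fun b => rtO G ω b.1 45)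
      (fun b => X b.1) (fun b => η b.1) Γ (fun b => c₁ b.1) h0 h1 i ψ ϕ 0 ⟨b, hb⟩ m x z s →
      h.toFun x b.ax = L.a b m + η b * s ∧ |s| ≤ 1 / 2 ∧
      ψ x = Function.update (h'.toFun z) b.ax (L.a b m + 2 * c₁ b * s) ∧
      h'.toFun z = h.toFun z ∧ ψ x ∈ rtK G ω b 50 := by
    intro x z s P
    obtain ⟨e1, e2⟩ := P.fl I
    have e0 : h.toFun x b.ax = L.a b m + η b * s := by
      rw [P.eq]
      exact I.level ⟨b, hb⟩ m z P.mem_lev s P.hs
    have e2' : ψ x = Function.update (h'.toFun z) b.ax (L.a b m + 2 * c₁ b * s) := e2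
    refine ⟨e0, e1, e2', ?_, ?_⟩
    · exact (I.keep i hi ⟨b, hb⟩ z P.zQ (I.WR ⟨b, hb⟩ P.zW) m m.2 P.hz').self_of_nhds
    · have h5 : |2 * c₁ b * s| ≤ c₁ b := by
        rw [abs_mul, abs_of_pos (by linarith : 0 < 2 * c₁ b)]
        nlinarith
      obtain ⟨h6, h7⟩ := abs_le.1 h5
      rw [e2']
      refine mem_rtK ?_ ?_ (((lat_of_rtO P.zW).mono hω (by norm_num)).update _)
      · rw [Function.update_self]; linarith
      · rw [Function.update_self]; linarith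
  obtain ⟨a1, a2, a3, a4, a5⟩ := key P
  obtain ⟨b1, b2, b3, b4, b5⟩ := key P'
  exact LP.flat m m.2 (h'.toFun z) (h'.toFun z') s s' a1 b1 a2 b2 a3 b3
    (by rw [a4, b4]; exact hz) a5 b5

/-- both points on the same side of a flat, where the new map is the old one -/
theorem lp_side
    (I : GVch M E h h' (bxG L hc0 hc G₀) Gv (fun b => rtO G ω b.1 45) (fun b => rtO G ω b.1 60)
      (fun b => X b.1) (fun b => η b.1) Γ)
    {i : M.ι} (hi : i ∈ Gv) {b : TBx K} (hb : b ∈ G₀) (hcη : 2 * c₁ b ≤ η b)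
    (hηω : η b ≤ 6 * ω b)
    {ψ ϕ : V → V} {k : Fin 3} (hk : k = 1 ∨ k = 2) {m : Fin (L.N b)} {x y z z' : V} {s s' : ℝ}
    (P : GPt M h h' (bxG L hc0 hc G₀) (fun b => rtO G ω b.1 45) (fun b => X b.1)
      (fun b => η b.1) Γ (fun b => c₁ b.1) h0 h1 i ψ ϕ k ⟨b, hb⟩ m x z s)
    (P' : GPt M h h' (bxG L hc0 hc G₀) (fun b => rtO G ω b.1 45) (fun b => X b.1)
      (fun b => η b.1) Γ (fun b => c₁ b.1) h0 h1 i ψ ϕ k ⟨b, hb⟩ m y z' s')
    (hf : ∀ t ∈ Icc (-1:ℝ) 1, h'.toFun ((Γ ⟨b, hb⟩ m).toFun (z, t)) =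
      h.toFun ((Γ ⟨b, hb⟩ m).toFun (z, t)))
    (hf' : ∀ t ∈ Icc (-1:ℝ) 1, h'.toFun ((Γ ⟨b, hb⟩ m).toFun (z', t)) =
      h.toFun ((Γ ⟨b, hb⟩ m).toFun (z', t)))
    {lam : ℝ} (hlam : lam ≤ ω b / 20)
    (hcl : ∀ t ∈ Icc (-1:ℝ) 1, ∀ t' ∈ Icc (-1:ℝ) 1, ‖h.toFun ((Γ ⟨b, hb⟩ m).toFun (z, t)) -
      h.toFun ((Γ ⟨b, hb⟩ m).toFun (z, t'))‖ ≤ lam)
    (hcl' : ∀ t ∈ Icc (-1:ℝ) 1, ∀ t' ∈ Icc (-1:ℝ) 1, ‖h.toFun ((Γ ⟨b, hb⟩ m).toFun (z', t)) -
      h.toFun ((Γ ⟨b, hb⟩ m).toFun (z', t'))‖ ≤ lam)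
    (hxy : ‖h.toFun y - h.toFun x‖ ≤ ω b / 20)
    {K' Lb : ℝ} (hK0 : 0 ≤ K') (hLb : 0 ≤ Lb)
    (hK : ∀ p ∈ M.Q i, ∀ p' ∈ M.Q i, ‖h.toFun p - h.toFun p'‖ ≤ K' * ‖p - p'‖)
    (hlip : ∀ t ∈ Icc (-1:ℝ) 1, ‖(Γ ⟨b, hb⟩ m).toFun (z, t) - (Γ ⟨b, hb⟩ m).toFun (z', t)‖ ≤
      Lb * ‖x - y‖)
    (hfib : ∀ t ∈ Icc (-1:ℝ) 1, ∀ t' ∈ Icc (-1:ℝ) 1, ‖(Γ ⟨b, hb⟩ m).toFun (z', t) -
      (Γ ⟨b, hb⟩ m).toFun (z', t')‖ ≤ Lb * (η b * |t - t'|))
    {L₁ L₂ ξ : ℝ}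
    (hξ : η b * (K' * Lb) / (40 * ω b) + c₁ b / (20 * ω b) *
      (K' * (Lb * (1 + 2 * K' + η b * (K' * Lb) / (40 * ω b)))) ≤ ξ)
    (hL₂ : K' * (Lb * (1 + 2 * K' + η b * (K' * Lb) / (40 * ω b))) ≤ L₂)
    (hL₂' : 2 * K' + ξ ≤ L₂) :
    LP L c₁ κ ψ b (η b) L₁ L₂ ξ x y := by
  have hω := L.ω0 b
  have hc1 : 0 < c₁ b := h0 ⟨b, hb⟩
  have hη0 : 0 < η b := by linarith
  have hm := L.mem_win (b := b) (k := m) m.2
  have i0 : (0:ℝ) ∈ Icc (-1:ℝ) 1 := by norm_num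
  have hmem : ∀ {z : V}, z ∈ lev (X b) (uG h (bxG L hc0 hc G₀) ⟨b, hb⟩) (L.a b m) → z ∈ M.Q i →
      ∀ t ∈ Icc (-1:ℝ) 1, (Γ ⟨b, hb⟩ m).toFun (z, t) ∈ M.Q i := fun hz hzQ t ht =>
    (I.mem_cell hi (g := ⟨b, hb⟩) m hz ht).2 hzQ
  have hmx := hmem P.mem_lev P.zQ
  have hmy := hmem P'.mem_lev P'.zQ
  have hlevx : ∀ t ∈ Icc (-1:ℝ) 1, h.toFun ((Γ ⟨b, hb⟩ m).toFun (z, t)) b.ax =
      L.a b m + η b * t := fun t ht => I.level ⟨b, hb⟩ m z P.mem_lev t ht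
  have hlevy : ∀ t ∈ Icc (-1:ℝ) 1, h.toFun ((Γ ⟨b, hb⟩ m).toFun (z', t)) b.ax =
      L.a b m + η b * t := fun t ht => I.level ⟨b, hb⟩ m z' P'.mem_lev t ht
  have hzx : (Γ ⟨b, hb⟩ m).toFun (z, 0) = z := I.zero ⟨b, hb⟩ m z P.mem_lev
  have hzy : (Γ ⟨b, hb⟩ m).toFun (z', 0) = z' := I.zero ⟨b, hb⟩ m z' P'.mem_lev
  set μ := mu (thin (bxG L hc0 hc G₀ ⟨b, hb⟩) (c₁ b) (h0 ⟨b, hb⟩) (h1 ⟨b, hb⟩)) with hμd
  have hμl : ∀ y y', |μ y - μ y'| ≤ c₁ b / (20 * ω b) * ‖y - y'‖ := fun y y' =>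
    muT_lip L hc0 hc (h0 ⟨b, hb⟩) (h1 ⟨b, hb⟩) y y'
  have hμf : ∀ y, Lat G ω b 20 y → μ y = c₁ b := fun y hy =>
    muT_full L hc0 hc (h0 ⟨b, hb⟩) (h1 ⟨b, hb⟩) hy
  have hμc : ∀ y, μ y ≤ c₁ b := fun y => mu_le _ y
  -- the collapsed points
  obtain ⟨ρ, hρ, hcx⟩ := P.cm_mem
  obtain ⟨ρ', hρ', hcy⟩ := P'.cm_mem
  -- the formulas
  set px := H399.cm h'.toFun (1 / (2 * c₁ b)) μ (Γ ⟨b, hb⟩ m).toFun (z, s) with hpx
  set py := H399.cm h'.toFun (1 / (2 * c₁ b)) μ (Γ ⟨b, hb⟩ m).toFun (z', s') with hpy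
  have hcx' : px = (Γ ⟨b, hb⟩ m).toFun (z, ρ) := hcx
  have hcy' : py = (Γ ⟨b, hb⟩ m).toFun (z', ρ') := hcy
  obtain ⟨β, hβ1, hYx, hYy, hst, hρx, hρy⟩ : ∃ β : ℝ, (β = 1 ∨ β = -1) ∧
      (ψ x = Function.update (h'.toFun px) b.ax (L.a b m + β * br (2 * c₁ b) (μ (h'.toFun px))
        (β * (h'.toFun px b.ax - L.a b m)))) ∧
      (ψ y = Function.update (h'.toFun py) b.ax (L.a b m + β * br (2 * c₁ b) (μ (h'.toFun py))
        (β * (h'.toFun py b.ax - L.a b m)))) ∧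
      ((0 ≤ s ∧ 0 ≤ s') ∨ (s ≤ 0 ∧ s' ≤ 0)) ∧ 0 ≤ β * (h'.toFun px b.ax - L.a b m) ∧
      0 ≤ β * (h'.toFun py b.ax - L.a b m) := by
    rcases hk with rfl | rfl
    · obtain ⟨a1, a2, a3⟩ := P.up I hi
      obtain ⟨b1, b2, b3⟩ := P'.up I hi
      exact ⟨1, Or.inl rfl, by rw [one_mul, one_mul]; exact a3, by rw [one_mul, one_mul]; exact b3,
        Or.inl ⟨a1, b1⟩, by rw [one_mul]; exact a2, by rw [one_mul]; exact b2⟩
    · obtain ⟨a1, a2, a3⟩ := P.dn I hi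
      obtain ⟨b1, b2, b3⟩ := P'.dn I hi
      exact ⟨-1, Or.inr rfl, by rw [neg_one_mul, neg_one_mul, ← sub_eq_add_neg]; exact a3,
        by rw [neg_one_mul, neg_one_mul, ← sub_eq_add_neg]; exact b3,
        Or.inr ⟨a1, b1⟩, by rw [neg_one_mul]; exact neg_nonneg.2 a2,
        by rw [neg_one_mul]; exact neg_nonneg.2 b2⟩
  have hβa : |β| ≤ 1 := by rcases hβ1 with h | h <;> rw [h] <;> norm_num
  -- the metric estimates
  have hr : (0:ℝ) < 1 / (2 * c₁ b) := by positivity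
  have eX : η b * (1 / (2 * c₁ b) * (c₁ b / (20 * ω b) * (K' * Lb))) =
      η b * (K' * Lb) / (40 * ω b) := by
    field_simp
    ring
  have hest := pair_est (h := h'.toFun) (i := b.ax) (b := L.a b m) (η := 2 * c₁ b)
    (r := 1 / (2 * c₁ b)) (μ := μ) (Γ := (Γ ⟨b, hb⟩ m).toFun) (z := z) (z' := z') (x := x) (y := y)
    (s := s) (s' := s') (w := η b) (m := c₁ b / (20 * ω b)) (K := K') (L := Lb) (ξ := ξ)
    (L₂ := L₂) hr hη0.le (by positivity) hK0 hLb hμl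
    (fun t ht t' ht' => by
      rw [hf t ht, hf' t' ht']
      exact hK _ (hmx t ht) _ (hmy t' ht'))
    P.eq P'.eq P.hs P'.hs hzx hzy (fun t ht => by rw [hf t ht]; exact hlevx t ht)
    (fun t ht => by rw [hf' t ht]; exact hlevy t ht) hlip hfib hst (Y := ψ x) (Y' := ψ y) hβa
    hYx hYy (by rw [eX]; exact hξ) (by rw [eX]; exact hL₂) hL₂'
  have hxx : h'.toFun x = h.toFun x := by
    rw [P.eq]; exact hf s P.hs
  have hyy : h'.toFun y = h.toFun y := by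
    rw [P'.eq]; exact hf' s' P'.hs
  rw [hxx, hyy] at hest
  -- positions
  have hfx : h'.toFun px = h.toFun px := by rw [hcx']; exact hf ρ hρ
  have hfy : h'.toFun py = h.toFun py := by rw [hcy']; exact hf' ρ' hρ'
  have dx : ‖h.toFun px - h.toFun x‖ ≤ lam := by
    rw [hcx', P.eq]; exact hcl ρ hρ s P.hs
  have dy : ‖h.toFun py - h.toFun y‖ ≤ lam := by
    rw [hcy', P'.eq]; exact hcl' ρ' hρ' s' P'.hs
  have wx : |h.toFun px b.ax - L.a b m| ≤ η b := by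
    rw [hcx', hlevx ρ hρ, add_sub_cancel_left, abs_mul, abs_of_pos hη0]
    exact mul_le_of_le_one_right hη0.le (abs_le.2 hρ)
  have wy : |h.toFun py b.ax - L.a b m| ≤ η b := by
    rw [hcy', hlevy ρ' hρ', add_sub_cancel_left, abs_mul, abs_of_pos hη0]
    exact mul_le_of_le_one_right hη0.le (abs_le.2 hρ')
  have hbr : ∀ A : V, 0 ≤ β * (A b.ax - L.a b m) → |A b.ax - L.a b m| ≤ η b →
      br (2 * c₁ b) (μ A) (β * (A b.ax - L.a b m)) ≤ η b + c₁ b ∧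
      μ A ≤ br (2 * c₁ b) (μ A) (β * (A b.ax - L.a b m)) := by
    intro A h2 h3
    have h4 : β * (A b.ax - L.a b m) ≤ η b := by
      refine (le_abs_self _).trans ?_
      rw [abs_mul]
      exact (mul_le_of_le_one_left (abs_nonneg _) hβa).trans h3
    have h5 := br_le (η := 2 * c₁ b) (m := μ A) h2 (by linarith)
    exact ⟨by linarith, le_br' (by linarith [hμc A]) h2⟩
  rw [hfx] at hYx hρx
  rw [hfy] at hYy hρy
  obtain ⟨bx1, bx2⟩ := hbr _ hρx wx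
  obtain ⟨by1, by2⟩ := hbr _ hρy wy
  have hμ0 : ∀ A, 0 ≤ μ A := fun A => mu_nonneg _ A
  have gx : ψ x b.ax = L.a b m + β * br (2 * c₁ b) (μ (h.toFun px))
      (β * (h.toFun px b.ax - L.a b m)) := by rw [hYx, Function.update_self]
  have gy : ψ y b.ax = L.a b m + β * br (2 * c₁ b) (μ (h.toFun py))
      (β * (h.toFun py b.ax - L.a b m)) := by rw [hYy, Function.update_self]
  have hzO : ∀ {z : V}, z ∈ M.Q i → h'.toFun z b.ax = L.a b m → h'.toFun z ∈ rtO G ω b 45 →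
      h'.toFun z = h.toFun z := fun {z} hz hza hzW =>
    (I.keep i hi ⟨b, hb⟩ z hz (I.WR ⟨b, hb⟩ hzW) m m.2 hza).self_of_nhds
  have latp : ∀ {z p : V}, h'.toFun z ∈ rtO G ω b 45 → h'.toFun z = h.toFun z →
      ‖h.toFun p - h.toFun z‖ ≤ lam → Lat G ω b 50 (h.toFun p) := by
    intro z p h2 h3 h4
    exact ((h3 ▸ lat_of_rtO h2 : Lat G ω b 45 (h.toFun z))).near h4 (by linarith)
  have lx : Lat G ω b 50 (h.toFun px) := by
    refine latp P.zW (hzO P.zQ P.hz' P.zW) ?_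
    have := hcl ρ hρ 0 i0
    rwa [hzx, ← hcx'] at this
  have ly : Lat G ω b 50 (h.toFun py) := by
    refine latp P'.zW (hzO P'.zQ P'.hz' P'.zW) ?_
    have := hcl' ρ' hρ' 0 i0
    rwa [hzy, ← hcy'] at this
  have win : ∀ r : ℝ, 0 ≤ r → r ≤ η b + c₁ b → G.tlo true b b.ax ≤ L.a b m + β * r ∧
      L.a b m + β * r ≤ G.thi true b b.ax := by
    intro r h2 h3
    rcases hβ1 with h | h <;> rw [h] <;> constructor <;> linarith
  refine LP.side hest.1 hest.2 ?_ ?_ ?_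
  · by_cases hlat : Lat G ω b (193 / 10) (h.toFun x)
    · left
      have f1 : μ (h.toFun px) = c₁ b := hμf _ (hlat.near dx (by linarith))
      have hly : Lat G ω b (194 / 10) (h.toFun y) := hlat.near hxy (by linarith)
      have f2 : μ (h.toFun py) = c₁ b := hμf _ (hly.near dy (by linarith))
      rw [f1] at bx1 bx2 gx
      rw [f2] at by1 by2 gy
      set rx := br (2 * c₁ b) (c₁ b) (β * (h.toFun px b.ax - L.a b m)) with hrx
      set ry := br (2 * c₁ b) (c₁ b) (β * (h.toFun py b.ax - L.a b m)) with hry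
      intro k hk
      rw [gx, gy]
      have hsep : ∀ m' < L.N b, ∀ k' < L.N b, m' < k' → 2 * η b < L.a b k' - L.a b m' :=
        fun m' hm' k' hk' hlt => I.sep ⟨b, hb⟩ m' hm' k' hk' hlt
      rcases lt_trichotomy (m : ℕ) k with h2 | h2 | h2
      · have h3 := hsep m m.2 k hk h2
        left
        rcases hβ1 with h | h <;> rw [h] <;> constructor <;> linarith
      · rw [← h2]
        rcases hβ1 with h | h
        · right
          rw [h]
          constructor <;> linarith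
        · left
          rw [h]
          constructor <;> linarith
      · have h3 := hsep k hk m m.2 h2
        right
        rcases hβ1 with h | h <;> rw [h] <;> constructor <;> linarith
    · right
      obtain ⟨j, hj, h2⟩ := not_lat hlat
      have c1 := norm_le_pi_norm (h.toFun px - h.toFun x) j
      rw [Pi.sub_apply, Real.norm_eq_abs] at c1
      obtain ⟨c2, c3⟩ := abs_le.1 (c1.trans dx)
      have d1 := norm_le_pi_norm (h.toFun py - h.toFun y) j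
      rw [Pi.sub_apply, Real.norm_eq_abs] at d1
      obtain ⟨d2, d3⟩ := abs_le.1 (d1.trans dy)
      have e1 := norm_le_pi_norm (h.toFun y - h.toFun x) j
      rw [Pi.sub_apply, Real.norm_eq_abs] at e1
      obtain ⟨e2, e3⟩ := abs_le.1 (e1.trans hxy)
      constructor
      · refine ⟨j, hj, ?_⟩
        rw [hYx, Function.update_of_ne hj]
        rcases h2 with h2 | h2
        · left; linarith
        · right; linarith
      · refine ⟨j, hj, ?_⟩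
        rw [hYy, Function.update_of_ne hj]
        rcases h2 with h2 | h2
        · left; linarith
        · right; linarith
  · have h2 := win _ ((hμ0 _).trans bx2) bx1
    rw [hYx]
    refine mem_rtK ?_ ?_ (lx.update _)
    · rw [Function.update_self]; exact h2.1
    · rw [Function.update_self]; exact h2.2
  · have h2 := win _ ((hμ0 _).trans by2) by1
    rw [hYy]
    refine mem_rtK ?_ ?_ (ly.update _)
    · rw [Function.update_self]; exact h2.1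
    · rw [Function.update_self]; exact h2.2

/-- above the flat part, in the full zone, below the next level -/
theorem up_bd
    (I : GVch M E h h' (bxG L hc0 hc G₀) Gv (fun b => rtO G ω b.1 45) (fun b => rtO G ω b.1 60)
      (fun b => X b.1) (fun b => η b.1) Γ)
    (hκ : IsQ (fun g => thin (bxG L hc0 hc G₀ g) (c₁ g.1) (h0 g) (h1 g)) κ)
    {i : M.ι} (hi : i ∈ Gv) {b : TBx K} (hb : b ∈ G₀) (hcη : 2 * c₁ b ≤ η b)
    {ψ ϕ : V → V} {m : Fin (L.N b)} {x z : V} {s : ℝ}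
    (P : GPt M h h' (bxG L hc0 hc G₀) (fun b => rtO G ω b.1 45) (fun b => X b.1)
      (fun b => η b.1) Γ (fun b => c₁ b.1) h0 h1 i ψ ϕ 1 ⟨b, hb⟩ m x z s)
    (he : κ (ψ x) = h'.toFun (ϕ x)) (hm : (m : ℕ) + 1 < L.N b)
    (hl : Lat G ω b 20 (h'.toFun (ϕ x))) :
    0 ≤ s ∧ L.a b m + c₁ b ≤ ψ x b.ax ∧ ψ x b.ax ≤ L.a b (m + 1) - c₁ b ∧
      ∃ t, ψ x = Function.update (h'.toFun (ϕ x)) b.ax t := by
  have hω := L.ω0 b
  have hc1 : 0 < c₁ b := h0 ⟨b, hb⟩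
  obtain ⟨a1, a2, a3⟩ := P.up I hi
  rw [← P.cm] at a2 a3
  obtain ⟨ρ, hρ, hcx⟩ := P.cm_mem
  have hA : ϕ x = (Γ ⟨b, hb⟩ m).toFun (z, ρ) := P.cm.trans hcx
  have h2 : h'.toFun (ϕ x) b.ax < L.a b (m + 1) := by
    rw [hA]
    exact (I.between hi (g := ⟨b, hb⟩) (m := m) (m' := ⟨m + 1, hm⟩) P.zQ P.hz' P.zW hρ).1
      (Nat.lt_succ_self _)
  have h3 : 2 * η b < L.a b (m + 1) - L.a b m := I.sep ⟨b, hb⟩ m m.2 (m + 1) hm
    (Nat.lt_succ_self _)
  have hμ : mu (thin (bxG L hc0 hc G₀ ⟨b, hb⟩) (c₁ b) (h0 ⟨b, hb⟩) (h1 ⟨b, hb⟩))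
      (h'.toFun (ϕ x)) = c₁ b := muT_full L hc0 hc (h0 ⟨b, hb⟩) (h1 ⟨b, hb⟩) hl
  set A := h'.toFun (ϕ x) with hAd
  have a2' : 0 ≤ A b.ax - L.a b m := a2
  have a3' : ψ x = Function.update A b.ax (L.a b m + br (2 * c₁ b) (c₁ b) (A b.ax - L.a b m)) := by
    have := a3
    simp only at this
    rw [hμ] at this
    exact this
  have e : ψ x b.ax = L.a b m + br (2 * c₁ b) (c₁ b) (A b.ax - L.a b m) := by
    rw [a3', Function.update_self]
  have hm0 := L.mem_win (b := b) (k := m) m.2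
  have hm1 := L.mem_win (b := b) (k := m + 1) hm
  refine ⟨a1, ?_, ?_, _, a3'⟩
  · rw [e]
    have := le_br' (η := 2 * c₁ b) (m := c₁ b) (by linarith) a2'
    linarith
  · rcases le_or_gt (A b.ax - L.a b m) (2 * c₁ b) with h4 | h4
    · have := br_le (η := 2 * c₁ b) (m := c₁ b) a2' (by linarith)
      rw [e]
      linarith
    · have h5 : br (2 * c₁ b) (c₁ b) (A b.ax - L.a b m) = A b.ax - L.a b m := br_of_ge h4.le
      rw [h5] at e
      by_contra hcon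
      push Not at hcon
      have h6 : |ψ x b.ax - L.a b (m + 1)| ≤ c₁ b := abs_le.2 ⟨by linarith, by linarith⟩
      have hlat : Lat G ω b 20 (ψ x) := by rw [a3']; exact hl.update _
      have h7 := kap_full hκ hb hlat (by linarith) (by linarith) hm (by linarith)
      rw [he, (ph_zero_iff hc1.le (by linarith)).2 h6] at h7
      have h8 : A b.ax = L.a b (m + 1) + 0 := h7
      linarith

/-- below the flat part, in the full zone, above the previous level -/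
theorem dn_bd
    (I : GVch M E h h' (bxG L hc0 hc G₀) Gv (fun b => rtO G ω b.1 45) (fun b => rtO G ω b.1 60)
      (fun b => X b.1) (fun b => η b.1) Γ)
    (hκ : IsQ (fun g => thin (bxG L hc0 hc G₀ g) (c₁ g.1) (h0 g) (h1 g)) κ)
    {i : M.ι} (hi : i ∈ Gv) {b : TBx K} (hb : b ∈ G₀) (hcη : 2 * c₁ b ≤ η b)
    {ψ ϕ : V → V} {m : Fin (L.N b)} {x z : V} {s : ℝ}
    (P : GPt M h h' (bxG L hc0 hc G₀) (fun b => rtO G ω b.1 45) (fun b => X b.1)
      (fun b => η b.1) Γ (fun b => c₁ b.1) h0 h1 i ψ ϕ 2 ⟨b, hb⟩ m x z s)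
    (he : κ (ψ x) = h'.toFun (ϕ x)) {m₀ : ℕ} (hm : (m : ℕ) = m₀ + 1)
    (hl : Lat G ω b 20 (h'.toFun (ϕ x))) :
    s ≤ 0 ∧ L.a b m₀ + c₁ b ≤ ψ x b.ax ∧ ψ x b.ax ≤ L.a b (m₀ + 1) - c₁ b ∧
      ∃ t, ψ x = Function.update (h'.toFun (ϕ x)) b.ax t := by
  have hω := L.ω0 b
  have hc1 : 0 < c₁ b := h0 ⟨b, hb⟩
  have hmN : m₀ + 1 < L.N b := hm ▸ m.2
  obtain ⟨a1, a2, a3⟩ := P.dn I hi
  rw [← P.cm] at a2 a3
  obtain ⟨ρ, hρ, hcx⟩ := P.cm_mem
  have hA : ϕ x = (Γ ⟨b, hb⟩ m).toFun (z, ρ) := P.cm.trans hcx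
  have h2 : L.a b m₀ < h'.toFun (ϕ x) b.ax := by
    rw [hA]
    have h21 : m₀ < (m : ℕ) := by omega
    have h22 : m₀ < L.N b := by omega
    exact (I.between hi (g := ⟨b, hb⟩) (m := m) (m' := ⟨m₀, h22⟩) P.zQ P.hz' P.zW hρ).2 h21
  have h30 : m₀ < (m : ℕ) := by omega
  have h31 : m₀ < L.N b := by omega
  have h3 : 2 * η b < L.a b m - L.a b m₀ := I.sep ⟨b, hb⟩ m₀ h31 m m.2 h30
  have hμ : mu (thin (bxG L hc0 hc G₀ ⟨b, hb⟩) (c₁ b) (h0 ⟨b, hb⟩) (h1 ⟨b, hb⟩))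
      (h'.toFun (ϕ x)) = c₁ b := muT_full L hc0 hc (h0 ⟨b, hb⟩) (h1 ⟨b, hb⟩) hl
  set A := h'.toFun (ϕ x) with hAd
  have a2' : 0 ≤ -(A b.ax - L.a b m) := neg_nonneg.2 a2
  have a3' : ψ x = Function.update A b.ax
      (L.a b m - br (2 * c₁ b) (c₁ b) (-(A b.ax - L.a b m))) := by
    have := a3
    simp only at this
    rw [hμ] at this
    exact this
  have e : ψ x b.ax = L.a b m - br (2 * c₁ b) (c₁ b) (-(A b.ax - L.a b m)) := by
    rw [a3', Function.update_self]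
  have hm0 := L.mem_win (b := b) (k := m) m.2
  have hm1 := L.mem_win (b := b) (k := m₀) (by omega)
  have hmm : L.a b m = L.a b (m₀ + 1) := by rw [hm]
  refine ⟨a1, ?_, ?_, _, a3'⟩
  · rcases le_or_gt (-(A b.ax - L.a b m)) (2 * c₁ b) with h4 | h4
    · have := br_le (η := 2 * c₁ b) (m := c₁ b) a2' (by linarith)
      rw [e]
      linarith
    · have h5 : br (2 * c₁ b) (c₁ b) (-(A b.ax - L.a b m)) = -(A b.ax - L.a b m) :=
        br_of_ge h4.le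
      rw [h5] at e
      by_contra hcon
      push Not at hcon
      have h6 : |ψ x b.ax - L.a b m₀| ≤ c₁ b := abs_le.2 ⟨by linarith, by linarith⟩
      have hlat : Lat G ω b 20 (ψ x) := by rw [a3']; exact hl.update _
      have h7 := kap_full hκ hb hlat (by linarith) (by linarith) (k := m₀) (by omega)
        (by linarith)
      rw [he, (ph_zero_iff hc1.le (by linarith)).2 h6] at h7
      have h8 : A b.ax = L.a b m₀ + 0 := h7
      linarith
  · rw [e, ← hmm]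
    have := le_br' (η := 2 * c₁ b) (m := c₁ b) (by linarith) a2'
    linarith

/-- both points between two levels, in the middle zone -/
theorem lp_mid
    (I : GVch M E h h' (bxG L hc0 hc G₀) Gv (fun b => rtO G ω b.1 45) (fun b => rtO G ω b.1 60)
      (fun b => X b.1) (fun b => η b.1) Γ)
    (hκ : IsQ (fun g => thin (bxG L hc0 hc G₀ g) (c₁ g.1) (h0 g) (h1 g)) κ)
    {i : M.ι} (hi : i ∈ Gv) {b : TBx K} (hb : b ∈ G₀) (hcη : 2 * c₁ b ≤ η b)
    {ψ ϕ : V → V} {k : Fin 3} (hk : k = 1 ∨ k = 2) {m : Fin (L.N b)} {x y z z' : V} {s s' : ℝ}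
    (P : GPt M h h' (bxG L hc0 hc G₀) (fun b => rtO G ω b.1 45) (fun b => X b.1)
      (fun b => η b.1) Γ (fun b => c₁ b.1) h0 h1 i ψ ϕ k ⟨b, hb⟩ m x z s)
    (P' : GPt M h h' (bxG L hc0 hc G₀) (fun b => rtO G ω b.1 45) (fun b => X b.1)
      (fun b => η b.1) Γ (fun b => c₁ b.1) h0 h1 i ψ ϕ k ⟨b, hb⟩ m y z' s')
    (he : κ (ψ x) = h'.toFun (ϕ x)) (he' : κ (ψ y) = h'.toFun (ϕ y))
    (hl : Lat G ω b 12 (h'.toFun (ϕ x))) (hl' : Lat G ω b 12 (h'.toFun (ϕ y)))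
    (hx40 : G.tlo true b b.ax + 40 * ω b ≤ h.toFun x b.ax ∧
      h.toFun x b.ax ≤ G.thi true b b.ax - 40 * ω b)
    (hends : L.a b 0 ≤ G.tlo true b b.ax + 34 * ω b ∧
      G.thi true b b.ax - 34 * ω b ≤ L.a b (L.N b - 1))
    {w L₁ L₂ ξ : ℝ} : LP L c₁ κ ψ b w L₁ L₂ ξ x y := by
  have hω := L.ω0 b
  have hc1 : 0 < c₁ b := h0 ⟨b, hb⟩
  have hη0 : 0 < η b := by linarith
  have hlev : h.toFun x b.ax = L.a b m + η b * s := by
    rw [P.eq]
    exact I.level ⟨b, hb⟩ m z P.mem_lev s P.hs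
  have h20 : ∀ {y : V}, Lat G ω b 12 y → Lat G ω b 20 y := fun h => h.mono hω (by norm_num)
  have hm0 := L.mem_win (b := b) (k := m) m.2
  rcases hk with rfl | rfl
  · have hs0 := (P.up I hi).1
    have hm : (m : ℕ) + 1 < L.N b := by
      by_contra hcon
      have h2 : (m : ℕ) = L.N b - 1 := by have := m.2; omega
      have h3 := mul_nonneg hη0.le hs0
      have h4 := hends.2
      rw [← h2] at h4
      linarith [hx40.2]
    have hm1 := L.mem_win (b := b) (k := m + 1) hm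
    obtain ⟨-, u1, u2, t, ut⟩ := up_bd I hκ hi hb hcη P he hm (h20 hl)
    obtain ⟨-, v1, v2, t', vt⟩ := up_bd I hκ hi hb hcη P' he' hm (h20 hl')
    refine LP.mid (mem_rtK (by linarith) (by linarith) (by rw [ut]; exact hl.update _))
      (mem_rtK (by linarith) (by linarith) (by rw [vt]; exact hl'.update _))
      (Or.inr ⟨m, hm, ⟨u1, u2⟩, v1, v2⟩)
  · have hs0 := (P.dn I hi).1
    have hmz : (m : ℕ) ≠ 0 := by
      intro h2
      have h3 := mul_nonneg hη0.le (neg_nonneg.2 hs0)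
      have h4 := hends.1
      rw [← h2] at h4
      linarith [hx40.1]
    obtain ⟨m₀, hm₀⟩ := Nat.exists_eq_succ_of_ne_zero hmz
    have hmN : m₀ + 1 < L.N b := by have := m.2; omega
    have hm1 := L.mem_win (b := b) (k := m₀) (by omega)
    have hm2 := L.mem_win (b := b) (k := m₀ + 1) hmN
    obtain ⟨-, u1, u2, t, ut⟩ := dn_bd I hκ hi hb hcη P he hm₀ (h20 hl)
    obtain ⟨-, v1, v2, t', vt⟩ := dn_bd I hκ hi hb hcη P' he' hm₀ (h20 hl')
    refine LP.mid (mem_rtK (by linarith) (by linarith) (by rw [ut]; exact hl.update _))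
      (mem_rtK (by linarith) (by linarith) (by rw [vt]; exact hl'.update _))
      (Or.inr ⟨m₀, hmN, ⟨u1, u2⟩, v1, v2⟩)

/-- **[LP]**, general numbers -/
theorem lps_gen
    (O : TStageW G M h h' Pr Wt Act₀ G₀ L.lev ω)
    (I : GVch M E h h' (bxG L hc0 hc G₀) Gv (fun b => rtO G ω b.1 45) (fun b => rtO G ω b.1 60)
      (fun b => X b.1) (fun b => η b.1) Γ)
    (Ov : GVout M E h h' (bxG L hc0 hc G₀) Gv (fun b => rtO G ω b.1 45) (fun b => X b.1)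
      (fun b => η b.1) Γ (fun b => c₁ b.1) h0 h1 κ Ψ φ)
    (hκ : IsQ (fun g => thin (bxG L hc0 hc G₀ g) (c₁ g.1) (h0 g) (h1 g)) κ)
    {i : M.ι} (hi : i ∈ Gv) (hiW : i ∈ Wt) {b : TBx K} (hb : b ∈ G₀) (hcη : 2 * c₁ b ≤ η b)
    (hηω : η b ≤ 6 * ω b) (hcω : c₁ b ≤ ω b) {lam Lb K' L₁ L₂ ξ : ℝ} (hlam : lam ≤ ω b / 20)
    (hcl : ∀ m : Fin (L.N b), ∀ z ∈ lev (X b) (fun x => h.toFun x b.ax) (L.a b m),
      ∀ s ∈ Icc (-1:ℝ) 1, ∀ s' ∈ Icc (-1:ℝ) 1, ‖h.toFun ((Γ ⟨b, hb⟩ m).toFun (z, s)) -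
        h.toFun ((Γ ⟨b, hb⟩ m).toFun (z, s'))‖ ≤ lam)
    {ι' : Type*} {Mf : ι' → Set V} {Qs : Set (Set V)}
    (hG : ∀ m : Fin (L.N b), Vale.Agent.P073.H669.GamOk h (X b) b.ax Mf Qs Lb (L.a b m) (η b)
      (Γ ⟨b, hb⟩ m)) (hQs : M.Q i ∈ Qs)
    (hK0 : 0 ≤ K') (hLb : 0 ≤ Lb)
    (hK : ∀ p ∈ M.Q i, ∀ p' ∈ M.Q i, ‖h.toFun p - h.toFun p'‖ ≤ K' * ‖p - p'‖)
    (hξ : η b * (K' * Lb) / (40 * ω b) + c₁ b / (20 * ω b) *
      (K' * (Lb * (1 + 2 * K' + η b * (K' * Lb) / (40 * ω b)))) ≤ ξ) (hL₁ : K' * Lb ≤ L₁)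
    (hL₂ : K' * (Lb * (1 + 2 * K' + η b * (K' * Lb) / (40 * ω b))) ≤ L₂)
    (hL₂' : 2 * K' + ξ ≤ L₂)
    (hends : L.a b 0 ≤ G.tlo true b b.ax + 34 * ω b ∧
      G.thi true b b.ax - 34 * ω b ≤ L.a b (L.N b - 1))
    {x : V} (hx : x ∈ M.Q i) (hxT : h.toFun x ∈ G.TB false b)
    (hx40 : i ∈ Pr ∨ (G.tlo true b b.ax + 40 * ω b ≤ h.toFun x b.ax ∧
      h.toFun x b.ax ≤ G.thi true b b.ax - 40 * ω b)) :
    LPs L c₁ κ (Ψ i hi).toFun (M.Q i) b (η b) L₁ L₂ ξ x := by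
  have hω := L.ω0 b
  have hc1 : 0 < c₁ b := h0 ⟨b, hb⟩
  have i0 : (0:ℝ) ∈ Icc (-1:ℝ) 1 := by norm_num
  have hxO : x ∈ Ω := M.sub i hx
  -- what holds near `x`
  have hev1 : ∀ᶠ y in 𝓝[M.Q i] x, ‖h.toFun y - h.toFun x‖ < ω b / 20 := by
    have h2 := ((mesh_cc h i).cont x hx).tendsto.eventually
      (ball_mem_nhds (h.toFun x) (by positivity : 0 < ω b / 20))
    filter_upwards [h2] with y hy
    rwa [dist_eq_norm] at hy
  have hev2 : ∀ᶠ y in 𝓝[M.Q i] x, ‖h'.toFun y - h'.toFun x‖ < c₁ b := by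
    have h2 := ((mesh_cc h' i).cont x hx).tendsto.eventually (ball_mem_nhds (h'.toFun x) hc1)
    filter_upwards [h2] with y hy
    rwa [dist_eq_norm] at hy
  have hev3 : ∀ᶠ y in 𝓝[M.Q i] x, (∀ᶠ y in 𝓝 x, h'.toFun y = h.toFun y) →
      h'.toFun y = h.toFun y := by
    by_cases H : ∀ᶠ y in 𝓝 x, h'.toFun y = h.toFun y
    · filter_upwards [mem_nhdsWithin_of_mem_nhds H] with y hy _
      exact hy
    · exact Eventually.of_forall fun y h2 => absurd h2 H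
  have hev4 : ∀ᶠ y in 𝓝[M.Q i] x, h'.toFun x ∈ interior (TMid G b (ω b)) →
      h'.toFun y ∈ interior (TMid G b (ω b)) := by
    by_cases H : h'.toFun x ∈ interior (TMid G b (ω b))
    · have h2 := ((mesh_cc h' i).cont x hx).tendsto.eventually (isOpen_interior.mem_nhds H)
      filter_upwards [h2] with y hy _
      exact hy
    · exact Eventually.of_forall fun y h2 => absurd h2 H
  -- points of the fibres
  have hgb : ∀ {g : G₀} {m : Fin (bxG L hc0 hc G₀ g).N} {k : Fin 3} {z : V} {s : ℝ},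
      GPt M h h' (bxG L hc0 hc G₀) (fun b => rtO G ω b.1 45) (fun b => X b.1)
        (fun b => η b.1) Γ (fun b => c₁ b.1) h0 h1 i (Ψ i hi).toFun (φ i) k g m x z s →
      g.1 = b := by
    intro g m k z s P
    by_contra hne
    have h2 : h'.toFun x ∈ rtO G ω g.1 60 := by
      rw [P.eq]
      exact I.win i hi g m z P.mem_lev P.zQ P.zW s P.hs
    have h3 : h'.toFun x ∈ G.TB false b := (O.mem b x hxO).2 hxT
    rcases end_TB hne (rtK_sub L (by norm_num) (rtO_sub g.1 60 h2)) h3 with h4 | h4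
    · exact absurd h2.1.1 (not_lt.2 h4)
    · exact absurd h2.1.2 (not_lt.2 h4)
  have hloc := Ov.local' hi x (P := fun g m y => g.1 = b → ∀ s ∈ Icc (-1:ℝ) 1,
    ‖(Γ g m).toFun (((Γ g m).invFun y).1, s) - (Γ g m).toFun (((Γ g m).invFun x).1, s)‖ ≤
      Lb * ‖y - x‖) (fun g m _ hxb => by
      by_cases hgb : g.1 = b
      · obtain ⟨g, hg⟩ := g
        have hgb' : g = b := hgb
        subst hgb'
        filter_upwards [(hG m).lip (M.Q i) hQs x hxb hx] with y hy hyb _ s hs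
        exact hy s hs hyb
      · exact Eventually.of_forall fun y _ h2 => absurd h2 hgb)
  filter_upwards [hloc, hev1, hev2, hev3, hev4, self_mem_nhdsWithin] with y hy e1 e2 e3 e4 hyQ
  rcases hy with ⟨a1, a2, a3, a4⟩ | ⟨k, g, m, z, z', s, s', P, P', hPy⟩
  · refine lp_off O hκ hb hiW hx hxT a1 a3 ?_ ?_ hx40 hends e2 e3 e4
    · have := Ov.eq i hi x hx
      rwa [a1, a2] at this
    · have := Ov.eq i hi y hyQ
      rwa [a3, a4] at this
  · have hgb1 := hgb P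
    obtain ⟨g, hg⟩ := g
    have hgb' : g = b := hgb1
    subst hgb'
    have hbg : hg = hb := rfl
    have hlip : ∀ t ∈ Icc (-1:ℝ) 1, ‖(Γ ⟨g, hg⟩ m).toFun (z, t) - (Γ ⟨g, hg⟩ m).toFun (z', t)‖ ≤
        Lb * ‖x - y‖ := by
      intro t ht
      have h2 := hPy rfl t ht
      have hz1 : (Γ ⟨g, hg⟩ m).invFun x = (z, s) := by
        rw [P.eq]
        exact (Γ ⟨g, hg⟩ m).left_inv ⟨P.mem_lev, P.hs⟩
      have hz2 : (Γ ⟨g, hg⟩ m).invFun y = (z', s') := by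
        rw [P'.eq]
        exact (Γ ⟨g, hg⟩ m).left_inv ⟨P'.mem_lev, P'.hs⟩
      rw [hz1, hz2] at h2
      rw [norm_sub_rev, norm_sub_rev x y]
      exact h2
    have hzx : (Γ ⟨g, hg⟩ m).toFun (z, 0) = z := I.zero ⟨g, hg⟩ m z P.mem_lev
    have hzy : (Γ ⟨g, hg⟩ m).toFun (z', 0) = z' := I.zero ⟨g, hg⟩ m z' P'.mem_lev
    have hk : k = 0 ∨ (k = 1 ∨ k = 2) := by fin_cases k <;> simp
    rcases hk with hk | hk
    · subst hk
      refine lp_flat I hi hb hcω P P' ?_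
      have h2 := hlip 0 i0
      rw [hzx, hzy] at h2
      have h3 := mul_le_mul_of_nonneg_left h2 hK0
      have h4 := hK z P.zQ z' P'.zQ
      have h5 := mul_le_mul_of_nonneg_right hL₁ (norm_nonneg (x - y))
      have e : K' * (Lb * ‖x - y‖) = K' * Lb * ‖x - y‖ := by ring
      rw [e] at h3
      exact (h4.trans h3).trans h5
    · -- a point of the fibres where the map is changed: everything is in the middle zone
      have hfib : ∀ {x' z'' : V} {s'' : ℝ}, GPt M h h' (bxG L hc0 hc G₀)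
          (fun b => rtO G ω b.1 45) (fun b => X b.1) (fun b => η b.1) Γ (fun b => c₁ b.1) h0 h1 i
          (Ψ i hi).toFun (φ i) k ⟨g, hb⟩ m x' z'' s'' → ∀ t ∈ Icc (-1:ℝ) 1,
          (Γ ⟨g, hb⟩ m).toFun (z'', t) ∈ M.Q i ∧
          h.toFun ((Γ ⟨g, hb⟩ m).toFun (z'', t)) ∈ G.TB false g ∧
          ‖h.toFun ((Γ ⟨g, hb⟩ m).toFun (z'', t)) - h.toFun x'‖ ≤ lam := by
        intro x' z'' s'' P'' t ht
        have q1 : (Γ ⟨g, hb⟩ m).toFun (z'', t) ∈ M.Q i :=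
          (I.mem_cell hi (g := ⟨g, hb⟩) m P''.mem_lev ht).2 P''.zQ
        have q2 := I.win i hi ⟨g, hb⟩ m z'' P''.mem_lev P''.zQ P''.zW t ht
        refine ⟨q1, ?_, ?_⟩
        · exact (O.mem g _ (M.sub i q1)).1 (rtK_sub L (by norm_num) (rtO_sub g 60 q2))
        · rw [P''.eq]
          exact hcl m z'' P''.mem_lev t ht s'' P''.hs
      have hpt : ∀ {x' z'' : V} {s'' : ℝ}, GPt M h h' (bxG L hc0 hc G₀)
          (fun b => rtO G ω b.1 45) (fun b => X b.1) (fun b => η b.1) Γ (fun b => c₁ b.1) h0 h1 i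
          (Ψ i hi).toFun (φ i) k ⟨g, hb⟩ m x' z'' s'' → Lat G ω g (102 / 10) (h.toFun x') →
          Lat G ω g 12 (h'.toFun (φ i x')) := by
        intro x' z'' s'' P'' hl
        obtain ⟨ρ, hρ, hcx⟩ := P''.cm_mem
        obtain ⟨q1, q2, q3⟩ := hfib P'' ρ hρ
        rw [P''.cm.trans hcx]
        rcases eq_or_mid L O (M.sub i q1) q2 with h2 | ⟨-, h2⟩
        · rw [h2.self_of_nhds]
          exact hl.near q3 (by linarith)
        · exact (of_TMid h2).2.mono hω (by norm_num)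
      have hmid : ∀ q ∈ M.Q i, h.toFun q ∈ G.TB false g → h'.toFun q ≠ h.toFun q →
          ‖h.toFun x - h.toFun q‖ ≤ ω g / 10 →
          LP L c₁ κ (Ψ i hi).toFun g (η g) L₁ L₂ ξ x y := by
        intro q hq hqT hne hd
        rcases hx40 with h2 | h2
        · exact absurd (O.wall i h2 q hq).self_of_nhds hne
        · rcases eq_or_mid L O (M.sub i hq) hqT with h3 | ⟨h3, -⟩
          · exact absurd h3.self_of_nhds hne
          · have l1 : Lat G ω g (101 / 10) (h.toFun x) := (of_TMid h3).2.near hd (by linarith)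
            have l2 : Lat G ω g (102 / 10) (h.toFun y) := l1.near e1.le (by linarith)
            exact lp_mid I hκ hi hb hcη hk P P' (Ov.eq i hi x hx) (Ov.eq i hi y hyQ)
              (hpt P (l1.mono hω (by norm_num))) (hpt P' l2) h2 hends
      by_cases hfx : ∀ t ∈ Icc (-1:ℝ) 1, h'.toFun ((Γ ⟨g, hb⟩ m).toFun (z, t)) =
          h.toFun ((Γ ⟨g, hb⟩ m).toFun (z, t))
      · by_cases hfy : ∀ t ∈ Icc (-1:ℝ) 1, h'.toFun ((Γ ⟨g, hb⟩ m).toFun (z', t)) =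
            h.toFun ((Γ ⟨g, hb⟩ m).toFun (z', t))
        · exact lp_side I hi hb hcη hηω hk P P' hfx hfy hlam (hcl m z P.mem_lev)
            (hcl m z' P'.mem_lev) e1.le hK0 hLb hK hlip (hG m |>.fib z' P'.mem_lev) hξ hL₂ hL₂'
        · push Not at hfy
          obtain ⟨t, ht, hne⟩ := hfy
          obtain ⟨q1, q2, q3⟩ := hfib P' t ht
          refine hmid _ q1 q2 hne ?_
          have h3 := norm_sub_le_norm_sub_add_norm_sub (h.toFun x) (h.toFun y)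
            (h.toFun ((Γ ⟨g, hb⟩ m).toFun (z', t)))
          rw [norm_sub_rev (h.toFun x) (h.toFun y), norm_sub_rev (h.toFun y)
            (h.toFun ((Γ ⟨g, hb⟩ m).toFun (z', t)))] at h3
          linarith
      · push Not at hfx
        obtain ⟨t, ht, hne⟩ := hfx
        obtain ⟨q1, q2, q3⟩ := hfib P t ht
        refine hmid _ q1 q2 hne ?_
        rw [norm_sub_rev]
        linarith

/-- **[LP]** -/
theorem lps_of
    (O : TStageW G M h h' Pr Wt Act₀ G₀ L.lev ω)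
    (I : GVch M E h h' (bxG L hc0 hc G₀) Gv (fun b => rtO G ω b.1 45) (fun b => rtO G ω b.1 60)
      (fun b => X b.1) (fun b => η b.1) Γ)
    (Ov : GVout M E h h' (bxG L hc0 hc G₀) Gv (fun b => rtO G ω b.1 45) (fun b => X b.1)
      (fun b => η b.1) Γ (fun b => c₁ b.1) h0 h1 κ Ψ φ)
    (hκ : IsQ (fun g => thin (bxG L hc0 hc G₀ g) (c₁ g.1) (h0 g) (h1 g)) κ)
    {i : M.ι} (hi : i ∈ Gv) (hiW : i ∈ Wt) {b : TBx K} (hb : b ∈ G₀) (hcη : 2 * c₁ b ≤ η b)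
    (hηω : η b ≤ 6 * ω b) (hcω : c₁ b ≤ ω b) {lam Lb K' L₁ L₂ ξ : ℝ} (hlam : lam ≤ ω b / 20)
    (hcl : ∀ m : Fin (L.N b), ∀ z ∈ lev (X b) (fun x => h.toFun x b.ax) (L.a b m),
      ∀ s ∈ Icc (-1:ℝ) 1, ∀ s' ∈ Icc (-1:ℝ) 1, ‖h.toFun ((Γ ⟨b, hb⟩ m).toFun (z, s)) -
        h.toFun ((Γ ⟨b, hb⟩ m).toFun (z, s'))‖ ≤ lam)
    {ι' : Type*} {Mf : ι' → Set V} {Qs : Set (Set V)}
    (hG : ∀ m : Fin (L.N b), Vale.Agent.P073.H669.GamOk h (X b) b.ax Mf Qs Lb (L.a b m) (η b)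
      (Γ ⟨b, hb⟩ m)) (hQs : M.Q i ∈ Qs)
    (hK0 : 0 ≤ K') (hLb : 0 ≤ Lb)
    (hK : ∀ p ∈ M.Q i, ∀ p' ∈ M.Q i, ‖h.toFun p - h.toFun p'‖ ≤ K' * ‖p - p'‖)
    (hX : η b * (K' * Lb) ≤ 40 * ω b) (hξ : η b * (K' * Lb * (1 + K')) ≤ 10 * (ω b * ξ))
    (hL₁ : K' * Lb ≤ L₁) (hL₂ : K' * (Lb * (2 + 2 * K')) ≤ L₂) (hL₂' : 2 * K' + ξ ≤ L₂)
    (hends : L.a b 0 ≤ G.tlo true b b.ax + 34 * ω b ∧
      G.thi true b b.ax - 34 * ω b ≤ L.a b (L.N b - 1))
    {x : V} (hx : x ∈ M.Q i) (hxT : h.toFun x ∈ G.TB false b)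
    (hx40 : i ∈ Pr ∨ (G.tlo true b b.ax + 40 * ω b ≤ h.toFun x b.ax ∧
      h.toFun x b.ax ≤ G.thi true b b.ax - 40 * ω b)) :
    LPs L c₁ κ (Ψ i hi).toFun (M.Q i) b (η b) L₁ L₂ ξ x := by
  have hω := L.ω0 b
  have hc1 : 0 < c₁ b := h0 ⟨b, hb⟩
  have hη0 : 0 < η b := by linarith
  have hX0 : 0 ≤ η b * (K' * Lb) / (40 * ω b) := by positivity
  have hX1 : η b * (K' * Lb) / (40 * ω b) ≤ 1 := (div_le_one (by positivity)).2 hX
  refine lps_gen O I Ov hκ hi hiW hb hcη hηω hcω hlam hcl hG hQs hK0 hLb hK ?_ hL₁ ?_ hL₂' hends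
    hx hxT hx40
  · have h2 : c₁ b / (20 * ω b) * (K' * (Lb * (1 + 2 * K' + η b * (K' * Lb) / (40 * ω b)))) ≤
        η b / (40 * ω b) * (K' * (Lb * (2 + 2 * K'))) := by
      have h3 : c₁ b / (20 * ω b) ≤ η b / (40 * ω b) := by
        rw [div_le_div_iff₀ (by positivity) (by positivity)]
        nlinarith
      refine mul_le_mul h3 ?_ (by positivity) (by positivity)
      exact mul_le_mul_of_nonneg_left (mul_le_mul_of_nonneg_left (by linarith) hLb) hK0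
    have h4 : η b * (K' * Lb) / (40 * ω b) + η b / (40 * ω b) * (K' * (Lb * (2 + 2 * K'))) =
        (η b * (K' * Lb) * (3 + 2 * K')) / (40 * ω b) := by ring
    have h5 : (η b * (K' * Lb) * (3 + 2 * K')) / (40 * ω b) ≤ ξ := by
      rw [div_le_iff₀ (by positivity)]
      have h6 : 0 ≤ η b * (K' * Lb) := by positivity
      nlinarith
    linarith
  · refine le_trans ?_ hL₂
    exact mul_le_mul_of_nonneg_left (mul_le_mul_of_nonneg_left (by linarith) hLb) hK0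

end main

end round

end P073.H399
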