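import Vale.Agent.P073.H399.GivD

/-!
# P073, H399: **[RT-GIV]**, the inserted map on the given cells, with one chart for every level
-/

open Set Metric Topology Filter

namespace P073.H399

open P073 P073.TR P073.H936 P073.H345 P073.H236 P073.H579
open Vale.Agent.P073.H73 (Mesh)
open Vale.Agent.P073.H193 (Edges)

variable {γ : Type*} {Ω Λ : Set (Fin 3 → ℝ)} {M : Mesh Ω} {E : Edges M} {h h' : ConHomeo Ω Λ}
  {B : γ → BX 3} {Gv : Set M.ι} {W R : γ → Set (Fin 3 → ℝ)} {C : γ → Set (Fin 3 → ℝ)} {w : γ → ℝ}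
  {Γ : ∀ (g : γ) (m : Fin (B g).N), ConHomeo
    (lev (C g) (uG h B g) ((B g).a m) ×ˢ Icc (-1:ℝ) 1)
    (band (C g) (uG h B g) ((B g).a m) (w g))}

theorem mesh_cc (h : ConHomeo Ω Λ) (j : M.ι) : CC h.toFun (M.Q j) :=
  ⟨h.cont.mono (M.sub j), h.conical.mono (Vale.Agent.P073.H244.conBall_cell M j).conicalSet
    (M.sub j)⟩

namespace GVch

/-- a point of the new level in the window is on the old level, in the chart domain -/
theorem mem_lev (G : GVch M E h h' B Gv W R C w Γ) {j : M.ι} (hj : j ∈ Gv) {g : γ}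
    (m : Fin (B g).N) {z : Fin 3 → ℝ} (hz : z ∈ M.Q j) (hza : h'.toFun z (B g).j = (B g).a m)
    (hzR : h'.toFun z ∈ R g) : z ∈ lev (C g) (uG h B g) ((B g).a m) := by
  refine ⟨G.Ccov j hj g z hz hzR, ?_⟩
  have h1 := (G.keep j hj g z hz hzR m m.2 hza).self_of_nhds
  show h.toFun z (B g).j = _
  rw [← h1, hza]

/-- a chart preserves the given cells -/
theorem mem_cell (G : GVch M E h h' B Gv W R C w Γ) {j : M.ι} (hj : j ∈ Gv) {g : γ}
    (m : Fin (B g).N) {z : Fin 3 → ℝ} (hz : z ∈ lev (C g) (uG h B g) ((B g).a m)) {s : ℝ}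
    (hs : s ∈ Icc (-1:ℝ) 1) : (Γ g m).toFun (z, s) ∈ M.Q j ↔ z ∈ M.Q j :=
  G.inv g m (Sum.inl ⟨j, hj⟩) z hz s hs

/-- the signs of the new map on the fibres -/
theorem sign (G : GVch M E h h' B Gv W R C w Γ) {j : M.ι} (hj : j ∈ Gv) {g : γ}
    (m : Fin (B g).N) {z : Fin 3 → ℝ} (hz : z ∈ M.Q j) (hza : h'.toFun z (B g).j = (B g).a m)
    (hzW : h'.toFun z ∈ W g) :
    (∀ s ∈ Icc (-1:ℝ) 1, 0 < s → (B g).a m < h'.toFun ((Γ g m).toFun (z, s)) (B g).j) ∧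
    ∀ s ∈ Icc (-1:ℝ) 1, s < 0 → h'.toFun ((Γ g m).toFun (z, s)) (B g).j < (B g).a m := by
  have hzR := G.WR g hzW
  have hzl := G.mem_lev hj m hz hza hzR
  refine sign_fibre (Q := M.Q j) (f := fun x => h'.toFun x (B g).j) (u := uG h B g)
    (φ := fun s => (Γ g m).toFun (z, s)) ((mesh_cc h' j).apply (B g).j).cont (G.w0 g) ?_
    (fun s hs => (G.mem_cell hj m hzl hs).2 hz) (G.zero g m z hzl)
    (fun s hs => G.level g m z hzl s hs) (fun s hs he => ?_) ?_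
  · exact (Γ g m).cont.comp (by fun_prop) fun s hs => ⟨hzl, hs⟩
  · exact (G.mem_lev hj m ((G.mem_cell hj m hzl hs).2 hz) he (G.win j hj g m z hzl hz hzW s hs)).2
  · filter_upwards [G.keep j hj g z hz hzR m m.2 hza] with y hy _
    show h'.toFun y (B g).j = h.toFun y (B g).j
    rw [hy]

end GVch

/-- the thickness is `0` off the box -/
theorem mu_zero_off (Bx : BX 3) {c : ℝ} {h0 : 0 < c} {h1 : c ≤ Bx.c} {k : ℕ} (hk : k < Bx.N)
    {y : Fin 3 → ℝ} (hy : |y Bx.j - Bx.a k| < 2 * c) (hyK : y ∉ Bx.K) :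
    mu (thin Bx c h0 h1) y = 0 := by
  refine mu_zero (thin Bx c h0 h1) fun h2 => hyK ((mem_K _).2 ⟨?_, h2⟩)
  obtain ⟨a1, a2⟩ := abs_lt.1 hy
  have e2 := Bx.lvs.first_le hk
  have e3 := Bx.lvs.le_last hk
  constructor <;> linarith

/-- **one given cell** -/
theorem exists_gv_cell (H : Fam Λ B) (G : GVch M E h h' B Gv W R C w Γ) (j : M.ι) (hj : j ∈ Gv) :
    ∃ (A : Set (Fin 3 → ℝ)) (L : (Σ g, Fin (B g).N) → Set (Fin 3 → ℝ)), IsClosed A ∧ A ⊆ M.Q j ∧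
    (∀ p, IsCompact (L p)) ∧ {p | (L p).Nonempty}.Finite ∧
    (∀ p, ∀ z ∈ L p, z ∈ M.Q j ∧ z ∈ C p.1 ∧ uG h B p.1 z = (B p.1).a p.2 ∧
      h'.toFun z (B p.1).j = (B p.1).a p.2 ∧ h'.toFun z ∈ W p.1) ∧
    (M.Q j ⊆ A ∪ ⋃ p, (Γ p.1 p.2).toFun '' (L p ×ˢ Icc (-1:ℝ) 1)) ∧
    ∃ η₀ : ℝ, 0 < η₀ ∧ ∀ (c : γ → ℝ) (h0 : ∀ g, 0 < c g) (h1 : ∀ g, c g ≤ (B g).c),
      (∀ g, ((B g).K ∩ h'.toFun '' M.Q j).Nonempty → c g ≤ η₀) → (∀ g, 2 * c g ≤ (B g).c) →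
      ∀ κ, IsQ (fun g => thin (B g) (c g) (h0 g) (h1 g)) κ →
      ∃ (Φ : ConHomeo (M.Q j) (κ ⁻¹' (h'.toFun '' M.Q j))) (φ : (Fin 3 → ℝ) → Fin 3 → ℝ),
        PassedD (M.Q j) h'.toFun κ (famG M E Gv) Φ φ ∧
        (∀ g (m : Fin (B g).N), ∀ z ∈ M.Q j, h'.toFun z (B g).j = (B g).a m →
          h'.toFun z ∈ W g → ∀ s ∈ Icc (-1:ℝ) 1,
          φ ((Γ g m).toFun (z, s)) = cm h'.toFun (1 / (2 * c g))
            (mu (thin (B g) (c g) (h0 g) (h1 g))) (Γ g m).toFun (z, s) ∧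
          Φ.toFun ((Γ g m).toFun (z, s)) = ym h'.toFun (B g).j ((B g).a m) (2 * c g)
            (1 / (2 * c g)) (mu (thin (B g) (c g) (h0 g) (h1 g))) (Γ g m).toFun (z, s)) ∧
        (∀ x ∈ M.Q j, (∀ g (m : Fin (B g).N), ∀ z ∈ M.Q j,
          h'.toFun z (B g).j = (B g).a m → h'.toFun z ∈ W g → ∀ s ∈ Icc (-1:ℝ) 1,
          (Γ g m).toFun (z, s) ≠ x) → Φ.toFun x = h'.toFun x ∧ φ x = x) ∧
        ∀ x ∈ A, Φ.toFun x = h'.toFun x ∧ φ x = x := by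
  classical
  set Q := M.Q j with hQ
  have hQc : IsCompact Q := (M.poly j).cpt
  have hcc : CC h'.toFun Q := mesh_cc h' j
  have hinj : InjOn h'.toFun Q := h'.injOn.mono (M.sub j)
  have hQcon : ConicalSet Q := (Vale.Agent.P073.H244.conBall_cell M j).conicalSet
  have hQΛ : h'.toFun '' Q ⊆ Λ := by
    rintro _ ⟨x, hx, rfl⟩; exact h'.mapsTo (M.sub j hx)
  have hfin := H.finite (hQc.image_of_continuousOn hcc.cont) hQΛ
  let J : Type _ := {p : Σ g, Fin (B g).N // ((B p.1).K ∩ h'.toFun '' Q).Nonempty}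
  have hJ : Finite J := by
    have := hfin.to_subtype
    exact Finite.of_injective (β := Σ g : {g | ((B g).K ∩ h'.toFun '' Q).Nonempty}, Fin (B g.1).N)
      (fun p : J => ⟨⟨p.1.1, p.2⟩, p.1.2⟩) (by
        rintro ⟨⟨g, m⟩, hp⟩ ⟨⟨g', m'⟩, hp'⟩ he
        simp only [Sigma.mk.injEq, Subtype.mk.injEq] at he
        obtain ⟨he1, he2⟩ := he
        subst he1
        simp only [heq_eq_eq] at he2
        subst he2
        rfl)
  let D : J → Set (Fin 3 → ℝ) := fun p => Q ∩ C p.1.1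
  have hDQ : ∀ p, D p ⊆ Q := fun p => inter_subset_left
  have hDC : ∀ p : J, D p ⊆ C p.1.1 := fun p => inter_subset_right
  have hDcon : ∀ p, ConicalSet (D p) := fun p => hQcon.inter (G.Ccon p.1.1)
  have hDcpt : ∀ p, IsCompact (D p) := fun p => hQc.inter_right (G.Ccpt p.1.1).isClosed
  have hu : ∀ g, CC (uG h B g) Q := fun g => (mesh_cc h j).apply (B g).j
  have hsub : ∀ p : J, lev (D p) (uG h B p.1.1) ((B p.1.1).a p.1.2) ×ˢ Icc (-1:ℝ) 1 ⊆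
      lev (C p.1.1) (uG h B p.1.1) ((B p.1.1).a p.1.2) ×ˢ Icc (-1:ℝ) 1 := fun p =>
    prod_mono (fun x hx => ⟨hDC p hx.1, hx.2⟩) Subset.rfl
  have hlevc : ∀ p : J, ConicalSet (lev (D p) (uG h B p.1.1) ((B p.1.1).a p.1.2)) := fun p =>
    conicalSet_lev ((hu p.1.1).mono (hDcon p) (hDQ p)).con
  have himg : ∀ p : J, (Γ p.1.1 p.1.2).toFun ''
      (lev (D p) (uG h B p.1.1) ((B p.1.1).a p.1.2) ×ˢ Icc (-1:ℝ) 1) =
      band (D p) (uG h B p.1.1) ((B p.1.1).a p.1.2) (w p.1.1) := by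
    intro p
    ext x
    constructor
    · rintro ⟨⟨z, s⟩, ⟨hz, hs⟩, rfl⟩
      have h1 := (Γ p.1.1 p.1.2).mapsTo (hsub p ⟨hz, hs⟩)
      exact ⟨⟨(G.mem_cell hj p.1.2 (hsub p ⟨hz, hs⟩).1 hs).2 hz.1.1, h1.1⟩, h1.2⟩
    · rintro ⟨⟨hxQ, hxC⟩, hx2⟩
      have h1 : x ∈ band (C p.1.1) (uG h B p.1.1) ((B p.1.1).a p.1.2) (w p.1.1) := ⟨hxC, hx2⟩
      rw [← (Γ p.1.1 p.1.2).image_eq] at h1
      obtain ⟨⟨z, s⟩, ⟨hz, hs⟩, rfl⟩ := h1
      exact ⟨(z, s), ⟨⟨⟨(G.mem_cell hj p.1.2 hz hs).1 hxQ, hz.1⟩, hz.2⟩, hs⟩, rfl⟩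
  let Γr : ∀ p : J, ConHomeo (lev (D p) (uG h B p.1.1) ((B p.1.1).a p.1.2) ×ˢ Icc (-1:ℝ) 1)
      (band (D p) (uG h B p.1.1) ((B p.1.1).a p.1.2) (w p.1.1)) := fun p =>
    ((Γ p.1.1 p.1.2).restr (conicalSet_prod_Icc (hlevc p) _ _) (hsub p)).cast rfl (himg p)
  have hΓr : ∀ p, (Γr p).toFun = (Γ p.1.1 p.1.2).toFun := fun p => rfl
  have hlC : ∀ p : J, ∀ z ∈ lev (D p) (uG h B p.1.1) ((B p.1.1).a p.1.2),
      z ∈ lev (C p.1.1) (uG h B p.1.1) ((B p.1.1).a p.1.2) := fun p z hz =>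
    ⟨hDC p hz.1, hz.2⟩
  have hG : GCh Q h'.toFun (famG M E Gv) (fun p : J => (B p.1.1).j)
      (fun p : J => (B p.1.1).a p.1.2) (fun p => W p.1.1) (fun p => R p.1.1) D
      (fun p => uG h B p.1.1) (fun p => w p.1.1) Γr := by
    refine ⟨fun p => hu _, fun p => G.w0 _, hDQ, hDcpt, hDcon,
      fun p x hx hxR => ⟨hx, G.Ccov j hj _ x hx hxR⟩,
      fun p z hz s hs => G.level _ _ z (hlC p z hz) s hs,
      fun p z hz => G.zero _ _ z (hlC p z hz),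
      fun p k z hz s hs => G.inv _ _ k z (hlC p z hz) s hs,
      fun p z hz hzW s hs => G.win j hj _ _ z (hlC p z hz) hz.1.1 hzW s hs,
      fun p x hx hxR hxa => ?_, ?_⟩
    · refine ⟨(G.mem_lev hj p.1.2 hx hxa hxR).2, ?_⟩
      filter_upwards [G.keep j hj _ x hx hxR _ p.1.2.2 hxa] with y hy _
      show h'.toFun y _ = h.toFun y _
      rw [hy]
    · rintro ⟨⟨g, m⟩, hg⟩ ⟨⟨g', m'⟩, hg'⟩ hne x hx h1 h2 h3
      simp only at h1 h2 h3 ⊢
      have hgg : g = g' := by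
        by_contra hcon
        exact Set.disjoint_left.1 (G.dis g g' hcon) h1 h3
      subst hgg
      have hmm : (m : ℕ) ≠ m' := fun hmm => hne (by
        have : m = m' := Fin.ext hmm
        subst this
        rfl)
      by_contra hcon
      push Not at hcon
      obtain ⟨a1, a2⟩ := abs_le.1 h2
      obtain ⟨b1, b2⟩ := abs_le.1 hcon
      rcases lt_or_gt_of_ne hmm with h4 | h4
      · have := G.sep g m m.2 m' m'.2 h4
        linarith
      · have := G.sep g m' m'.2 m m.2 h4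
        linarith
  obtain ⟨A, L, hAcl, hAQ, hLc, hL, hcov, η₀, hη₀, hmain⟩ := exists_passG (M := famG M E Gv) hQc hcc
    hinj hG (Z := fun p => (B p.1.1).K ∩ {y | |y (B p.1.1).j - (B p.1.1).a p.1.2| ≤ (B p.1.1).c})
    (fun p => (B p.1.1).isCompact_K.isClosed.inter (isClosed_le (by fun_prop) continuous_const))
    (fun p => G.Wo _) (by
      rintro p y ⟨hy, hy2⟩
      obtain ⟨a1, a2⟩ := abs_le.1 (show |y (B p.1.1).j - (B p.1.1).a p.1.2| ≤ _ from hy2)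
      have e2 := (B p.1.1).lvs.first_le p.1.2.2
      have e3 := (B p.1.1).lvs.le_last p.1.2.2
      have e4 := (B p.1.1).lvs.c0
      exact G.KW _ y hy (by linarith) (by linarith)) (fun p => G.Ro _) (fun p => G.WR _)
  refine ⟨A, fun p => if hp : ((B p.1).K ∩ h'.toFun '' Q).Nonempty then L ⟨p, hp⟩ else ∅, hAcl,
    hAQ, fun p => ?_, ?_, fun p z hz => ?_, ?_, η₀ / 2, by positivity, ?_⟩
  · dsimp only
    split_ifs with hp
    · exact hLc _
    · exact isCompact_empty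
  · have h1 : (Set.range (Subtype.val : J → Σ g, Fin (B g).N)).Finite := Set.finite_range _
    refine h1.subset ?_
    intro p hp
    by_cases hp1 : ((B p.1).K ∩ h'.toFun '' Q).Nonempty
    · exact ⟨⟨p, hp1⟩, rfl⟩
    · obtain ⟨z, hz⟩ := hp
      simp only [hp1, dite_false] at hz
      exact hz.elim
  · dsimp only at hz
    split_ifs at hz with hp
    · obtain ⟨h1, h2, h3, h4⟩ := hL _ z hz
      exact ⟨h1.1, h1.2, h2, h3, h4⟩
    · exact hz.elim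
  · intro x hx
    rcases hcov hx with h1 | h1
    · exact Or.inl h1
    · obtain ⟨p, hp⟩ := mem_iUnion.1 h1
      refine Or.inr (mem_iUnion.2 ⟨p.1, ?_⟩)
      simp only [p.2, dite_true]
      exact hp
  intro c h0 h1 hc hc2 κ hκ
  obtain ⟨Φ, φ, hP, hform, hA1, hoff⟩ := hmain (fun p => 2 * c p.1.1)
    (fun p => ⟨by have := h0 p.1.1; positivity, by have := hc p.1.1 p.2; linarith⟩)
    (fun p => mu (thin (B p.1.1) (c p.1.1) (h0 _) (h1 _)))
    (fun p => thk_mu (thin (B p.1.1) (c p.1.1) (h0 _) (h1 _)))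
    (fun p y hy hyK => mu_zero_off (B p.1.1) p.1.2.2 hy fun h2 => hyK ⟨h2, by
      have := hc2 p.1.1
      show |y (B p.1.1).j - (B p.1.1).a p.1.2| ≤ _
      linarith⟩)
    (fun p => 1 / (2 * c p.1.1)) (fun p => by have := h0 p.1.1; positivity)
    (fun p y => by
      have h2 := h0 p.1.1
      have h3 := mu_le (thin (B p.1.1) (c p.1.1) (h0 _) (h1 _)) y
      have h4 : (thin (B p.1.1) (c p.1.1) (h0 p.1.1) (h1 p.1.1)).c = c p.1.1 := rfl
      rw [h4] at h3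
      rw [div_mul_eq_mul_div, one_mul, div_le_div_iff₀ (by positivity) (by norm_num)]
      linarith) κ
    (by
      rintro ⟨⟨g, k⟩, hg⟩ y hy hyZ
      simp only at hg hy hyZ
      rw [hκ.on g y hyZ.1]
      exact Q_eq_kap (thin (B g) (c g) (h0 g) (h1 g)) k.2 hy.le)
    (by
      intro y hy hyJ
      by_cases h2 : ∃ g, y ∈ (thin (B g) (c g) (h0 g) (h1 g)).K
      · obtain ⟨g, hg⟩ := h2
        have hne : ((B g).K ∩ h'.toFun '' Q).Nonempty := by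
          rcases hy with hy | hy
          · exact ⟨κ y, hκ.mapsK hg, hy⟩
          · exact ⟨y, hg, hy⟩
        rw [hκ.on g y hg]
        refine Q_eq_self _ fun k hk => ?_
        rcases le_or_gt |y (B g).j - (B g).a k| (B g).c with h3 | h3
        · exact hyJ ⟨⟨g, ⟨k, hk⟩⟩, hne⟩ ⟨hg, h3⟩
        · exact (hc2 g).trans h3.le
      · push Not at h2
        exact hκ.off y h2)
  refine ⟨Φ, φ, hP, ?_, ?_, hA1⟩
  · intro g m z hz hza hzW s hs
    by_cases hg : ((B g).K ∩ h'.toFun '' Q).Nonempty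
    · exact hform ⟨⟨g, m⟩, hg⟩ z hz hza hzW s hs
    · have hzl := G.mem_lev hj m hz hza (G.WR g hzW)
      have hxQ : (Γ g m).toFun (z, s) ∈ Q := (G.mem_cell hj m hzl hs).2 hz
      have hxR := G.win j hj g m z hzl hz hzW s hs
      have hK : ∀ x ∈ Q, h'.toFun x ∉ (B g).K := fun x hx hxK => hg ⟨_, hxK, x, hx, rfl⟩
      obtain ⟨h2, h3⟩ := hoff _ hxQ (by
        rintro ⟨⟨g', m'⟩, hg'⟩ z' hz' hza' hzW' s' hs' he
        simp only at hza' hzW'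
        have hzl' := G.mem_lev hj m' hz' hza' (G.WR g' hzW')
        have h4 := G.win j hj g' m' z' hzl' hz' hzW' s' hs'
        have h5 : (Γ g' m').toFun (z', s') = (Γ g m).toFun (z, s) := he
        rw [h5] at h4
        have hgg : g' = g := by
          by_contra hcon
          exact Set.disjoint_left.1 (G.dis g' g hcon) h4 hxR
        subst hgg
        exact hg hg')
      obtain ⟨s1, s2⟩ := G.sign hj m hz hza hzW
      obtain ⟨h4, h5⟩ := ym_triv (h := h'.toFun) (i := (B g).j) (b := (B g).a m)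
        (μ := mu (thin (B g) (c g) (h0 g) (h1 g))) (η := 2 * c g) (r := 1 / (2 * c g))
        (Γ := (Γ g m).toFun) (by have := h0 g; positivity) (by have := h0 g; positivity) hza
        (G.zero g m z hzl) (mu_zero_off (B g) m.2 (by rw [hza, sub_self, abs_zero]
                                                      have := h0 g; positivity) (hK z hz))
        (s1 s hs) (s2 s hs) fun h6 => mu_zero_off (B g) m.2 h6 (hK _ hxQ)
      exact ⟨by rw [h3, h4], by rw [h2, h5]⟩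
  · intro x hx hno
    exact hoff x hx fun p z hz hza hzW s hs => hno p.1.1 p.1.2 z hz hza hzW s hs

/-- **[RT-GIV]** the inserted map on the given cells -/
theorem exists_gv (H : Fam Λ B) (G : GVch M E h h' B Gv W R C w Γ) :
    ∃ c₀ : γ → ℝ, (∀ g, 0 < c₀ g) ∧ ∀ (c : γ → ℝ) (h0 : ∀ g, 0 < c g) (h1 : ∀ g, c g ≤ (B g).c),
      (∀ g, c g ≤ c₀ g) → ∀ κ, IsQ (fun g => thin (B g) (c g) (h0 g) (h1 g)) κ →
      ∃ (Ψ : ∀ j ∈ Gv, ConHomeo (M.Q j) (Pre κ Λ h' (M.Q j)))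
        (φ : M.ι → (Fin 3 → ℝ) → Fin 3 → ℝ),
        GVout M E h h' B Gv W C w Γ c h0 h1 κ Ψ φ := by
  classical
  choose A L hAcl hAQ hLc hLf hL hcov η₀ hη₀ hmain using fun j : Gv => exists_gv_cell H G j.1 j.2
  have hbox : ∀ g, {j : Gv | ((B g).K ∩ h'.toFun '' M.Q j.1).Nonempty}.Finite := by
    intro g
    have h1 : IsCompact (h'.invFun '' (B g).K) :=
      (B g).isCompact_K.image_of_continuousOn (h'.cont_inv.mono (H.sub g))
    have h2 : h'.invFun '' (B g).K ⊆ Ω := by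
      rintro _ ⟨y, hy, rfl⟩; exact h'.mapsTo_inv (H.sub g hy)
    refine Set.Finite.preimage (f := fun j : Gv => j.1) Subtype.val_injective.injOn
      ((M.fin _ h2 h1).subset ?_ : ({j : M.ι | ((B g).K ∩ h'.toFun '' M.Q j).Nonempty}).Finite)
    rintro j ⟨_, hy, x, hx, rfl⟩
    exact ⟨x, hx, h'.toFun x, hy, h'.left_inv (M.sub j hx)⟩
  have hth : ∀ g, ∃ c : ℝ, 0 < c ∧ ∀ j : Gv, ((B g).K ∩ h'.toFun '' M.Q j.1).Nonempty →
      c ≤ η₀ j := by
    intro g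
    have := (hbox g).to_subtype
    obtain ⟨c, h1, h2⟩ := exists_pos_le
      (fun k : {j : Gv | ((B g).K ∩ h'.toFun '' M.Q j.1).Nonempty} => η₀ k.1) fun k => hη₀ k.1
    exact ⟨c, h1, fun k hk => h2 ⟨k, hk⟩⟩
  choose c₀ hc₀ hle using hth
  refine ⟨fun g => min (c₀ g) ((B g).c / 2),
    fun g => lt_min (hc₀ g) (by have := (B g).lvs.c0; positivity), fun c h0 h1 hc κ hκ => ?_⟩
  choose Φ φ hP hform hoff hA using fun j : Gv => hmain j c h0 h1
    (fun g hg => ((hc g).trans (min_le_left _ _)).trans (hle g j hg))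
    (fun g => by have := (hc g).trans (min_le_right _ _); linarith) κ hκ
  have Hth : Fam Λ fun g => thin (B g) (c g) (h0 g) (h1 g) := H.thin h0 h1
  have hpre : ∀ X : Set (Fin 3 → ℝ), X ⊆ Ω → Pre κ Λ h' X = κ ⁻¹' (h'.toFun '' X) := fun X hX =>
    hκ.pre_eq Hth h' hX
  refine ⟨fun j hj => (Φ ⟨j, hj⟩).cast rfl (hpre _ (M.sub j)).symm,
    fun j => if hj : j ∈ Gv then φ ⟨j, hj⟩ else id, ?_⟩
  have hφ : ∀ j (hj : j ∈ Gv), (if hj : j ∈ Gv then φ ⟨j, hj⟩ else id) = φ ⟨j, hj⟩ :=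
    fun j hj => dif_pos hj
  refine ⟨fun j hj g m z hz hza hzW s hs => ?_, fun j hj x hx hno => ?_, fun j hj => ?_,
    fun j hj => ?_, fun j hj => ?_, fun j hj x hx => ?_, fun j hj t x hx => ?_,
    fun j hj t => ?_⟩
  · rw [hφ j hj]
    exact hform ⟨j, hj⟩ g m z hz hza hzW s hs
  · rw [hφ j hj]
    exact hoff ⟨j, hj⟩ x hx hno
  · refine ⟨A ⟨j, hj⟩, L ⟨j, hj⟩, hAcl _, hAQ _, hLc _, hLf _, hL _, hcov ⟨j, hj⟩, fun x hx => ?_⟩
    rw [hφ j hj]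
    exact hA ⟨j, hj⟩ x hx
  · rw [hφ j hj]; exact (hP ⟨j, hj⟩).maps
  · rw [hφ j hj]; exact (hP ⟨j, hj⟩).cc
  · rw [hφ j hj]; exact (hP ⟨j, hj⟩).eq x hx
  · rw [hφ j hj]; exact (hP ⟨j, hj⟩).iff t x hx
  · rw [hpre _ (inter_subset_right.trans (M.sub j))]
    exact (hP ⟨j, hj⟩).img t

namespace GVout

variable {c : γ → ℝ} {h0 : ∀ g, 0 < c g} {h1 : ∀ g, c g ≤ (B g).c} {κ : (Fin 3 → ℝ) → Fin 3 → ℝ}
  {Ψ : ∀ j ∈ Gv, ConHomeo (M.Q j) (Pre κ Λ h' (M.Q j))} {φ : M.ι → (Fin 3 → ℝ) → Fin 3 → ℝ}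

/-- two cells with a common point: the same chart points -/
theorem agree_aux (O : GVout M E h h' B Gv W C w Γ c h0 h1 κ Ψ φ)
    (G : GVch M E h h' B Gv W R C w Γ) {j j' : M.ι} (hj : j ∈ Gv) (hj' : j' ∈ Gv)
    {x : Fin 3 → ℝ} (hx : x ∈ M.Q j) (hx' : x ∈ M.Q j') :
    (Ψ j hj).toFun x = (Ψ j' hj').toFun x ∧ φ j x = φ j' x := by
  have key : ∀ {j j' : M.ι} (_ : j ∈ Gv) (_ : j' ∈ Gv), x ∈ M.Q j → x ∈ M.Q j' →
      ∀ g (m : Fin (B g).N), ∀ z ∈ M.Q j, h'.toFun z (B g).j = (B g).a m → h'.toFun z ∈ W g →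
      ∀ s ∈ Icc (-1:ℝ) 1, (Γ g m).toFun (z, s) = x → z ∈ M.Q j' := by
    intro j j' hj hj' hx hx' g m z hz hza hzW s hs he
    have hzl := G.mem_lev hj m hz hza (G.WR g hzW)
    rw [← he] at hx'
    exact (G.mem_cell hj' m hzl hs).1 hx'
  by_cases hex : ∃ g, ∃ m : Fin (B g).N, ∃ z ∈ M.Q j, h'.toFun z (B g).j = (B g).a m ∧
      h'.toFun z ∈ W g ∧ ∃ s ∈ Icc (-1:ℝ) 1, (Γ g m).toFun (z, s) = x
  · obtain ⟨g, m, z, hz, hza, hzW, s, hs, he⟩ := hex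
    have hz' := key hj hj' hx hx' g m z hz hza hzW s hs he
    obtain ⟨a1, a2⟩ := O.form j hj g m z hz hza hzW s hs
    obtain ⟨b1, b2⟩ := O.form j' hj' g m z hz' hza hzW s hs
    rw [← he, a1, a2, b1, b2]
    exact ⟨rfl, rfl⟩
  · push Not at hex
    obtain ⟨a1, a2⟩ := O.off j hj x hx fun g m z hz hza hzW s hs => hex g m z hz hza hzW s hs
    obtain ⟨b1, b2⟩ := O.off j' hj' x hx' fun g m z hz hza hzW s hs he =>
      hex g m z (key hj' hj hx' hx g m z hz hza hzW s hs he) hza hzW s hs he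
    rw [a1, a2, b1, b2]
    exact ⟨rfl, rfl⟩

theorem agree (O : GVout M E h h' B Gv W C w Γ c h0 h1 κ Ψ φ)
    (G : GVch M E h h' B Gv W R C w Γ) (j : M.ι) (hj : j ∈ Gv) (j' : M.ι) (hj' : j' ∈ Gv) :
    EqOn (Ψ j hj).toFun (Ψ j' hj').toFun (M.Q j ∩ M.Q j') := fun _ hx =>
  (O.agree_aux G hj hj' hx.1 hx.2).1

/-- images of the members of the family -/
theorem image (O : GVout M E h h' B Gv W C w Γ c h0 h1 κ Ψ φ) {j : M.ι} (hj : j ∈ Gv)
    (t : Gv ⊕ (M.κ ⊕ (E.ε ⊕ E.verts))) (ht : famG M E Gv t ⊆ M.Q j) :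
    (Ψ j hj).toFun '' famG M E Gv t = Pre κ Λ h' (famG M E Gv t) := by
  have h1 := O.img j hj t
  rwa [inter_eq_left.2 ht] at h1

/-- vertices -/
theorem vert (O : GVout M E h h' B Gv W C w Γ c h0 h1 κ Ψ φ) {j : M.ι} (hj : j ∈ Gv)
    {x : Fin 3 → ℝ} (hx : x ∈ E.verts) (hxj : x ∈ M.Q j) :
    φ j x = x ∧ κ ((Ψ j hj).toFun x) = h'.toFun x := by
  have h1 : φ j x = x := (O.iff j hj (Sum.inr (Sum.inr (Sum.inr ⟨x, hx⟩))) x hxj).2 rfl
  refine ⟨h1, ?_⟩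
  rw [O.eq j hj x hxj, h1]

/-- nothing changes on the members of the family which miss all boxes -/
theorem eq_of_miss (O : GVout M E h h' B Gv W C w Γ c h0 h1 κ Ψ φ)
    (G : GVch M E h h' B Gv W R C w Γ) {j : M.ι} (hj : j ∈ Gv)
    (t : Gv ⊕ (M.κ ⊕ (E.ε ⊕ E.verts)))
    (ht : ∀ g, ∀ x ∈ famG M E Gv t, h'.toFun x ∉ (B g).K) {x : Fin 3 → ℝ} (hx : x ∈ M.Q j)
    (hxt : x ∈ famG M E Gv t) : (Ψ j hj).toFun x = h'.toFun x ∧ φ j x = x := by
  by_cases hex : ∃ g, ∃ m : Fin (B g).N, ∃ z ∈ M.Q j, h'.toFun z (B g).j = (B g).a m ∧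
      h'.toFun z ∈ W g ∧ ∃ s ∈ Icc (-1:ℝ) 1, (Γ g m).toFun (z, s) = x
  · obtain ⟨g, m, z, hz, hza, hzW, s, hs, he⟩ := hex
    have hzl := G.mem_lev hj m hz hza (G.WR g hzW)
    have hzt : z ∈ famG M E Gv t := by
      rw [← he] at hxt
      exact (G.inv g m t z hzl s hs).1 hxt
    obtain ⟨a1, a2⟩ := O.form j hj g m z hz hza hzW s hs
    obtain ⟨s1, s2⟩ := G.sign hj m hz hza hzW
    obtain ⟨h4, h5⟩ := ym_triv (h := h'.toFun) (i := (B g).j) (b := (B g).a m)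
      (μ := mu (thin (B g) (c g) (h0 g) (h1 g))) (η := 2 * c g) (r := 1 / (2 * c g))
      (Γ := (Γ g m).toFun) (by have := h0 g; positivity) (by have := h0 g; positivity) hza
      (G.zero g m z hzl) (mu_zero_off (B g) m.2 (by rw [hza, sub_self, abs_zero]
                                                    have := h0 g; positivity) (ht g z hzt))
      (s1 s hs) (s2 s hs) fun h6 => mu_zero_off (B g) m.2 h6 (by rw [he]; exact ht g x hxt)
    rw [← he]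
    exact ⟨by rw [a2, h5], by rw [a1, h4]⟩
  · push Not at hex
    exact O.off j hj x hx fun g m z hz hza hzW s hs => hex g m z hz hza hzW s hs

/-- **all fields of `Giv` from the field `good`** -/
theorem giv (O : GVout M E h h' B Gv W C w Γ c h0 h1 κ Ψ φ)
    (G : GVch M E h h' B Gv W R C w Γ) {Act Mi : Set M.κ}
    {GE : E.ε → ((Fin 3 → ℝ) → Fin 3 → ℝ) → Prop}
    (hMi : ∀ l ∈ Mi, ∀ g, ∀ x ∈ M.F l, h'.toFun x ∉ (B g).K)
    (hgood : ∀ j hj, ∀ k ∈ Act, ∀ e, E.seg e ⊆ M.F k → E.seg e ⊆ M.Q j →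
      GE e (Ψ j hj).toFun) : P073.H155.Giv M E h' κ Act Mi GE Gv Ψ where
  agree := O.agree G
  face := fun _ hj k hk => O.image hj (Sum.inr (Sum.inl k)) hk
  edge := fun _ hj e he => O.image hj (Sum.inr (Sum.inr (Sum.inl e))) he
  vert := fun _ hj _ hx hxj => (O.vert hj hx hxj).2
  miss := fun _ hj l hl _ hx hxl =>
    (O.eq_of_miss G hj (Sum.inr (Sum.inl l)) (hMi l hl) hx hxl).1
  good := hgood

end GVout

end P073.H399
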