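import Vale.Agent.P073.H399.RTg
import Vale.Agent.P073.H936.K3R
import Vale.Agent.P073.H490.OutX
import Vale.Agent.P073.H490.RTe

/-!
# P073, H399: **[REF-TOP]**, the composition: `K3C` from `K3R`

* `RefInT`: the refined mesh for the input of the world of Round 1 (926's [REFIN]);
* `k3c_of_k3r`: `K3R p → K3C p`.
-/

open Set Metric Topology Filter MeasureTheory
open scoped ENNReal

namespace P073.H399

open Vale.Agent.P073.St (V)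
open Vale.Agent.P073.H73 (Mesh)
open Vale.Agent.P073.H304 (OscOut OutB K3C)
open Vale.Agent.P073.H471 Vale.Agent.P073.H926
open Vale.Agent.P073.H936.KR (K3R NW)
open _root_.P073 (ConHomeo)
open _root_.P073.PA691 (BoxCx)

/-- **[REFIN]** for one mesh: there are pieces so that the refined mesh is an input, and no face
crosses a wall -/
def RefInT {c₀ n δ : ℝ} {j : ℕ} {Ω Λ : Set V} {v w : V} {ρ : V → ℝ} {M : Mesh Ω}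
    {h : ConHomeo Ω Λ} {J₀ : Set (ℕ × (Fin 3 → ℤ))} {P Z : Set M.ι} {K : BoxCx Λ w}
    (_D : KIn3 c₀ n j δ v w ρ M h J₀ J₀ P Z) (C : Cells ρ w K) : Prop :=
  (∀ t ∈ J₀, ∀ t' ∈ J₀, t'.1 = t.1) → ∀ β : M.κ → ℝ, (∀ k, 0 < β k) →
    ∃ (Pc : Pieces M) (𝒲 : Set M.κ) (X : M.κ → Finset V) (sg : M.κ → Finset (V × V)),
      Far Pc 𝒲 h.toFun w J₀ (1 / 2 ^ j) Z ∧ WData Pc 𝒲 h.toFun β X sg ∧
      ∃ D' : KIn3 c₀ n j δ v w ρ Pc.mesh h J₀ J₀ P Z, NW D' C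

/-- **`K3C` from `K3R`** -/
theorem k3c_of_k3r {p : ℝ} (hp : 0 ≤ p)
    (HR : ∀ {c₀ n δ : ℝ} {j : ℕ} {Ω Λ : Set V} {v w : V} {ρ : V → ℝ} {M : Mesh Ω}
      {h : ConHomeo Ω Λ} {J₀ : Set (ℕ × (Fin 3 → ℤ))} {P Z : Set M.ι} {K : BoxCx Λ w}
      (D : KIn3 c₀ n j δ v w ρ M h J₀ J₀ P Z) (C : Cells ρ w K), RefInT D C)
    (H : K3R p) : K3C p := by
  obtain ⟨D, hD, H⟩ := H
  refine k3c_of ⟨38 * D, by linarith, fun μ hμ => ?_⟩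
  obtain ⟨D', hD', r, hr, H⟩ := H μ hμ
  refine ⟨38 * D', by linarith, r, hr, fun c₀ h0 h1 => ?_⟩
  obtain ⟨n, hn, hnc, j, hj, δ, hδ, hδj, m, hm, hmc, H⟩ := H c₀ h0 h1
  refine ⟨n, hn, hnc, j, hj, δ, hδ, hδj, m, hm, hmc, ?_⟩
  intro Ω Λ v w ρ M h J₀ J P Z D₀ K C Y ε hε b
  by_cases hb : b = false ∧ J = J₀ ∧ (∀ t ∈ J₀, ∀ t' ∈ J₀, t'.1 = t.1) ∧ Y = ∅
  · obtain ⟨hb, hJ, hm', hY⟩ := hb
    subst hJ
    subst hY
    obtain ⟨β, hβ, hβ2⟩ := Vale.Agent.P073.H490.exists_beta M h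
    obtain ⟨Pc, 𝒲, X, sg, HF, HW, D₁, hNW⟩ := HR D₀ C hm' β hβ
    obtain ⟨ε', he0, he1, hout⟩ := ref_out D₀.bΛ.1 h HF HW hβ hβ2 hε
    have hY : Pc.YR (∅ : Set M.κ) = ∅ := by
      ext a
      simp [Pieces.YR]
    obtain ⟨-, h2⟩ := H Ω Λ v w ρ Pc.mesh h J J P Z D₁ K C ∅ ε' he0
    obtain ⟨g, hg1, hg2⟩ := h2 rfl hm' rfl hNW
    rw [← hY] at hg1 hg2
    obtain ⟨o1, o2, -⟩ := hout hp hD hD' hg1
    exact ⟨g, o1, fun hb' => by simp [hb] at hb', fun _ _ _ _ => o2 hg2⟩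
  · obtain ⟨⟨g, hg1, hg2⟩, -⟩ := H Ω Λ v w ρ M h J₀ J P Z D₀ K C Y ε hε
    have hg3 : Vale.Agent.P073.H490.OutX p D D' (1 / 2 ^ j) c₀ w ρ M h.toFun J₀ J P Z Y ε g :=
      ⟨m, hg1⟩
    obtain ⟨m', hg4⟩ := hg3.mono (D₁ := 38 * D) (D₁' := 38 * D') (by linarith) (by linarith)
    refine ⟨g, ⟨hg4.off, hg4.close, hg4.prot, hg4.lip, hg4.edge, hg4.elip, hg4.flip, hg4.face,
      hg4.drawn⟩, fun _ => hg2.mono_D (by linarith), fun e1 e2 e3 e4 => ?_⟩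
    exact absurd ⟨e1, e2, e3, e4⟩ hb

end P073.H399
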