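import Vale.Agent.P073.H399.Ladder

/-!
# P073 / H399: ladder decomposition of a planar annulus
-/

open Set Metric Topology Filter

namespace P073.H399

open P073 P073.H339

/-- ladder map with outer curve `a` and inner curve `b` -/
noncomputable def lmap (a b : ℝ → ℝ × ℝ) (p : ℝ × ℝ) : ℝ × ℝ := (1 - p.2) • a p.1 + p.2 • b p.1

@[simp] theorem lmap_zero (a b : ℝ → ℝ × ℝ) (t : ℝ) : lmap a b (t, 0) = a t := by simp [lmap]

@[simp] theorem lmap_one (a b : ℝ → ℝ × ℝ) (t : ℝ) : lmap a b (t, 1) = b t := by simp [lmap]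

/-- ladder data in the annulus between `M` and the boundary `C` of `D` -/
structure LadD (N : ℕ) (D C M : Set (ℝ × ℝ)) (a b : ℝ → ℝ × ℝ) : Prop where
  ac : ContinuousOn a (Icc 0 N)
  bc : ContinuousOn b (Icc 0 N)
  aC : ConicalOn a (Icc 0 N)
  bC : ConicalOn b (Icc 0 N)
  ai : InjOn a (Icc 0 N)
  bi : InjOn b (Icc 0 N)
  am : MapsTo a (Icc 0 N) C
  bm : MapsTo b (Icc 0 N) M
  rM : ∀ j : ℕ, j ≤ N → ∀ x : ℝ, 0 ≤ x → x < 1 → lmap a b (j, x) ∉ M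
  rC : ∀ j : ℕ, j ≤ N → ∀ x : ℝ, 0 < x → x ≤ 1 → lmap a b (j, x) ∉ C
  rD : ∀ j : ℕ, j ≤ N → ∀ x : ℝ, 0 ≤ x → x ≤ 1 → lmap a b (j, x) ∈ D
  rr : ∀ i : ℕ, i ≤ N → ∀ j : ℕ, j ≤ N → ∀ x y : ℝ, 0 ≤ x → x ≤ 1 → 0 ≤ y → y ≤ 1 →
    lmap a b (i, x) = lmap a b (j, y) → i = j

theorem mem_Lad_iff {N : ℕ} {p : ℝ × ℝ} : p ∈ Lad N ↔ (p.1 ∈ Icc (0:ℝ) N ∧ p.2 = 0) ∨
    (p.1 ∈ Icc (0:ℝ) N ∧ p.2 = 1) ∨ ∃ j ≤ N, p.1 = (j : ℕ) ∧ 0 ≤ p.2 ∧ p.2 ≤ 1 := by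
  constructor
  · rintro ⟨⟨h1, h3⟩, h2 | h2 | ⟨j, hj, h2⟩⟩
    · exact Or.inl ⟨h1, h2⟩
    · exact Or.inr (Or.inl ⟨h1, h2⟩)
    · exact Or.inr (Or.inr ⟨j, hj, h2, h3⟩)
  · rintro (⟨h1, h2⟩ | ⟨h1, h2⟩ | ⟨j, hj, h2, h3⟩)
    · exact ⟨⟨h1, by rw [h2]; exact ⟨le_refl _, zero_le_one⟩⟩, Or.inl h2⟩
    · exact ⟨⟨h1, by rw [h2]; exact ⟨zero_le_one, le_refl _⟩⟩, Or.inr (Or.inl h2)⟩
    · have : (j:ℝ) ≤ N := by exact_mod_cast hj
      exact ⟨⟨⟨by rw [h2]; exact Nat.cast_nonneg _, by rw [h2]; exact this⟩, h3⟩,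
        Or.inr (Or.inr ⟨j, hj, h2⟩)⟩

theorem cast_mem {N j : ℕ} (h : j ≤ N) : (j : ℝ) ∈ Icc (0:ℝ) N :=
  ⟨Nat.cast_nonneg j, by exact_mod_cast h⟩

namespace LadD

variable {N : ℕ} {D C M : Set (ℝ × ℝ)} {a b : ℝ → ℝ × ℝ}

theorem ne_CM (hCM : Disjoint C M) (h : LadD N D C M a b) {s t : ℝ} (hs : s ∈ Icc (0:ℝ) N)
    (ht : t ∈ Icc (0:ℝ) N) : a s ≠ b t :=
  fun he => disjoint_left.1 hCM (h.am hs) (he ▸ h.bm ht)

theorem rung_inj (hCM : Disjoint C M) (h : LadD N D C M a b) {j : ℕ} (hj : j ≤ N) {x y : ℝ}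
    (he : lmap a b (j, x) = lmap a b (j, y)) : x = y := by
  have hne : b (j : ℝ) - a (j : ℝ) ≠ 0 := sub_ne_zero.2 (h.ne_CM hCM (cast_mem hj) (cast_mem hj)).symm
  have h1 : (x - y) • (b (j : ℝ) - a (j : ℝ)) = 0 := by
    have h2 : lmap a b (j, x) - lmap a b (j, y) = 0 := sub_eq_zero.2 he
    rw [← h2]
    simp only [lmap]
    module
  rcases smul_eq_zero.1 h1 with h3 | h3
  · linarith
  · exact absurd h3 hne

theorem injOn (hCM : Disjoint C M) (h : LadD N D C M a b) : InjOn (lmap a b) (Lad N) := by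
  -- one point on a rung
  have key : ∀ {j : ℕ}, j ≤ N → ∀ {y : ℝ}, 0 ≤ y → y ≤ 1 → ∀ {p : ℝ × ℝ}, p ∈ Lad N →
      lmap a b p = lmap a b (j, y) → p = ((j : ℝ), y) := by
    rintro j hj y hy0 hy1 ⟨t, x⟩ hp he
    rcases mem_Lad_iff.1 hp with ⟨h1, h2⟩ | ⟨h1, h2⟩ | ⟨i, hi, h1, h2, h3⟩
    · simp only at h1 h2
      subst h2
      rw [lmap_zero] at he
      have hy : y = 0 := by
        by_contra hne
        exact h.rC j hj y (lt_of_le_of_ne hy0 (Ne.symm hne)) hy1 (he ▸ h.am h1)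
      subst hy
      rw [lmap_zero] at he
      rw [h.ai h1 (cast_mem hj) he]
    · simp only at h1 h2
      subst h2
      rw [lmap_one] at he
      have hy : y = 1 := by
        by_contra hne
        exact h.rM j hj y hy0 (lt_of_le_of_ne hy1 hne) (he ▸ h.bm h1)
      subst hy
      rw [lmap_one] at he
      rw [h.bi h1 (cast_mem hj) he]
    · simp only at h1 h2 h3
      subst h1
      have hij := h.rr i hi j hj x y h2 h3 hy0 hy1 he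
      subst hij
      rw [h.rung_inj hCM hi he]
  rintro ⟨t, x⟩ hp ⟨s, y⟩ hq he
  rcases mem_Lad_iff.1 hq with ⟨h1, h2⟩ | ⟨h1, h2⟩ | ⟨i, hi, h1, h2, h3⟩
  · simp only at h1 h2
    subst h2
    rcases mem_Lad_iff.1 hp with ⟨k1, k2⟩ | ⟨k1, k2⟩ | ⟨i, hi, k1, k2, k3⟩
    · simp only at k1 k2
      subst k2
      rw [lmap_zero, lmap_zero] at he
      rw [h.ai k1 h1 he]
    · simp only at k1 k2
      subst k2
      rw [lmap_zero, lmap_one] at he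
      exact absurd he.symm (h.ne_CM hCM h1 k1)
    · simp only at k1 k2 k3
      subst k1
      exact (key hi k2 k3 hq he.symm).symm
  · simp only at h1 h2
    subst h2
    rcases mem_Lad_iff.1 hp with ⟨k1, k2⟩ | ⟨k1, k2⟩ | ⟨i, hi, k1, k2, k3⟩
    · simp only at k1 k2
      subst k2
      rw [lmap_zero, lmap_one] at he
      exact absurd he (h.ne_CM hCM k1 h1)
    · simp only at k1 k2
      subst k2
      rw [lmap_one, lmap_one] at he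
      rw [h.bi k1 h1 he]
    · simp only at k1 k2 k3
      subst k1
      exact (key hi k2 k3 hq he.symm).symm
  · simp only at h1 h2 h3
    subst h1
    exact key hi h2 h3 hp he

theorem contOn (h : LadD N D C M a b) : ContinuousOn (lmap a b) (Lad N) := by
  have h1 : MapsTo (fun p : ℝ × ℝ => p.1) (Lad N) (Icc 0 (N:ℝ)) := fun p hp => hp.1.1
  have ha : ContinuousOn (fun p : ℝ × ℝ => a p.1) (Lad N) := h.ac.comp continuousOn_fst h1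
  have hb : ContinuousOn (fun p : ℝ × ℝ => b p.1) (Lad N) := h.bc.comp continuousOn_fst h1
  exact ((continuousOn_const.sub continuousOn_snd).smul ha).add (continuousOn_snd.smul hb)

theorem conOn (h : LadD N D C M a b) : ConicalOn (lmap a b) (Lad N) := by
  refine conicalOn_Lad N ?_ ?_ ?_
  · have h1 : MapsTo (fun p : ℝ × ℝ => p.1) (rc 0 N 0 0) (Icc 0 (N:ℝ)) := fun p hp => hp.1
    refine (h.aC.comp (conicalOn_linear (LinearMap.fst ℝ ℝ ℝ) (conicalSet_rc _ _ _ _)) h1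
      continuousOn_fst).congr ?_
    rintro ⟨t, x⟩ ⟨-, h2, h3⟩
    have hx : x = 0 := le_antisymm h3 h2
    subst hx
    exact lmap_zero a b t
  · have h1 : MapsTo (fun p : ℝ × ℝ => p.1) (rc 0 N 1 1) (Icc 0 (N:ℝ)) := fun p hp => hp.1
    refine (h.bC.comp (conicalOn_linear (LinearMap.fst ℝ ℝ ℝ) (conicalSet_rc _ _ _ _)) h1
      continuousOn_fst).congr ?_
    rintro ⟨t, x⟩ ⟨-, h2, h3⟩
    have hx : x = 1 := le_antisymm h3 h2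
    subst hx
    exact lmap_one a b t
  · intro j hj
    have hs := conicalSet_rc (j:ℝ) (j:ℝ) 0 1
    have h2 : ConicalOn (fun p : ℝ × ℝ => p.2 • (b (j:ℝ) - a (j:ℝ))) (rc (j:ℝ) (j:ℝ) 0 1) :=
      conicalOn_linear ((LinearMap.toSpanSingleton ℝ (ℝ × ℝ) (b (j:ℝ) - a (j:ℝ))).comp
        (LinearMap.snd ℝ ℝ ℝ)) hs
    refine ((conicalOn_const (a (j:ℝ)) hs).add h2).congr ?_
    rintro ⟨t, x⟩ ⟨⟨h3, h4⟩, -⟩
    have ht : t = j := le_antisymm h4 h3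
    subst ht
    simp only [lmap]
    module

/-- the ladder as a conical homeomorphism onto its image -/
noncomputable def homeo (h : LadD N D C M a b) (hCM : Disjoint C M) :
    ConHomeo (Lad N) (lmap a b '' Lad N) :=
  ConHomeo.ofCompact ((isCompact_rc 0 N 0 1).of_isClosed_subset (isClosed_Lad N) fun _ hp => hp.1)
    (lmap a b) h.contOn (h.injOn hCM) h.conOn rfl

@[simp] theorem homeo_toFun (h : LadD N D C M a b) (hCM : Disjoint C M) :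
    (h.homeo hCM).toFun = lmap a b := ConHomeo.ofCompact_toFun _ _ _ _ _ _

theorem snd_zero (hCM : Disjoint C M) (h : LadD N D C M a b) {p : ℝ × ℝ} (hp : p ∈ Lad N)
    (hC : lmap a b p ∈ C) : p.2 = 0 := by
  rcases mem_Lad_iff.1 hp with ⟨h1, h2⟩ | ⟨h1, h2⟩ | ⟨i, hi, h1, h2, h3⟩
  · exact h2
  · exfalso
    have e : p = (p.1, 1) := Prod.ext rfl h2
    rw [e, lmap_one] at hC
    exact disjoint_left.1 hCM hC (h.bm h1)
  · by_contra hne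
    have e : p = ((i:ℝ), p.2) := Prod.ext h1 rfl
    rw [e] at hC
    exact h.rC i hi p.2 (lt_of_le_of_ne h2 (Ne.symm hne)) h3 hC

theorem snd_one (hCM : Disjoint C M) (h : LadD N D C M a b) {p : ℝ × ℝ} (hp : p ∈ Lad N)
    (hM : lmap a b p ∈ M) : p.2 = 1 := by
  rcases mem_Lad_iff.1 hp with ⟨h1, h2⟩ | ⟨h1, h2⟩ | ⟨i, hi, h1, h2, h3⟩
  · exfalso
    have e : p = (p.1, 0) := Prod.ext rfl h2
    rw [e, lmap_zero] at hM
    exact disjoint_left.1 hCM (h.am h1) hM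
  · exact h2
  · by_contra hne
    have e : p = ((i:ℝ), p.2) := Prod.ext h1 rfl
    rw [e] at hM
    exact h.rM i hi p.2 h2 (lt_of_le_of_ne h3 hne) hM

end LadD

/-! the four sides -/

/-- three sides, without the bottom -/
def UT (N : ℕ) : Set (ℝ × ℝ) := {p | p ∈ rc 0 N 0 1 ∧ (p.1 = 0 ∨ p.1 = N ∨ p.2 = 1)}

/-- three sides, without the top -/
def UB (N : ℕ) : Set (ℝ × ℝ) := {p | p ∈ rc 0 N 0 1 ∧ (p.1 = 0 ∨ p.1 = N ∨ p.2 = 0)}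

theorem mem_rc_flat {N : ℕ} {y : ℝ} {p : ℝ × ℝ} :
    p ∈ rc 0 N y y ↔ p.1 ∈ Icc (0:ℝ) N ∧ p.2 = y :=
  ⟨fun h => ⟨h.1, le_antisymm h.2.2 h.2.1⟩, fun h => ⟨h.1, by rw [h.2]; exact ⟨le_refl _, le_refl _⟩⟩⟩

theorem isArc_flat {N : ℕ} (hN : 0 < N) (y : ℝ) :
    IsArc (rc 0 N y y) ((0, y) : ℝ × ℝ) ((N:ℝ), y) := by
  have hN' : (0:ℝ) < N := by exact_mod_cast hN
  have e : rc 0 N y y = segment ℝ ((0, y) : ℝ × ℝ) ((N:ℝ), y) := by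
    ext ⟨a, b⟩
    rw [mem_hseg hN'.le, mem_rc_flat]
    exact ⟨fun h => ⟨h.1.1, h.1.2, h.2⟩, fun h => ⟨⟨h.1, h.2.1⟩, h.2.2⟩⟩
  rw [e]
  exact isArc_segment (by simp [hN'.ne])

theorem rb_eq_bo_UT (N : ℕ) : rb 0 N 0 1 = rc 0 N 0 0 ∪ UT N := by
  ext p
  constructor
  · rintro ⟨h1, h2 | h2 | h2 | h2⟩
    · exact Or.inr ⟨h1, Or.inl h2⟩
    · exact Or.inr ⟨h1, Or.inr (Or.inl h2)⟩
    · exact Or.inl (mem_rc_flat.2 ⟨h1.1, h2⟩)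
    · exact Or.inr ⟨h1, Or.inr (Or.inr h2)⟩
  · rintro (h | ⟨h1, h2 | h2 | h2⟩)
    · obtain ⟨h1, h2⟩ := mem_rc_flat.1 h
      exact ⟨⟨h1, by rw [h2]; exact ⟨le_refl _, zero_le_one⟩⟩, Or.inr (Or.inr (Or.inl h2))⟩
    · exact ⟨h1, Or.inl h2⟩
    · exact ⟨h1, Or.inr (Or.inl h2)⟩
    · exact ⟨h1, Or.inr (Or.inr (Or.inr h2))⟩

theorem rb_eq_UB_to (N : ℕ) : rb 0 N 0 1 = UB N ∪ rc 0 N 1 1 := by
  ext p
  constructor
  · rintro ⟨h1, h2 | h2 | h2 | h2⟩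
    · exact Or.inl ⟨h1, Or.inl h2⟩
    · exact Or.inl ⟨h1, Or.inr (Or.inl h2)⟩
    · exact Or.inl ⟨h1, Or.inr (Or.inr h2)⟩
    · exact Or.inr (mem_rc_flat.2 ⟨h1.1, h2⟩)
  · rintro (⟨h1, h2 | h2 | h2⟩ | h)
    · exact ⟨h1, Or.inl h2⟩
    · exact ⟨h1, Or.inr (Or.inl h2)⟩
    · exact ⟨h1, Or.inr (Or.inr (Or.inl h2))⟩
    · obtain ⟨h1, h2⟩ := mem_rc_flat.1 h
      exact ⟨⟨h1, by rw [h2]; exact ⟨zero_le_one, le_refl _⟩⟩, Or.inr (Or.inr (Or.inr h2))⟩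

theorem UT_subset (N : ℕ) : UT N ⊆ Lad N := by
  rintro p ⟨h1, h2 | h2 | h2⟩
  · exact ⟨h1, Or.inr (Or.inr ⟨0, Nat.zero_le _, by rw [h2]; simp⟩)⟩
  · exact ⟨h1, Or.inr (Or.inr ⟨N, le_refl _, h2⟩)⟩
  · exact ⟨h1, Or.inr (Or.inl h2)⟩

theorem UB_subset (N : ℕ) : UB N ⊆ Lad N := by
  rintro p ⟨h1, h2 | h2 | h2⟩
  · exact ⟨h1, Or.inr (Or.inr ⟨0, Nat.zero_le _, by rw [h2]; simp⟩)⟩
  · exact ⟨h1, Or.inr (Or.inr ⟨N, le_refl _, h2⟩)⟩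
  · exact ⟨h1, Or.inl h2⟩

theorem bo_subset (N : ℕ) : rc 0 N 0 0 ⊆ Lad N :=
  (subset_union_left.trans (rb_eq_bo_UT N).symm.subset).trans (rb_subset_Lad N)

theorem to_subset (N : ℕ) : rc 0 N 1 1 ⊆ Lad N :=
  (subset_union_right.trans (rb_eq_UB_to N).symm.subset).trans (rb_subset_Lad N)

theorem isArc_UT {N : ℕ} (hN : 0 < N) : IsArc (UT N) ((0, 0) : ℝ × ℝ) ((N:ℝ), 0) := by
  have hN' : (0:ℝ) < N := by exact_mod_cast hN
  have e : UT N = (vs 0 ∪ rc 0 N 1 1) ∪ vs N := by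
    ext p
    simp only [mem_union, mem_rc_flat]
    constructor
    · rintro ⟨h1, h2 | h2 | h2⟩
      · exact Or.inl (Or.inl ⟨h2, h1.2⟩)
      · exact Or.inr ⟨h2, h1.2⟩
      · exact Or.inl (Or.inr ⟨h1.1, h2⟩)
    · rintro ((⟨h1, h2⟩ | ⟨h1, h2⟩) | ⟨h1, h2⟩)
      · exact ⟨⟨⟨by rw [h1], by rw [h1]; exact hN'.le⟩, h2⟩, Or.inl h1⟩
      · exact ⟨⟨h1, by rw [h2]; exact ⟨zero_le_one, le_refl _⟩⟩, Or.inr (Or.inr h2)⟩
      · exact ⟨⟨⟨by rw [h1]; exact hN'.le, by rw [h1]⟩, h2⟩, Or.inr (Or.inl h1)⟩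
  rw [e]
  refine IsArc.trans (q := ((N:ℝ), 1)) (IsArc.trans (q := (0, 1)) (isArc_vs 0) (isArc_flat hN 1) ?_)
    (isArc_vs N).symm ?_
  · rintro ⟨x, y⟩ ⟨h1, h2⟩
    rw [mem_rc_flat] at h2
    rw [mem_singleton_iff, h1.1.symm, h2.2.symm]
  · rintro ⟨x, y⟩ ⟨h1 | h1, h2⟩
    · have := h1.1.symm.trans h2.1
      exact absurd this hN'.ne
    · rw [mem_rc_flat] at h1
      rw [mem_singleton_iff, h2.1.symm, h1.2.symm]

theorem isArc_UB {N : ℕ} (hN : 0 < N) : IsArc (UB N) ((0, 1) : ℝ × ℝ) ((N:ℝ), 1) := by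
  have hN' : (0:ℝ) < N := by exact_mod_cast hN
  have e : UB N = (vs 0 ∪ rc 0 N 0 0) ∪ vs N := by
    ext p
    simp only [mem_union, mem_rc_flat]
    constructor
    · rintro ⟨h1, h2 | h2 | h2⟩
      · exact Or.inl (Or.inl ⟨h2, h1.2⟩)
      · exact Or.inr ⟨h2, h1.2⟩
      · exact Or.inl (Or.inr ⟨h1.1, h2⟩)
    · rintro ((⟨h1, h2⟩ | ⟨h1, h2⟩) | ⟨h1, h2⟩)
      · exact ⟨⟨⟨by rw [h1], by rw [h1]; exact hN'.le⟩, h2⟩, Or.inl h1⟩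
      · exact ⟨⟨h1, by rw [h2]; exact ⟨le_refl _, zero_le_one⟩⟩, Or.inr (Or.inr h2)⟩
      · exact ⟨⟨⟨by rw [h1]; exact hN'.le, by rw [h1]⟩, h2⟩, Or.inr (Or.inl h1)⟩
  rw [e]
  refine IsArc.trans (q := ((N:ℝ), 0)) (IsArc.trans (q := (0, 0)) (isArc_vs 0).symm
    (isArc_flat hN 0) ?_) (isArc_vs N) ?_
  · rintro ⟨x, y⟩ ⟨h1, h2⟩
    rw [mem_rc_flat] at h2
    rw [mem_singleton_iff]
    exact Prod.ext h1.1 h2.2
  · rintro ⟨x, y⟩ ⟨h1 | h1, h2⟩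
    · have := h1.1.symm.trans h2.1
      exact absurd this hN'.ne
    · rw [mem_rc_flat] at h1
      rw [mem_singleton_iff, h2.1.symm, h1.2.symm]

end P073.H399
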