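import Vale.Agent.P073.H399.Ann

/-!
# P073 / H399: the two discs of a planar annulus cut by two ladders
-/

open Set Metric Topology Filter

namespace P073.H399

open P073 P073.H339

/-- two ladders in an annulus -/
structure AnnS (N : ℕ) (D C M B : Set (ℝ × ℝ)) (a₁ b₁ a₂ b₂ : ℝ → ℝ × ℝ) : Prop where
  h₁ : LadD N D C M a₁ b₁
  h₂ : LadD N D C M a₂ b₂
  hD : H339.AmbDisc D C
  hM : H339.AmbDisc M B
  CM : Disjoint C M
  MD : M ⊆ D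
  hC : C = a₁ '' Icc 0 (N:ℝ) ∪ a₂ '' Icc 0 (N:ℝ)
  hB : B = b₁ '' Icc 0 (N:ℝ) ∪ b₂ '' Icc 0 (N:ℝ)
  Ci : ∀ s ∈ Icc 0 (N:ℝ), ∀ t ∈ Icc 0 (N:ℝ), a₁ s = a₂ t → s = 0 ∨ s = N
  Bi : ∀ s ∈ Icc 0 (N:ℝ), ∀ t ∈ Icc 0 (N:ℝ), b₁ s = b₂ t → s = 0 ∨ s = N
  a0 : a₁ 0 = a₂ 0
  aN : a₁ N = a₂ N
  b0 : b₁ 0 = b₂ 0
  bN : b₁ N = b₂ N

namespace AnnS

variable {N : ℕ} {D C M B : Set (ℝ × ℝ)} {a₁ b₁ a₂ b₂ : ℝ → ℝ × ℝ}

theorem Ci' (h : AnnS N D C M B a₁ b₁ a₂ b₂) {s t : ℝ} (hs : s ∈ Icc 0 (N:ℝ))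
    (ht : t ∈ Icc 0 (N:ℝ)) (he : a₁ s = a₂ t) : t = 0 ∨ t = N := by
  have hN : (0:ℝ) ≤ N := Nat.cast_nonneg N
  rcases h.Ci s hs t ht he with h1 | h1
  · left
    rw [h1, h.a0] at he
    exact (h.h₂.ai ⟨le_refl _, hN⟩ ht he).symm
  · right
    rw [h1, h.aN] at he
    exact (h.h₂.ai ⟨hN, le_refl _⟩ ht he).symm

theorem Bi' (h : AnnS N D C M B a₁ b₁ a₂ b₂) {s t : ℝ} (hs : s ∈ Icc 0 (N:ℝ))
    (ht : t ∈ Icc 0 (N:ℝ)) (he : b₁ s = b₂ t) : t = 0 ∨ t = N := by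
  have hN : (0:ℝ) ≤ N := Nat.cast_nonneg N
  rcases h.Bi s hs t ht he with h1 | h1
  · left
    rw [h1, h.b0] at he
    exact (h.h₂.bi ⟨le_refl _, hN⟩ ht he).symm
  · right
    rw [h1, h.bN] at he
    exact (h.h₂.bi ⟨hN, le_refl _⟩ ht he).symm

theorem eq_side (h : AnnS N D C M B a₁ b₁ a₂ b₂) {p : ℝ × ℝ} (hp : p.1 = 0 ∨ p.1 = N) :
    lmap a₁ b₁ p = lmap a₂ b₂ p := by
  unfold lmap
  rcases hp with hp | hp
  · rw [hp, h.a0, h.b0]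
  · rw [hp, h.aN, h.bN]

theorem image_bo (_h : LadD N D C M a₁ b₁) : lmap a₁ b₁ '' rc 0 N 0 0 = a₁ '' Icc 0 (N:ℝ) := by
  ext x
  constructor
  · rintro ⟨p, hp, rfl⟩
    obtain ⟨h1, h2⟩ := mem_rc_flat.1 hp
    have e : p = (p.1, 0) := Prod.ext rfl h2
    rw [e, lmap_zero]
    exact mem_image_of_mem _ h1
  · rintro ⟨t, ht, rfl⟩
    exact ⟨(t, 0), mem_rc_flat.2 ⟨ht, rfl⟩, lmap_zero _ _ _⟩

theorem image_to (_h : LadD N D C M a₁ b₁) : lmap a₁ b₁ '' rc 0 N 1 1 = b₁ '' Icc 0 (N:ℝ) := by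
  ext x
  constructor
  · rintro ⟨p, hp, rfl⟩
    obtain ⟨h1, h2⟩ := mem_rc_flat.1 hp
    have e : p = (p.1, 1) := Prod.ext rfl h2
    rw [e, lmap_one]
    exact mem_image_of_mem _ h1
  · rintro ⟨t, ht, rfl⟩
    exact ⟨(t, 1), mem_rc_flat.2 ⟨ht, rfl⟩, lmap_one _ _ _⟩

theorem lad_D (h : LadD N D C M a₁ b₁) (hCD : C ⊆ D) (hMD : M ⊆ D) {p : ℝ × ℝ} (hp : p ∈ Lad N) :
    lmap a₁ b₁ p ∈ D := by
  rcases mem_Lad_iff.1 hp with ⟨h1, h2⟩ | ⟨h1, h2⟩ | ⟨i, hi, h1, h2, h3⟩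
  · have e : p = (p.1, 0) := Prod.ext rfl h2
    rw [e, lmap_zero]
    exact hCD (h.am h1)
  · have e : p = (p.1, 1) := Prod.ext rfl h2
    rw [e, lmap_one]
    exact hMD (h.bm h1)
  · have e : p = ((i:ℝ), p.2) := Prod.ext h1 rfl
    rw [e]
    exact h.rD i hi _ h2 h3

/-- the two discs -/
theorem discs (h : AnnS N D C M B a₁ b₁ a₂ b₂) (hN : 2 ≤ N) :
    ∃ P₁ P₂, H339.AmbDisc P₁ (lmap a₁ b₁ '' rb 0 N 0 1) ∧
      H339.AmbDisc P₂ (lmap a₂ b₂ '' rb 0 N 0 1) ∧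
      lmap a₁ b₁ '' Lad N ⊆ P₁ ∧ lmap a₂ b₂ '' Lad N ⊆ P₂ ∧ D = M ∪ (P₁ ∪ P₂) ∧
      P₁ ∩ P₂ ⊆ lmap a₁ b₁ '' (vs 0 ∪ vs N) ∧ P₁ ∩ M ⊆ b₁ '' Icc 0 (N:ℝ) ∧
      P₂ ∩ M ⊆ b₂ '' Icc 0 (N:ℝ) := by
  have hN0 : 0 < N := by omega
  have hNR : (0:ℝ) < N := by exact_mod_cast hN0
  have h0m : (0:ℝ) ∈ Icc (0:ℝ) N := ⟨le_refl _, hNR.le⟩
  have hNm : (N:ℝ) ∈ Icc (0:ℝ) N := ⟨hNR.le, le_refl _⟩
  have hCD : C ⊆ D := h.hD.jdisc.bdry_subset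
  have hBM : B ⊆ M := h.hM.jdisc.bdry_subset
  obtain ⟨g₁, hg₁⟩ : ∃ g : ConHomeo (Lad N) (lmap a₁ b₁ '' Lad N), g.toFun = lmap a₁ b₁ :=
    ⟨h.h₁.homeo h.CM, LadD.homeo_toFun _ _⟩
  obtain ⟨g₂, hg₂⟩ : ∃ g : ConHomeo (Lad N) (lmap a₂ b₂ '' Lad N), g.toFun = lmap a₂ b₂ :=
    ⟨h.h₂.homeo h.CM, LadD.homeo_toFun _ _⟩
  have b1C : ∀ p ∈ rc 0 (N:ℝ) 0 0, lmap a₁ b₁ p ∈ C := by
    intro p hp
    obtain ⟨h1, h2⟩ := mem_rc_flat.1 hp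
    have e : p = (p.1, 0) := Prod.ext rfl h2
    rw [e, lmap_zero]; exact h.h₁.am h1
  have b2C : ∀ p ∈ rc 0 (N:ℝ) 0 0, lmap a₂ b₂ p ∈ C := by
    intro p hp
    obtain ⟨h1, h2⟩ := mem_rc_flat.1 hp
    have e : p = (p.1, 0) := Prod.ext rfl h2
    rw [e, lmap_zero]; exact h.h₂.am h1
  have t1M : ∀ p ∈ rc 0 (N:ℝ) 1 1, lmap a₁ b₁ p ∈ M := by
    intro p hp
    obtain ⟨h1, h2⟩ := mem_rc_flat.1 hp
    have e : p = (p.1, 1) := Prod.ext rfl h2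
    rw [e, lmap_one]; exact h.h₁.bm h1
  have t2M : ∀ p ∈ rc 0 (N:ℝ) 1 1, lmap a₂ b₂ p ∈ M := by
    intro p hp
    obtain ⟨h1, h2⟩ := mem_rc_flat.1 hp
    have e : p = (p.1, 1) := Prod.ext rfl h2
    rw [e, lmap_one]; exact h.h₂.bm h1
  -- no middle rung of the second ladder touches `C ∩ T₁` or `L₁` ...
  have hUT1 : ∀ p ∈ UT N, lmap a₁ b₁ p ∈ C → lmap a₁ b₁ p ∈ ({a₁ 0, a₁ N} : Set (ℝ × ℝ)) := by
    rintro p ⟨h1, h2⟩ hp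
    have h3 := h.h₁.snd_zero h.CM (UT_subset N ⟨h1, h2⟩) hp
    rcases h2 with h2 | h2 | h2
    · left
      rw [show p = (0, 0) from Prod.ext h2 h3, lmap_zero]
    · right
      rw [show p = ((N:ℝ), 0) from Prod.ext h2 h3, lmap_zero]; rfl
    · rw [h3] at h2; norm_num at h2
  have hUB2 : ∀ p ∈ UB N, lmap a₂ b₂ p ∈ M → lmap a₂ b₂ p ∈ ({b₁ 0, b₁ N} : Set (ℝ × ℝ)) := by
    rintro p ⟨h1, h2⟩ hp
    have h3 := h.h₂.snd_one h.CM (UB_subset N ⟨h1, h2⟩) hp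
    rcases h2 with h2 | h2 | h2
    · left
      rw [show p = (0, 1) from Prod.ext h2 h3, lmap_one, h.b0]
    · right
      rw [show p = ((N:ℝ), 1) from Prod.ext h2 h3, lmap_one, h.bN]; rfl
    · rw [h3] at h2; norm_num at h2
  -- first crosscut
  have hD1 : H339.AmbDisc D (lmap a₁ b₁ '' rc 0 N 0 0 ∪ lmap a₂ b₂ '' rc 0 N 0 0) := by
    rw [image_bo h.h₁, image_bo h.h₂, ← h.hC]; exact h.hD
  have A1 : IsArc (lmap a₁ b₁ '' rc 0 N 0 0) (a₁ 0) (a₁ N) := by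
    have := (isArc_flat hN0 0).image g₁ (bo_subset N)
    rw [hg₁, lmap_zero, lmap_zero] at this; exact this
  have A2 : IsArc (lmap a₂ b₂ '' rc 0 N 0 0) (a₁ 0) (a₁ N) := by
    have := (isArc_flat hN0 0).image g₂ (bo_subset N)
    rw [hg₂, lmap_zero, lmap_zero, ← h.a0, ← h.aN] at this; exact this
  have A3 : IsArc (lmap a₁ b₁ '' UT N) (a₁ 0) (a₁ N) := by
    have := (isArc_UT hN0).image g₁ (UT_subset N)
    rw [hg₁, lmap_zero, lmap_zero] at this; exact this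
  obtain ⟨Q₁, Q₂, hQ₁, hQ₂, hQD, hQi, c1, c2⟩ := H339.sch.crosscut hD1 A1 A2 A3
    (by
      rw [image_bo h.h₁, image_bo h.h₂]
      rintro _ ⟨⟨s, hs, rfl⟩, ⟨t, ht, he⟩⟩
      rcases h.Ci s hs t ht he.symm with h1 | h1
      · left; rw [h1]
      · right; rw [h1]; rfl)
    (by
      rintro _ ⟨p, hp, rfl⟩
      exact lad_D h.h₁ hCD h.MD (UT_subset N hp))
    (by
      rintro _ ⟨⟨p, hp, rfl⟩, ⟨q, hq, he⟩⟩
      exact hUT1 p hp (he ▸ b1C q hq))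
    (by
      rintro _ ⟨⟨p, hp, rfl⟩, ⟨q, hq, he⟩⟩
      exact hUT1 p hp (he ▸ b2C q hq))
  have hα1 : lmap a₁ b₁ '' UT N ⊆ Q₁ := fun x hx => hQ₁.jdisc.bdry_subset (Or.inr hx)
  have hα2 : lmap a₁ b₁ '' UT N ⊆ Q₂ := fun x hx => hQ₂.jdisc.bdry_subset (Or.inr hx)
  -- rungs of the second ladder
  have vspre : ∀ j : ℕ, j ≤ N → IsPreconnected (lmap a₂ b₂ '' vs j) := by
    intro j hj
    exact (isPreconnected_vs j).image _ (h.h₂.contOn.mono (vs_subset_Lad hj))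
  have stepA : ∀ j : ℕ, 0 < j → j < N → Disjoint (lmap a₂ b₂ '' vs j) Q₁ := by
    intro j hj0 hjN
    have hj0' : (0:ℝ) < j := by exact_mod_cast hj0
    have hjN' : (j:ℝ) < N := by exact_mod_cast hjN
    have hjm := cast_mem hjN.le
    have hvs : vs j ⊆ Lad N := vs_subset_Lad hjN.le
    have hd : Disjoint (lmap a₂ b₂ '' vs j) (lmap a₁ b₁ '' rc 0 N 0 0 ∪ lmap a₁ b₁ '' UT N) := by
      rw [disjoint_left]
      rintro _ ⟨p, hp, rfl⟩ (⟨q, hq, he⟩ | ⟨q, hq, he⟩)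
      · have h3 := h.h₂.snd_zero h.CM (hvs hp) (he ▸ b1C q hq)
        have e1 : p = ((j:ℝ), 0) := Prod.ext hp.1 h3
        obtain ⟨h4, h5⟩ := mem_rc_flat.1 hq
        have e2 : q = (q.1, 0) := Prod.ext rfl h5
        rw [e1, e2, lmap_zero, lmap_zero] at he
        rcases h.Ci' h4 hjm he with h6 | h6
        · exact hj0'.ne' h6
        · exact hjN'.ne h6
      · by_cases hq1 : q.1 = 0 ∨ q.1 = N
        · rw [h.eq_side hq1] at he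
          have := h.h₂.injOn h.CM (UT_subset N hq) (hvs hp) he
          rw [this, hp.1] at hq1
          rcases hq1 with h6 | h6
          · exact hj0'.ne' h6
          · exact hjN'.ne h6
        · have hq2 : q.2 = 1 := by
            rcases hq.2 with h6 | h6 | h6
            · exact absurd (Or.inl h6) hq1
            · exact absurd (Or.inr h6) hq1
            · exact h6
          have hqr : q ∈ rc 0 (N:ℝ) 1 1 := mem_rc_flat.2 ⟨hq.1.1, hq2⟩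
          have h3 := h.h₂.snd_one h.CM (hvs hp) (he ▸ t1M q hqr)
          have e1 : p = ((j:ℝ), 1) := Prod.ext hp.1 h3
          have e2 : q = (q.1, 1) := Prod.ext rfl hq2
          rw [e1, e2, lmap_one, lmap_one] at he
          rcases h.Bi' hq.1.1 hjm he with h6 | h6
          · exact hj0'.ne' h6
          · exact hjN'.ne h6
    rcases hQ₁.jdisc.in_or_out (vspre j hjN.le) hd with h3 | h3
    · exfalso
      have hm : ((j:ℝ), (0:ℝ)) ∈ vs j := ⟨rfl, le_refl _, zero_le_one⟩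
      have hm' : ((j:ℝ), (0:ℝ)) ∈ rc 0 (N:ℝ) 0 0 := mem_rc_flat.2 ⟨hjm, rfl⟩
      have h4 := c1 ⟨mem_image_of_mem _ hm', interior_subset (h3 (mem_image_of_mem _ hm))⟩
      rw [lmap_zero, h.a0, h.aN] at h4
      rcases h4 with h4 | h4
      · exact hj0'.ne' (h.h₂.ai hjm h0m h4)
      · exact hjN'.ne (h.h₂.ai hjm hNm h4)
    · exact h3
  -- the second inner arc is in `Q₂`
  have L2 : lmap a₂ b₂ '' rc 0 N 1 1 ⊆ Q₂ := by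
    have hpre : IsPreconnected (b₂ '' Ioo 0 (N:ℝ)) :=
      isPreconnected_Ioo.image _ (h.h₂.bc.mono Ioo_subset_Icc_self)
    have hd : Disjoint (b₂ '' Ioo 0 (N:ℝ)) (lmap a₁ b₁ '' rc 0 N 0 0 ∪ lmap a₁ b₁ '' UT N) := by
      rw [disjoint_left]
      rintro _ ⟨t, ht, rfl⟩ (⟨q, hq, he⟩ | ⟨q, hq, he⟩)
      · exact disjoint_left.1 h.CM (b1C q hq) (he ▸ h.h₂.bm (Ioo_subset_Icc_self ht))
      · have h3 := h.h₁.snd_one h.CM (UT_subset N hq) (he ▸ h.h₂.bm (Ioo_subset_Icc_self ht))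
        rw [show q = (q.1, 1) from Prod.ext rfl h3, lmap_one] at he
        rcases h.Bi' hq.1.1 (Ioo_subset_Icc_self ht) he with h6 | h6
        · exact ht.1.ne' h6
        · exact ht.2.ne h6
    have h1N : ((1:ℕ):ℝ) ∈ Ioo 0 (N:ℝ) := ⟨by norm_num, by exact_mod_cast (by omega : 1 < N)⟩
    have hdis : Disjoint (b₂ '' Ioo 0 (N:ℝ)) Q₁ := by
      rcases hQ₁.jdisc.in_or_out hpre hd with h3 | h3
      · exfalso
        have h4 := interior_subset (h3 (mem_image_of_mem _ h1N))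
        have h5 : b₂ ((1:ℕ):ℝ) ∈ lmap a₂ b₂ '' vs ((1:ℕ):ℝ) :=
          ⟨(((1:ℕ):ℝ), 1), ⟨rfl, zero_le_one, le_refl _⟩, lmap_one _ _ _⟩
        exact disjoint_left.1 (stepA 1 one_pos (by omega)) h5 h4
      · exact h3
    rw [image_to h.h₂]
    rintro _ ⟨t, ht, rfl⟩
    rcases ht.1.eq_or_lt with h1 | h1
    · rw [← h1, ← h.b0]
      exact hα2 ⟨(0, 1), ⟨⟨h0m, zero_le_one, le_refl _⟩, Or.inl rfl⟩, lmap_one _ _ _⟩
    · rcases ht.2.eq_or_lt with h2 | h2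
      · rw [h2, ← h.bN]
        exact hα2 ⟨((N:ℝ), 1), ⟨⟨hNm, zero_le_one, le_refl _⟩, Or.inr (Or.inl rfl)⟩, lmap_one _ _ _⟩
      · have h3 : b₂ t ∈ Q₁ ∪ Q₂ := hQD ▸ h.MD (h.h₂.bm ht)
        rcases h3 with h3 | h3
        · exact absurd h3 (disjoint_left.1 hdis (mem_image_of_mem _ ⟨h1, h2⟩))
        · exact h3
  -- second crosscut
  have hside : lmap a₂ b₂ '' rc 0 N 0 0 ∪ lmap a₁ b₁ '' UT N =
      lmap a₂ b₂ '' UB N ∪ lmap a₁ b₁ '' rc 0 N 1 1 := by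
    ext x
    constructor
    · rintro (⟨p, hp, rfl⟩ | ⟨p, ⟨h1, h2⟩, rfl⟩)
      · obtain ⟨h1, h2⟩ := mem_rc_flat.1 hp
        exact Or.inl ⟨p, ⟨⟨h1, by rw [h2]; exact ⟨le_refl _, zero_le_one⟩⟩, Or.inr (Or.inr h2)⟩, rfl⟩
      · rcases h2 with h2 | h2 | h2
        · exact Or.inl ⟨p, ⟨h1, Or.inl h2⟩, (h.eq_side (Or.inl h2)).symm⟩
        · exact Or.inl ⟨p, ⟨h1, Or.inr (Or.inl h2)⟩, (h.eq_side (Or.inr h2)).symm⟩
        · exact Or.inr ⟨p, mem_rc_flat.2 ⟨h1.1, h2⟩, rfl⟩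
    · rintro (⟨p, ⟨h1, h2⟩, rfl⟩ | ⟨p, hp, rfl⟩)
      · rcases h2 with h2 | h2 | h2
        · exact Or.inr ⟨p, ⟨h1, Or.inl h2⟩, h.eq_side (Or.inl h2)⟩
        · exact Or.inr ⟨p, ⟨h1, Or.inr (Or.inl h2)⟩, h.eq_side (Or.inr h2)⟩
        · exact Or.inl ⟨p, mem_rc_flat.2 ⟨h1.1, h2⟩, rfl⟩
      · obtain ⟨h1, h2⟩ := mem_rc_flat.1 hp
        exact Or.inr ⟨p, ⟨⟨h1, by rw [h2]; exact ⟨zero_le_one, le_refl _⟩⟩, Or.inr (Or.inr h2)⟩, rfl⟩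
  have B1 : IsArc (lmap a₂ b₂ '' UB N) (b₁ 0) (b₁ N) := by
    have := (isArc_UB hN0).image g₂ (UB_subset N)
    rw [hg₂, lmap_one, lmap_one, ← h.b0, ← h.bN] at this; exact this
  have B2 : IsArc (lmap a₁ b₁ '' rc 0 N 1 1) (b₁ 0) (b₁ N) := by
    have := (isArc_flat hN0 1).image g₁ (to_subset N)
    rw [hg₁, lmap_one, lmap_one] at this; exact this
  have B3 : IsArc (lmap a₂ b₂ '' rc 0 N 1 1) (b₁ 0) (b₁ N) := by
    have := (isArc_flat hN0 1).image g₂ (to_subset N)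
    rw [hg₂, lmap_one, lmap_one, ← h.b0, ← h.bN] at this; exact this
  obtain ⟨P₂, M₂, hP₂, hM₂, hPM, hPMi, d1, d2⟩ := H339.sch.crosscut (hside ▸ hQ₂) B1 B2 B3
    (by
      rintro _ ⟨⟨p, hp, rfl⟩, ⟨q, hq, he⟩⟩
      exact hUB2 p hp (he ▸ t1M q hq))
    L2
    (by
      rintro _ ⟨⟨q, hq, rfl⟩, ⟨p, hp, he⟩⟩
      rw [← he]
      exact hUB2 p hp (he.symm ▸ t2M q hq))
    (by
      rw [image_to h.h₁, image_to h.h₂]
      rintro _ ⟨⟨t, ht, rfl⟩, ⟨s, hs, he⟩⟩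
      rw [← he]
      rcases h.Bi s hs t ht he with h1 | h1
      · left; rw [h1]
      · right; rw [h1]; rfl)
  have hMM : M₂ = M := by
    rw [image_to h.h₁, image_to h.h₂, ← h.hB] at hM₂
    exact hM₂.unique h.hM
  rw [hMM] at hPM hPMi
  refine ⟨Q₁, P₂, ?_, ?_, ?_, ?_, ?_, ?_, ?_, ?_⟩
  · rw [rb_eq_bo_UT, image_union]; exact hQ₁
  · rw [rb_eq_UB_to, image_union]; exact hP₂
  · rintro _ ⟨p, hp, rfl⟩
    by_cases hUT : p ∈ UT N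
    · exact hα1 (mem_image_of_mem _ hUT)
    by_cases hp0 : p.2 = 0
    · exact hQ₁.jdisc.bdry_subset (Or.inl ⟨p, mem_rc_flat.2 ⟨hp.1.1, hp0⟩, rfl⟩)
    rcases mem_Lad_iff.1 hp with ⟨h1, h2⟩ | ⟨h1, h2⟩ | ⟨j, hj, h1, h2, h3⟩
    · exact absurd h2 hp0
    · exact absurd ⟨hp.1, Or.inr (Or.inr h2)⟩ hUT
    · have hjN : j ≠ N := by
        rintro rfl
        exact hUT ⟨hp.1, Or.inr (Or.inl h1)⟩
      have hj0 : j ≠ 0 := by
        rintro rfl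
        exact hUT ⟨hp.1, Or.inl (by rw [h1]; simp)⟩
      have hp1 : p.2 < 1 := lt_of_le_of_ne h3 fun h4 => hUT ⟨hp.1, Or.inr (Or.inr h4)⟩
      have hj0' : (0:ℝ) < j := by exact_mod_cast Nat.pos_of_ne_zero hj0
      have hjN' : (j:ℝ) < N := by exact_mod_cast lt_of_le_of_ne hj hjN
      have hjm := cast_mem hj
      -- the half open rung
      have hvs : {q : ℝ × ℝ | q.1 = j ∧ 0 ≤ q.2 ∧ q.2 < 1} ⊆ Lad N := fun q hq =>
        vs_subset_Lad hj ⟨hq.1, hq.2.1, hq.2.2.le⟩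
      have hcv : Convex ℝ {q : ℝ × ℝ | q.1 = j ∧ 0 ≤ q.2 ∧ q.2 < 1} := by
        have : {q : ℝ × ℝ | q.1 = j ∧ 0 ≤ q.2 ∧ q.2 < 1} = {(j:ℝ)} ×ˢ Ico (0:ℝ) 1 := rfl
        rw [this]
        exact (convex_singleton _).prod (convex_Ico _ _)
      have hpre : IsPreconnected (lmap a₁ b₁ '' {q : ℝ × ℝ | q.1 = j ∧ 0 ≤ q.2 ∧ q.2 < 1}) :=
        hcv.isPreconnected.image _ (h.h₁.contOn.mono hvs)
      have hd : Disjoint (lmap a₁ b₁ '' {q : ℝ × ℝ | q.1 = j ∧ 0 ≤ q.2 ∧ q.2 < 1})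
          (lmap a₂ b₂ '' rc 0 N 0 0 ∪ lmap a₁ b₁ '' UT N) := by
        rw [disjoint_left]
        rintro _ ⟨q, hq, rfl⟩ (⟨u, hu, he⟩ | ⟨u, hu, he⟩)
        · have h5 := h.h₁.snd_zero h.CM (hvs hq) (he ▸ b2C u hu)
          obtain ⟨h6, h7⟩ := mem_rc_flat.1 hu
          rw [show q = ((j:ℝ), 0) from Prod.ext hq.1 h5, show u = (u.1, 0) from Prod.ext rfl h7,
            lmap_zero, lmap_zero] at he
          rcases h.Ci _ hjm _ h6 he.symm with h8 | h8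
          · exact hj0'.ne' h8
          · exact hjN'.ne h8
        · have h5 := h.h₁.injOn h.CM (UT_subset N hu) (hvs hq) he
          rw [h5] at hu
          rcases hu.2 with h6 | h6 | h6
          · rw [hq.1] at h6; exact hj0'.ne' h6
          · rw [hq.1] at h6; exact hjN'.ne h6
          · exact hq.2.2.ne h6
      have hnot : Disjoint (lmap a₁ b₁ '' {q : ℝ × ℝ | q.1 = j ∧ 0 ≤ q.2 ∧ q.2 < 1}) Q₂ := by
        rcases hQ₂.jdisc.in_or_out hpre hd with h5 | h5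
        · exfalso
          have hm : ((j:ℝ), (0:ℝ)) ∈ {q : ℝ × ℝ | q.1 = j ∧ 0 ≤ q.2 ∧ q.2 < 1} :=
            ⟨rfl, le_refl _, zero_lt_one⟩
          have hm' : ((j:ℝ), (0:ℝ)) ∈ rc 0 (N:ℝ) 0 0 := mem_rc_flat.2 ⟨hjm, rfl⟩
          have h6 := c2 ⟨mem_image_of_mem _ hm', interior_subset (h5 (mem_image_of_mem _ hm))⟩
          rw [lmap_zero] at h6
          rcases h6 with h6 | h6
          · exact hj0'.ne' (h.h₁.ai hjm h0m h6)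
          · exact hjN'.ne (h.h₁.ai hjm hNm h6)
        · exact h5
      have h7 : lmap a₁ b₁ p ∈ Q₁ ∪ Q₂ := hQD ▸ lad_D h.h₁ hCD h.MD hp
      rcases h7 with h7 | h7
      · exact h7
      · exact absurd h7 (disjoint_left.1 hnot (mem_image_of_mem _ ⟨h1, h2, hp1⟩))
  · rintro _ ⟨p, hp, rfl⟩
    by_cases hUB : p ∈ UB N
    · exact hP₂.jdisc.bdry_subset (Or.inl (mem_image_of_mem _ hUB))
    by_cases hp1 : p.2 = 1
    · exact hP₂.jdisc.bdry_subset (Or.inr ⟨p, mem_rc_flat.2 ⟨hp.1.1, hp1⟩, rfl⟩)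
    rcases mem_Lad_iff.1 hp with ⟨h1, h2⟩ | ⟨h1, h2⟩ | ⟨j, hj, h1, h2, h3⟩
    · exact absurd ⟨hp.1, Or.inr (Or.inr h2)⟩ hUB
    · exact absurd h2 hp1
    · have hjN : j ≠ N := by
        rintro rfl
        exact hUB ⟨hp.1, Or.inr (Or.inl h1)⟩
      have hj0 : j ≠ 0 := by
        rintro rfl
        exact hUB ⟨hp.1, Or.inl (by rw [h1]; simp)⟩
      have hpv : p ∈ vs j := ⟨h1, h2, h3⟩
      have h5 := stepA j (Nat.pos_of_ne_zero hj0) (lt_of_le_of_ne hj hjN)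
      have h7 : lmap a₂ b₂ p ∈ Q₁ ∪ Q₂ := hQD ▸ lad_D h.h₂ hCD h.MD hp
      rcases h7 with h7 | h7
      · exact absurd h7 (disjoint_left.1 h5 (mem_image_of_mem _ hpv))
      · rw [hPM] at h7
        rcases h7 with h7 | h7
        · exact h7
        · exact absurd (h.h₂.snd_one h.CM hp h7) hp1
  · rw [hQD, hPM]
    ext x; simp only [mem_union]; tauto
  · rintro x ⟨hx1, hx2⟩
    have h5 : x ∈ Q₁ ∩ Q₂ := ⟨hx1, hPM ▸ Or.inl hx2⟩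
    rw [hQi] at h5
    obtain ⟨p, hp, rfl⟩ := h5
    by_cases hp1 : p.1 = 0 ∨ p.1 = N
    · refine ⟨p, ?_, rfl⟩
      rcases hp1 with h6 | h6
      · exact Or.inl ⟨h6, hp.1.2⟩
      · exact Or.inr ⟨h6, hp.1.2⟩
    · have hp2 : p.2 = 1 := by
        rcases hp.2 with h6 | h6 | h6
        · exact absurd (Or.inl h6) hp1
        · exact absurd (Or.inr h6) hp1
        · exact h6
      have hpr : p ∈ rc 0 (N:ℝ) 1 1 := mem_rc_flat.2 ⟨hp.1.1, hp2⟩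
      have h6 : lmap a₁ b₁ p ∈ P₂ ∩ M := ⟨hx2, t1M p hpr⟩
      rw [hPMi, image_to h.h₂] at h6
      obtain ⟨t, ht, he⟩ := h6
      rw [show p = (p.1, 1) from Prod.ext rfl hp2, lmap_one] at he
      exact absurd (h.Bi _ hp.1.1 _ ht he.symm) hp1
  · rintro x ⟨hx1, hx2⟩
    have h5 : x ∈ Q₁ ∩ Q₂ := ⟨hx1, hPM ▸ Or.inr hx2⟩
    rw [hQi] at h5
    obtain ⟨p, hp, rfl⟩ := h5
    have h6 := h.h₁.snd_one h.CM (UT_subset N hp) hx2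
    rw [← image_to h.h₁]
    exact ⟨p, mem_rc_flat.2 ⟨hp.1.1, h6⟩, rfl⟩
  · rintro x hx
    rw [hPMi, image_to h.h₂] at hx
    exact hx

end AnnS

end P073.H399
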