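import Vale.Agent.P073.H399.Ann2

/-!
# P073 / H399: controlled homeomorphisms of planar annuli
-/

open Set Metric Topology Filter

namespace P073.H399

open P073 P073.H339

theorem exists_sq {N : ℕ} (hN : 1 ≤ N) {p : ℝ × ℝ} (hp : p ∈ rc 0 N 0 1) : ∃ j < N, p ∈ Sq j := by
  obtain ⟨⟨h1, h2⟩, h3⟩ := hp
  by_cases h4 : p.1 = N
  · refine ⟨N - 1, by omega, ⟨?_, ?_⟩, h3⟩
    · rw [h4]; push_cast [Nat.cast_sub hN]; linarith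
    · rw [h4]; push_cast [Nat.cast_sub hN]; linarith
  · have h5 : p.1 < N := lt_of_le_of_ne h2 h4
    refine ⟨⌊p.1⌋₊, (Nat.floor_lt h1).2 h5, ⟨Nat.floor_le h1, (Nat.lt_floor_add_one _).le⟩, h3⟩

theorem dSq_subset_Sq (j : ℕ) : dSq j ⊆ Sq j := rb_subset _ _ _ _

theorem Sq_subset {j N : ℕ} (h : j < N) : Sq j ⊆ rc 0 N 0 1 := by
  have h' : (j : ℝ) + 1 ≤ N := by exact_mod_cast h
  rintro p ⟨⟨h1, h1'⟩, h3⟩
  exact ⟨⟨(Nat.cast_nonneg j).trans h1, h1'.trans h'⟩, h3⟩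

namespace AnnS

variable {N : ℕ} {D C M M' B B' : Set (ℝ × ℝ)} {a₁ b₁ a₂ b₂ : ℝ → ℝ × ℝ}

/-- one half -/
theorem half {P Q : Set (ℝ × ℝ)} {a b b' : ℝ → ℝ × ℝ} {M M' : Set (ℝ × ℝ)} (hN : 1 ≤ N)
    (h : LadD N D C M a b) (h' : LadD N D C M' a b') (hCM : Disjoint C M) (hCM' : Disjoint C M')
    (hP : H339.AmbDisc P (lmap a b '' rb 0 N 0 1)) (hQ : H339.AmbDisc Q (lmap a b' '' rb 0 N 0 1))
    (l : lmap a b '' Lad N ⊆ P) (l' : lmap a b' '' Lad N ⊆ Q) {r : ℝ} (hr : 0 < r)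
    (z : ℕ → ℝ × ℝ) (c : ∀ j < N, ∀ p ∈ dSq j, lmap a b p ∈ closedBall (z j) r ∧
      lmap a b' p ∈ closedBall (z j) r) :
    ∃ K : ConHomeo P Q, (∀ p ∈ Lad N, K.toFun (lmap a b p) = lmap a b' p) ∧
      ∀ x ∈ P, ‖K.toFun x - x‖ ≤ 2 * r := by
  obtain ⟨G, hG, hG'⟩ := ladder N hN (h.homeo hCM) (D := P)
    (by rw [LadD.homeo_toFun]; exact hP) (by rw [LadD.homeo_toFun]; exact l)
  obtain ⟨F, hF, hF'⟩ := ladder N hN (h'.homeo hCM') (D := Q)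
    (by rw [LadD.homeo_toFun]; exact hQ) (by rw [LadD.homeo_toFun]; exact l')
  rw [LadD.homeo_toFun] at hG hF hG' hF'
  have hsub : Lad N ⊆ rc 0 N 0 1 := fun p hp => hp.1
  refine ⟨G.symm.trans F, ?_, ?_⟩
  · intro p hp
    rw [ConHomeo.trans_toFun, Function.comp_apply, ConHomeo.symm_toFun, ← hG hp,
      G.left_inv (hsub hp), hF hp]
  · intro x hx
    have hx' : G.invFun x ∈ rc 0 N 0 1 := G.mapsTo_inv hx
    obtain ⟨j, hj, hj'⟩ := exists_sq hN hx'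
    have e1 : G.toFun (G.invFun x) = x := G.right_inv hx
    have m1 : x ∈ closedBall (z j) r := by
      refine subset_closedBall_of (hG' j hj) hr ?_ ⟨G.invFun x, hj', e1⟩
      rintro _ ⟨p, hp, rfl⟩
      exact (c j hj p hp).1
    have m2 : F.toFun (G.invFun x) ∈ closedBall (z j) r := by
      refine subset_closedBall_of (hF' j hj) hr ?_ ⟨G.invFun x, hj', rfl⟩
      rintro _ ⟨p, hp, rfl⟩
      exact (c j hj p hp).2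
    rw [mem_closedBall, dist_eq_norm] at m1 m2
    have e3 : (G.symm.trans F).toFun x - x = (F.toFun (G.invFun x) - z j) - (x - z j) := by
      rw [ConHomeo.trans_toFun, Function.comp_apply, ConHomeo.symm_toFun]; abel
    rw [e3]
    exact (norm_sub_le _ _).trans (by linarith)

/-- **Controlled homeomorphism of an annulus.** -/
theorem homeo (φ : ConHomeo M M') (h : AnnS N D C M B a₁ b₁ a₂ b₂)
    (h' : AnnS N D C M' B' a₁ (fun t => φ.toFun (b₁ t)) a₂ (fun t => φ.toFun (b₂ t))) (hN : 2 ≤ N)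
    {r : ℝ} (hr : 0 < r) (z₁ z₂ : ℕ → ℝ × ℝ)
    (c₁ : ∀ j < N, ∀ p ∈ dSq j, lmap a₁ b₁ p ∈ closedBall (z₁ j) r ∧
      lmap a₁ (fun t => φ.toFun (b₁ t)) p ∈ closedBall (z₁ j) r)
    (c₂ : ∀ j < N, ∀ p ∈ dSq j, lmap a₂ b₂ p ∈ closedBall (z₂ j) r ∧
      lmap a₂ (fun t => φ.toFun (b₂ t)) p ∈ closedBall (z₂ j) r) :
    ∃ K : ConHomeo D D, EqOn K.toFun φ.toFun M ∧ (∀ x ∈ C, K.toFun x = x) ∧
      ∀ x ∈ D, x ∉ M → ‖K.toFun x - x‖ ≤ 2 * r := by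
  obtain ⟨P₁, P₂, hP₁, hP₂, l1, l2, hDe, hPi, hP1M, hP2M⟩ := h.discs hN
  obtain ⟨Q₁, Q₂, hQ₁, hQ₂, l1', l2', hDe', hQi, hQ1M, hQ2M⟩ := h'.discs hN
  obtain ⟨K₁, k1, k1'⟩ := half (by omega) h.h₁ h'.h₁ h.CM h'.CM hP₁ hQ₁ l1 l1' hr z₁ c₁
  obtain ⟨K₂, k2, k2'⟩ := half (by omega) h.h₂ h'.h₂ h.CM h'.CM hP₂ hQ₂ l2 l2' hr z₂ c₂
  have hNR : (0:ℝ) ≤ N := Nat.cast_nonneg N
  have v0 : vs 0 ⊆ Lad N := by
    have := vs_subset_Lad (Nat.zero_le N); simpa using this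
  have vN : vs N ⊆ Lad N := vs_subset_Lad (le_refl N)
  have hv : vs 0 ∪ vs N ⊆ Lad N := union_subset v0 vN
  have hside : ∀ p ∈ vs 0 ∪ vs N, p.1 = 0 ∨ p.1 = N := by
    rintro p (hp | hp)
    · exact Or.inl hp.1
    · exact Or.inr hp.1
  obtain ⟨K₃, k3, k3'⟩ := exists_glue K₁ K₂ hP₁.jdisc.isClosed hP₂.jdisc.isClosed
    hQ₁.jdisc.isClosed hQ₂.jdisc.isClosed
    (by
      intro x hx
      obtain ⟨p, hp, rfl⟩ := hPi hx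
      rw [k1 p (hv hp), h.eq_side (hside p hp), k2 p (hv hp), h'.eq_side (hside p hp)])
    (by
      intro y hy
      obtain ⟨p, hp, rfl⟩ := hQi hy
      refine ⟨lmap a₁ b₁ p, ⟨l1 (mem_image_of_mem _ (hv hp)), ?_⟩, k1 p (hv hp)⟩
      rw [h.eq_side (hside p hp)]
      exact l2 (mem_image_of_mem _ (hv hp)))
  have top1 : ∀ t ∈ Icc 0 (N:ℝ), b₁ t ∈ P₁ ∧ K₁.toFun (b₁ t) = φ.toFun (b₁ t) := by
    intro t ht
    have hm : ((t, 1) : ℝ × ℝ) ∈ Lad N := mem_Lad_iff.2 (Or.inr (Or.inl ⟨ht, rfl⟩))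
    have h1 := k1 _ hm
    rw [lmap_one, lmap_one] at h1
    refine ⟨?_, h1⟩
    have := l1 (mem_image_of_mem _ hm)
    rwa [lmap_one] at this
  have top2 : ∀ t ∈ Icc 0 (N:ℝ), b₂ t ∈ P₂ ∧ K₂.toFun (b₂ t) = φ.toFun (b₂ t) := by
    intro t ht
    have hm : ((t, 1) : ℝ × ℝ) ∈ Lad N := mem_Lad_iff.2 (Or.inr (Or.inl ⟨ht, rfl⟩))
    have h1 := k2 _ hm
    rw [lmap_one, lmap_one] at h1
    refine ⟨?_, h1⟩
    have := l2 (mem_image_of_mem _ hm)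
    rwa [lmap_one] at this
  have bot1 : ∀ t ∈ Icc 0 (N:ℝ), a₁ t ∈ P₁ ∧ K₁.toFun (a₁ t) = a₁ t := by
    intro t ht
    have hm : ((t, 0) : ℝ × ℝ) ∈ Lad N := mem_Lad_iff.2 (Or.inl ⟨ht, rfl⟩)
    have h1 := k1 _ hm
    rw [lmap_zero, lmap_zero] at h1
    refine ⟨?_, h1⟩
    have := l1 (mem_image_of_mem _ hm)
    rwa [lmap_zero] at this
  have bot2 : ∀ t ∈ Icc 0 (N:ℝ), a₂ t ∈ P₂ ∧ K₂.toFun (a₂ t) = a₂ t := by
    intro t ht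
    have hm : ((t, 0) : ℝ × ℝ) ∈ Lad N := mem_Lad_iff.2 (Or.inl ⟨ht, rfl⟩)
    have h1 := k2 _ hm
    rw [lmap_zero, lmap_zero] at h1
    refine ⟨?_, h1⟩
    have := l2 (mem_image_of_mem _ hm)
    rwa [lmap_zero] at this
  obtain ⟨K, kM, kP⟩ := exists_glue φ K₃ h.hM.jdisc.isClosed
    (hP₁.jdisc.isClosed.union hP₂.jdisc.isClosed) h'.hM.jdisc.isClosed
    (hQ₁.jdisc.isClosed.union hQ₂.jdisc.isClosed)
    (by
      rintro x ⟨hxM, hx | hx⟩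
      · obtain ⟨t, ht, rfl⟩ := hP1M ⟨hx, hxM⟩
        rw [k3 hx, (top1 t ht).2]
      · obtain ⟨t, ht, rfl⟩ := hP2M ⟨hx, hxM⟩
        rw [k3' hx, (top2 t ht).2])
    (by
      rintro y ⟨hyM, hy | hy⟩
      · obtain ⟨t, ht, rfl⟩ := hQ1M ⟨hy, hyM⟩
        exact ⟨b₁ t, ⟨h.h₁.bm ht, Or.inl (top1 t ht).1⟩, rfl⟩
      · obtain ⟨t, ht, rfl⟩ := hQ2M ⟨hy, hyM⟩
        exact ⟨b₂ t, ⟨h.h₂.bm ht, Or.inr (top2 t ht).1⟩, rfl⟩)
  refine ⟨K.cast hDe.symm hDe'.symm, kM, ?_, ?_⟩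
  · intro x hx
    rw [h.hC] at hx
    rw [ConHomeo.cast_toFun]
    rcases hx with ⟨t, ht, rfl⟩ | ⟨t, ht, rfl⟩
    · rw [kP (Or.inl (bot1 t ht).1), k3 (bot1 t ht).1, (bot1 t ht).2]
    · rw [kP (Or.inr (bot2 t ht).1), k3' (bot2 t ht).1, (bot2 t ht).2]
  · intro x hx hxM
    rw [hDe] at hx
    rw [ConHomeo.cast_toFun]
    rcases hx with hx | hx | hx
    · exact absurd hx hxM
    · rw [kP (Or.inl hx), k3 hx]; exact k1' x hx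
    · rw [kP (Or.inr hx), k3' hx]; exact k2' x hx

end AnnS

end P073.H399
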