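import Vale.Agent.P073.H399.Cc

/-!
# P073 / H399: the two ladders between a nearly round disc and a larger square
-/

open Set Metric Topology Filter

namespace P073.H399

open P073 P073.H339

section

variable {N : ℕ} {R : ℝ} {υ : ℕ → ℝ}

theorem ang_mem (hN : 0 < N) {t : ℝ} (ht : t ∈ Icc (0:ℝ) N) : 4 * t / N ∈ Icc (0:ℝ) 4 := by
  have hN' : (0:ℝ) < N := by exact_mod_cast hN
  exact ⟨by have := ht.1; positivity, by rw [div_le_iff₀ hN']; linarith [ht.2]⟩

theorem ang_mem5 (hN : 0 < N) {t : ℝ} (ht : t ∈ Icc (0:ℝ) N) : 4 * t / N ∈ Icc (-1:ℝ) 5 := by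
  obtain ⟨h1, h2⟩ := ang_mem hN ht
  exact ⟨by linarith, by linarith⟩

theorem outer_inj (hN : 0 < N) (hR : 0 < R) :
    InjOn (fun t : ℝ => R • cc (4 * t / N)) (Icc 0 (N:ℝ)) := by
  intro s hs t ht he
  have hN' : (0:ℝ) < N := by exact_mod_cast hN
  have h1 : cc (4 * s / N) = cc (4 * t / N) := smul_right_injective _ hR.ne' he
  have h2 := cc_inj (ang_mem5 hN hs) (ang_mem5 hN ht) h1
  field_simp at h2
  linarith

theorem outer_cont : Continuous (fun t : ℝ => R • cc (4 * t / N)) :=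
  (continuous_cc.comp (by fun_prop)).const_smul R

theorem outer_con : ConicalOn (fun t : ℝ => R • cc (4 * t / N)) (Icc 0 (N:ℝ)) := by
  have h1 : ConicalOn (fun t : ℝ => 4 * t / N) (Icc 0 (N:ℝ)) := by
    refine ((conicalOn_id (X := Icc 0 (N:ℝ)) (conicalSet_Icc _ _)).const_smul (4 / N : ℝ)).congr ?_
    intro t _
    simp only [smul_eq_mul]; ring
  exact ((conicalOn_cc (X := univ) (IsOpen.conicalSet isOpen_univ)).comp h1 (mapsTo_univ _ _)
    (Continuous.continuousOn (by fun_prop))).const_smul R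

theorem outer_norm (hN : 0 < N) (hR : 0 < R) {t : ℝ} (ht : t ∈ Icc (0:ℝ) N) :
    ‖R • cc (4 * t / N)‖ = R := by
  obtain ⟨h1, h2⟩ := ang_mem5 hN ht
  rw [norm_smul, norm_cc h1 h2, Real.norm_of_nonneg hR.le, mul_one]

theorem inner_mem (hs : ∀ j : ℕ, j ≤ N → SameSide (4 * j / N) (υ j))
    (hm : ∀ j < N, υ j < υ (j + 1)) {t : ℝ} (ht : t ∈ Icc (0:ℝ) N) :
    pl υ N t ∈ Icc (-1:ℝ) 5 := by
  have hmono := (pl_strictMono hm).monotoneOn
  have h0 : ((0:ℕ):ℝ) ∈ Icc (0:ℝ) N := cast_mem (Nat.zero_le N)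
  have h1 := hmono h0 ht (by simpa using ht.1)
  have h2 := hmono ht (cast_mem (le_refl N)) ht.2
  rw [pl_nat (Nat.zero_le N)] at h1
  rw [pl_nat (le_refl N)] at h2
  exact ⟨(hs 0 (Nat.zero_le N)).mem.2.1.trans h1, h2.trans (hs N (le_refl N)).mem.2.2⟩

theorem inner_inj (hs : ∀ j : ℕ, j ≤ N → SameSide (4 * j / N) (υ j))
    (hm : ∀ j < N, υ j < υ (j + 1)) : InjOn (fun t : ℝ => cc (pl υ N t)) (Icc 0 (N:ℝ)) := by
  intro s hs' t ht he
  exact (pl_strictMono hm).injOn hs' ht (cc_inj (inner_mem hs hm hs') (inner_mem hs hm ht) he)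

theorem inner_cont : Continuous (fun t : ℝ => cc (pl υ N t)) :=
  continuous_cc.comp (continuous_pl υ N)

theorem inner_con : ConicalOn (fun t : ℝ => cc (pl υ N t)) (Icc 0 (N:ℝ)) :=
  (conicalOn_cc (X := univ) (IsOpen.conicalSet isOpen_univ)).comp
    (conicalOn_pl υ N (conicalSet_Icc _ _)) (mapsTo_univ _ _) (continuous_pl υ N).continuousOn

/-- the domain ladder -/
theorem ladDom (hN : 0 < N) (hR : 1 < R) (hs : ∀ j : ℕ, j ≤ N → SameSide (4 * j / N) (υ j))
    (hm : ∀ j < N, υ j < υ (j + 1)) :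
    LadD N (closedBall 0 R) (sphere 0 R) (closedBall 0 1) (fun t => R • cc (4 * t / N))
      (fun t => cc (pl υ N t)) := by
  have hR0 : 0 < R := by linarith
  have hmm : ∀ i j : ℕ, i < j → j ≤ N → υ i < υ j := by
    intro i j hij
    induction j with
    | zero => omega
    | succ j ih =>
      intro hj
      rcases (Nat.lt_succ_iff.1 hij).lt_or_eq with h | h
      · exact (ih h (by omega)).trans (hm j (by omega))
      · subst h; exact hm i (by omega)
  -- rung formula
  have rung : ∀ j : ℕ, j ≤ N → ∀ x : ℝ, 0 ≤ x → x ≤ 1 →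
      lmap (fun t => R • cc (4 * t / N)) (fun t => cc (pl υ N t)) (j, x) =
        ((1 - x) * R + x) • cc (((1 - x) * R * (4 * j / N) + x * υ j) / ((1 - x) * R + x)) ∧
      ((1 - x) * R * (4 * j / N) + x * υ j) / ((1 - x) * R + x) ∈ Icc (-1:ℝ) 5 ∧
      0 < (1 - x) * R + x := by
    intro j hj x hx0 hx1
    have hpos : 0 < (1 - x) * R + x := by nlinarith
    obtain ⟨h1, h2⟩ := cc_comb (hs j hj) (mul_nonneg (by linarith : 0 ≤ 1 - x) hR0.le) hx0 hpos
    refine ⟨?_, h2, hpos⟩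
    rw [← h1]
    simp only [lmap, pl_nat hj, smul_smul]
  have rungn : ∀ j : ℕ, j ≤ N → ∀ x : ℝ, 0 ≤ x → x ≤ 1 →
      ‖lmap (fun t => R • cc (4 * t / N)) (fun t => cc (pl υ N t)) (j, x)‖ = (1 - x) * R + x := by
    intro j hj x hx0 hx1
    obtain ⟨h1, h2, h3⟩ := rung j hj x hx0 hx1
    rw [h1, norm_smul, norm_cc h2.1 h2.2, Real.norm_of_nonneg h3.le, mul_one]
  refine ⟨outer_cont.continuousOn, inner_cont.continuousOn, outer_con, inner_con,
    outer_inj hN hR0, inner_inj hs hm, ?_, ?_, ?_, ?_, ?_, ?_⟩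
  · intro t ht
    rw [mem_sphere_zero_iff_norm]
    exact outer_norm hN hR0 ht
  · intro t ht
    rw [mem_closedBall_zero_iff]
    obtain ⟨h1, h2⟩ := inner_mem hs hm ht
    exact (norm_cc h1 h2).le
  · intro j hj x hx0 hx1 hmem
    rw [mem_closedBall_zero_iff, rungn j hj x hx0 hx1.le] at hmem
    nlinarith
  · intro j hj x hx0 hx1 hmem
    rw [mem_sphere_zero_iff_norm, rungn j hj x hx0.le hx1] at hmem
    nlinarith
  · intro j hj x hx0 hx1
    rw [mem_closedBall_zero_iff, rungn j hj x hx0 hx1]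
    nlinarith
  · intro i hi j hj x y hx0 hx1 hy0 hy1 he
    have hn := congrArg norm he
    rw [rungn i hi x hx0 hx1, rungn j hj y hy0 hy1] at hn
    have hxy : x = y := by
      have : (x - y) * (R - 1) = 0 := by linarith
      rcases mul_eq_zero.1 this with h | h
      · linarith
      · linarith
    subst hxy
    obtain ⟨h1, h2, h3⟩ := rung i hi x hx0 hx1
    obtain ⟨k1, k2, k3⟩ := rung j hj x hx0 hx1
    rw [h1, k1] at he
    have he' := cc_inj h2 k2 (smul_right_injective _ h3.ne' he)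
    rw [div_left_inj' h3.ne'] at he'
    -- strict monotonicity
    have key : ∀ i j : ℕ, i < j → j ≤ N → (1 - x) * R * (4 * i / N) + x * υ i <
        (1 - x) * R * (4 * j / N) + x * υ j := by
      intro i j hij hj
      have hN' : (0:ℝ) < N := by exact_mod_cast hN
      have h5 : (4 * i / N : ℝ) < 4 * j / N := by
        have : (i:ℝ) < j := by exact_mod_cast hij
        rw [div_lt_div_iff_of_pos_right hN']; linarith
      have h6 := hmm i j hij hj
      rcases hx0.eq_or_lt with h7 | h7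
      · rw [← h7]
        have : (1 - 0) * R * (4 * i / N) < (1 - 0) * R * (4 * j / N) := by
          apply mul_lt_mul_of_pos_left h5; linarith
        linarith
      · have h8 : (1 - x) * R * (4 * i / N) ≤ (1 - x) * R * (4 * j / N) :=
          mul_le_mul_of_nonneg_left h5.le (mul_nonneg (by linarith) hR0.le)
        have h9 : x * υ i < x * υ j := mul_lt_mul_of_pos_left h6 h7
        linarith
    rcases lt_trichotomy i j with h | h | h
    · exact absurd he' (key i j h hj).ne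
    · exact h
    · exact absurd he' (key j i h hi).ne'

/-- the target ladder -/
theorem ladTar (hN : 0 < N) (hR : 1 < R) {M : Set (ℝ × ℝ)}
    (φ : ConHomeo (closedBall (0 : ℝ × ℝ) 1) M)
    (hs : ∀ j : ℕ, j ≤ N → SameSide (4 * j / N) (υ j)) (hm : ∀ j < N, υ j < υ (j + 1)) {s : ℕ → ℝ}
    (h0 : ∀ j ≤ N, 0 < s j) (h1 : ∀ j ≤ N, s j < R)
    (h2 : ∀ j ≤ N, φ.toFun (cc (υ j)) = s j • cc (4 * j / N))
    (h3 : ∀ j ≤ N, ∀ t : ℝ, s j < t → t ≤ R → t • cc (4 * j / N) ∉ M) :
    LadD N (closedBall 0 R) (sphere 0 R) M (fun t => R • cc (4 * t / N))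
      (fun t => φ.toFun (cc (pl υ N t))) := by
  have hR0 : 0 < R := by linarith
  have im : MapsTo (fun t : ℝ => cc (pl υ N t)) (Icc 0 (N:ℝ)) (closedBall (0 : ℝ × ℝ) 1) := by
    intro t ht
    rw [mem_closedBall_zero_iff]
    obtain ⟨h1, h2⟩ := inner_mem hs hm ht
    exact (norm_cc h1 h2).le
  have rung : ∀ j : ℕ, j ≤ N → ∀ x : ℝ,
      lmap (fun t => R • cc (4 * t / N)) (fun t => φ.toFun (cc (pl υ N t))) (j, x) =
        ((1 - x) * R + x * s j) • cc (4 * j / N) := by
    intro j hj x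
    simp only [lmap, pl_nat hj, h2 j hj]
    module
  have rungn : ∀ j : ℕ, j ≤ N → ∀ x : ℝ, 0 ≤ x → x ≤ 1 →
      0 < (1 - x) * R + x * s j ∧
      ‖lmap (fun t => R • cc (4 * t / N)) (fun t => φ.toFun (cc (pl υ N t))) (j, x)‖ =
        (1 - x) * R + x * s j := by
    intro j hj x hx0 hx1
    have hpos : 0 < (1 - x) * R + x * s j := by
      rcases hx0.eq_or_lt with h7 | h7
      · rw [← h7]; linarith
      · have := mul_pos h7 (h0 j hj)
        have := mul_nonneg (by linarith : 0 ≤ 1 - x) hR0.le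
        linarith
    obtain ⟨k1, k2⟩ := ang_mem5 hN (cast_mem hj)
    refine ⟨hpos, ?_⟩
    rw [rung j hj, norm_smul, norm_cc k1 k2, Real.norm_of_nonneg hpos.le, mul_one]
  refine ⟨outer_cont.continuousOn, φ.cont.comp inner_cont.continuousOn im, outer_con,
    φ.conical.comp inner_con im inner_cont.continuousOn, outer_inj hN hR0, ?_, ?_, ?_, ?_, ?_, ?_, ?_⟩
  · intro s hs' t ht he
    exact inner_inj hs hm hs' ht (φ.injOn (im hs') (im ht) he)
  · intro t ht
    rw [mem_sphere_zero_iff_norm]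
    exact outer_norm hN hR0 ht
  · intro t ht
    exact φ.mapsTo (im ht)
  · intro j hj x hx0 hx1
    rw [rung j hj]
    have := h1 j hj
    refine h3 j hj _ ?_ ?_ <;> nlinarith
  · intro j hj x hx0 hx1 hmem
    rw [mem_sphere_zero_iff_norm, (rungn j hj x hx0.le hx1).2] at hmem
    have := h1 j hj
    nlinarith
  · intro j hj x hx0 hx1
    rw [mem_closedBall_zero_iff, (rungn j hj x hx0 hx1).2]
    have := h1 j hj
    nlinarith
  · intro i hi j hj x y hx0 hx1 hy0 hy1 he
    obtain ⟨p1, n1⟩ := rungn i hi x hx0 hx1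
    obtain ⟨p2, n2⟩ := rungn j hj y hy0 hy1
    have hn := congrArg norm he
    rw [n1, n2] at hn
    rw [rung i hi, rung j hj, hn] at he
    have he' := cc_inj (ang_mem5 hN (cast_mem hi)) (ang_mem5 hN (cast_mem hj))
      (smul_right_injective _ p2.ne' he)
    have hN' : (0:ℝ) < N := by exact_mod_cast hN
    rw [div_left_inj' hN'.ne'] at he'
    have : (i:ℝ) = j := by linarith
    exact_mod_cast this

end

end P073.H399
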