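import Vale.Agent.P073.H399.Ann4

/-!
# P073 / H399: last hits of the rays with a nearly round disc
-/

open Set Metric Topology Filter

namespace P073.H399

open P073 P073.H339

/-- the image of the square under a small homeomorphism contains a slightly smaller square -/
theorem ball_subset_image {M : Set (ℝ × ℝ)} {ρ : ℝ} (hρ : 0 < ρ) (hρ1 : 3 * ρ ≤ 1)
    (φ : ConHomeo (closedBall (0 : ℝ × ℝ) 1) M)
    (hφ : ∀ x ∈ closedBall (0 : ℝ × ℝ) 1, ‖φ.toFun x - x‖ ≤ ρ) :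
    closedBall 0 (1 - 2 * ρ) ⊆ interior M ∧ H339.AmbDisc M (φ.toFun '' sphere 0 1) := by
  have hM : H339.AmbDisc M (φ.toFun '' sphere 0 1) := by
    have := H339.conBall_std.image φ subset_rfl
    rw [φ.image_eq] at this
    exact ambDisc_of_conBall this
  refine ⟨?_, hM⟩
  have hpre : IsPreconnected (closedBall (0 : ℝ × ℝ) (1 - 2 * ρ)) :=
    (convex_closedBall _ _).isPreconnected
  have hd : Disjoint (closedBall (0 : ℝ × ℝ) (1 - 2 * ρ)) (φ.toFun '' sphere 0 1) := by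
    rw [disjoint_left]
    rintro _ hx ⟨x, hx', rfl⟩
    rw [mem_closedBall_zero_iff] at hx
    have h1 := hφ x (sphere_subset_closedBall hx')
    have h2 : ‖x‖ = 1 := mem_sphere_zero_iff_norm.1 hx'
    have h3 : ‖x‖ ≤ ‖φ.toFun x‖ + ‖φ.toFun x - x‖ := by
      have := norm_sub_le (φ.toFun x) (φ.toFun x - x)
      rwa [sub_sub_cancel] at this
    linarith
  rcases hM.jdisc.in_or_out hpre hd with h | h
  · exact h
  · exfalso
    have h0 : (0 : ℝ × ℝ) ∈ closedBall (0 : ℝ × ℝ) 1 := mem_closedBall_self zero_le_one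
    have h1 := hφ 0 h0
    rw [sub_zero] at h1
    refine disjoint_left.1 h (mem_closedBall_zero_iff.2 ?_) (φ.mapsTo h0)
    linarith

/-- a point of the square near `cc τ`, away from the corners -/
theorem near_side {τ δ : ℝ} (hτ : τ ∈ Icc (0:ℝ) 4) (hδ : 0 ≤ δ) (hδ1 : δ < 1)
    (hc1 : τ < 1 - δ ∨ 1 + δ < τ) (hc3 : τ < 3 - δ ∨ 3 + δ < τ) {u : ℝ × ℝ}
    (hu : u ∈ sphere (0 : ℝ × ℝ) 1) (hd : ‖u - cc τ‖ ≤ δ) :
    ∃ υ, u = cc υ ∧ SameSide τ υ ∧ |υ - τ| ≤ δ := by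
  obtain ⟨x, y⟩ := u
  obtain ⟨τ0, τ4⟩ := hτ
  rw [mem_sphere_prod, mem_closedBall_prod] at hu
  obtain ⟨⟨⟨h1, h2⟩, h3, h4⟩, h5⟩ := hu
  simp only at h1 h2 h3 h4 h5
  rw [Prod.norm_def, max_le_iff] at hd
  obtain ⟨d1, d2⟩ := hd
  rw [Prod.fst_sub, Real.norm_eq_abs, abs_le] at d1
  rw [Prod.snd_sub, Real.norm_eq_abs, abs_le] at d2
  rcases hc1 with hc1 | hc1
  · -- first side
    rw [cc_one (by linarith) (by linarith)] at d1 d2
    simp only at d1 d2
    have hx : x = 1 := by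
      rcases h5 with h | h | h | h <;> linarith
    refine ⟨y, ?_, Or.inl ⟨⟨by linarith, by linarith⟩, h3, h4⟩, ?_⟩
    · rw [cc_one h3 h4, hx]
    · rw [abs_le]; constructor <;> linarith
  · rcases hc3 with hc3 | hc3
    · rw [cc_two (by linarith) (by linarith)] at d1 d2
      simp only at d1 d2
      have hy : y = 1 := by
        rcases h5 with h | h | h | h <;> linarith
      refine ⟨2 - x, ?_, Or.inr (Or.inl ⟨⟨by linarith, by linarith⟩, by linarith, by linarith⟩), ?_⟩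
      · rw [cc_two (by linarith) (by linarith), hy]
        refine Prod.ext ?_ rfl
        show x = 2 - (2 - x)
        ring
      · rw [abs_le]; constructor <;> linarith
    · rw [cc_three (by linarith) (by linarith)] at d1 d2
      simp only at d1 d2
      have hx : x = -1 := by
        rcases h5 with h | h | h | h <;> linarith
      refine ⟨4 - y, ?_, Or.inr (Or.inr ⟨⟨by linarith, by linarith⟩, by linarith, by linarith⟩), ?_⟩
      · rw [cc_three (by linarith) (by linarith), hx]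
        refine Prod.ext rfl ?_
        show y = 4 - (4 - y)
        ring
      · rw [abs_le]; constructor <;> linarith

/-- the last hit of a ray -/
theorem exists_last {M : Set (ℝ × ℝ)} {ρ R : ℝ} (hρ : 0 < ρ) (hρ1 : 3 * ρ < 1) (hR : 1 + ρ < R)
    (φ : ConHomeo (closedBall (0 : ℝ × ℝ) 1) M)
    (hφ : ∀ x ∈ closedBall (0 : ℝ × ℝ) 1, ‖φ.toFun x - x‖ ≤ ρ) {τ : ℝ} (hτ : τ ∈ Icc (0:ℝ) 4)
    (hc1 : τ < 1 - 3 * ρ ∨ 1 + 3 * ρ < τ) (hc3 : τ < 3 - 3 * ρ ∨ 3 + 3 * ρ < τ) :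
    ∃ υ s : ℝ, SameSide τ υ ∧ |υ - τ| ≤ 3 * ρ ∧ 0 < s ∧ s < R ∧ φ.toFun (cc υ) = s • cc τ ∧
      ∀ t : ℝ, s < t → t ≤ R → t • cc τ ∉ M := by
  obtain ⟨hb, hM⟩ := ball_subset_image hρ (by linarith) φ hφ
  have hn : ‖cc τ‖ = 1 := norm_cc (by linarith [hτ.1]) (by linarith [hτ.2])
  have hcomp : IsCompact {t : ℝ | t ∈ Icc 0 R ∧ t • cc τ ∈ M} := by
    refine isCompact_Icc.of_isClosed_subset ?_ (fun t ht => ht.1)
    exact isClosed_Icc.inter (hM.jdisc.isClosed.preimage (by fun_prop))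
  have hne : (1 - 2 * ρ) ∈ {t : ℝ | t ∈ Icc 0 R ∧ t • cc τ ∈ M} := by
    refine ⟨⟨by linarith, by linarith⟩, interior_subset (hb ?_)⟩
    rw [mem_closedBall_zero_iff, norm_smul, hn, mul_one, Real.norm_of_nonneg (by linarith)]
  obtain ⟨s, ⟨⟨hs0, hsR⟩, hsM⟩, hs2⟩ := hcomp.exists_isGreatest ⟨_, hne⟩
  have hs3 : 1 - 2 * ρ ≤ s := hs2 hne
  have hspos : 0 < s := by linarith
  have hns : ‖s • cc τ‖ = s := by rw [norm_smul, hn, mul_one, Real.norm_of_nonneg hs0]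
  have hs4 : s ≤ 1 + ρ := by
    obtain ⟨u, hu, he⟩ : s • cc τ ∈ φ.toFun '' closedBall 0 1 := by rw [φ.image_eq]; exact hsM
    have h1 := hφ u hu
    rw [he] at h1
    have h2 : ‖s • cc τ‖ ≤ ‖s • cc τ - u‖ + ‖u‖ := by
      have := norm_add_le (s • cc τ - u) u
      rwa [sub_add_cancel] at this
    rw [hns] at h2
    have h3 := mem_closedBall_zero_iff.1 hu
    linarith
  have hlast : ∀ t : ℝ, s < t → t ≤ R → t • cc τ ∉ M := by
    intro t ht htR hmem
    have := hs2 ⟨⟨by linarith, htR⟩, hmem⟩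
    linarith
  have hbd : s • cc τ ∈ φ.toFun '' sphere 0 1 := by
    by_contra hnot
    have hint := hM.jdisc.mem_interior hsM hnot
    have hopen : IsOpen {t : ℝ | t • cc τ ∈ interior M} :=
      isOpen_interior.preimage (by fun_prop)
    obtain ⟨ε, hε, hball⟩ := Metric.isOpen_iff.1 hopen s hint
    have hm : 0 < min (ε / 2) (R - s) := lt_min (by linarith) (by linarith)
    have h1 : s + min (ε / 2) (R - s) ∈ ball s ε := by
      rw [mem_ball, Real.dist_eq, add_sub_cancel_left, abs_of_pos hm]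
      have := min_le_left (ε / 2) (R - s)
      linarith
    refine hlast _ (by linarith) ?_ (interior_subset (hball h1))
    have := min_le_right (ε / 2) (R - s)
    linarith
  obtain ⟨u, hu, he⟩ := hbd
  have hd : ‖u - cc τ‖ ≤ 3 * ρ := by
    have h1 := hφ u (sphere_subset_closedBall hu)
    rw [he] at h1
    have h2 : ‖s • cc τ - cc τ‖ = |s - 1| := by
      rw [show s • cc τ - cc τ = (s - 1) • cc τ by module, norm_smul, hn, mul_one,
        Real.norm_eq_abs]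
    have h3 : |s - 1| ≤ 2 * ρ := by rw [abs_le]; constructor <;> linarith
    have h4 : u - cc τ = (s • cc τ - cc τ) - (s • cc τ - u) := by abel
    rw [h4]
    refine (norm_sub_le _ _).trans ?_
    rw [h2]; linarith
  obtain ⟨υ, hυ, h5, h6⟩ := near_side hτ (by linarith) hρ1 hc1 hc3 hu hd
  refine ⟨υ, s, h5, h6, hspos, by linarith, ?_, hlast⟩
  rw [← hυ, he]

/-- all the last hits -/
theorem exists_hits {M : Set (ℝ × ℝ)} {ρ R : ℝ} {N k : ℕ} (hN : N = 4 * k + 2) (hρ : 0 < ρ)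
    (hρ1 : 3 * ρ < 1 / N) (hR : 1 + ρ < R) (φ : ConHomeo (closedBall (0 : ℝ × ℝ) 1) M)
    (hφ : ∀ x ∈ closedBall (0 : ℝ × ℝ) 1, ‖φ.toFun x - x‖ ≤ ρ) :
    ∃ υ s : ℕ → ℝ, (∀ j : ℕ, j ≤ N → SameSide (4 * j / N) (υ j)) ∧
      (∀ j : ℕ, j ≤ N → |υ j - 4 * j / N| ≤ 3 * ρ) ∧ (∀ j < N, υ j < υ (j + 1)) ∧
      (∀ j ≤ N, 0 < s j) ∧ (∀ j ≤ N, s j < R) ∧
      (∀ j ≤ N, φ.toFun (cc (υ j)) = s j • cc (4 * j / N)) ∧
      (∀ j ≤ N, ∀ t : ℝ, s j < t → t ≤ R → t • cc (4 * j / N) ∉ M) := by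
  have hN0 : 0 < N := by omega
  have hN1 : (2:ℝ) ≤ N := by exact_mod_cast (by omega : 2 ≤ N)
  have hNpos : (0:ℝ) < N := by linarith
  have hNN : (N:ℝ) * (1 / N) = 1 := by field_simp
  have h1N : (1:ℝ) / N ≤ 1 / 2 := one_div_le_one_div_of_le (by norm_num) hN1
  have key : ∀ j : ℕ, j ≤ N → ∃ υ s : ℝ, SameSide (4 * j / N) υ ∧ |υ - 4 * j / N| ≤ 3 * ρ ∧ 0 < s ∧
      s < R ∧ φ.toFun (cc υ) = s • cc (4 * j / N) ∧
      ∀ t : ℝ, s < t → t ≤ R → t • cc (4 * j / N) ∉ M := by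
    intro j hj
    refine exists_last hρ (by linarith) hR φ hφ (ang_mem hN0 (cast_mem hj)) ?_ ?_
    · rcases (show 4 * j + 2 ≤ N ∨ N + 2 ≤ 4 * j by omega) with h | h
      · left
        have h' : 4 * (j:ℝ) + 2 ≤ N := by exact_mod_cast h
        rw [div_lt_iff₀ hNpos]
        nlinarith
      · right
        have h' : (N:ℝ) + 2 ≤ 4 * (j:ℝ) := by exact_mod_cast h
        rw [lt_div_iff₀ hNpos]
        nlinarith
    · rcases (show 4 * j + 2 ≤ 3 * N ∨ 3 * N + 2 ≤ 4 * j by omega) with h | h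
      · left
        have h' : 4 * (j:ℝ) + 2 ≤ 3 * N := by exact_mod_cast h
        rw [div_lt_iff₀ hNpos]
        nlinarith
      · right
        have h' : 3 * (N:ℝ) + 2 ≤ 4 * (j:ℝ) := by exact_mod_cast h
        rw [lt_div_iff₀ hNpos]
        nlinarith
  choose! υ s g1 g2 g3 g4 g5 g6 using key
  refine ⟨υ, s, g1, g2, ?_, g3, g4, g5, g6⟩
  intro j hj
  have e1 := g2 j hj.le
  have e2 := g2 (j + 1) hj
  rw [abs_le] at e1 e2
  have e3 : (4 * ((j + 1 : ℕ) : ℝ) / N) = 4 * j / N + 4 * (1 / N) := by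
    push_cast; field_simp
  rw [e3] at e2
  linarith [e1.1, e1.2, e2.1, e2.2]

end P073.H399
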