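import Vale.Agent.P073.H399.Ann5

/-!
# P073 / H399: small homeomorphisms of a disc extend with control
-/

open Set Metric Topology Filter

namespace P073.H399

open P073 P073.H339

/-- reflection -/
def sg (p : ℝ × ℝ) : ℝ × ℝ := (p.1, -p.2)

@[simp] theorem sg_sg (p : ℝ × ℝ) : sg (sg p) = p := by simp [sg]

@[simp] theorem sg_fst (p : ℝ × ℝ) : (sg p).1 = p.1 := rfl

@[simp] theorem sg_snd (p : ℝ × ℝ) : (sg p).2 = -p.2 := rfl

@[simp] theorem norm_sg (p : ℝ × ℝ) : ‖sg p‖ = ‖p‖ := by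
  rw [Prod.norm_def, Prod.norm_def]; simp

theorem sg_sub (p q : ℝ × ℝ) : sg p - sg q = sg (p - q) := by
  refine Prod.ext rfl ?_
  simp only [Prod.snd_sub, sg_snd]; ring

theorem sg_smul (c : ℝ) (p : ℝ × ℝ) : sg (c • p) = c • sg p := by
  refine Prod.ext rfl ?_
  simp only [Prod.smul_snd, sg_snd, smul_eq_mul]; ring

theorem sg_injective : Function.Injective sg := fun p q h => by
  rw [← sg_sg p, h, sg_sg]

theorem continuous_sg : Continuous sg := by unfold sg; fun_prop

/-- reflection as a linear map -/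
def sgL : (ℝ × ℝ) →ₗ[ℝ] ℝ × ℝ where
  toFun := sg
  map_add' := fun p q => by
    refine Prod.ext rfl ?_
    simp only [Prod.snd_add, sg_snd]; ring
  map_smul' := fun c p => sg_smul c p

theorem conicalOn_sg {X : Set (ℝ × ℝ)} (hX : ConicalSet X) : ConicalOn sg X := conicalOn_linear sgL hX

/-- reflection as a conical homeomorphism -/
def sgH : ConHomeo (univ : Set (ℝ × ℝ)) (univ : Set (ℝ × ℝ)) where
  toFun := sg
  invFun := sg
  mapsTo := mapsTo_univ _ _
  mapsTo_inv := mapsTo_univ _ _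
  left_inv := fun p _ => sg_sg p
  right_inv := fun p _ => sg_sg p
  cont := continuous_sg.continuousOn
  cont_inv := continuous_sg.continuousOn
  conical := conicalOn_sg (IsOpen.conicalSet isOpen_univ)

theorem sg_image_closedBall (r : ℝ) : sg '' closedBall (0 : ℝ × ℝ) r = closedBall 0 r := by
  ext p
  constructor
  · rintro ⟨q, hq, rfl⟩
    rw [mem_closedBall_zero_iff] at hq ⊢
    rwa [norm_sg]
  · intro hp
    refine ⟨sg p, ?_, sg_sg p⟩
    rw [mem_closedBall_zero_iff] at hp ⊢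
    rwa [norm_sg]

theorem lmap_sg (a b : ℝ → ℝ × ℝ) (p : ℝ × ℝ) :
    lmap (fun t => sg (a t)) (fun t => sg (b t)) p = sg (lmap a b p) := by
  unfold lmap
  refine Prod.ext ?_ ?_
  · simp
  · simp; ring

theorem LadD.refl {N : ℕ} {D C M : Set (ℝ × ℝ)} {a b : ℝ → ℝ × ℝ} (h : LadD N D C M a b) :
    LadD N (sg ⁻¹' D) (sg ⁻¹' C) (sg ⁻¹' M) (fun t => sg (a t)) (fun t => sg (b t)) := by
  have hu : ConicalSet (univ : Set (ℝ × ℝ)) := IsOpen.conicalSet isOpen_univ
  refine ⟨continuous_sg.comp_continuousOn h.ac, continuous_sg.comp_continuousOn h.bc,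
    (conicalOn_sg hu).comp h.aC (mapsTo_univ _ _) h.ac,
    (conicalOn_sg hu).comp h.bC (mapsTo_univ _ _) h.bc, ?_, ?_, ?_, ?_, ?_, ?_, ?_, ?_⟩
  · intro s hs t ht he; exact h.ai hs ht (sg_injective he)
  · intro s hs t ht he; exact h.bi hs ht (sg_injective he)
  · intro t ht; rw [mem_preimage, sg_sg]; exact h.am ht
  · intro t ht; rw [mem_preimage, sg_sg]; exact h.bm ht
  · intro j hj x hx0 hx1; rw [lmap_sg, mem_preimage, sg_sg]; exact h.rM j hj x hx0 hx1
  · intro j hj x hx0 hx1; rw [lmap_sg, mem_preimage, sg_sg]; exact h.rC j hj x hx0 hx1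
  · intro j hj x hx0 hx1; rw [lmap_sg, mem_preimage, sg_sg]; exact h.rD j hj x hx0 hx1
  · intro i hi j hj x y hx0 hx1 hy0 hy1 he
    rw [lmap_sg, lmap_sg] at he
    exact h.rr i hi j hj x y hx0 hx1 hy0 hy1 (sg_injective he)

theorem sg_preimage_closedBall (r : ℝ) : sg ⁻¹' closedBall (0 : ℝ × ℝ) r = closedBall 0 r := by
  ext p; simp

theorem sg_preimage_sphere (r : ℝ) : sg ⁻¹' sphere (0 : ℝ × ℝ) r = sphere 0 r := by
  ext p; simp

/-- the two curves meet only at reflected parameters -/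
theorem cc_eq_sg {x y : ℝ} (hx0 : -1 < x) (hx1 : x < 5) (hy0 : -1 < y) (hy1 : y < 5)
    (h : cc x = sg (cc y)) : (x ≤ 1 ∧ y = -x) ∨ (3 ≤ x ∧ y = 8 - x) := by
  rcases le_total x 1 with h1 | h1
  · left
    refine ⟨h1, ?_⟩
    rw [cc_one hx0.le h1] at h
    rcases le_total y 1 with k1 | k1
    · rw [cc_one hy0.le k1] at h
      have e2 : x = -y := congrArg Prod.snd h
      linarith
    · rcases le_total y 3 with k2 | k2
      · rw [cc_two k1 k2] at h
        have e2 : x = -1 := congrArg Prod.snd h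
        linarith
      · rw [cc_three k2 hy1.le] at h
        have e1 : (1:ℝ) = -1 := congrArg Prod.fst h
        norm_num at e1
  · rcases le_total x 3 with h2 | h2
    · exfalso
      rw [cc_two h1 h2] at h
      rcases le_total y 1 with k1 | k1
      · rw [cc_one hy0.le k1] at h
        have e2 : (1:ℝ) = -y := congrArg Prod.snd h
        linarith
      · rcases le_total y 3 with k2 | k2
        · rw [cc_two k1 k2] at h
          have e2 : (1:ℝ) = -1 := congrArg Prod.snd h
          norm_num at e2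
        · rw [cc_three k2 hy1.le] at h
          have e2 : (1:ℝ) = -(4 - y) := congrArg Prod.snd h
          linarith
    · right
      refine ⟨h2, ?_⟩
      rw [cc_three h2 hx1.le] at h
      rcases le_total y 1 with k1 | k1
      · rw [cc_one hy0.le k1] at h
        have e1 : (-1:ℝ) = 1 := congrArg Prod.fst h
        norm_num at e1
      · rcases le_total y 3 with k2 | k2
        · rw [cc_two k1 k2] at h
          have e2 : 4 - x = -1 := congrArg Prod.snd h
          linarith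
        · rw [cc_three k2 hy1.le] at h
          have e2 : 4 - x = -(4 - y) := congrArg Prod.snd h
          linarith

theorem exists_cc {u : ℝ × ℝ} (hu : u ∈ sphere (0 : ℝ × ℝ) 1) (h0 : 0 ≤ u.2) :
    ∃ t ∈ Icc (0:ℝ) 4, u = cc t := by
  obtain ⟨x, y⟩ := u
  rw [mem_sphere_prod, mem_closedBall_prod] at hu
  obtain ⟨⟨⟨h1, h2⟩, h3, h4⟩, h5⟩ := hu
  simp only at h0 h1 h2 h3 h4 h5
  rcases h5 with h | h | h | h
  · refine ⟨4 - y, ⟨by linarith, by linarith⟩, ?_⟩
    rw [cc_three (by linarith) (by linarith), h]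
    exact Prod.ext rfl (show y = 4 - (4 - y) by ring)
  · refine ⟨y, ⟨h0, by linarith⟩, ?_⟩
    rw [cc_one (by linarith) h4, h]
  · linarith
  · refine ⟨2 - x, ⟨by linarith, by linarith⟩, ?_⟩
    rw [cc_two (by linarith) (by linarith), h]
    exact Prod.ext (show x = 2 - (2 - x) by ring) rfl

/-- covering one half of the square -/
theorem cover_half {p q p' q' : ℝ} (hp : |p| ≤ 1 / 2) (hq : |q - 4| ≤ 1 / 2) (hp' : p' = -p)
    (hq' : q' = 8 - q) {u : ℝ × ℝ} (hu : u ∈ sphere (0 : ℝ × ℝ) 1) (h0 : 0 ≤ u.2) :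
    (∃ t ∈ Icc p q, u = cc t) ∨ ∃ t ∈ Icc p' q', u = sg (cc t) := by
  rw [abs_le] at hp hq
  obtain ⟨t, ⟨ht0, ht4⟩, rfl⟩ := exists_cc hu h0
  rcases lt_or_ge t p with h1 | h1
  · right
    refine ⟨-t, ⟨by linarith, by linarith⟩, ?_⟩
    rw [cc_one (by linarith) (by linarith), cc_one (by linarith) (by linarith)]
    exact Prod.ext rfl (show t = -(-t) by ring)
  · rcases lt_or_ge q t with h2 | h2
    · right
      refine ⟨8 - t, ⟨by linarith, by linarith⟩, ?_⟩
      rw [cc_three (by linarith) (by linarith), cc_three (by linarith) (by linarith)]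
      exact Prod.ext rfl (show 4 - t = -(4 - (8 - t)) by ring)
    · exact Or.inl ⟨t, ⟨h1, h2⟩, rfl⟩

theorem lmap_mem_closedBall {a b : ℝ → ℝ × ℝ} {p z : ℝ × ℝ} {r : ℝ} (h0 : 0 ≤ p.2) (h1 : p.2 ≤ 1)
    (ha : ‖a p.1 - z‖ ≤ r) (hb : ‖b p.1 - z‖ ≤ r) : lmap a b p ∈ closedBall z r := by
  have hca : a p.1 ∈ closedBall z r := by rwa [mem_closedBall, dist_eq_norm]
  have hcb : b p.1 ∈ closedBall z r := by rwa [mem_closedBall, dist_eq_norm]
  exact (convex_closedBall z r) hca hcb (by linarith) h0 (by ring)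

end P073.H399
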