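import Vale.Agent.P073.H399.Disc
import Vale.Agent.P073.GB73.Spec

/-!
# P073 / H399: small caps of the sphere and local straightening
-/

open Set Metric Topology Filter

namespace P073.H399

open P073 P073.H339 GB73
open Vale.Agent.P073.St (V)

/-- a chart of the upper half of the sphere and a small disc in it -/
structure Cap (X : Set V) (ε : ℝ) (κ : ConHomeo upperHemi (closedBall (0 : ℝ × ℝ) 1)) (c : ℝ × ℝ)
    (r₀ : ℝ) : Prop where
  pos : 0 < r₀
  sub : closedBall c r₀ ⊆ ball 0 1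
  bd : κ.invFun '' sphere 0 1 = equator3
  av : ∀ z ∈ closedBall c r₀, κ.invFun z ∉ X
  di : ∀ z ∈ closedBall c r₀, ∀ z' ∈ closedBall c r₀, ‖κ.invFun z - κ.invFun z'‖ ≤ ε

theorem exists_cap {X : Set V} (hX : X.Finite) {ε : ℝ} (hε : 0 < ε) :
    ∃ (κ : ConHomeo upperHemi (closedBall (0 : ℝ × ℝ) 1)) (c : ℝ × ℝ) (r₀ : ℝ),
      Cap X ε κ c r₀ := by
  obtain ⟨κ, -, κ2⟩ := exists_chart conBall_upperHemi
  have hinf : (ball (0 : ℝ × ℝ) 1).Infinite :=
    infinite_of_mem_nhds 0 (ball_mem_nhds 0 one_pos)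
  have hinj : InjOn κ.invFun (ball (0 : ℝ × ℝ) 1) := κ.symm.injOn.mono ball_subset_closedBall
  obtain ⟨c, hc, hcX⟩ : ∃ c ∈ ball (0 : ℝ × ℝ) 1, κ.invFun c ∉ X := by
    by_contra hcon
    push Not at hcon
    exact hinf (Set.Finite.of_finite_image (hX.subset (by
      rintro _ ⟨z, hz, rfl⟩; exact hcon z hz)) hinj)
  have hcont : ContinuousAt κ.invFun c :=
    κ.cont_inv.continuousAt (closedBall_mem_nhds_of_mem hc)
  have h1 : ∀ᶠ z in 𝓝 c, κ.invFun z ∉ X := hcont.eventually (hX.isClosed.isOpen_compl.mem_nhds hcX)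
  have h2 : ∀ᶠ z in 𝓝 c, dist (κ.invFun z) (κ.invFun c) < ε / 2 :=
    hcont.eventually (ball_mem_nhds _ (by linarith))
  have h3 : ∀ᶠ z in 𝓝 c, z ∈ ball (0 : ℝ × ℝ) 1 := isOpen_ball.mem_nhds hc
  obtain ⟨r, hr, H⟩ := Metric.nhds_basis_closedBall.eventually_iff.1 (h1.and (h2.and h3))
  refine ⟨κ, c, r, hr, fun z hz => (H hz).2.2, κ2, fun z hz => (H hz).1, fun z hz z' hz' => ?_⟩
  have a := (H hz).2.1
  have b := (H hz').2.1
  rw [dist_eq_norm] at a b
  have e : κ.invFun z - κ.invFun z' = (κ.invFun z - κ.invFun c) - (κ.invFun z' - κ.invFun c) := by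
    abel
  rw [e]
  exact (norm_sub_le _ _).trans (by linarith)

theorem upper_union_lower : upperHemi ∪ lowerHemi = S2 := by
  ext x
  constructor
  · rintro (h | h) <;> exact h.1
  · intro h
    rcases le_total 0 (x 2) with h' | h'
    · exact Or.inl ⟨h, h'⟩
    · exact Or.inr ⟨h, h'⟩

theorem upper_inter_lower : upperHemi ∩ lowerHemi = equator3 := by
  ext x
  constructor
  · rintro ⟨⟨h1, h2⟩, _, h3⟩; exact ⟨h1, le_antisymm h3 h2⟩
  · rintro ⟨h1, h2⟩
    exact ⟨⟨h1, (show x 2 = 0 from h2).ge⟩, h1, (show x 2 = 0 from h2).le⟩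

namespace Cap

variable {X : Set V} {ε : ℝ} {κ : ConHomeo upperHemi (closedBall (0 : ℝ × ℝ) 1)} {c : ℝ × ℝ}
  {r₀ : ℝ}

theorem le1 (h : Cap X ε κ c r₀) {r : ℝ} (hr : r ≤ r₀) : closedBall c r ⊆ closedBall (0 : ℝ × ℝ) 1 :=
  ((closedBall_subset_closedBall hr).trans h.sub).trans ball_subset_closedBall

theorem disc (h : Cap X ε κ c r₀) {r : ℝ} (h0 : 0 < r) (hr : r ≤ r₀) :
    ConBall 2 (κ.invFun '' closedBall c r) (κ.invFun '' sphere c r) :=
  (ambDisc_closedBall c h0).conBall.image κ.symm (h.le1 hr)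

theorem codisc (h : Cap X ε κ c r₀) {r : ℝ} (h0 : 0 < r) (hr : r ≤ r₀) :
    ConBall 2 (S2 \ κ.invFun '' ball c r) (κ.invFun '' sphere c r) := by
  have hsub : sphere c r ⊆ interior (closedBall (0 : ℝ × ℝ) 1) := by
    rw [interior_closedBall _ one_ne_zero]
    exact fun x hx => h.sub (closedBall_subset_closedBall hr (sphere_subset_closedBall hx))
  have := conBall_complement κ ambDisc_std conBall_lowerHemi upper_inter_lower h.bd
    (ambDisc_closedBall c h0) hsub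
  rwa [interior_closedBall _ h0.ne', upper_union_lower] at this

theorem mem_inj (h : Cap X ε κ c r₀) {z z' : ℝ × ℝ} (hz : z ∈ closedBall c r₀)
    (hz' : z' ∈ closedBall c r₀) (he : κ.invFun z = κ.invFun z') : z = z' :=
  κ.symm.injOn (h.le1 le_rfl hz) (h.le1 le_rfl hz') he

theorem sub_upper (h : Cap X ε κ c r₀) {z : ℝ × ℝ} (hz : z ∈ closedBall c r₀) :
    κ.invFun z ∈ upperHemi := κ.mapsTo_inv (h.le1 le_rfl hz)

theorem cov (h : Cap X ε κ c r₀) {r : ℝ} (hr : r ≤ r₀) :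
    S2 = (S2 \ κ.invFun '' ball c r) ∪ κ.invFun '' closedBall c r := by
  ext x
  constructor
  · intro hx
    by_cases hx' : x ∈ κ.invFun '' ball c r
    · exact Or.inr (image_mono ball_subset_closedBall hx')
    · exact Or.inl ⟨hx, hx'⟩
  · rintro (hx | ⟨z, hz, rfl⟩)
    · exact hx.1
    · exact (h.sub_upper (closedBall_subset_closedBall hr hz)).1

theorem inter (h : Cap X ε κ c r₀) {r : ℝ} (hr : r ≤ r₀) :
    κ.invFun '' closedBall c r ∩ (S2 \ κ.invFun '' ball c r) = κ.invFun '' sphere c r := by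
  apply Subset.antisymm
  · rintro x ⟨⟨z, hz, rfl⟩, ⟨_, hx⟩⟩
    refine ⟨z, ?_, rfl⟩
    rw [mem_sphere]
    refine le_antisymm hz ?_
    by_contra hlt
    push Not at hlt
    exact hx ⟨z, hlt, rfl⟩
  · rintro _ ⟨z, hz, rfl⟩
    have hzc := sphere_subset_closedBall hz
    have hzr := closedBall_subset_closedBall hr hzc
    refine ⟨⟨z, hzc, rfl⟩, (h.sub_upper hzr).1, ?_⟩
    rintro ⟨y, hy, he⟩
    have hyr := closedBall_subset_closedBall hr (ball_subset_closedBall hy)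
    have := h.mem_inj hyr hzr he
    subst this
    rw [mem_ball] at hy
    rw [mem_sphere] at hz
    linarith

theorem tiles (h : Cap X ε κ c r₀) {r : ℝ} (h0 : 0 < r) (hr : r ≤ r₀) :
    Tiles S2 (S2 \ κ.invFun '' ball c r) (fun _ : Unit => κ.invFun '' closedBall c r)
      (fun _ : Unit => κ.invFun '' sphere c r) where
  ball := fun _ => h.disc h0 hr
  clR := (h.codisc h0 hr).isClosed
  coR := (h.codisc h0 hr).conicalSet
  cov := by rw [iUnion_const]; exact h.cov hr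
  CR := fun _ => (h.inter hr).subset
  CC := fun i j hij => absurd (Subsingleton.elim i j) hij

theorem pos2 (h : Cap X ε κ c r₀) : ∃ δ > 0, ∀ z ∈ closedBall c r₀, δ ≤ (κ.invFun z) 2 := by
  have hcomp : IsCompact (closedBall c r₀) := isCompact_closedBall _ _
  have hcont : ContinuousOn (fun z => (κ.invFun z) 2) (closedBall c r₀) :=
    (continuous_apply 2).comp_continuousOn (κ.cont_inv.mono (h.le1 le_rfl))
  obtain ⟨z₀, hz₀, hmin⟩ := hcomp.exists_isMinOn ⟨c, mem_closedBall_self h.pos.le⟩ hcont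
  refine ⟨(κ.invFun z₀) 2, ?_, fun z hz => hmin hz⟩
  have h1 := h.sub_upper hz₀
  refine lt_of_le_of_ne h1.2 fun he => ?_
  have h2 : κ.invFun z₀ ∈ equator3 := ⟨h1.1, he.symm⟩
  rw [← h.bd] at h2
  obtain ⟨y, hy, hye⟩ := h2
  have h3 := κ.symm.injOn (sphere_subset_closedBall hy) (h.le1 le_rfl hz₀) hye
  have h4 := h.sub hz₀
  rw [← h3, mem_ball_zero_iff] at h4
  rw [mem_sphere_zero_iff_norm] at hy
  linarith

end Cap

end P073.H399
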