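import Vale.Agent.P073.H399.Ann3

/-!
# P073 / H399: parametrisation of the unit square, piecewise linear interpolation
-/

open Set Metric Topology Filter

namespace P073.H399

open P073 P073.H339

/-- three sides of the square, parametrised on `[-1,5]` -/
noncomputable def cc (t : ℝ) : ℝ × ℝ := (max (-1) (min 1 (2 - t)), min 1 (min t (4 - t)))

theorem cc_one {t : ℝ} (_h0 : -1 ≤ t) (h1 : t ≤ 1) : cc t = (1, t) := by
  unfold cc
  rw [min_eq_left (by linarith : (1:ℝ) ≤ 2 - t), max_eq_right (by norm_num : (-1:ℝ) ≤ 1),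
    min_eq_left (by linarith : t ≤ 4 - t), min_eq_right h1]

theorem cc_two {t : ℝ} (h0 : 1 ≤ t) (h1 : t ≤ 3) : cc t = (2 - t, 1) := by
  unfold cc
  rw [min_eq_right (by linarith : 2 - t ≤ (1:ℝ)), max_eq_right (by linarith : (-1:ℝ) ≤ 2 - t),
    min_eq_left (le_min h0 (by linarith : (1:ℝ) ≤ 4 - t))]

theorem cc_three {t : ℝ} (h0 : 3 ≤ t) (_h1 : t ≤ 5) : cc t = (-1, 4 - t) := by
  unfold cc
  rw [min_eq_right (by linarith : 2 - t ≤ (1:ℝ)), max_eq_left (by linarith : 2 - t ≤ (-1:ℝ)),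
    min_eq_right (by linarith : 4 - t ≤ t), min_eq_right (by linarith : 4 - t ≤ (1:ℝ))]

theorem continuous_cc : Continuous cc := by unfold cc; fun_prop

theorem conicalOn_cc {X : Set ℝ} (hX : ConicalSet X) : ConicalOn cc X := by
  have hid : ConicalOn (fun t : ℝ => t) X := conicalOn_id hX
  have h2 : ConicalOn (fun t : ℝ => 2 - t) X := (conicalOn_const 2 hX).sub hid
  have h4 : ConicalOn (fun t : ℝ => 4 - t) X := (conicalOn_const 4 hX).sub hid
  have h1 : ConicalOn (fun _ : ℝ => (1:ℝ)) X := conicalOn_const 1 hX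
  have hm1 : ConicalOn (fun _ : ℝ => (-1:ℝ)) X := conicalOn_const (-1) hX
  refine (hm1.rmax (h1.rmin h2 ?_ ?_) ?_ ?_).prodMk (h1.rmin (hid.rmin h4 ?_ ?_) ?_ ?_) <;>
    exact Continuous.continuousOn (by fun_prop)

theorem abs_max_sub_max_le (c x y : ℝ) : |max c x - max c y| ≤ |x - y| := by
  rw [abs_le]
  rcases abs_cases (x - y) with h | h <;> rcases max_cases c x with h1 | h1 <;>
    rcases max_cases c y with h2 | h2 <;> constructor <;> linarith

theorem abs_min_sub_min_le (c x y : ℝ) : |min c x - min c y| ≤ |x - y| := by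
  rw [abs_le]
  rcases abs_cases (x - y) with h | h <;> rcases min_cases c x with h1 | h1 <;>
    rcases min_cases c y with h2 | h2 <;> constructor <;> linarith

theorem cc_lip (s t : ℝ) : ‖cc s - cc t‖ ≤ |s - t| := by
  rw [Prod.norm_def, max_le_iff]
  constructor
  · show ‖max (-1) (min 1 (2 - s)) - max (-1) (min 1 (2 - t))‖ ≤ |s - t|
    rw [Real.norm_eq_abs]
    refine (abs_max_sub_max_le _ _ _).trans ((abs_min_sub_min_le _ _ _).trans ?_)
    rw [show 2 - s - (2 - t) = -(s - t) by ring, abs_neg]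
  · show ‖min 1 (min s (4 - s)) - min 1 (min t (4 - t))‖ ≤ |s - t|
    rw [Real.norm_eq_abs]
    refine (abs_min_sub_min_le _ _ _).trans ?_
    rw [abs_le]
    rcases abs_cases (s - t) with h | h <;> rcases min_cases s (4 - s) with h1 | h1 <;>
      rcases min_cases t (4 - t) with h2 | h2 <;> constructor <;> linarith

theorem norm_cc {t : ℝ} (h0 : -1 ≤ t) (h1 : t ≤ 5) : ‖cc t‖ = 1 := by
  rcases le_total t 1 with h2 | h2
  · rw [cc_one h0 h2, Prod.norm_def]
    simp only [Real.norm_eq_abs, abs_one]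
    exact max_eq_left (abs_le.2 ⟨h0, h2⟩)
  · rcases le_total t 3 with h3 | h3
    · rw [cc_two h2 h3, Prod.norm_def]
      simp only [Real.norm_eq_abs, abs_one]
      exact max_eq_right (abs_le.2 ⟨by linarith, by linarith⟩)
    · rw [cc_three h3 h1, Prod.norm_def]
      simp only [Real.norm_eq_abs, abs_neg, abs_one]
      exact max_eq_left (abs_le.2 ⟨by linarith, by linarith⟩)

theorem cc_inj : InjOn cc (Icc (-1) 5) := by
  rintro s ⟨s0, s1⟩ t ⟨t0, t1⟩ he
  rcases le_total s 1 with h2 | h2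
  · rw [cc_one s0 h2] at he
    rcases le_total t 1 with k2 | k2
    · rw [cc_one t0 k2] at he
      exact congrArg Prod.snd he
    · rcases le_total t 3 with k3 | k3
      · rw [cc_two k2 k3] at he
        have e1 : (1:ℝ) = 2 - t := congrArg Prod.fst he
        have e2 : s = 1 := congrArg Prod.snd he
        linarith
      · rw [cc_three k3 t1] at he
        have e1 : (1:ℝ) = -1 := congrArg Prod.fst he
        norm_num at e1
  · rcases le_total s 3 with h3 | h3
    · rw [cc_two h2 h3] at he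
      rcases le_total t 1 with k2 | k2
      · rw [cc_one t0 k2] at he
        have e1 : 2 - s = 1 := congrArg Prod.fst he
        have e2 : (1:ℝ) = t := congrArg Prod.snd he
        linarith
      · rcases le_total t 3 with k3 | k3
        · rw [cc_two k2 k3] at he
          have e1 : 2 - s = 2 - t := congrArg Prod.fst he
          linarith
        · rw [cc_three k3 t1] at he
          have e1 : 2 - s = -1 := congrArg Prod.fst he
          have e2 : (1:ℝ) = 4 - t := congrArg Prod.snd he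
          linarith
    · rw [cc_three h3 s1] at he
      rcases le_total t 1 with k2 | k2
      · rw [cc_one t0 k2] at he
        have e1 : (-1:ℝ) = 1 := congrArg Prod.fst he
        norm_num at e1
      · rcases le_total t 3 with k3 | k3
        · rw [cc_two k2 k3] at he
          have e1 : (-1:ℝ) = 2 - t := congrArg Prod.fst he
          have e2 : 4 - s = 1 := congrArg Prod.snd he
          linarith
        · rw [cc_three k3 t1] at he
          have e1 : 4 - s = 4 - t := congrArg Prod.snd he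
          linarith

/-- on the same side of the square -/
def SameSide (s t : ℝ) : Prop := (s ∈ Icc (-1:ℝ) 1 ∧ t ∈ Icc (-1:ℝ) 1) ∨
  (s ∈ Icc (1:ℝ) 3 ∧ t ∈ Icc (1:ℝ) 3) ∨ (s ∈ Icc (3:ℝ) 5 ∧ t ∈ Icc (3:ℝ) 5)

theorem SameSide.mem {s t : ℝ} (h : SameSide s t) : s ∈ Icc (-1:ℝ) 5 ∧ t ∈ Icc (-1:ℝ) 5 := by
  rcases h with ⟨⟨h1, h2⟩, h3, h4⟩ | ⟨⟨h1, h2⟩, h3, h4⟩ | ⟨⟨h1, h2⟩, h3, h4⟩ <;>
    exact ⟨⟨by linarith, by linarith⟩, ⟨by linarith, by linarith⟩⟩

theorem cc_comb {s t α β : ℝ} (h : SameSide s t) (hα : 0 ≤ α) (hβ : 0 ≤ β) (hαβ : 0 < α + β) :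
    α • cc s + β • cc t = (α + β) • cc ((α * s + β * t) / (α + β)) ∧
      (α * s + β * t) / (α + β) ∈ Icc (-1:ℝ) 5 := by
  have hne := hαβ.ne'
  have key : ∀ lo hi : ℝ, s ∈ Icc lo hi → t ∈ Icc lo hi →
      lo ≤ (α * s + β * t) / (α + β) ∧ (α * s + β * t) / (α + β) ≤ hi := by
    rintro lo hi ⟨h1, h2⟩ ⟨h3, h4⟩
    rw [le_div_iff₀ hαβ, div_le_iff₀ hαβ]
    constructor <;> nlinarith
  rcases h with ⟨hs, ht⟩ | ⟨hs, ht⟩ | ⟨hs, ht⟩
  · obtain ⟨k1, k2⟩ := key _ _ hs ht
    refine ⟨?_, by linarith, by linarith⟩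
    rw [cc_one k1 k2, cc_one hs.1 hs.2, cc_one ht.1 ht.2]
    refine Prod.ext ?_ ?_
    · simp
    · simp only [Prod.smul_mk, Prod.mk_add_mk, smul_eq_mul]; field_simp
  · obtain ⟨k1, k2⟩ := key _ _ hs ht
    refine ⟨?_, by linarith, by linarith⟩
    rw [cc_two k1 k2, cc_two hs.1 hs.2, cc_two ht.1 ht.2]
    refine Prod.ext ?_ ?_
    · simp only [Prod.smul_mk, Prod.mk_add_mk, smul_eq_mul]; field_simp; ring
    · simp
  · obtain ⟨k1, k2⟩ := key _ _ hs ht
    refine ⟨?_, by linarith, by linarith⟩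
    rw [cc_three k1 k2, cc_three hs.1 hs.2, cc_three ht.1 ht.2]
    refine Prod.ext ?_ ?_
    · simp; ring
    · simp only [Prod.smul_mk, Prod.mk_add_mk, smul_eq_mul]; field_simp; ring

/-! piecewise linear interpolation -/

/-- piecewise linear interpolation of a sequence on `[0,n]` -/
noncomputable def pl (v : ℕ → ℝ) : ℕ → ℝ → ℝ
  | 0, _ => v 0
  | n + 1, t => pl v n t + (v (n + 1) - v n) * max 0 (min 1 (t - n))

theorem continuous_pl (v : ℕ → ℝ) (n : ℕ) : Continuous (pl v n) := by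
  induction n with
  | zero => exact continuous_const
  | succ n ih =>
    show Continuous fun t => pl v n t + (v (n + 1) - v n) * max 0 (min 1 (t - n))
    fun_prop

theorem conicalOn_pl (v : ℕ → ℝ) (n : ℕ) {X : Set ℝ} (hX : ConicalSet X) :
    ConicalOn (pl v n) X := by
  induction n with
  | zero => exact conicalOn_const (v 0) hX
  | succ n ih =>
    refine ih.add ?_
    have h1 : ConicalOn (fun t : ℝ => t - n) X := (conicalOn_id hX).sub (conicalOn_const _ hX)
    have h2 : ConicalOn (fun t : ℝ => max 0 (min 1 (t - n))) X := by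
      refine (conicalOn_const 0 hX).rmax ((conicalOn_const 1 hX).rmin h1 ?_ ?_) ?_ ?_ <;>
        exact Continuous.continuousOn (by fun_prop)
    exact h2.const_smul (v (n + 1) - v n)

theorem pl_ge {v : ℕ → ℝ} {n : ℕ} {t : ℝ} (h : (n:ℝ) ≤ t) : pl v n t = v n := by
  induction n with
  | zero => rfl
  | succ n ih =>
    have h' : (n:ℝ) + 1 ≤ t := by exact_mod_cast h
    show pl v n t + (v (n + 1) - v n) * max 0 (min 1 (t - n)) = v (n + 1)
    rw [ih (by linarith), min_eq_left (by linarith : (1:ℝ) ≤ t - n), max_eq_right zero_le_one]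
    ring

theorem pl_succ_of_le {v : ℕ → ℝ} {n : ℕ} {t : ℝ} (h : t ≤ n) : pl v (n + 1) t = pl v n t := by
  show pl v n t + (v (n + 1) - v n) * max 0 (min 1 (t - n)) = pl v n t
  rw [max_eq_left (le_trans (min_le_right _ _) (by linarith))]
  ring

theorem pl_sq {v : ℕ → ℝ} {n j : ℕ} {t : ℝ} (hj : j < n) (h0 : (j:ℝ) ≤ t) (h1 : t ≤ j + 1) :
    pl v n t = v j + (v (j + 1) - v j) * (t - j) := by
  induction n with
  | zero => omega
  | succ n ih =>
    rcases (Nat.lt_succ_iff.1 hj).lt_or_eq with h | h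
    · have : (j:ℝ) + 1 ≤ n := by exact_mod_cast h
      rw [pl_succ_of_le (by linarith), ih h]
    · subst h
      show pl v j t + (v (j + 1) - v j) * max 0 (min 1 (t - j)) = _
      rw [pl_ge h0, min_eq_right (by linarith : t - (j:ℝ) ≤ 1), max_eq_right (by linarith)]

theorem pl_nat {v : ℕ → ℝ} {n j : ℕ} (hj : j ≤ n) : pl v n j = v j := by
  rcases hj.lt_or_eq with h | h
  · rw [pl_sq h (le_refl _) (by linarith)]; ring
  · subst h; exact pl_ge (le_refl _)

theorem pl_strictMono {v : ℕ → ℝ} {n : ℕ} (h : ∀ j < n, v j < v (j + 1)) :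
    StrictMonoOn (pl v n) (Icc 0 (n:ℝ)) := by
  induction n with
  | zero =>
    intro s hs t ht hst
    have h1 : s = 0 := by have := hs.1; have := hs.2; push_cast at *; linarith
    have h2 : t = 0 := by have := ht.1; have := ht.2; push_cast at *; linarith
    linarith
  | succ n ih =>
    have hn : (0:ℝ) ≤ n := Nat.cast_nonneg n
    have hc : ((n + 1 : ℕ) : ℝ) = n + 1 := by push_cast; rfl
    have h1 : StrictMonoOn (pl v (n + 1)) (Icc 0 (n:ℝ)) := by
      intro s hs t ht hst
      rw [pl_succ_of_le hs.2, pl_succ_of_le ht.2]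
      exact ih (fun j hj => h j (by omega)) hs ht hst
    have h2 : StrictMonoOn (pl v (n + 1)) (Icc (n:ℝ) ((n:ℝ) + 1)) := by
      intro s hs t ht hst
      rw [pl_sq (Nat.lt_succ_self n) hs.1 hs.2, pl_sq (Nat.lt_succ_self n) ht.1 ht.2]
      have := h n (Nat.lt_succ_self n)
      nlinarith
    have h3 := h1.union h2 (isGreatest_Icc hn) (isLeast_Icc (by linarith))
    rw [Icc_union_Icc_eq_Icc hn (by linarith)] at h3
    rw [hc]; exact h3

end P073.H399
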