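import Vale.Agent.P073.H399.Base

/-!
# P073 / H399: straightening a crosscut
-/

open Set Metric Topology Filter

namespace P073.H399

open P073 P073.H339

/-- the lower part of the boundary of a rectangle, up to height `d` -/
def cup (a b c d : ℝ) : Set (ℝ × ℝ) := {p | p ∈ rc a b c d ∧ (p.1 = a ∨ p.1 = b ∨ p.2 = c)}

/-- the upper part of the boundary of a rectangle, from height `c` -/
def cap (a b c d : ℝ) : Set (ℝ × ℝ) := {p | p ∈ rc a b c d ∧ (p.1 = a ∨ p.1 = b ∨ p.2 = d)}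

/-- a horizontal segment -/
def hs (a b y : ℝ) : Set (ℝ × ℝ) := {p | p.2 = y ∧ a ≤ p.1 ∧ p.1 ≤ b}

/-- a vertical segment -/
def vg (x c d : ℝ) : Set (ℝ × ℝ) := {p | p.1 = x ∧ c ≤ p.2 ∧ p.2 ≤ d}

theorem isArc_hs {a b : ℝ} (hab : a < b) (y : ℝ) : IsArc (hs a b y) ((a, y) : ℝ × ℝ) (b, y) := by
  have e : hs a b y = segment ℝ ((a, y) : ℝ × ℝ) (b, y) := by
    ext ⟨u, v⟩
    rw [mem_hseg hab.le]
    exact ⟨fun h => ⟨h.2.1, h.2.2, h.1⟩, fun h => ⟨h.2.2, h.1, h.2.1⟩⟩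
  rw [e]
  exact isArc_segment (by simp [hab.ne])

theorem isArc_vg {c d : ℝ} (hcd : c < d) (x : ℝ) : IsArc (vg x c d) ((x, c) : ℝ × ℝ) (x, d) := by
  have e : vg x c d = segment ℝ ((x, c) : ℝ × ℝ) (x, d) := by
    ext ⟨u, v⟩
    rw [mem_vseg hcd.le]
    rfl
  rw [e]
  exact isArc_segment (by simp [hcd.ne])

theorem isArc_cup {a b c d : ℝ} (hab : a < b) (hcd : c < d) :
    IsArc (cup a b c d) ((a, d) : ℝ × ℝ) (b, d) := by
  have e : cup a b c d = (vg a c d ∪ hs a b c) ∪ vg b c d := by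
    ext p
    constructor
    · rintro ⟨⟨h1, h3⟩, h2 | h2 | h2⟩
      · exact Or.inl (Or.inl ⟨h2, h3⟩)
      · exact Or.inr ⟨h2, h3⟩
      · exact Or.inl (Or.inr ⟨h2, h1⟩)
    · rintro ((⟨h1, h2⟩ | ⟨h1, h2⟩) | ⟨h1, h2⟩)
      · exact ⟨⟨⟨h1.ge, by rw [h1]; exact hab.le⟩, h2⟩, Or.inl h1⟩
      · exact ⟨⟨h2, ⟨h1.ge, by rw [h1]; exact hcd.le⟩⟩, Or.inr (Or.inr h1)⟩
      · exact ⟨⟨⟨by rw [h1]; exact hab.le, h1.le⟩, h2⟩, Or.inr (Or.inl h1)⟩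
  rw [e]
  refine IsArc.trans (q := (b, c)) (IsArc.trans (q := (a, c)) (isArc_vg hcd a).symm
    (isArc_hs hab c) ?_) (isArc_vg hcd b) ?_
  · rintro p ⟨h1, h2⟩
    rw [mem_singleton_iff]
    exact Prod.ext h1.1 h2.1
  · rintro p ⟨h1 | h1, h2⟩
    · exact absurd (h1.1.symm.trans h2.1) hab.ne
    · rw [mem_singleton_iff]
      exact Prod.ext h2.1 h1.1

theorem isArc_cap {a b c d : ℝ} (hab : a < b) (hcd : c < d) :
    IsArc (cap a b c d) ((a, c) : ℝ × ℝ) (b, c) := by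
  have e : cap a b c d = (vg a c d ∪ hs a b d) ∪ vg b c d := by
    ext p
    constructor
    · rintro ⟨⟨h1, h3⟩, h2 | h2 | h2⟩
      · exact Or.inl (Or.inl ⟨h2, h3⟩)
      · exact Or.inr ⟨h2, h3⟩
      · exact Or.inl (Or.inr ⟨h2, h1⟩)
    · rintro ((⟨h1, h2⟩ | ⟨h1, h2⟩) | ⟨h1, h2⟩)
      · exact ⟨⟨⟨h1.ge, by rw [h1]; exact hab.le⟩, h2⟩, Or.inl h1⟩
      · exact ⟨⟨h2, ⟨by rw [h1]; exact hcd.le, h1.le⟩⟩, Or.inr (Or.inr h1)⟩
      · exact ⟨⟨⟨by rw [h1]; exact hab.le, h1.le⟩, h2⟩, Or.inr (Or.inl h1)⟩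
  rw [e]
  refine IsArc.trans (q := (b, d)) (IsArc.trans (q := (a, d)) (isArc_vg hcd a)
    (isArc_hs hab d) ?_) (isArc_vg hcd b).symm ?_
  · rintro p ⟨h1, h2⟩
    rw [mem_singleton_iff]
    exact Prod.ext h1.1 h2.1
  · rintro p ⟨h1 | h1, h2⟩
    · exact absurd (h1.1.symm.trans h2.1) hab.ne
    · rw [mem_singleton_iff]
      exact Prod.ext h2.1 h1.1

theorem rb_eq_cup_cap {a b c d y : ℝ} (h1 : c < y) (h2 : y < d) :
    rb a b c d = cup a b c y ∪ cap a b y d := by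
  ext p
  constructor
  · rintro ⟨⟨k1, k3, k4⟩, k2⟩
    rcases le_total p.2 y with h | h
    · left
      refine ⟨⟨k1, k3, h⟩, ?_⟩
      rcases k2 with k | k | k | k
      · exact Or.inl k
      · exact Or.inr (Or.inl k)
      · exact Or.inr (Or.inr k)
      · rw [k] at h; linarith
    · right
      refine ⟨⟨k1, h, k4⟩, ?_⟩
      rcases k2 with k | k | k | k
      · exact Or.inl k
      · exact Or.inr (Or.inl k)
      · rw [k] at h; linarith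
      · exact Or.inr (Or.inr k)
  · rintro (⟨⟨k1, k3, k4⟩, k2⟩ | ⟨⟨k1, k3, k4⟩, k2⟩)
    · refine ⟨⟨k1, k3, by linarith⟩, ?_⟩
      rcases k2 with k | k | k
      · exact Or.inl k
      · exact Or.inr (Or.inl k)
      · exact Or.inr (Or.inr (Or.inl k))
    · refine ⟨⟨k1, by linarith, k4⟩, ?_⟩
      rcases k2 with k | k | k
      · exact Or.inl k
      · exact Or.inr (Or.inl k)
      · exact Or.inr (Or.inr (Or.inr k))

/-- **Straightening a crosscut.** -/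
theorem exists_cross {b A₁ A₂ t t' : Set (ℝ × ℝ)} {p q : ℝ × ℝ}
    (hb : H339.AmbDisc b (A₁ ∪ A₂)) (h1 : IsArc A₁ p q) (h2 : IsArc A₂ p q) (ht : IsArc t p q)
    (hA : A₁ ∩ A₂ ⊆ {p, q}) (htb : t ⊆ b) (ht1 : t ∩ A₁ ⊆ {p, q}) (ht2 : t ∩ A₂ ⊆ {p, q})
    (φ : ConHomeo t t') (hp : φ.toFun p = p) (hq : φ.toFun q = q) (htb' : t' ⊆ b)
    (ht1' : t' ∩ A₁ ⊆ {p, q}) (ht2' : t' ∩ A₂ ⊆ {p, q}) :
    ∃ K : ConHomeo b b, (∀ x ∈ A₁ ∪ A₂, K.toFun x = x) ∧ EqOn K.toFun φ.toFun t := by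
  have ht' : IsArc t' p q := by
    have := ht.image φ subset_rfl
    rwa [φ.image_eq, hp, hq] at this
  obtain ⟨D₁, D₂, hD₁, hD₂, hDD, hDi, -, -⟩ := H339.sch.crosscut hb h1 h2 ht hA htb ht1 ht2
  obtain ⟨E₁, E₂, hE₁, hE₂, hEE, hEi, -, -⟩ := H339.sch.crosscut hb h1 h2 ht' hA htb' ht1' ht2'
  have side : ∀ {A D D' : Set (ℝ × ℝ)}, IsArc A p q → t ∩ A ⊆ {p, q} → t' ∩ A ⊆ {p, q} →
      H339.AmbDisc D (A ∪ t) → H339.AmbDisc D' (A ∪ t') →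
      ∃ G : ConHomeo D D', (∀ x ∈ A, G.toFun x = x) ∧ EqOn G.toFun φ.toFun t := by
    intro A D D' hAa i1 i2 hD hD'
    obtain ⟨g, g1, g2⟩ := exists_glue (ConHomeo.refl hAa.conicalSet) φ hAa.isClosed ht.isClosed
      hAa.isClosed ht'.isClosed
      (by
        rintro x ⟨hx1, hx2⟩
        show x = φ.toFun x
        rcases i1 ⟨hx2, hx1⟩ with h | h
        · rw [h, hp]
        · rw [mem_singleton_iff.1 h, hq])
      (by
        rintro x ⟨hx1, hx2⟩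
        rcases i2 ⟨hx2, hx1⟩ with h | h
        · exact ⟨p, ⟨hAa.left_mem, ht.left_mem⟩, h.symm⟩
        · exact ⟨q, ⟨hAa.right_mem, ht.right_mem⟩, (mem_singleton_iff.1 h).symm⟩)
    obtain ⟨G, hG, -⟩ := hD.conBall.exists_extend hD'.conBall g
    refine ⟨G, fun x hx => ?_, fun x hx => ?_⟩
    · rw [hG (Or.inl hx), g1 hx]; rfl
    · rw [hG (Or.inr hx), g2 hx]
  obtain ⟨G₁, a1, b1⟩ := side h1 ht1 ht1' hD₁ hE₁
  obtain ⟨G₂, a2, b2⟩ := side h2 ht2 ht2' hD₂ hE₂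
  obtain ⟨G, g1, g2⟩ := exists_glue G₁ G₂ hD₁.jdisc.isClosed hD₂.jdisc.isClosed
    hE₁.jdisc.isClosed hE₂.jdisc.isClosed
    (by
      rw [hDi]
      intro x hx
      rw [b1 hx, b2 hx])
    (by
      rw [hDi, hEi, b1.image_eq, φ.image_eq])
  refine ⟨G.cast hDD.symm hEE.symm, ?_, ?_⟩
  · intro x hx
    rw [ConHomeo.cast_toFun]
    rcases hx with hx | hx
    · rw [g1 (hD₁.jdisc.bdry_subset (Or.inl hx)), a1 x hx]
    · rw [g2 (hD₂.jdisc.bdry_subset (Or.inl hx)), a2 x hx]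
  · intro x hx
    rw [ConHomeo.cast_toFun, g1 (hD₁.jdisc.bdry_subset (Or.inr hx)), b1 hx]

end P073.H399
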