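import Vale.Agent.P073.H399.Plan
import Vale.Agent.P073.H339.SphereJS

/-!
# P073 / H399: the controlled isotopy theorem in an arbitrary conical disc
-/

open Set Metric Topology Filter

namespace P073.H399

open P073 P073.H339

theorem exists_unif {E F : Type*} [NormedAddCommGroup E] [NormedAddCommGroup F] {X : Set E}
    (hX : IsCompact X) {f : E → F} (hf : ContinuousOn f X) {η : ℝ} (hη : 0 < η) :
    ∃ δ > 0, ∀ x ∈ X, ∀ y ∈ X, ‖x - y‖ ≤ δ → ‖f x - f y‖ ≤ η := by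
  have h := hX.uniformContinuousOn_of_continuous hf
  rw [Metric.uniformContinuousOn_iff] at h
  obtain ⟨δ, hδ, H⟩ := h η hη
  refine ⟨δ / 2, by linarith, fun x hx y hy hxy => ?_⟩
  have h1 := H x hx y hy (by rw [dist_eq_norm]; linarith)
  rw [dist_eq_norm] at h1
  exact h1.le

/-- at most one prime is bad -/
theorem bad_prime {y : ℝ} (h0 : 0 < y) (h1 : y < 1) {p q : ℕ} (hp : p.Prime) (hq : q.Prime)
    {n n' : ℕ} (e : (p:ℝ) * y = n) (e' : (q:ℝ) * y = n') : p = q := by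
  by_contra hne
  have h2 : (q:ℝ) * n = p * n' := by rw [← e, ← e']; ring
  have h3 : q * n = p * n' := by exact_mod_cast h2
  have h4 : p ∣ q * n := ⟨n', h3⟩
  have h5 : p ∣ n := (Nat.Coprime.dvd_mul_left ((Nat.coprime_primes hp hq).2 hne)).1 h4
  have hpp : (0:ℝ) < p := by exact_mod_cast hp.pos
  have h6 : 0 < n := by
    rcases Nat.eq_zero_or_pos n with h | h
    · exfalso
      rw [h, Nat.cast_zero] at e
      have := mul_pos hpp h0
      linarith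
    · exact h
  have h7 := Nat.le_of_dvd h6 h5
  have h8 : (p:ℝ) ≤ n := by exact_mod_cast h7
  have h9 : (p:ℝ) * y < p * 1 := mul_lt_mul_of_pos_left h1 hpp
  linarith

/-- a large number which makes finitely many coordinates generic -/
theorem exists_generic {Y : Set ℝ} (hY : Y.Finite) (hY1 : ∀ y ∈ Y, 0 < y ∧ y < 1) (M : ℝ) :
    ∃ m : ℕ, 1 ≤ m ∧ M ≤ m ∧ ∀ y ∈ Y, ∀ n : ℕ, (m:ℝ) * y ≠ n := by
  have hbad : {p : ℕ | p.Prime ∧ ∃ y ∈ Y, ∃ n : ℕ, (p:ℝ) * y = n}.Finite := by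
    have : {p : ℕ | p.Prime ∧ ∃ y ∈ Y, ∃ n : ℕ, (p:ℝ) * y = n} ⊆
        ⋃ y ∈ Y, {p : ℕ | p.Prime ∧ ∃ n : ℕ, (p:ℝ) * y = n} := by
      rintro p ⟨hp, y, hy, n, hn⟩
      exact mem_biUnion hy ⟨hp, n, hn⟩
    refine (hY.biUnion fun y hy => ?_).subset this
    apply Set.Subsingleton.finite
    rintro p ⟨hp, n, hn⟩ q ⟨hq, n', hn'⟩
    exact bad_prime (hY1 y hy).1 (hY1 y hy).2 hp hq hn hn'
  obtain ⟨k, hk⟩ := exists_nat_ge M
  have hinf := (Nat.infinite_setOfPred_prime.sdiff (hbad.union (finite_le_nat k)))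
  obtain ⟨m, hm, hm'⟩ := hinf.nonempty
  have hmp : m.Prime := hm
  have hmk : k < m := by
    by_contra h
    exact hm' (Or.inr (not_lt.1 h))
  refine ⟨m, hmp.one_lt.le, ?_, ?_⟩
  · have : (k:ℝ) ≤ m := by exact_mod_cast hmk.le
    linarith
  · intro y hy n hn
    exact hm' (Or.inl ⟨hmp, y, hy, n, hn⟩)

theorem exists_sep {X : Set (ℝ × ℝ)} (hX : X.Finite) :
    ∃ s > 0, ∀ x ∈ X, ∀ y ∈ X, ‖x - y‖ ≤ s → x = y := by
  obtain ⟨s, hs, H⟩ := exists_pos_le hX (P := fun x s => ∀ y ∈ X, ‖x - y‖ ≤ s → x = y)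
    (by
      intro x _
      obtain ⟨s, hs, H⟩ := exists_pos_le hX (P := fun y s => ‖x - y‖ ≤ s → x = y)
        (by
          intro y _
          by_cases hxy : x = y
          · exact ⟨1, one_pos, fun _ => hxy⟩
          · have h0 : 0 < ‖x - y‖ := norm_pos_iff.2 (sub_ne_zero.2 hxy)
            refine ⟨‖x - y‖ / 2, by linarith, fun h => ?_⟩
            exfalso; linarith)
        (fun y s t _ hst H h => H (h.trans hst))
      exact ⟨s, hs, H⟩)
    (fun x s t _ hst H y hy h => H y hy (h.trans hst))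
  exact ⟨s, hs, H⟩

/-- **The controlled isotopy theorem in a conical disc.** -/
theorem small_disc {E : Type*} [NormedAddCommGroup E] [NormedSpace ℝ E] {P B : Set E}
    (h : ConBall 2 P B) {X : Set E} (hXf : X.Finite) (hXP : X ⊆ P) {ε : ℝ} (hε : 0 < ε) :
    ∃ ρ > 0, ∀ ψ : ConHomeo P P, (∀ x ∈ B, ψ.toFun x = x) → (∀ x ∈ X, ψ.toFun x = x) →
      (∀ x ∈ P, ‖ψ.toFun x - x‖ ≤ ρ) → IsoE P (B ∪ X) ε ψ := by
  obtain ⟨κ, κ1, κ2⟩ := exists_chart h
  have hBP : B ⊆ P := h.1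
  have hPc : IsCompact P := by
    have := κ.symm.isCompact_right (isCompact_closedBall _ _)
    exact this
  obtain ⟨δ, hδ, Hδ⟩ := exists_unif (isCompact_closedBall (0 : ℝ × ℝ) 1) κ.cont_inv hε
  -- the marks in the chart
  obtain ⟨X', hX'⟩ : ∃ X', X' = κ.toFun '' (X \ B) := ⟨_, rfl⟩
  have hX'f : X'.Finite := by rw [hX']; exact (hXf.subset sdiff_subset).image _
  have hX'b : ∀ u ∈ X', ‖u‖ < 1 := by
    intro u hu
    rw [hX'] at hu
    obtain ⟨x, ⟨hx, hxB⟩, rfl⟩ := hu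
    have h1 := mem_closedBall_zero_iff.1 (κ.mapsTo (hXP hx))
    refine lt_of_le_of_ne h1 fun h2 => ?_
    have h3 : κ.toFun x ∈ κ.toFun '' B := by rw [κ1]; exact mem_sphere_zero_iff_norm.2 h2
    obtain ⟨b, hb, he⟩ := h3
    have := κ.injOn (hBP hb) (hXP hx) he
    exact hxB (this ▸ hb)
  have hX'c : ∀ u ∈ X', (-1 < u.1 ∧ u.1 < 1) ∧ -1 < u.2 ∧ u.2 < 1 := by
    intro u hu
    have h1 := hX'b u hu
    rw [Prod.norm_def, max_lt_iff, Real.norm_eq_abs, Real.norm_eq_abs, abs_lt, abs_lt] at h1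
    exact h1
  obtain ⟨s, hs, Hs⟩ := exists_sep hX'f
  obtain ⟨m, hm, hmM, hmg⟩ := exists_generic (Y := (fun u : ℝ × ℝ => (u.1 + 1) / 2) '' X' ∪
      (fun u : ℝ × ℝ => (u.2 + 1) / 2) '' X') ((hX'f.image _).union (hX'f.image _))
    (by
      rintro _ (⟨u, hu, rfl⟩ | ⟨u, hu, rfl⟩)
      · obtain ⟨⟨a, b⟩, -⟩ := hX'c u hu
        exact ⟨by simp only; linarith, by simp only; linarith⟩
      · obtain ⟨-, a, b⟩ := hX'c u hu
        exact ⟨by simp only; linarith, by simp only; linarith⟩)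
    (max (8 / δ) (2 / s))
  have hm0 : (0:ℝ) < m := by exact_mod_cast hm
  have hmh : (0:ℝ) < m / 2 := by linarith
  have hm1 : 8 / δ ≤ m := (le_max_left _ _).trans hmM
  have hm2 : 2 / s ≤ m := (le_max_right _ _).trans hmM
  have hm8 : 8 ≤ m * δ := by rwa [div_le_iff₀ hδ] at hm1
  have hms : 2 ≤ m * s := by rwa [div_le_iff₀ hs] at hm2
  -- the scaling
  have e1 : rmf ((m:ℝ) / 2, (m:ℝ) / 2) ((m:ℝ) / 2, (m:ℝ) / 2) '' closedBall 0 1 = rc 0 m 0 m := by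
    rw [rmf_image_closedBall (h := ((m:ℝ) / 2, (m:ℝ) / 2)) hmh hmh]
    simp only
    congr 1 <;> ring
  have e2 : rmf ((m:ℝ) / 2, (m:ℝ) / 2) ((m:ℝ) / 2, (m:ℝ) / 2) '' sphere 0 1 = rb 0 m 0 m := by
    rw [rmf_image_sphere (h := ((m:ℝ) / 2, (m:ℝ) / 2)) hmh hmh]
    simp only
    congr 1 <;> ring
  let T : ConHomeo (closedBall (0 : ℝ × ℝ) 1) (rc 0 (m:ℝ) 0 m) :=
    ((rmH ((m:ℝ) / 2, (m:ℝ) / 2) ((m:ℝ) / 2, (m:ℝ) / 2) hmh hmh).restr
      (conicalSet_closedBall_prod 1) (subset_univ _)).cast rfl e1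
  have hTv : ∀ u, T.toFun u = rmf ((m:ℝ) / 2, (m:ℝ) / 2) ((m:ℝ) / 2, (m:ℝ) / 2) u := fun u => rfl
  have hT1 : ∀ u : ℝ × ℝ, (T.toFun u).1 = m * ((u.1 + 1) / 2) := fun u => by
    rw [hTv]; unfold rmf; ring
  have hT2 : ∀ u : ℝ × ℝ, (T.toFun u).2 = m * ((u.2 + 1) / 2) := fun u => by
    rw [hTv]; unfold rmf; ring
  obtain ⟨ρ₀, hρ₀, H⟩ := plan hm (X := T.toFun '' X') (hX'f.image _)
    (by
      rintro _ ⟨u, hu, rfl⟩
      exact T.mapsTo (mem_closedBall_zero_iff.2 (hX'b u hu).le))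
    (by
      rintro _ ⟨u, hu, rfl⟩ n
      rw [hT1]
      exact hmg _ (Or.inl ⟨u, hu, rfl⟩) n)
    (by
      rintro _ ⟨u, hu, rfl⟩ n
      rw [hT2]
      exact hmg _ (Or.inr ⟨u, hu, rfl⟩) n)
    (by
      rintro _ ⟨u, hu, rfl⟩ _ ⟨v, hv, rfl⟩ huv
      rw [hTv, hTv, rmf_sub, norm_smul, Real.norm_of_nonneg hmh.le] at huv
      rw [Hs u hu v hv]
      by_contra hlt
      push Not at hlt
      nlinarith)
  obtain ⟨g, hg⟩ : ∃ g : ConHomeo P (rc 0 (m:ℝ) 0 m), g = κ.trans T := ⟨_, rfl⟩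
  have hgv : ∀ x, g.toFun x = T.toFun (κ.toFun x) := fun x => by rw [hg]; rfl
  have hgi : ∀ x, g.invFun x = κ.invFun (T.invFun x) := fun x => by rw [hg]; rfl
  obtain ⟨ρ, hρ, Hρ⟩ := exists_unif hPc g.cont hρ₀
  refine ⟨ρ, hρ, fun ψ hψB hψX hψc => ?_⟩
  have hAP : B ∪ X ⊆ P := union_subset hBP hXP
  have hgB : g.toFun '' B = rb 0 m 0 m := by
    rw [← e2, ← κ1, image_image]
    apply image_congr
    intro x _
    rw [hgv, hTv]
  refine IsoE.conj g hAP (ε' := 4) ?_ ?_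
  · have hfix : ∀ x ∈ B ∪ X, (g.symm.trans (ψ.trans g)).toFun (g.toFun x) = g.toFun x := by
      intro x hx
      show g.toFun (ψ.toFun (g.invFun (g.toFun x))) = g.toFun x
      rw [g.left_inv (hAP hx)]
      rcases hx with hx | hx
      · rw [hψB x hx]
      · rw [hψX x hx]
    refine (H (g.symm.trans (ψ.trans g)) ?_ ?_ ?_).mono ?_ (le_refl _)
    · intro y hy
      rw [← hgB] at hy
      obtain ⟨x, hx, rfl⟩ := hy
      exact hfix x (Or.inl hx)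
    · rintro _ ⟨u, hu, rfl⟩
      rw [hX'] at hu
      obtain ⟨x, hx, rfl⟩ := hu
      rw [← hgv]
      exact hfix x (Or.inr hx.1)
    · intro y hy
      have hx := g.mapsTo_inv hy
      have h1 := Hρ _ (ψ.mapsTo hx) _ hx (hψc _ hx)
      rw [g.right_inv hy] at h1
      exact h1
    · rintro _ ⟨x, hx, rfl⟩
      by_cases hxB : x ∈ B
      · left; rw [← hgB]; exact mem_image_of_mem _ hxB
      · rcases hx with hx | hx
        · exact absurd hx hxB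
        · right
          rw [hgv]
          refine ⟨κ.toFun x, ?_, rfl⟩
          rw [hX']
          exact ⟨x, ⟨hx, hxB⟩, rfl⟩
  · intro x hx y hy hxy
    rw [hgi, hgi]
    apply Hδ _ (T.mapsTo_inv hx) _ (T.mapsTo_inv hy)
    have e3 : x - y = ((m:ℝ) / 2) • (T.invFun x - T.invFun y) := by
      rw [← rmf_sub ((m:ℝ) / 2, (m:ℝ) / 2), ← hTv, ← hTv, T.right_inv hx, T.right_inv hy]
    rw [e3, norm_smul, Real.norm_of_nonneg hmh.le] at hxy
    by_contra hlt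
    push Not at hlt
    nlinarith

end P073.H399
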