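import Vale.Agent.P073.H399.GivM


/-!
# P073, H399: **[GV-LOC], [LP]**, local form of the inserted map on the given cells

`GVout.local`: near a point `x` of a given cell every point `y` of the cell lies with `x` in a common
piece: both in the part where nothing changes, or both in the chart of one level (both in the flat
part, both above or both below), with explicit formulas.
-/

open Set Metric Topology Filter

namespace P073.H399

open P073 P073.TR P073.H936 P073.H345 P073.H236 P073.H579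
open Vale.Agent.P073.H73 (Mesh)
open Vale.Agent.P073.H193 (Edges)

/-! ### the real functions -/

theorem abs_ph_sub_le_of_nonneg {η m m' r r' : ℝ} (hr : 0 ≤ r) (hr' : 0 ≤ r') :
    |ph η m r - ph η m' r'| ≤ 2 * |r - r'| + |m - m'| := by
  rw [ph_of_nonneg hr, ph_of_nonneg hr']
  have h0 := abs_nonneg (r - r')
  have h1 := abs_nonneg (m - m')
  refine (abs_min_sub_min_le_max _ _ _ _).trans (max_le (by linarith) ?_)
  refine (abs_max_sub_max_le_max _ _ _ _).trans (max_le (by rw [sub_self, abs_zero]; linarith) ?_)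
  refine (abs_max_sub_max_le_max _ _ _ _).trans (max_le ?_ ?_)
  · have e : r - m - (r' - m') = (r - r') - (m - m') := by ring
    rw [e]
    refine (abs_sub _ _).trans ?_
    linarith
  · have e : 2 * r - η - (2 * r' - η) = 2 * (r - r') := by ring
    rw [e, abs_mul, abs_two]
    linarith

theorem abs_br_sub_le {η m m' ρ ρ' : ℝ} :
    |br η m ρ - br η m' ρ'| ≤ |ρ - ρ'| + |m - m'| := by
  unfold br
  have h0 := abs_nonneg (ρ - ρ')
  have h1 := abs_nonneg (m - m')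
  refine (abs_max_sub_max_le_max _ _ _ _).trans (max_le (by linarith) ?_)
  refine (abs_min_sub_min_le_max _ _ _ _).trans (max_le ?_ ?_)
  · have e : ρ + m - (ρ' + m') = (ρ - ρ') + (m - m') := by ring
    rw [e]
    exact abs_add_le _ _
  · have e : (ρ + η) / 2 - (ρ' + η) / 2 = (ρ - ρ') / 2 := by ring
    rw [e, abs_div, abs_two]
    linarith

theorem le_br' {η m ρ : ℝ} (hm : m ≤ η / 2) (hρ : 0 ≤ ρ) : m ≤ br η m ρ :=
  (le_min (by linarith) (by linarith)).trans (le_max_right _ _)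

theorem br_le {η m ρ : ℝ} (hρ : 0 ≤ ρ) (hη : 0 ≤ η) : br η m ρ ≤ ρ + η / 2 := by
  unfold br
  exact max_le (by linarith) ((min_le_right _ _).trans (by linarith))

/-! ### the three parts of a chart -/

section pure

variable {E : Type*} {n : ℕ} {h : E → Fin n → ℝ} {i : Fin n} {b η r : ℝ}
  {μ : (Fin n → ℝ) → ℝ} {Γ : E × ℝ → E} {z : E} {s : ℝ}

/-- **above the flat part** -/
theorem ym_up (hr : 0 < r) (h0 : 0 ≤ μ (h z)) (hη : μ (h z) ≤ η / 2)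
    (hz : Γ (z, 0) = z) (hb : h z i = b) (hs1 : s ≤ 1)
    (hpos : ∀ t ∈ Icc (-1:ℝ) 1, 0 < t → b < h (Γ (z, t)) i) (hs : r * μ (h z) ≤ s) :
    0 ≤ rm h r μ (z, s) ∧ 0 ≤ h (cm h r μ Γ (z, s)) i - b ∧
    ym h i b η r μ Γ (z, s) = Function.update (h (cm h r μ Γ (z, s))) i
      (b + br η (μ (h (cm h r μ Γ (z, s)))) (h (cm h r μ Γ (z, s)) i - b)) := by
  have hs0 : 0 ≤ r * μ (h z) := mul_nonneg hr.le h0
  have hsn : 0 ≤ s := hs0.trans hs
  have hrm0 : 0 ≤ rm h r μ (z, s) := ph_nonneg hsn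
  have hrm1 : rm h r μ (z, s) ≤ 1 := (ph_le hsn).trans hs1
  have hR : μ (h z) ≤ s / r := by rw [le_div_iff₀ hr]; linarith
  rcases hrm0.eq_or_lt with he | hlt
  · have hcm : cm h r μ Γ (z, s) = z := by rw [cm, ← he]; exact hz
    rw [hcm, hb, sub_self]
    refine ⟨hrm0, le_rfl, ?_⟩
    rw [ym, hcm, dm, hcm, ← he, max_self, min_self]
    simp only
    rw [hz, hb, sub_self, br_zero h0 hη]
    have hd : ds η (μ (h z)) (μ (h z)) (μ (h z)) 0 (s / r) = μ (h z) := by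
      unfold ds
      rw [min_eq_left hR, max_eq_right (by linarith), neg_zero, max_self]
      ring
    rw [hd]
  · have hmem : rm h r μ (z, s) ∈ Icc (-1:ℝ) 1 := ⟨by linarith, hrm1⟩
    have hρ : 0 < h (cm h r μ Γ (z, s)) i - b := by
      have := hpos _ hmem hlt
      rw [cm]
      linarith
    refine ⟨hrm0, hρ.le, ?_⟩
    rw [ym, dm, max_eq_left hlt.le, min_eq_right hlt.le]
    simp only
    rw [hz]
    rw [ds_pos h0 hη hρ hR rfl]
    rfl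

/-- **below the flat part** -/
theorem ym_dn (hr : 0 < r) (h0 : 0 ≤ μ (h z)) (hη : μ (h z) ≤ η / 2)
    (hz : Γ (z, 0) = z) (hb : h z i = b) (hs1 : -1 ≤ s)
    (hneg : ∀ t ∈ Icc (-1:ℝ) 1, t < 0 → h (Γ (z, t)) i < b) (hs : s ≤ -(r * μ (h z))) :
    rm h r μ (z, s) ≤ 0 ∧ h (cm h r μ Γ (z, s)) i - b ≤ 0 ∧
    ym h i b η r μ Γ (z, s) = Function.update (h (cm h r μ Γ (z, s))) i
      (b - br η (μ (h (cm h r μ Γ (z, s)))) (-(h (cm h r μ Γ (z, s)) i - b))) := by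
  have hs0 : 0 ≤ r * μ (h z) := mul_nonneg hr.le h0
  have hsn : 0 ≤ -s := by linarith
  have he0 : rm h r μ (z, s) = - ph 1 (r * μ (h z)) (-s) := by
    rw [ph_neg, neg_neg]; rfl
  have hrm0 : rm h r μ (z, s) ≤ 0 := by
    rw [he0]
    linarith [ph_nonneg (η := 1) (m := r * μ (h z)) hsn]
  have hrm1 : -1 ≤ rm h r μ (z, s) := by
    rw [he0]
    linarith [ph_le (η := 1) (m := r * μ (h z)) hsn]
  have hR : s / r ≤ - μ (h z) := by rw [div_le_iff₀ hr]; linarith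
  rcases hrm0.eq_or_lt with he | hlt
  · have hcm : cm h r μ Γ (z, s) = z := by rw [cm, he]; exact hz
    rw [hcm, hb, sub_self, neg_zero]
    refine ⟨hrm0, le_rfl, ?_⟩
    rw [ym, hcm, dm, hcm, he, max_self, min_self]
    simp only
    rw [hz, hb, sub_self, br_zero h0 hη]
    have hd : ds η (μ (h z)) (μ (h z)) (μ (h z)) 0 (s / r) = - μ (h z) := by
      unfold ds
      rw [min_eq_right (by linarith : s / r ≤ μ (h z)), max_eq_left hR, neg_zero, max_self]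
      ring
    rw [hd]
    rfl
  · have hmem : rm h r μ (z, s) ∈ Icc (-1:ℝ) 1 := ⟨hrm1, by linarith⟩
    have hρ : h (cm h r μ Γ (z, s)) i - b < 0 := by
      have := hneg _ hmem hlt
      rw [cm]
      linarith
    refine ⟨hrm0, hρ.le, ?_⟩
    rw [ym, dm, max_eq_right hlt.le, min_eq_left hlt.le]
    simp only
    rw [hz]
    rw [ds_neg h0 hη hρ hR rfl]
    rfl

/-- **the flat part** -/
theorem ym_fl (hr : 0 < r) (h0 : 0 ≤ μ (h z)) (h1 : r * μ (h z) ≤ 1 / 2)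
    (hz : Γ (z, 0) = z) (hb : h z i = b) (hs : |s| ≤ r * μ (h z)) :
    ym h i b η r μ Γ (z, s) = Function.update (h z) i (b + s / r) := by
  have hrm : rm h r μ (z, s) = 0 := by
    unfold rm
    simp only
    exact (ph_zero_iff (mul_nonneg hr.le h0) h1).2 hs
  have hcm : cm h r μ Γ (z, s) = z := by rw [cm, hrm]; exact hz
  have hR : |s / r| ≤ μ (h z) := by
    rw [abs_div, abs_of_pos hr, div_le_iff₀ hr]
    linarith
  have hdm : dm h i b η r μ Γ (z, s) = s / r := by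
    rw [dm, hcm, hrm, max_self, min_self]
    simp only
    rw [hz, hb, sub_self]
    exact ds_zero hR
  rw [ym, hcm, hdm]

end pure

section pair

variable {E : Type*} [NormedAddCommGroup E] {n : ℕ} {h : E → Fin n → ℝ} {i : Fin n} {b η r : ℝ}
  {μ : (Fin n → ℝ) → ℝ} {Γ : E × ℝ → E} {z z' x y : E} {s s' w m K L ξ L₂ : ℝ}

/-- **the pair estimate on one side of a flat** -/
theorem pair_est (hr : 0 < r) (hw : 0 ≤ w) (hm : 0 ≤ m) (hK : 0 ≤ K) (hL : 0 ≤ L)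
    (hμ : ∀ y y', |μ y - μ y'| ≤ m * ‖y - y'‖)
    (hΓK : ∀ t ∈ Icc (-1:ℝ) 1, ∀ t' ∈ Icc (-1:ℝ) 1, ‖h (Γ (z, t)) - h (Γ (z', t'))‖ ≤
      K * ‖Γ (z, t) - Γ (z', t')‖)
    (hx : x = Γ (z, s)) (hy : y = Γ (z', s')) (hs : s ∈ Icc (-1:ℝ) 1) (hs' : s' ∈ Icc (-1:ℝ) 1)
    (hz : Γ (z, 0) = z) (hz' : Γ (z', 0) = z')
    (hlev : ∀ t ∈ Icc (-1:ℝ) 1, h (Γ (z, t)) i = b + w * t)
    (hlev' : ∀ t ∈ Icc (-1:ℝ) 1, h (Γ (z', t)) i = b + w * t)
    (hlip : ∀ t ∈ Icc (-1:ℝ) 1, ‖Γ (z, t) - Γ (z', t)‖ ≤ L * ‖x - y‖)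
    (hfib : ∀ t ∈ Icc (-1:ℝ) 1, ∀ t' ∈ Icc (-1:ℝ) 1,
      ‖Γ (z', t) - Γ (z', t')‖ ≤ L * (w * |t - t'|))
    (hside : (0 ≤ s ∧ 0 ≤ s') ∨ (s ≤ 0 ∧ s' ≤ 0)) {Y Y' : Fin n → ℝ} {β : ℝ} (hβ : |β| ≤ 1)
    (hY : Y = Function.update (h (cm h r μ Γ (z, s))) i
      (b + β * br η (μ (h (cm h r μ Γ (z, s)))) (β * (h (cm h r μ Γ (z, s)) i - b))))
    (hY' : Y' = Function.update (h (cm h r μ Γ (z', s'))) i
      (b + β * br η (μ (h (cm h r μ Γ (z', s')))) (β * (h (cm h r μ Γ (z', s')) i - b))))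
    (hξ : w * (r * (m * (K * L))) + m * (K * (L * (1 + 2 * K + w * (r * (m * (K * L)))))) ≤ ξ)
    (h1 : K * (L * (1 + 2 * K + w * (r * (m * (K * L))))) ≤ L₂) (h2 : 2 * K + ξ ≤ L₂) :
    |Y i - Y' i| ≤ 2 * |h x i - h y i| + ξ * ‖x - y‖ ∧ ‖Y - Y'‖ ≤ L₂ * ‖x - y‖ := by
  have hD := norm_nonneg (x - y)
  set D := ‖x - y‖ with hDd
  set X := w * (r * (m * (K * L))) with hX
  have hX0 : 0 ≤ X := by positivity
  have i0 : (0:ℝ) ∈ Icc (-1:ℝ) 1 := by norm_num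
  -- the parameters
  have hzz : ‖z - z'‖ ≤ L * D := by
    have := hlip 0 i0
    rwa [hz, hz'] at this
  have hμz : |μ (h z) - μ (h z')| ≤ m * (K * (L * D)) := by
    have h3 := hΓK 0 i0 0 i0
    rw [hz, hz'] at h3
    exact (hμ _ _).trans (mul_le_mul_of_nonneg_left (h3.trans
      (mul_le_mul_of_nonneg_left hzz hK)) hm)
  set ρ := rm h r μ (z, s) with hρ
  set ρ' := rm h r μ (z', s') with hρ'
  have hρm : ρ ∈ Icc (-1:ℝ) 1 := rm_mem (q := (z, s)) hs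
  have hρm' : ρ' ∈ Icc (-1:ℝ) 1 := rm_mem (q := (z', s')) hs'
  have hρρ : |ρ - ρ'| ≤ 2 * |s - s'| + r * (m * (K * (L * D))) := by
    have h3 : |r * μ (h z) - r * μ (h z')| ≤ r * (m * (K * (L * D))) := by
      rw [← mul_sub, abs_mul, abs_of_pos hr]
      exact mul_le_mul_of_nonneg_left hμz hr.le
    rcases hside with ⟨a1, a2⟩ | ⟨a1, a2⟩
    · have := abs_ph_sub_le_of_nonneg (η := 1) (m := r * μ (h z)) (m' := r * μ (h z')) a1 a2
      exact this.trans (by linarith)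
    · have h4 := abs_ph_sub_le_of_nonneg (η := 1) (m := r * μ (h z)) (m' := r * μ (h z'))
        (neg_nonneg.2 a1) (neg_nonneg.2 a2)
      rw [ph_neg, ph_neg] at h4
      have e1 : -ph 1 (r * μ (h z)) s - -ph 1 (r * μ (h z')) s' = -(ρ - ρ') := by
        rw [hρ, hρ']
        unfold rm
        simp only
        ring
      have e2 : -s - -s' = -(s - s') := by ring
      rw [e1, e2, abs_neg, abs_neg] at h4
      exact h4.trans (by linarith)
  -- the difference of the levels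
  have hhx : h x i - h y i = w * (s - s') := by
    rw [hx, hy, hlev s hs, hlev' s' hs']; ring
  have hws : w * |s - s'| = |h x i - h y i| := by
    rw [hhx, abs_mul, abs_of_nonneg hw]
  have hxyK : |h x i - h y i| ≤ K * D := by
    have h3 := norm_le_pi_norm (h x - h y) i
    rw [Pi.sub_apply, Real.norm_eq_abs] at h3
    have h4 := hΓK s hs s' hs'
    rw [← hx, ← hy] at h4
    exact h3.trans h4
  have hwρ : w * |ρ - ρ'| ≤ 2 * |h x i - h y i| + X * D := by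
    have h3 := mul_le_mul_of_nonneg_left hρρ hw
    have e : w * (2 * |s - s'| + r * (m * (K * (L * D)))) = 2 * (w * |s - s'|) + X * D := by
      rw [hX]; ring
    rw [e, hws] at h3
    exact h3
  have hwρ2 : w * |ρ - ρ'| ≤ (2 * K + X) * D := by
    have := hwρ
    nlinarith
  -- the collapsed points
  have hcm : ‖cm h r μ Γ (z, s) - cm h r μ Γ (z', s')‖ ≤ L * (1 + 2 * K + X) * D := by
    have h3 := hlip ρ hρm
    have h4 := hfib ρ hρm ρ' hρm'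
    have h5 : ‖Γ (z, ρ) - Γ (z', ρ')‖ ≤ ‖Γ (z, ρ) - Γ (z', ρ)‖ + ‖Γ (z', ρ) - Γ (z', ρ')‖ := by
      have := norm_add_le (Γ (z, ρ) - Γ (z', ρ)) (Γ (z', ρ) - Γ (z', ρ'))
      rwa [sub_add_sub_cancel] at this
    have h6 := mul_le_mul_of_nonneg_left hwρ2 hL
    have e : L * (1 + 2 * K + X) * D = L * D + L * ((2 * K + X) * D) := by ring
    rw [e]
    exact (h5.trans (add_le_add h3 h4)).trans (by linarith)
  have hKcm : ‖h (cm h r μ Γ (z, s)) - h (cm h r μ Γ (z', s'))‖ ≤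
      K * (L * (1 + 2 * K + X)) * D := by
    have h3 := hΓK ρ hρm ρ' hρm'
    have h4 := mul_le_mul_of_nonneg_left hcm hK
    have e : K * (L * (1 + 2 * K + X)) * D = K * (L * (1 + 2 * K + X) * D) := by ring
    rw [e]
    exact h3.trans h4
  have hci : h (cm h r μ Γ (z, s)) i - b - (h (cm h r μ Γ (z', s')) i - b) = w * (ρ - ρ') := by
    show h (Γ (z, ρ)) i - b - (h (Γ (z', ρ')) i - b) = _
    rw [hlev ρ hρm, hlev' ρ' hρm']; ring
  have hYi : |Y i - Y' i| ≤ w * |ρ - ρ'| + m * (K * (L * (1 + 2 * K + X)) * D) := by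
    rw [hY, hY', Function.update_self, Function.update_self]
    set A := h (cm h r μ Γ (z, s)) with hA
    set A' := h (cm h r μ Γ (z', s')) with hA'
    have e : b + β * br η (μ A) (β * (A i - b)) - (b + β * br η (μ A') (β * (A' i - b))) =
      β * (br η (μ A) (β * (A i - b)) - br η (μ A') (β * (A' i - b))) := by ring
    rw [e, abs_mul]
    refine (mul_le_of_le_one_left (abs_nonneg _) hβ).trans ?_
    refine abs_br_sub_le.trans (add_le_add ?_ ?_)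
    · rw [← mul_sub, hci, abs_mul, abs_mul, abs_of_nonneg hw]
      exact mul_le_of_le_one_left (by positivity) hβ
    · exact (hμ _ _).trans (mul_le_mul_of_nonneg_left hKcm hm)
  have hYi2 : |Y i - Y' i| ≤ 2 * |h x i - h y i| + ξ * D := by
    have h3 := mul_le_mul_of_nonneg_right hξ hD
    have e : (X + m * (K * (L * (1 + 2 * K + X)))) * D =
      X * D + m * (K * (L * (1 + 2 * K + X)) * D) := by ring
    rw [e] at h3
    linarith
  refine ⟨hYi2, ?_⟩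
  have hL₂ : 0 ≤ L₂ := by
    refine le_trans ?_ h1
    positivity
  rw [pi_norm_le_iff_of_nonneg (mul_nonneg hL₂ hD)]
  intro k
  rw [Real.norm_eq_abs, Pi.sub_apply]
  by_cases hk : k = i
  · subst hk
    refine hYi2.trans ?_
    have h3 := mul_le_mul_of_nonneg_right h2 hD
    linarith
  · rw [hY, hY', Function.update_of_ne hk, Function.update_of_ne hk]
    have h3 := norm_le_pi_norm (h (cm h r μ Γ (z, s)) - h (cm h r μ Γ (z', s'))) k
    rw [Pi.sub_apply, Real.norm_eq_abs] at h3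
    exact (h3.trans hKcm).trans (mul_le_mul_of_nonneg_right h1 hD)

end pair

/-! ### pieces -/

/-- finitely many closed pieces: near `x` every point of the union lies with `x` in one piece -/
theorem eventually_piece {X ι : Type*} [TopologicalSpace X] {P : ι → Set X} {F : Set ι}
    (hF : F.Finite) (hP : ∀ i ∈ F, IsClosed (P i)) {Q : Set X} (hQ : Q ⊆ ⋃ i ∈ F, P i) (x : X) :
    ∀ᶠ y in 𝓝[Q] x, ∃ i ∈ F, x ∈ P i ∧ y ∈ P i := by
  have h1 : IsClosed (⋃ i ∈ {i | i ∈ F ∧ x ∉ P i}, P i) :=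
    (hF.subset fun i hi => hi.1).isClosed_biUnion fun i hi => hP i hi.1
  have h2 : x ∉ ⋃ i ∈ {i | i ∈ F ∧ x ∉ P i}, P i := by
    simp only [mem_iUnion, not_exists]
    exact fun i hi => hi.2
  filter_upwards [mem_nhdsWithin_of_mem_nhds (h1.isOpen_compl.mem_nhds h2),
    self_mem_nhdsWithin] with y h3 h4
  obtain ⟨i, hi, hy⟩ := mem_iUnion₂.1 (hQ h4)
  refine ⟨i, hi, ?_, hy⟩
  by_contra hc
  exact h3 (mem_iUnion₂.2 ⟨i, ⟨hi, hc⟩, hy⟩)

/-- the three parts of a fibre: flat, above, below -/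
def Part (k : Fin 3) (u s : ℝ) : Prop :=
  (k = 0 ∧ |s| ≤ u) ∨ (k = 1 ∧ u ≤ s) ∨ (k = 2 ∧ s ≤ -u)

theorem exists_part (u s : ℝ) : ∃ k, Part k u s := by
  rcases le_or_gt |s| u with h1 | h1
  · exact ⟨0, Or.inl ⟨rfl, h1⟩⟩
  · rcases lt_abs.1 h1 with h2 | h2
    · exact ⟨1, Or.inr (Or.inl ⟨rfl, h2.le⟩)⟩
    · exact ⟨2, Or.inr (Or.inr ⟨rfl, by linarith⟩)⟩

theorem isCompact_part {E : Type*} [TopologicalSpace E] {Z : Set (E × ℝ)} (hZ : IsCompact Z)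
    {f : E × ℝ → ℝ} (hf : ContinuousOn f Z) (k : Fin 3) :
    IsCompact {q | q ∈ Z ∧ Part k (f q) q.2} := by
  have hsnd : ContinuousOn (fun q : E × ℝ => q.2) Z := continuous_snd.continuousOn
  have key : ∀ g : E × ℝ → ℝ, ContinuousOn g Z → IsCompact {q | q ∈ Z ∧ 0 ≤ g q} := by
    intro g hg
    have h1 := continuousOn_iff_continuous_domRestrict.1 hg
    have h2 : IsClosed {q : Z | 0 ≤ Z.domRestrict g q} := isClosed_le continuous_const h1
    have h3 : IsCompact {q : Z | 0 ≤ Z.domRestrict g q} := by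
      have := isCompact_iff_compactSpace.1 hZ
      exact h2.isCompact
    have h4 := h3.image continuous_subtype_val
    convert h4 using 1
    ext q
    constructor
    · rintro ⟨h5, h6⟩
      exact ⟨⟨q, h5⟩, h6, rfl⟩
    · rintro ⟨q', h5, rfl⟩
      exact ⟨q'.2, h5⟩
  fin_cases k
  · have e : {q | q ∈ Z ∧ Part 0 (f q) q.2} = {q | q ∈ Z ∧ 0 ≤ f q - |q.2|} := by
      ext q
      simp [Part, sub_nonneg]
    exact e ▸ key _ (hf.sub hsnd.abs)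
  · have e : {q | q ∈ Z ∧ Part 1 (f q) q.2} = {q | q ∈ Z ∧ 0 ≤ q.2 - f q} := by
      ext q
      simp [Part, sub_nonneg]
    exact e ▸ key _ (hsnd.sub hf)
  · have e : {q | q ∈ Z ∧ Part 2 (f q) q.2} = {q | q ∈ Z ∧ 0 ≤ -f q - q.2} := by
      ext q
      simp [Part, sub_nonneg]
    exact e ▸ key _ (hf.neg.sub hsnd)

/-! ### the local form -/

variable {γ : Type*} {Ω Λ : Set (Fin 3 → ℝ)}
  {M : Mesh Ω} {E : Edges M} {h h' : ConHomeo Ω Λ} {B : γ → BX 3} {Gv : Set M.ι}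
  {W : γ → Set (Fin 3 → ℝ)} {C : γ → Set (Fin 3 → ℝ)} {w : γ → ℝ}
  {Γ : ∀ (g : γ) (m : Fin (B g).N), ConHomeo
      (lev (C g) (uG h B g) ((B g).a m) ×ˢ Icc (-1:ℝ) 1)
      (band (C g) (uG h B g) ((B g).a m) (w g))}
  {c : γ → ℝ} {h0 : ∀ g, 0 < c g} {h1 : ∀ g, c g ≤ (B g).c} {κ : (Fin 3 → ℝ) → Fin 3 → ℝ}
  {Ψ : ∀ j ∈ Gv, ConHomeo (M.Q j) (Pre κ Λ h' (M.Q j))} {φ : M.ι → (Fin 3 → ℝ) → Fin 3 → ℝ}

/-- **the point `x = Γ (z, s)` of the chart `(g, m)`, with the explicit formulas** -/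
structure GPt (M : Mesh Ω) (h h' : ConHomeo Ω Λ) (B : γ → BX 3) (W : γ → Set (Fin 3 → ℝ))
    (C : γ → Set (Fin 3 → ℝ)) (w : γ → ℝ)
    (Γ : ∀ (g : γ) (m : Fin (B g).N), ConHomeo
      (lev (C g) (uG h B g) ((B g).a m) ×ˢ Icc (-1:ℝ) 1)
      (band (C g) (uG h B g) ((B g).a m) (w g)))
    (c : γ → ℝ) (h0 : ∀ g, 0 < c g) (h1 : ∀ g, c g ≤ (B g).c) (j : M.ι)
    (ψ ϕ : (Fin 3 → ℝ) → Fin 3 → ℝ) (k : Fin 3) (g : γ) (m : Fin (B g).N)
    (x z : Fin 3 → ℝ) (s : ℝ) : Prop where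
  zQ : z ∈ M.Q j
  zC : z ∈ C g
  hz : h.toFun z (B g).j = (B g).a m
  hz' : h'.toFun z (B g).j = (B g).a m
  zW : h'.toFun z ∈ W g
  hs : s ∈ Icc (-1:ℝ) 1
  eq : x = (Γ g m).toFun (z, s)
  cm : ϕ x = H399.cm h'.toFun (1 / (2 * c g)) (mu (thin (B g) (c g) (h0 g) (h1 g)))
    (Γ g m).toFun (z, s)
  ym : ψ x = H399.ym h'.toFun (B g).j ((B g).a m) (2 * c g)
    (1 / (2 * c g)) (mu (thin (B g) (c g) (h0 g) (h1 g))) (Γ g m).toFun (z, s)
  part : Part k (1 / (2 * c g) * mu (thin (B g) (c g) (h0 g) (h1 g)) (h'.toFun z)) s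

theorem GPt.mem_lev {j : M.ι} {ψ ϕ : (Fin 3 → ℝ) → Fin 3 → ℝ} {k : Fin 3} {g : γ}
    {m : Fin (B g).N} {x z : Fin 3 → ℝ} {s : ℝ}
    (P : GPt M h h' B W C w Γ c h0 h1 j ψ ϕ k g m x z s) :
    z ∈ lev (C g) (uG h B g) ((B g).a m) := ⟨P.zC, P.hz⟩

/-- **[GV-LOC]** -/
theorem GVout.local' (O : GVout M E h h' B Gv W C w Γ c h0 h1 κ Ψ φ) {j : M.ι} (hj : j ∈ Gv)
    (x : Fin 3 → ℝ) {P : ∀ g, Fin (B g).N → (Fin 3 → ℝ) → Prop}
    (hP : ∀ g (m : Fin (B g).N), (∃ z s, z ∈ M.Q j ∧ z ∈ C g ∧ h.toFun z (B g).j = (B g).a m ∧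
      h'.toFun z (B g).j = (B g).a m ∧ h'.toFun z ∈ W g ∧ s ∈ Icc (-1:ℝ) 1 ∧
      x = (Γ g m).toFun (z, s)) → x ∈ band (C g) (uG h B g) ((B g).a m) (w g) →
      ∀ᶠ y in 𝓝[M.Q j] x, y ∈ band (C g) (uG h B g) ((B g).a m) (w g) → P g m y) :
    ∀ᶠ y in 𝓝[M.Q j] x, ((Ψ j hj).toFun x = h'.toFun x ∧ φ j x = x ∧
      (Ψ j hj).toFun y = h'.toFun y ∧ φ j y = y) ∨
      ∃ k g, ∃ m : Fin (B g).N, ∃ z z' s s',
        GPt M h h' B W C w Γ c h0 h1 j (Ψ j hj).toFun (φ j) k g m x z s ∧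
        GPt M h h' B W C w Γ c h0 h1 j (Ψ j hj).toFun (φ j) k g m y z' s' ∧ P g m y := by
  obtain ⟨A, L, hA, -, hL, hfin, hLz, hcov, hAt⟩ := O.closed j hj
  -- the real number which separates the parts
  let u : (Σ g, Fin (B g).N) → (Fin 3 → ℝ) × ℝ → ℝ := fun p q =>
    1 / (2 * c p.1) * mu (thin (B p.1) (c p.1) (h0 p.1) (h1 p.1)) (h'.toFun q.1)
  let D : (Σ g, Fin (B g).N) → Fin 3 → Set ((Fin 3 → ℝ) × ℝ) := fun p k =>
    {q | q ∈ L p ×ˢ Icc (-1:ℝ) 1 ∧ Part k (u p q) q.2}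
  set P' : Option ((Σ g, Fin (B g).N) × Fin 3) → Set (Fin 3 → ℝ) := fun o =>
    o.elim A fun p => (Γ p.1.1 p.1.2).toFun '' D p.1 p.2 with hP'
  set F : Set (Option ((Σ g, Fin (B g).N) × Fin 3)) :=
    insert none (some '' ({p | (L p).Nonempty} ×ˢ (univ : Set (Fin 3)))) with hF
  have hFf : F.Finite := ((hfin.prod finite_univ).image _).insert _
  have hsub : ∀ p k, D p k ⊆ lev (C p.1) (uG h B p.1) ((B p.1).a p.2) ×ˢ Icc (-1:ℝ) 1 := by
    rintro p k q ⟨hq, -⟩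
    exact ⟨⟨(hLz p q.1 hq.1).2.1, (hLz p q.1 hq.1).2.2.1⟩, hq.2⟩
  have hDc : ∀ p k, IsCompact (D p k) := by
    intro p k
    refine isCompact_part ((hL p).prod isCompact_Icc) ?_ k
    have hc : ContinuousOn (fun q : (Fin 3 → ℝ) × ℝ => h'.toFun q.1) (L p ×ˢ Icc (-1:ℝ) 1) :=
      h'.cont.comp continuous_fst.continuousOn fun q hq => M.sub j (hLz p q.1 hq.1).1
    have hμ : ContinuousOn (mu (thin (B p.1) (c p.1) (h0 p.1) (h1 p.1))) univ := (thk_mu _).cc.cont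
    exact continuousOn_const.mul (hμ.comp hc (mapsTo_univ _ _))
  have hPc : ∀ o ∈ F, IsClosed (P' o) := by
    rintro o ho
    rcases o with _ | p
    · exact hA
    · exact IsCompact.isClosed ((hDc p.1 p.2).image_of_continuousOn
        ((Γ p.1.1 p.1.2).cont.mono (hsub p.1 p.2)))
  have hcov' : M.Q j ⊆ ⋃ o ∈ F, P' o := by
    intro y hy
    rcases hcov hy with h2 | h2
    · exact mem_iUnion₂.2 ⟨none, mem_insert _ _, h2⟩
    · obtain ⟨p, h3⟩ := mem_iUnion.1 h2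
      obtain ⟨q, hq, hqy⟩ := h3
      obtain ⟨k, hk⟩ := exists_part (u p q) q.2
      exact mem_iUnion₂.2 ⟨some (p, k), mem_insert_of_mem _ ⟨(p, k), ⟨⟨q.1, hq.1⟩, mem_univ _⟩, rfl⟩,
        ⟨q, ⟨hq, hk⟩, hqy⟩⟩
  have hPF : ∀ᶠ y in 𝓝[M.Q j] x, ∀ p ∈ {p | (L p).Nonempty},
      ((∃ z s, z ∈ M.Q j ∧ z ∈ C p.1 ∧ h.toFun z (B p.1).j = (B p.1).a p.2 ∧
      h'.toFun z (B p.1).j = (B p.1).a p.2 ∧ h'.toFun z ∈ W p.1 ∧ s ∈ Icc (-1:ℝ) 1 ∧
      x = (Γ p.1 p.2).toFun (z, s)) ∧ x ∈ band (C p.1) (uG h B p.1) ((B p.1).a p.2) (w p.1)) →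
      y ∈ band (C p.1) (uG h B p.1) ((B p.1).a p.2) (w p.1) → P p.1 p.2 y := by
    rw [eventually_all_finite hfin]
    intro p _
    by_cases hx : (∃ z s, z ∈ M.Q j ∧ z ∈ C p.1 ∧ h.toFun z (B p.1).j = (B p.1).a p.2 ∧
      h'.toFun z (B p.1).j = (B p.1).a p.2 ∧ h'.toFun z ∈ W p.1 ∧ s ∈ Icc (-1:ℝ) 1 ∧
      x = (Γ p.1 p.2).toFun (z, s)) ∧ x ∈ band (C p.1) (uG h B p.1) ((B p.1).a p.2) (w p.1)
    · filter_upwards [hP p.1 p.2 hx.1 hx.2] with y hy _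
      exact hy
    · exact Eventually.of_forall fun y hc => absurd hc hx
  filter_upwards [eventually_piece hFf hPc hcov' x, hPF] with y hy hyP
  obtain ⟨o, ho, hx, hy⟩ := hy
  rcases o with _ | ⟨p, k⟩
  · exact Or.inl ⟨(hAt x hx).1, (hAt x hx).2, (hAt y hy).1, (hAt y hy).2⟩
  · obtain ⟨⟨z, s⟩, hz, hxz⟩ := hx
    obtain ⟨⟨z', s'⟩, hz', hyz⟩ := hy
    have key : ∀ q t, ∀ u' : Fin 3 → ℝ, (q, t) ∈ D p k → (Γ p.1 p.2).toFun (q, t) = u' →
        GPt M h h' B W C w Γ c h0 h1 j (Ψ j hj).toFun (φ j) k p.1 p.2 u' q t := by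
      rintro q t u' ⟨⟨hq, ht⟩, hk⟩ hu'
      obtain ⟨k1, k2, k3, k4, k5⟩ := hLz p q hq
      have k6 := O.form j hj p.1 p.2 q k1 k4 k5 t ht
      rw [hu'] at k6
      exact ⟨k1, k2, k3, k4, k5, ht, hu'.symm, k6.1, k6.2, hk⟩
    have hxb : x ∈ band (C p.1) (uG h B p.1) ((B p.1).a p.2) (w p.1) := by
      rw [← hxz]
      exact (Γ p.1 p.2).mapsTo (hsub p k hz)
    have hyb : y ∈ band (C p.1) (uG h B p.1) ((B p.1).a p.2) (w p.1) := by
      rw [← hyz]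
      exact (Γ p.1 p.2).mapsTo (hsub p k hz')
    have hG := key z s x hz hxz
    exact Or.inr ⟨k, p.1, p.2, z, z', s, s', hG, key z' s' y hz' hyz,
      hyP p ⟨z, hz.1.1⟩ ⟨⟨z, s, hG.zQ, hG.zC, hG.hz, hG.hz', hG.zW, hG.hs, hG.eq⟩, hxb⟩ hyb⟩

/-- **[GV-LOC]**, without the position of `x` -/
theorem GVout.local (O : GVout M E h h' B Gv W C w Γ c h0 h1 κ Ψ φ) {j : M.ι} (hj : j ∈ Gv)
    (x : Fin 3 → ℝ) {P : ∀ g, Fin (B g).N → (Fin 3 → ℝ) → Prop}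
    (hP : ∀ g (m : Fin (B g).N), x ∈ band (C g) (uG h B g) ((B g).a m) (w g) →
      ∀ᶠ y in 𝓝[M.Q j] x, y ∈ band (C g) (uG h B g) ((B g).a m) (w g) → P g m y) :
    ∀ᶠ y in 𝓝[M.Q j] x, ((Ψ j hj).toFun x = h'.toFun x ∧ φ j x = x ∧
      (Ψ j hj).toFun y = h'.toFun y ∧ φ j y = y) ∨
      ∃ k g, ∃ m : Fin (B g).N, ∃ z z' s s',
        GPt M h h' B W C w Γ c h0 h1 j (Ψ j hj).toFun (φ j) k g m x z s ∧
        GPt M h h' B W C w Γ c h0 h1 j (Ψ j hj).toFun (φ j) k g m y z' s' ∧ P g m y :=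
  O.local' hj x fun g m _ hx => hP g m hx

end P073.H399
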