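import Vale.Agent.P073.H399.IsoE

/-!
# P073 / H399: homeomorphisms supported in the tiles of a tiling
-/

open Set Metric Topology Filter

namespace P073.H399

open P073

variable {E : Type*} [NormedAddCommGroup E] [NormedSpace ℝ E]

/-- finitely many discs with disjoint interiors, and the rest `R` -/
structure Tiles (S R : Set E) {ι : Type*} (C B : ι → Set E) : Prop where
  ball : ∀ i, ConBall 2 (C i) (B i)
  clR : IsClosed R
  coR : ConicalSet R
  cov : S = R ∪ ⋃ i, C i
  CR : ∀ i, C i ∩ R ⊆ B i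
  CC : ∀ i j, i ≠ j → C i ∩ C j ⊆ B i

namespace Tiles

variable {S R A : Set E} {ι : Type*} {C B : ι → Set E}

/-- all pieces -/
def fam (R : Set E) (C : ι → Set E) : Option ι → Set E
  | none => R
  | some i => C i

theorem fam_closed (h : Tiles S R C B) : ∀ o, IsClosed (fam R C o)
  | none => h.clR
  | some i => (h.ball i).isClosed

theorem fam_union (h : Tiles S R C B) : (⋃ o, fam R C o) = S := by
  rw [h.cov]
  ext x
  constructor
  · intro hx
    obtain ⟨o, ho⟩ := mem_iUnion.1 hx
    cases o with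
    | none => exact Or.inl ho
    | some i => exact Or.inr (mem_iUnion.2 ⟨i, ho⟩)
  · rintro (hx | hx)
    · exact mem_iUnion.2 ⟨none, hx⟩
    · obtain ⟨i, hi⟩ := mem_iUnion.1 hx
      exact mem_iUnion.2 ⟨some i, hi⟩

/-- homeomorphisms of all pieces -/
noncomputable def famH (h : Tiles S R C B) (k : ∀ i, ConHomeo (C i) (C i)) :
    ∀ o, ConHomeo (fam R C o) (fam R C o)
  | none => ConHomeo.refl h.coR
  | some i => k i

theorem famH_id (h : Tiles S R C B) (k : ∀ i, ConHomeo (C i) (C i))
    (hk : ∀ i, ∀ x ∈ B i, (k i).toFun x = x) : ∀ o o' : Option ι, o ≠ o' →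
    ∀ x ∈ fam R C o ∩ fam R C o', (h.famH k o).toFun x = x
  | none, _, _, _, _ => rfl
  | some i, none, _, x, hx => hk i x (h.CR i hx)
  | some i, some j, hij, x, hx => hk i x (h.CC i j (fun he => hij (by rw [he])) hx)

/-- gluing -/
theorem exists_glue (h : Tiles S R C B) [Finite ι] (k : ∀ i, ConHomeo (C i) (C i))
    (hk : ∀ i, ∀ x ∈ B i, (k i).toFun x = x) :
    ∃ K : ConHomeo S S, (∀ i, EqOn K.toFun (k i).toFun (C i)) ∧ ∀ x ∈ R, K.toFun x = x := by
  obtain ⟨G, hG⟩ := ConHomeo.exists_glue_family (RelLF.of_finite h.fam_closed)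
    (RelLF.of_finite h.fam_closed) (h.famH k)
    (by
      intro o o' x hx
      by_cases ho : o = o'
      · subst ho; rfl
      · rw [h.famH_id k hk o o' ho x hx, h.famH_id k hk o' o (Ne.symm ho) x ⟨hx.2, hx.1⟩])
    (by
      intro o o' x hx
      by_cases ho : o = o'
      · subst ho
        rw [inter_self, (h.famH k o).image_eq]; exact hx.1
      · exact ⟨x, hx, h.famH_id k hk o o' ho x hx⟩)
  exact ⟨G.cast h.fam_union h.fam_union, fun i => (hG (some i)).1, fun x hx => (hG none).1 hx⟩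

/-- a homeomorphism supported in the tiles is isotopic to the identity -/
theorem isoE (h : Tiles S R C B) [Finite ι] {ε : ℝ} (hε : 0 ≤ ε)
    (hd : ∀ i, ∀ x ∈ C i, ∀ y ∈ C i, ‖x - y‖ ≤ ε) (hAS : A ⊆ S)
    (hA : ∀ i, ∀ x ∈ A, ∀ y ∈ A, x ∈ C i → y ∈ C i → x ∉ B i → y ∉ B i → x = y)
    {φ : ConHomeo S S} (hφR : ∀ x ∈ R, φ.toFun x = x) (hφB : ∀ i, ∀ x ∈ B i, φ.toFun x = x)
    (hφC : ∀ i, φ.toFun '' C i = C i) (hφA : ∀ x ∈ A, φ.toFun x = x) : IsoE S A ε φ := by
  have hCS : ∀ i, C i ⊆ S := fun i x hx => by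
    rw [h.cov]; exact Or.inr (mem_iUnion.2 ⟨i, hx⟩)
  let k : ∀ i, ConHomeo (C i) (C i) := fun i =>
    (φ.restr (h.ball i).conicalSet (hCS i)).cast rfl (hφC i)
  have hkf : ∀ i x, (k i).toFun x = φ.toFun x := fun i x => rfl
  have hkB : ∀ i, ∀ x ∈ B i, (k i).toFun x = x := fun i x hx => by rw [hkf]; exact hφB i x hx
  refine IsoE.glue (fam R C) h.fam_closed h.fam_union.symm (h.famH k) ?_ ?_ hAS
  · intro o
    cases o with
    | none => exact fun x hx => hφR x hx
    | some i => exact fun x _ => rfl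
  · intro o
    cases o with
    | none => exact (IsoE.refl h.coR _ hε)
    | some i =>
      have hsub : (A ∩ C i) ∪ ⋃ j ∈ {j | j ≠ some i}, C i ∩ fam R C j ⊆ (A ∩ C i) ∪ B i := by
        rintro x (hx | hx)
        · exact Or.inl hx
        · obtain ⟨o, ho, hx⟩ := mem_iUnion₂.1 hx
          cases o with
          | none => exact Or.inr (h.CR i hx)
          | some j => exact Or.inr (h.CC i j (fun he => ho (by rw [he])) hx)
      show IsoE (C i) ((A ∩ C i) ∪ ⋃ j ∈ {j | j ≠ some i}, C i ∩ fam R C j) ε (k i)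
      by_cases hc : ∃ c ∈ A ∩ C i, c ∉ B i
      · obtain ⟨c, hcA, hcB⟩ := hc
        refine isoE_disc_marked (h.ball i) (hkB i) hcA.2 hcB (hd i) _ ?_ ?_
        · intro x hx
          rcases hsub hx with h1 | h1
          · by_cases hxB : x ∈ B i
            · exact Or.inl hxB
            · exact Or.inr (hA i x h1.1 c hcA.1 h1.2 hcA.2 hxB hcB)
          · exact Or.inl h1
        · intro _
          exact hφA c hcA.1
      · obtain ⟨c, hcC, hcB⟩ := exists_mem_open (h.ball i)
        refine isoE_disc_marked (h.ball i) (hkB i) hcC hcB (hd i) _ ?_ ?_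
        · intro x hx
          rcases hsub hx with h1 | h1
          · left
            by_contra hxB
            exact hc ⟨x, h1, hxB⟩
          · exact Or.inl h1
        · intro h1
          exfalso
          rcases hsub h1 with h2 | h2
          · exact hc ⟨c, h2, hcB⟩
          · exact hcB h2

end Tiles

end P073.H399
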