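import Vale.Agent.P073.H399.Cross
import Vale.Agent.P073.H399.Tiles

/-!
# P073 / H399: grids in the square `[0,m]²`
-/

open Set Metric Topology Filter

namespace P073.H399

open P073 P073.H339

/-- a family of intervals in `[0,m]` with disjoint interiors -/
structure Iv (m : ℕ) {α : Type*} (l u : α → ℝ) : Prop where
  lt : ∀ a, l a < u a
  nn : ∀ a, 0 ≤ l a
  le : ∀ a, u a ≤ m
  len : ∀ a, u a - l a ≤ 1
  sep : ∀ a b, a ≠ b → ∀ x, l a ≤ x → x ≤ u a → l b ≤ x → x ≤ u b → x = l a ∨ x = u a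

theorem mem_rb {a b c d : ℝ} {p : ℝ × ℝ} :
    p ∈ rb a b c d ↔ p ∈ rc a b c d ∧ (p.1 = a ∨ p.1 = b ∨ p.2 = c ∨ p.2 = d) := Iff.rfl

theorem Iv.tiles {m : ℕ} {α β : Type*} {l u : α → ℝ} {l' u' : β → ℝ} (h : Iv m l u)
    (h' : Iv m l' u') {R : Set (ℝ × ℝ)} (hR : IsClosed R) (hRc : ConicalSet R)
    (hRS : R ⊆ rc 0 m 0 m)
    (hcov : ∀ p ∈ rc 0 (m:ℝ) 0 m, p ∈ R ∨ ∃ a b, p ∈ rc (l a) (u a) (l' b) (u' b))
    (hCR : ∀ a b, rc (l a) (u a) (l' b) (u' b) ∩ R ⊆ rb (l a) (u a) (l' b) (u' b)) :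
    Tiles (rc 0 m 0 m) R (fun ab : α × β => rc (l ab.1) (u ab.1) (l' ab.2) (u' ab.2))
      (fun ab : α × β => rb (l ab.1) (u ab.1) (l' ab.2) (u' ab.2)) := by
  refine ⟨fun ab => conBall_rc (h.lt _) (h'.lt _), hR, hRc, ?_, fun ab => hCR _ _, ?_⟩
  · ext p
    constructor
    · intro hp
      rcases hcov p hp with h1 | ⟨a, b, h1⟩
      · exact Or.inl h1
      · exact Or.inr (mem_iUnion.2 ⟨(a, b), h1⟩)
    · rintro (hp | hp)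
      · exact hRS hp
      · obtain ⟨⟨a, b⟩, ⟨h1, h2⟩, h3, h4⟩ := mem_iUnion.1 hp
        exact ⟨⟨(h.nn a).trans h1, h2.trans (h.le a)⟩, (h'.nn b).trans h3, h4.trans (h'.le b)⟩
  · rintro ⟨a, b⟩ ⟨a', b'⟩ hne p ⟨hp, hp'⟩
    refine ⟨hp, ?_⟩
    by_cases ha : a = a'
    · have hb : b ≠ b' := fun hb => hne (by rw [ha, hb])
      rcases h'.sep b b' hb p.2 hp.2.1 hp.2.2 hp'.2.1 hp'.2.2 with h1 | h1
      · exact Or.inr (Or.inr (Or.inl h1))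
      · exact Or.inr (Or.inr (Or.inr h1))
    · rcases h.sep a a' ha p.1 hp.1.1 hp.1.2 hp'.1.1 hp'.1.2 with h1 | h1
      · exact Or.inl h1
      · exact Or.inr (Or.inl h1)

theorem Iv.rb_sub {m : ℕ} {α β : Type*} {l u : α → ℝ} {l' u' : β → ℝ} (h : Iv m l u)
    (h' : Iv m l' u') {a : α} {b : β} {p : ℝ × ℝ} (hp : p ∈ rb 0 (m:ℝ) 0 m)
    (hp' : p ∈ rc (l a) (u a) (l' b) (u' b)) : p ∈ rb (l a) (u a) (l' b) (u' b) := by
  refine ⟨hp', ?_⟩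
  rcases hp.2 with h1 | h1 | h1 | h1
  · exact Or.inl (le_antisymm (h1.le.trans (h.nn a)) hp'.1.1)
  · exact Or.inr (Or.inl (le_antisymm hp'.1.2 ((h.le a).trans h1.ge)))
  · exact Or.inr (Or.inr (Or.inl (le_antisymm (h1.le.trans (h'.nn b)) hp'.2.1)))
  · exact Or.inr (Or.inr (Or.inr (le_antisymm hp'.2.2 ((h'.le b).trans h1.ge))))

theorem Iv.diam {m : ℕ} {α β : Type*} {l u : α → ℝ} {l' u' : β → ℝ} (h : Iv m l u)
    (h' : Iv m l' u') {a : α} {b : β} {p q : ℝ × ℝ} (hp : p ∈ rc (l a) (u a) (l' b) (u' b))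
    (hq : q ∈ rc (l a) (u a) (l' b) (u' b)) : ‖p - q‖ ≤ 1 := by
  have h1 := h.len a
  have h2 := h'.len b
  obtain ⟨⟨p1, p2⟩, p3, p4⟩ := hp
  obtain ⟨⟨q1, q2⟩, q3, q4⟩ := hq
  rw [Prod.norm_def, max_le_iff, Prod.fst_sub, Prod.snd_sub, Real.norm_eq_abs, Real.norm_eq_abs,
    abs_le, abs_le]
  exact ⟨⟨by linarith, by linarith⟩, by linarith, by linarith⟩

/-! the intervals -/

/-- lower end of a strip -/
noncomputable def sl (σ : ℝ) (i : ℕ) : ℝ := max 0 (i - σ)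

/-- upper end of a strip -/
noncomputable def su (m : ℕ) (σ : ℝ) (i : ℕ) : ℝ := min m (i + σ)

theorem iv_cell (m : ℕ) : Iv m (fun i : Fin m => ((i:ℕ):ℝ)) (fun i : Fin m => ((i:ℕ):ℝ) + 1) := by
  refine ⟨fun a => by linarith, fun a => Nat.cast_nonneg _, fun a => by exact_mod_cast a.2,
    fun a => by linarith, ?_⟩
  intro a b hab x h1 h2 h3 h4
  have hne : (a:ℕ) ≠ b := fun h => hab (Fin.ext h)
  rcases lt_or_gt_of_ne hne with h | h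
  · right
    have : ((a:ℕ):ℝ) + 1 ≤ (b:ℕ) := by exact_mod_cast h
    linarith
  · left
    have : ((b:ℕ):ℝ) + 1 ≤ (a:ℕ) := by exact_mod_cast h
    linarith

theorem iv_strip {m : ℕ} (hm : 1 ≤ m) {σ : ℝ} (hσ : 0 < σ) (hσ1 : σ ≤ 1 / 2) :
    Iv m (fun i : Fin (m + 1) => sl σ i) (fun i : Fin (m + 1) => su m σ i) := by
  have hm' : (1:ℝ) ≤ m := by exact_mod_cast hm
  have hi : ∀ i : Fin (m + 1), ((i:ℕ):ℝ) ≤ m := fun i => by exact_mod_cast Nat.lt_succ_iff.1 i.2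
  have h0 : ∀ i : Fin (m + 1), (0:ℝ) ≤ ((i:ℕ):ℝ) := fun i => Nat.cast_nonneg _
  refine ⟨fun a => ?_, fun a => le_max_left _ _, fun a => min_le_left _ _, fun a => ?_, ?_⟩
  · have := hi a
    have := h0 a
    exact max_lt (lt_min (by linarith) (by linarith)) (lt_min (by linarith) (by linarith))
  · have h1 : su m σ a ≤ a + σ := min_le_right _ _
    have h2 : (a:ℝ) - σ ≤ sl σ a := le_max_right _ _
    show su m σ a - sl σ a ≤ 1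
    linarith
  · intro a b hab x h1 h2 h3 h4
    have hne : (a:ℕ) ≠ b := fun h => hab (Fin.ext h)
    have e1 : su m σ a ≤ a + σ := min_le_right _ _
    have e2 : (a:ℝ) - σ ≤ sl σ a := le_max_right _ _
    have e3 : su m σ b ≤ b + σ := min_le_right _ _
    have e4 : (b:ℝ) - σ ≤ sl σ b := le_max_right _ _
    show x = sl σ a ∨ x = su m σ a
    rcases lt_or_gt_of_ne hne with h | h
    · right
      have : ((a:ℕ):ℝ) + 1 ≤ (b:ℕ) := by exact_mod_cast h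
      linarith
    · left
      have : ((b:ℕ):ℝ) + 1 ≤ (a:ℕ) := by exact_mod_cast h
      linarith

theorem cell_cases {m : ℕ} (hm : 1 ≤ m) {x : ℝ} (h0 : 0 ≤ x) (h1 : x ≤ m) :
    ∃ i : ℕ, i < m ∧ (i:ℝ) ≤ x ∧ x ≤ i + 1 := by
  by_cases h4 : x = m
  · refine ⟨m - 1, by omega, ?_, ?_⟩
    · rw [h4]; push_cast [Nat.cast_sub hm]; linarith
    · rw [h4]; push_cast [Nat.cast_sub hm]; linarith
  · have h5 : x < m := lt_of_le_of_ne h1 h4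
    exact ⟨⌊x⌋₊, (Nat.floor_lt h0).2 h5, Nat.floor_le h0, (Nat.lt_floor_add_one _).le⟩

theorem strip_cases {m : ℕ} (hm : 1 ≤ m) (σ : ℝ) {x : ℝ} (h0 : 0 ≤ x) (h1 : x ≤ m) :
    (∃ i : ℕ, i ≤ m ∧ sl σ i ≤ x ∧ x ≤ su m σ i) ∨
      ∃ i : ℕ, i < m ∧ (i:ℝ) + σ ≤ x ∧ x ≤ i + 1 - σ := by
  obtain ⟨i, hi, h2, h3⟩ := cell_cases hm h0 h1
  rcases le_total x (i + σ) with h | h
  · by_cases h5 : (i:ℝ) - σ ≤ x
    · exact Or.inl ⟨i, hi.le, max_le h0 h5, le_min h1 h⟩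
    · exfalso
      push Not at h5
      linarith
  · rcases le_total x (i + 1 - σ) with h' | h'
    · exact Or.inr ⟨i, hi, h, h'⟩
    · by_cases h5 : x ≤ (i:ℝ) + 1 + σ
      · refine Or.inl ⟨i + 1, hi, max_le h0 ?_, le_min h1 ?_⟩
        · push_cast; linarith
        · push_cast; linarith
      · exfalso
        push Not at h5
        linarith

theorem tiles_cell {m : ℕ} (hm : 1 ≤ m) :
    Tiles (rc 0 m 0 m) ∅ (fun ab : Fin m × Fin m => rc ((ab.1:ℕ):ℝ) (((ab.1:ℕ):ℝ) + 1)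
      ((ab.2:ℕ):ℝ) (((ab.2:ℕ):ℝ) + 1)) (fun ab : Fin m × Fin m => rb ((ab.1:ℕ):ℝ)
        (((ab.1:ℕ):ℝ) + 1) ((ab.2:ℕ):ℝ) (((ab.2:ℕ):ℝ) + 1)) := by
  refine Iv.tiles (iv_cell m) (iv_cell m) isClosed_empty (fun x hx => absurd hx (notMem_empty x))
    (empty_subset _) ?_ ?_
  · rintro p ⟨⟨h1, h2⟩, h3, h4⟩
    obtain ⟨i, hi, k1, k2⟩ := cell_cases hm h1 h2
    obtain ⟨j, hj, k3, k4⟩ := cell_cases hm h3 h4
    exact Or.inr ⟨⟨i, hi⟩, ⟨j, hj⟩, ⟨k1, k2⟩, k3, k4⟩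
  · intro a b p hp
    exact absurd hp.2 (notMem_empty p)

theorem tiles_dual {m : ℕ} (hm : 1 ≤ m) :
    Tiles (rc 0 m 0 m) ∅ (fun ab : Fin (m + 1) × Fin (m + 1) => rc (sl (1 / 2) ab.1)
      (su m (1 / 2) ab.1) (sl (1 / 2) ab.2) (su m (1 / 2) ab.2))
      (fun ab : Fin (m + 1) × Fin (m + 1) => rb (sl (1 / 2) ab.1)
      (su m (1 / 2) ab.1) (sl (1 / 2) ab.2) (su m (1 / 2) ab.2)) := by
  have hs := iv_strip hm (σ := 1 / 2) (by norm_num) (le_refl _)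
  have key : ∀ {x : ℝ}, 0 ≤ x → x ≤ m → ∃ i : Fin (m + 1), sl (1 / 2) i ≤ x ∧ x ≤ su m (1 / 2) i := by
    intro x h1 h2
    rcases strip_cases hm (1 / 2) h1 h2 with ⟨i, hi, k⟩ | ⟨i, hi, k, k'⟩
    · exact ⟨⟨i, Nat.lt_succ_of_le hi⟩, k⟩
    · refine ⟨⟨i, by omega⟩, max_le h1 (by simp only; linarith), le_min h2 (by simp only; linarith)⟩
  refine Iv.tiles hs hs isClosed_empty (fun x hx => absurd hx (notMem_empty x))
    (empty_subset _) ?_ ?_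
  · rintro p ⟨⟨h1, h2⟩, h3, h4⟩
    obtain ⟨i, k1⟩ := key h1 h2
    obtain ⟨j, k2⟩ := key h3 h4
    exact Or.inr ⟨i, j, k1, k2⟩
  · intro a b p hp
    exact absurd hp.2 (notMem_empty p)

/-- columns -/
def cols (m : ℕ) (σ : ℝ) : Set (ℝ × ℝ) :=
  ⋃ i : Fin m, rc (((i:ℕ):ℝ) + σ) (((i:ℕ):ℝ) + 1 - σ) 0 m

theorem mem_cols {m : ℕ} {σ : ℝ} {p : ℝ × ℝ} :
    p ∈ cols m σ ↔ (∃ i : ℕ, i < m ∧ (i:ℝ) + σ ≤ p.1 ∧ p.1 ≤ i + 1 - σ) ∧ 0 ≤ p.2 ∧ p.2 ≤ m := by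
  constructor
  · intro hp
    obtain ⟨i, h1, h2⟩ := mem_iUnion.1 hp
    exact ⟨⟨i, i.2, h1⟩, h2⟩
  · rintro ⟨⟨i, hi, h1⟩, h2⟩
    exact mem_iUnion.2 ⟨⟨i, hi⟩, h1, h2⟩

theorem tiles_strip {m : ℕ} (hm : 1 ≤ m) {σ : ℝ} (hσ : 0 < σ) (hσ1 : σ < 1 / 2) :
    Tiles (rc 0 m 0 m) (cols m σ) (fun ab : Fin (m + 1) × Fin m => rc (sl σ ab.1)
      (su m σ ab.1) ((ab.2:ℕ):ℝ) (((ab.2:ℕ):ℝ) + 1))
      (fun ab : Fin (m + 1) × Fin m => rb (sl σ ab.1)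
      (su m σ ab.1) ((ab.2:ℕ):ℝ) (((ab.2:ℕ):ℝ) + 1)) := by
  refine Iv.tiles (iv_strip hm hσ hσ1.le) (iv_cell m) ?_ ?_ ?_ ?_ ?_
  · exact isClosed_iUnion_of_finite fun i => isClosed_rc _ _ _ _
  · refine (ConicalOn.iUnion_finite (h := fun x : ℝ × ℝ => x)
      (fun i => conicalOn_id (conicalSet_rc _ _ _ _)) ?_).conicalSet
    intro i x _ hx
    exact (isClosed_rc _ _ _ _).closure_subset hx
  · intro p hp
    obtain ⟨⟨i, hi, h1, h2⟩, h3⟩ := mem_cols.1 hp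
    have h4 : (i:ℝ) + 1 ≤ m := by exact_mod_cast hi
    have h5 : (0:ℝ) ≤ i := Nat.cast_nonneg i
    exact ⟨⟨by linarith, by linarith⟩, h3⟩
  · rintro p ⟨⟨h1, h2⟩, h3⟩
    rcases strip_cases hm σ h1 h2 with ⟨i, hi, k⟩ | h
    · obtain ⟨j, hj, k3⟩ := cell_cases hm h3.1 h3.2
      exact Or.inr ⟨⟨i, Nat.lt_succ_of_le hi⟩, ⟨j, hj⟩, k, k3⟩
    · exact Or.inl (mem_cols.2 ⟨h, h3⟩)
  · rintro a b p ⟨hp, hp'⟩
    obtain ⟨⟨i, hi, h1, h2⟩, h3⟩ := mem_cols.1 hp'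
    refine ⟨hp, ?_⟩
    obtain ⟨⟨k1, k2⟩, k3⟩ := hp
    have e1 : su m σ a ≤ a + σ := min_le_right _ _
    have e2 : (a:ℝ) - σ ≤ sl σ a := le_max_right _ _
    rcases le_or_gt (a:ℕ) i with h | h
    · have : ((a:ℕ):ℝ) ≤ i := by exact_mod_cast h
      right; left
      linarith
    · have : (i:ℝ) + 1 ≤ (a:ℕ) := by exact_mod_cast h
      left
      linarith

end P073.H399
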