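import Vale.Agent.P073.H399.Base

/-!
# P073 / H399: ladders in the plane
-/

open Set Metric Topology Filter

namespace P073.H399

open P073 P073.H339

/-- the ladder with `n` squares -/
def Lad (n : ℕ) : Set (ℝ × ℝ) := {p | p ∈ rc 0 n 0 1 ∧ (p.2 = 0 ∨ p.2 = 1 ∨ ∃ j ≤ n, p.1 = (j : ℕ))}

/-- the `j`-th square -/
def Sq (j : ℕ) : Set (ℝ × ℝ) := rc j (j + 1) 0 1

/-- and its boundary -/
def dSq (j : ℕ) : Set (ℝ × ℝ) := rb j (j + 1) 0 1

/-- three sides of a rectangle -/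
def LU (a b : ℝ) : Set (ℝ × ℝ) := {p | p ∈ rc a b 0 1 ∧ (p.2 = 0 ∨ p.2 = 1 ∨ p.1 = a)}

def RU (a b : ℝ) : Set (ℝ × ℝ) := {p | p ∈ rc a b 0 1 ∧ (p.2 = 0 ∨ p.2 = 1 ∨ p.1 = b)}

/-- a rung -/
def vs (c : ℝ) : Set (ℝ × ℝ) := {p | p.1 = c ∧ 0 ≤ p.2 ∧ p.2 ≤ 1}

theorem vs_eq (c : ℝ) : vs c = segment ℝ ((c, 0) : ℝ × ℝ) (c, 1) := by
  ext ⟨x, y⟩
  rw [mem_vseg zero_le_one]
  rfl

theorem isArc_vs (c : ℝ) : IsArc (vs c) ((c, 0) : ℝ × ℝ) (c, 1) := by
  rw [vs_eq]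
  exact isArc_segment (by simp)

theorem isArc_LU {a b : ℝ} (hab : a < b) : IsArc (LU a b) ((b, 0) : ℝ × ℝ) (b, 1) := by
  have e : LU a b = (segment ℝ ((a, 0) : ℝ × ℝ) (b, 0) ∪ segment ℝ ((a, 0) : ℝ × ℝ) (a, 1)) ∪
      segment ℝ ((a, 1) : ℝ × ℝ) (b, 1) := by
    ext ⟨x, y⟩
    simp only [mem_union]
    rw [mem_hseg hab.le, mem_vseg zero_le_one, mem_hseg hab.le]
    constructor
    · rintro ⟨⟨⟨h1, h2⟩, h3, h4⟩, h5 | h5 | h5⟩
      · exact Or.inl (Or.inl ⟨h1, h2, h5⟩)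
      · exact Or.inr ⟨h1, h2, h5⟩
      · exact Or.inl (Or.inr ⟨h5, h3, h4⟩)
    · rintro ((⟨h1, h2, h3⟩ | ⟨h1, h2, h3⟩) | ⟨h1, h2, h3⟩)
      · exact ⟨⟨⟨h1, h2⟩, by simp only; rw [h3], by simp only; rw [h3]; exact zero_le_one⟩,
          Or.inl h3⟩
      · exact ⟨⟨⟨by simp only; rw [h1], by simp only; rw [h1]; exact hab.le⟩, h2, h3⟩,
          Or.inr (Or.inr h1)⟩
      · exact ⟨⟨⟨h1, h2⟩, by simp only; rw [h3]; exact zero_le_one, by simp only; rw [h3]⟩,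
          Or.inr (Or.inl h3)⟩
  rw [e]
  refine IsArc.trans (q := (a, 1)) (IsArc.trans (q := (a, 0)) ?_ ?_ ?_) ?_ ?_
  · exact (isArc_segment (by simp [hab.ne])).symm
  · exact isArc_segment (by simp)
  · rintro ⟨x, y⟩ ⟨h1, h2⟩
    rw [mem_hseg hab.le] at h1
    rw [mem_vseg zero_le_one] at h2
    rw [mem_singleton_iff, h1.2.2, h2.1]
  · exact isArc_segment (by simp [hab.ne])
  · rintro ⟨x, y⟩ ⟨h1 | h1, h2⟩
    · rw [mem_hseg hab.le] at h1 h2
      have := h1.2.2.symm.trans h2.2.2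
      norm_num at this
    · rw [mem_vseg zero_le_one] at h1
      rw [mem_hseg hab.le] at h2
      rw [mem_singleton_iff, h1.1, h2.2.2]

theorem isArc_RU {a b : ℝ} (hab : a < b) : IsArc (RU a b) ((a, 0) : ℝ × ℝ) (a, 1) := by
  have e : RU a b = (segment ℝ ((a, 0) : ℝ × ℝ) (b, 0) ∪ segment ℝ ((b, 0) : ℝ × ℝ) (b, 1)) ∪
      segment ℝ ((a, 1) : ℝ × ℝ) (b, 1) := by
    ext ⟨x, y⟩
    simp only [mem_union]
    rw [mem_hseg hab.le, mem_vseg zero_le_one, mem_hseg hab.le]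
    constructor
    · rintro ⟨⟨⟨h1, h2⟩, h3, h4⟩, h5 | h5 | h5⟩
      · exact Or.inl (Or.inl ⟨h1, h2, h5⟩)
      · exact Or.inr ⟨h1, h2, h5⟩
      · exact Or.inl (Or.inr ⟨h5, h3, h4⟩)
    · rintro ((⟨h1, h2, h3⟩ | ⟨h1, h2, h3⟩) | ⟨h1, h2, h3⟩)
      · exact ⟨⟨⟨h1, h2⟩, by simp only; rw [h3], by simp only; rw [h3]; exact zero_le_one⟩,
          Or.inl h3⟩
      · exact ⟨⟨⟨by simp only; rw [h1]; exact hab.le, by simp only; rw [h1]⟩, h2, h3⟩,
          Or.inr (Or.inr h1)⟩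
      · exact ⟨⟨⟨h1, h2⟩, by simp only; rw [h3]; exact zero_le_one, by simp only; rw [h3]⟩,
          Or.inr (Or.inl h3)⟩
  rw [e]
  refine IsArc.trans (q := (b, 1)) (IsArc.trans (q := (b, 0)) ?_ ?_ ?_) ?_ ?_
  · exact isArc_segment (by simp [hab.ne])
  · exact isArc_segment (by simp)
  · rintro ⟨x, y⟩ ⟨h1, h2⟩
    rw [mem_hseg hab.le] at h1
    rw [mem_vseg zero_le_one] at h2
    rw [mem_singleton_iff, h1.2.2, h2.1]
  · exact (isArc_segment (by simp [hab.ne])).symm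
  · rintro ⟨x, y⟩ ⟨h1 | h1, h2⟩
    · rw [mem_hseg hab.le] at h1 h2
      have := h1.2.2.symm.trans h2.2.2
      norm_num at this
    · rw [mem_vseg zero_le_one] at h1
      rw [mem_hseg hab.le] at h2
      rw [mem_singleton_iff, h1.1, h2.2.2]

theorem conicalSet_rb {a b : ℝ} (hab : a < b) : ConicalSet (rb a b 0 1) :=
  (conBall_rc hab zero_lt_one).conicalSet_bdry

theorem rb_eq {a b : ℝ} : rb a b 0 1 = LU a b ∪ RU a b := by
  ext p
  constructor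
  · rintro ⟨h1, h2 | h2 | h2 | h2⟩
    · exact Or.inl ⟨h1, Or.inr (Or.inr h2)⟩
    · exact Or.inr ⟨h1, Or.inr (Or.inr h2)⟩
    · exact Or.inl ⟨h1, Or.inl h2⟩
    · exact Or.inl ⟨h1, Or.inr (Or.inl h2)⟩
  · rintro (⟨h1, h2 | h2 | h2⟩ | ⟨h1, h2 | h2 | h2⟩)
    · exact ⟨h1, Or.inr (Or.inr (Or.inl h2))⟩
    · exact ⟨h1, Or.inr (Or.inr (Or.inr h2))⟩
    · exact ⟨h1, Or.inl h2⟩
    · exact ⟨h1, Or.inr (Or.inr (Or.inl h2))⟩
    · exact ⟨h1, Or.inr (Or.inr (Or.inr h2))⟩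
    · exact ⟨h1, Or.inr (Or.inl h2)⟩

theorem Lad_mono {m n : ℕ} (h : m ≤ n) : Lad m ⊆ Lad n := by
  rintro p ⟨⟨⟨h1, h2⟩, h3⟩, h4⟩
  have : (m : ℝ) ≤ n := by exact_mod_cast h
  refine ⟨⟨⟨h1, h2.trans this⟩, h3⟩, ?_⟩
  rcases h4 with h4 | h4 | ⟨j, hj, h4⟩
  · exact Or.inl h4
  · exact Or.inr (Or.inl h4)
  · exact Or.inr (Or.inr ⟨j, hj.trans h, h4⟩)

theorem rb_subset_Lad (n : ℕ) : rb 0 n 0 1 ⊆ Lad n := by
  rintro p ⟨h1, h2 | h2 | h2 | h2⟩
  · exact ⟨h1, Or.inr (Or.inr ⟨0, Nat.zero_le _, by rw [h2]; simp⟩)⟩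
  · exact ⟨h1, Or.inr (Or.inr ⟨n, le_refl _, h2⟩)⟩
  · exact ⟨h1, Or.inl h2⟩
  · exact ⟨h1, Or.inr (Or.inl h2)⟩

theorem dSq_subset_Lad {j n : ℕ} (h : j < n) : dSq j ⊆ Lad n := by
  have h' : (j : ℝ) + 1 ≤ n := by exact_mod_cast h
  have h0 : (0 : ℝ) ≤ j := Nat.cast_nonneg j
  rintro p ⟨⟨⟨h1, h1'⟩, h3⟩, h2⟩
  refine ⟨⟨⟨h0.trans h1, h1'.trans h'⟩, h3⟩, ?_⟩
  rcases h2 with h2 | h2 | h2 | h2
  · exact Or.inr (Or.inr ⟨j, h.le, h2⟩)
  · exact Or.inr (Or.inr ⟨j + 1, h, by rw [h2]; push_cast; rfl⟩)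
  · exact Or.inl h2
  · exact Or.inr (Or.inl h2)

theorem vs_subset_Lad {j n : ℕ} (h : j ≤ n) : vs j ⊆ Lad n := by
  have h' : (j : ℝ) ≤ n := by exact_mod_cast h
  have h0 : (0 : ℝ) ≤ j := Nat.cast_nonneg j
  rintro p ⟨h1, h2⟩
  exact ⟨⟨⟨by rw [h1]; exact h0, by rw [h1]; exact h'⟩, h2⟩, Or.inr (Or.inr ⟨j, h, h1⟩)⟩

theorem isPreconnected_vs (c : ℝ) : IsPreconnected (vs c) := (isArc_vs c).isConnected.isPreconnected

theorem Lad_one : Lad 1 = rb 0 1 0 1 := by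
  ext p
  constructor
  · rintro ⟨h1, h2⟩
    have h1' : p ∈ rc 0 1 0 1 := by simpa using h1
    refine ⟨h1', ?_⟩
    rcases h2 with h2 | h2 | ⟨j, hj, h2⟩
    · exact Or.inr (Or.inr (Or.inl h2))
    · exact Or.inr (Or.inr (Or.inr h2))
    · interval_cases j
      · exact Or.inl (by simpa using h2)
      · exact Or.inr (Or.inl (by simpa using h2))
  · intro h
    have := rb_subset_Lad 1
    simp only [Nat.cast_one] at this
    exact this h

/-- the ladder is a finite union of segments -/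
theorem Lad_eq (n : ℕ) : Lad n = rc 0 n 0 0 ∪ rc 0 n 1 1 ∪ ⋃ j : Fin (n + 1), rc (j : ℕ) (j : ℕ) 0 1 := by
  ext p
  constructor
  · rintro ⟨⟨h1, h3⟩, h2 | h2 | ⟨j, hj, h2⟩⟩
    · exact Or.inl (Or.inl ⟨h1, by rw [h2]; exact ⟨le_refl _, le_refl _⟩⟩)
    · exact Or.inl (Or.inr ⟨h1, by rw [h2]; exact ⟨le_refl _, le_refl _⟩⟩)
    · refine Or.inr (mem_iUnion.2 ⟨⟨j, Nat.lt_succ_of_le hj⟩, ?_⟩)
      exact ⟨by rw [h2]; exact ⟨le_refl _, le_refl _⟩, h3⟩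
  · rintro ((⟨h1, h3, h4⟩ | ⟨h1, h3, h4⟩) | h)
    · exact ⟨⟨h1, h3, h4.trans zero_le_one⟩, Or.inl (le_antisymm h4 h3)⟩
    · exact ⟨⟨h1, zero_le_one.trans h3, h4⟩, Or.inr (Or.inl (le_antisymm h4 h3))⟩
    · obtain ⟨j, ⟨h1, h1'⟩, h3⟩ := mem_iUnion.1 h
      have hj : ((j : ℕ) : ℝ) ≤ n := by exact_mod_cast Nat.lt_succ_iff.1 j.2
      exact ⟨⟨⟨(Nat.cast_nonneg _).trans h1, h1'.trans hj⟩, h3⟩,
        Or.inr (Or.inr ⟨j, Nat.lt_succ_iff.1 j.2, le_antisymm h1' h1⟩)⟩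

theorem isClosed_Lad (n : ℕ) : IsClosed (Lad n) := by
  rw [Lad_eq]
  exact ((isClosed_rc _ _ _ _).union (isClosed_rc _ _ _ _)).union
    (isClosed_iUnion_of_finite fun j => isClosed_rc _ _ _ _)

/-- conicality on the ladder, piece by piece -/
theorem conicalOn_Lad {F : Type*} [NormedAddCommGroup F] [NormedSpace ℝ F] {h : ℝ × ℝ → F} (n : ℕ)
    (h1 : ConicalOn h (rc 0 n 0 0)) (h2 : ConicalOn h (rc 0 n 1 1))
    (h3 : ∀ j ≤ n, ConicalOn h (rc (j : ℕ) (j : ℕ) 0 1)) : ConicalOn h (Lad n) := by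
  rw [Lad_eq]
  refine ConicalOn.union (ConicalOn.union h1 h2 ?_ ?_) (ConicalOn.iUnion_finite
    (fun j => h3 j (Nat.lt_succ_iff.1 j.2)) ?_) ?_ ?_
  · intro x _ hx; exact (isClosed_rc _ _ _ _).closure_subset hx
  · intro x _ hx; exact (isClosed_rc _ _ _ _).closure_subset hx
  · intro j x _ hx; exact (isClosed_rc _ _ _ _).closure_subset hx
  · intro x _ hx
    exact ((isClosed_rc _ _ _ _).union (isClosed_rc _ _ _ _)).closure_subset hx
  · intro x _ hx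
    exact (isClosed_iUnion_of_finite fun j : Fin (n + 1) => isClosed_rc _ _ _ _).closure_subset hx

theorem conicalSet_Lad (n : ℕ) : ConicalSet (Lad n) :=
  (conicalOn_Lad (h := fun x => x) n (conicalOn_id (conicalSet_rc _ _ _ _))
    (conicalOn_id (conicalSet_rc _ _ _ _)) fun _ _ => conicalOn_id (conicalSet_rc _ _ _ _)).conicalSet

/-- **Ladder lemma.**  A ladder in the plane whose rungs are inside the disc bounded by its outer
circle extends to the rectangle, square by square. -/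
theorem ladder (n : ℕ) (hn : 1 ≤ n) : ∀ {Y D : Set (ℝ × ℝ)} (g : ConHomeo (Lad n) Y),
    H339.AmbDisc D (g.toFun '' rb 0 n 0 1) → g.toFun '' Lad n ⊆ D →
    ∃ G : ConHomeo (rc 0 n 0 1) D, EqOn G.toFun g.toFun (Lad n) ∧
      ∀ j < n, H339.AmbDisc (G.toFun '' Sq j) (g.toFun '' dSq j) := by
  induction n, hn using Nat.le_induction with
  | base =>
    intro Y D g hD hsub
    have h01 := conBall_rc (a := 0) (b := 1) (c := 0) (d := 1) zero_lt_one zero_lt_one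
    have hD' : H339.AmbDisc D (g.toFun '' rb 0 1 0 1) := by simpa only [Nat.cast_one] using hD
    obtain ⟨G, hG, -⟩ := h01.exists_extend hD'.conBall
      (g.restr (conicalSet_rb zero_lt_one) (by rw [Lad_one]))
    refine ⟨G.cast (by rw [Nat.cast_one]) rfl, ?_, fun j hj => ?_⟩
    · intro x hx
      exact hG (Lad_one ▸ hx)
    have hj0 : j = 0 := by omega
    subst hj0
    have e1 : Sq 0 = rc 0 1 0 1 := by unfold Sq; simp
    have e2 : dSq 0 = rb 0 1 0 1 := by unfold dSq; simp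
    rw [ConHomeo.cast_toFun, e1, e2, G.image_eq]; exact hD'
  | succ n hn ih =>
    intro Y D g hD hsub
    have hn0 : (0:ℝ) < n := by exact_mod_cast hn
    have hn1 : (n:ℝ) < n + 1 := by linarith
    have hn01 : (0:ℝ) < n + 1 := by linarith
    have hcast : ((n + 1 : ℕ) : ℝ) = n + 1 := by push_cast; rfl
    rw [hcast] at hD ⊢
    -- sets
    have sLU : LU 0 n ⊆ Lad (n + 1) := by
      rintro p ⟨h1, h2⟩
      refine Lad_mono (Nat.le_succ n) ⟨h1, ?_⟩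
      rcases h2 with h2 | h2 | h2
      · exact Or.inl h2
      · exact Or.inr (Or.inl h2)
      · exact Or.inr (Or.inr ⟨0, Nat.zero_le _, by rw [h2]; simp⟩)
    have sRU : RU n (n + 1) ⊆ Lad (n + 1) := by
      rintro p ⟨⟨⟨h1, h1'⟩, h3⟩, h2⟩
      refine ⟨⟨⟨hn0.le.trans h1, by rw [hcast]; exact h1'⟩, h3⟩, ?_⟩
      rcases h2 with h2 | h2 | h2
      · exact Or.inl h2
      · exact Or.inr (Or.inl h2)
      · exact Or.inr (Or.inr ⟨n + 1, le_refl _, by rw [h2, hcast]⟩)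
    have svs : vs n ⊆ Lad (n + 1) := vs_subset_Lad (Nat.le_succ n)
    have hO : rb 0 (n + 1) 0 1 = LU 0 n ∪ RU n (n + 1) := by
      ext p
      constructor
      · rintro ⟨⟨⟨h1, h1'⟩, h3⟩, h2⟩
        rcases le_total p.1 n with h4 | h4
        · rcases h2 with h2 | h2 | h2 | h2
          · exact Or.inl ⟨⟨⟨h1, h4⟩, h3⟩, Or.inr (Or.inr h2)⟩
          · rw [h2] at h4; linarith
          · exact Or.inl ⟨⟨⟨h1, h4⟩, h3⟩, Or.inl h2⟩
          · exact Or.inl ⟨⟨⟨h1, h4⟩, h3⟩, Or.inr (Or.inl h2)⟩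
        · rcases h2 with h2 | h2 | h2 | h2
          · rw [h2] at h4; linarith
          · exact Or.inr ⟨⟨⟨h4, h1'⟩, h3⟩, Or.inr (Or.inr h2)⟩
          · exact Or.inr ⟨⟨⟨h4, h1'⟩, h3⟩, Or.inl h2⟩
          · exact Or.inr ⟨⟨⟨h4, h1'⟩, h3⟩, Or.inr (Or.inl h2)⟩
      · rintro (⟨⟨⟨h1, h1'⟩, h3⟩, h2⟩ | ⟨⟨⟨h1, h1'⟩, h3⟩, h2⟩)
        · refine ⟨⟨⟨h1, by linarith⟩, h3⟩, ?_⟩
          rcases h2 with h2 | h2 | h2
          · exact Or.inr (Or.inr (Or.inl h2))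
          · exact Or.inr (Or.inr (Or.inr h2))
          · exact Or.inl h2
        · refine ⟨⟨⟨by linarith, h1'⟩, h3⟩, ?_⟩
          rcases h2 with h2 | h2 | h2
          · exact Or.inr (Or.inr (Or.inl h2))
          · exact Or.inr (Or.inr (Or.inr h2))
          · exact Or.inr (Or.inl h2)
    have i1 : LU 0 n ∩ RU n (n + 1) ⊆ {((n:ℝ), (0:ℝ)), ((n:ℝ), (1:ℝ))} := by
      rintro ⟨x, y⟩ ⟨⟨⟨⟨h1, h1'⟩, h3⟩, h2⟩, ⟨⟨⟨h4, h4'⟩, h6⟩, h5⟩⟩
      simp only at h1 h1' h4 h4' h2 h5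
      have hx : x = n := le_antisymm h1' h4
      rw [hx] at h2
      rcases h2 with h2 | h2 | h2
      · left; rw [hx, h2]
      · right; rw [hx, h2]; rfl
      · exact absurd h2 hn0.ne'
    have i2 : vs n ∩ LU 0 n ⊆ {((n:ℝ), (0:ℝ)), ((n:ℝ), (1:ℝ))} := by
      rintro ⟨x, y⟩ ⟨⟨h1, h1'⟩, ⟨-, h2⟩⟩
      simp only at h1 h2
      rw [h1] at h2
      rcases h2 with h2 | h2 | h2
      · left; rw [h1, h2]
      · right; rw [h1, h2]; rfl
      · exact absurd h2 hn0.ne'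
    have i3 : vs n ∩ RU n (n + 1) ⊆ {((n:ℝ), (0:ℝ)), ((n:ℝ), (1:ℝ))} := by
      rintro ⟨x, y⟩ ⟨⟨h1, h1'⟩, ⟨-, h2⟩⟩
      simp only at h1 h2
      rw [h1] at h2
      rcases h2 with h2 | h2 | h2
      · left; rw [h1, h2]
      · right; rw [h1, h2]; rfl
      · exact absurd h2 (by linarith)
    have img_inter : ∀ {A B : Set (ℝ × ℝ)}, A ⊆ Lad (n + 1) → B ⊆ Lad (n + 1) →
        A ∩ B ⊆ {((n:ℝ), (0:ℝ)), ((n:ℝ), (1:ℝ))} →
        g.toFun '' A ∩ g.toFun '' B ⊆ {g.toFun (n, 0), g.toFun (n, 1)} := by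
      rintro A B hA hB hAB _ ⟨⟨x, hx, rfl⟩, ⟨x', hx', he⟩⟩
      have : x' = x := g.injOn (hB hx') (hA hx) he
      subst this
      rcases hAB ⟨hx, hx'⟩ with h | h
      · left; rw [h]
      · right; rw [mem_singleton_iff.1 h]; rfl
    rw [hO, image_union] at hD
    obtain ⟨D₁, D₂, hD₁, hD₂, hDD, hDi, c1, c2⟩ := H339.sch.crosscut hD
      ((isArc_LU hn0).image g sLU) ((isArc_RU hn1).image g sRU) ((isArc_vs n).image g svs)
      (img_inter sLU sRU i1) ((image_mono svs).trans hsub) (img_inter svs sLU i2)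
      (img_inter svs sRU i3)
    -- the left part
    have eL : LU 0 n ∪ vs n = rb 0 n 0 1 := by
      ext p
      constructor
      · rintro (⟨h1, h2⟩ | ⟨h1, h2⟩)
        · refine ⟨h1, ?_⟩
          rcases h2 with h2 | h2 | h2
          · exact Or.inr (Or.inr (Or.inl h2))
          · exact Or.inr (Or.inr (Or.inr h2))
          · exact Or.inl h2
        · exact ⟨⟨⟨by rw [h1]; exact hn0.le, by rw [h1]⟩, h2⟩, Or.inr (Or.inl h1)⟩
      · rintro ⟨h1, h2 | h2 | h2 | h2⟩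
        · exact Or.inl ⟨h1, Or.inr (Or.inr h2)⟩
        · exact Or.inr ⟨h2, h1.2⟩
        · exact Or.inl ⟨h1, Or.inl h2⟩
        · exact Or.inl ⟨h1, Or.inr (Or.inl h2)⟩
    have eR : RU n (n + 1) ∪ vs n = rb n (n + 1) 0 1 := by
      ext p
      constructor
      · rintro (⟨h1, h2⟩ | ⟨h1, h2⟩)
        · refine ⟨h1, ?_⟩
          rcases h2 with h2 | h2 | h2
          · exact Or.inr (Or.inr (Or.inl h2))
          · exact Or.inr (Or.inr (Or.inr h2))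
          · exact Or.inr (Or.inl h2)
        · exact ⟨⟨⟨by rw [h1], by rw [h1]; exact hn1.le⟩, h2⟩, Or.inl h1⟩
      · rintro ⟨h1, h2 | h2 | h2 | h2⟩
        · exact Or.inr ⟨h2, h1.2⟩
        · exact Or.inl ⟨h1, Or.inr (Or.inr h2)⟩
        · exact Or.inl ⟨h1, Or.inl h2⟩
        · exact Or.inl ⟨h1, Or.inr (Or.inl h2)⟩
    rw [← image_union, eL] at hD₁
    rw [← image_union, eR] at hD₂
    have hcL : ConicalSet (Lad n) := conicalSet_Lad n
    have hsub1 : g.toFun '' Lad n ⊆ D₁ := by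
      rintro _ ⟨p, ⟨h1, h2⟩, rfl⟩
      have hb : ∀ q ∈ rb 0 n 0 1, g.toFun q ∈ D₁ := fun q hq =>
        hD₁.jdisc.bdry_subset (mem_image_of_mem _ hq)
      rcases h2 with h2 | h2 | ⟨j, hj, h2⟩
      · exact hb p ⟨h1, Or.inr (Or.inr (Or.inl h2))⟩
      · exact hb p ⟨h1, Or.inr (Or.inr (Or.inr h2))⟩
      · rcases hj.lt_or_eq with hj' | hj'
        · -- inner rung
          have hjn : (j:ℝ) < n := by exact_mod_cast hj'
          have hj0 : (0:ℝ) ≤ j := Nat.cast_nonneg j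
          have hvj : vs j ⊆ Lad (n + 1) := vs_subset_Lad (by omega)
          have hdis : Disjoint (g.toFun '' vs j) (g.toFun '' rb n (n + 1) 0 1) := by
            rw [disjoint_left]
            rintro _ ⟨x, hx, rfl⟩ ⟨x', hx', he⟩
            have : x' = x := g.injOn (dSq_subset_Lad (Nat.lt_succ_self n) hx') (hvj hx) he
            subst this
            have h3 := hx'.1.1.1
            rw [hx.1] at h3
            linarith
          have hpre : IsPreconnected (g.toFun '' vs j) :=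
            (isPreconnected_vs j).image _ (g.cont.mono hvj)
          have hnot : Disjoint (g.toFun '' vs j) D₂ := by
            rcases hD₂.jdisc.in_or_out hpre hdis with h3 | h3
            · exfalso
              have hm : ((j:ℝ), (0:ℝ)) ∈ LU 0 n := ⟨⟨⟨hj0, hjn.le⟩, le_refl _, zero_le_one⟩, Or.inl rfl⟩
              have hm' : ((j:ℝ), (0:ℝ)) ∈ vs j := ⟨rfl, le_refl _, zero_le_one⟩
              have h4 := c2 ⟨mem_image_of_mem _ hm, interior_subset (h3 (mem_image_of_mem _ hm'))⟩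
              rcases h4 with h4 | h4
              · have := g.injOn (sLU hm) (svs ⟨rfl, le_refl _, zero_le_one⟩) h4
                have h5 := congrArg Prod.fst this
                simp only at h5
                linarith
              · have := g.injOn (sLU hm) (svs ⟨rfl, zero_le_one, le_refl _⟩) h4
                have h5 := congrArg Prod.fst this
                simp only at h5
                linarith
            · exact h3
          have hp : p ∈ vs j := ⟨h2, h1.2⟩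
          have h6 : g.toFun p ∈ D₁ ∪ D₂ := hDD ▸ hsub (mem_image_of_mem _ (hvj hp))
          rcases h6 with h6 | h6
          · exact h6
          · exact absurd h6 (disjoint_left.1 hnot (mem_image_of_mem _ hp))
        · subst hj'
          exact hb p ⟨h1, Or.inr (Or.inl h2)⟩
    obtain ⟨G₁, hG₁, hG₁'⟩ := ih (g.restr hcL (Lad_mono (Nat.le_succ n))) hD₁ hsub1
    obtain ⟨G₂, hG₂, -⟩ := (conBall_rc hn1 zero_lt_one).exists_extend hD₂.conBall
      (g.restr (conicalSet_rb hn1) (dSq_subset_Lad (Nat.lt_succ_self n)))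
    have hRR : rc 0 n 0 1 ∩ rc n (n + 1) 0 1 = vs n := by
      ext p
      constructor
      · rintro ⟨⟨⟨h1, h1'⟩, h3⟩, ⟨⟨h4, h4'⟩, -⟩⟩
        exact ⟨le_antisymm h1' h4, h3⟩
      · rintro ⟨h1, h2⟩
        exact ⟨⟨⟨by rw [h1]; exact hn0.le, by rw [h1]⟩, h2⟩, ⟨⟨by rw [h1], by rw [h1]; exact hn1.le⟩, h2⟩⟩
    have hU : rc 0 n 0 1 ∪ rc n (n + 1) 0 1 = rc 0 (n + 1) 0 1 := by
      ext p
      constructor
      · rintro (⟨⟨h1, h1'⟩, h3⟩ | ⟨⟨h1, h1'⟩, h3⟩)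
        · exact ⟨⟨h1, by linarith⟩, h3⟩
        · exact ⟨⟨by linarith, h1'⟩, h3⟩
      · rintro ⟨⟨h1, h1'⟩, h3⟩
        rcases le_total p.1 n with h4 | h4
        · exact Or.inl ⟨⟨h1, h4⟩, h3⟩
        · exact Or.inr ⟨⟨h4, h1'⟩, h3⟩
    have v1 : vs n ⊆ Lad n := vs_subset_Lad (le_refl n)
    have v2 : vs n ⊆ rb n (n + 1) 0 1 := by
      rintro p ⟨h1, h2⟩
      exact ⟨⟨⟨by rw [h1], by rw [h1]; exact hn1.le⟩, h2⟩, Or.inl h1⟩
    obtain ⟨G, k1, k2⟩ := exists_glue G₁ G₂ (isClosed_rc _ _ _ _) (isClosed_rc _ _ _ _)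
      hD₁.conBall.isClosed hD₂.conBall.isClosed
      (by
        rw [hRR]
        intro x hx
        rw [hG₁ (v1 hx), hG₂ (v2 hx)]; rfl)
      (by
        rw [hRR, hDi, (hG₁.mono v1).image_eq]; exact subset_rfl)
    refine ⟨G.cast hU hDD.symm, ?_, ?_⟩
    · intro p hp
      rw [ConHomeo.cast_toFun]
      obtain ⟨⟨⟨h1, h1'⟩, h3⟩, h2⟩ := id hp
      rcases le_total p.1 n with h4 | h4
      · rw [k1 ⟨⟨h1, h4⟩, h3⟩]
        apply hG₁
        refine ⟨⟨⟨h1, h4⟩, h3⟩, ?_⟩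
        rcases h2 with h2 | h2 | ⟨j, hj, h2⟩
        · exact Or.inl h2
        · exact Or.inr (Or.inl h2)
        · refine Or.inr (Or.inr ⟨j, ?_, h2⟩)
          rw [h2] at h4
          exact_mod_cast h4
      · have h1'' : p.1 ≤ n + 1 := by rw [← hcast]; exact h1'
        rw [k2 ⟨⟨h4, h1''⟩, h3⟩]
        apply hG₂
        refine ⟨⟨⟨h4, h1''⟩, h3⟩, ?_⟩
        rcases h2 with h2 | h2 | ⟨j, hj, h2⟩
        · exact Or.inr (Or.inr (Or.inl h2))
        · exact Or.inr (Or.inr (Or.inr h2))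
        · rw [h2] at h4
          have hj' : n ≤ j := by exact_mod_cast h4
          rcases hj'.lt_or_eq with h5 | h5
          · have : j = n + 1 := by omega
            right; left
            rw [h2, this, hcast]
          · left; rw [h2, h5]
    · intro j hj
      rw [ConHomeo.cast_toFun]
      rcases (Nat.lt_succ_iff.1 hj).lt_or_eq with h | h
      · have hsq : Sq j ⊆ rc 0 n 0 1 := by
          have h' : (j : ℝ) + 1 ≤ n := by exact_mod_cast h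
          rintro p ⟨⟨h1, h1'⟩, h3⟩
          exact ⟨⟨(Nat.cast_nonneg j).trans h1, h1'.trans h'⟩, h3⟩
        rw [(k1.mono hsq).image_eq]
        exact hG₁' j h
      · subst h
        have : G.toFun '' Sq j = D₂ := by
          rw [show Sq j = rc j (j + 1) 0 1 from rfl, k2.image_eq, G₂.image_eq]
        rw [this]
        exact hD₂

end P073.H399
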