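import Vale.Agent.P073.H399.PassW

/-!
# P073, H399: **[PASS2]**, insertion of the bands of two families of boxes on arbitrary faces

`κu`, `κv` are the insertion maps (345's `IsQ`) of two families of boxes; in every plate `g` the two
coordinates of `h` have the levels and the sides of regular functions `su g`, `sv g`, which form a
regular pair at the crossing points.  First the bands of `κu` are inserted: the lift respects the
level sets and the sides of `sv g`, so that the bands of `κv` can be inserted in the same way.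
-/

open Set Metric Topology Filter

namespace P073.H399

open P073 P073.TR P073.H936 P073.H345 P073.H236

/-! ### flow boxes which respect the levels of a second function -/

section flow

variable {E : Type*} [NormedAddCommGroup E] [NormedSpace ℝ E] {τ : Type*}

/-- a flow box of `su` which respects the levels `b m` of `sv` and their sides -/
theorem exists_flow2 {C : Set E} {M : τ → Set E} {t₀ : τ} (ht₀ : M t₀ = C) {su sv : E → ℝ}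
    (hsv : ContinuousOn sv C) {N : ℕ} {b : ℕ → ℝ} {x : E} (hx : x ∈ C) (h1 : H805.Reg su M x)
    (h2 : ∀ m < N, sv x = b m → H805.Reg (fun y => (su y, sv y)) M x) :
    ∃ (σ : ℝ →ₗ[ℝ] E) (r : ℝ), FlowBox su M x σ r ∧ ∀ w s, ‖w‖ < r → ‖s‖ < r → x + w ∈ C →
      ∀ m < N, (sv (x + w + σ s) < b m ↔ sv (x + w) < b m) ∧
        (sv (x + w + σ s) = b m ↔ sv (x + w) = b m) := by
  by_cases hm : ∃ m < N, sv x = b m
  · obtain ⟨m, hm, hxm⟩ := hm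
    obtain ⟨σ, r, h⟩ := h2 m hm hxm
    have hs' : ∀ s : ℝ, ‖s‖ < r → ‖((s : ℝ), (0:ℝ))‖ < r := fun s hs => by
      rw [Prod.norm_def]; simpa [h.pos] using hs
    refine ⟨σ ∘ₗ LinearMap.inl ℝ ℝ ℝ, r, ⟨h.pos, fun w s hw hs => ?_, fun k w s hw hs => ?_⟩,
      fun w s hw hs _ m' hm' => ?_⟩
    · have := h.add w (s, 0) hw (hs' s hs)
      exact congrArg Prod.fst this
    · exact h.iff k w (s, 0) hw (hs' s hs)
    · have h3 := congrArg Prod.snd (h.add w (s, 0) hw (hs' s hs))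
      have h4 : sv (x + w + (σ ∘ₗ LinearMap.inl ℝ ℝ ℝ) s) = sv (x + w) := by
        have : sv (x + w + σ (s, 0)) = sv (x + w) + 0 := h3
        rw [add_zero] at this
        exact this
      rw [h4]
      exact ⟨Iff.rfl, Iff.rfl⟩
  · push Not at hm
    obtain ⟨σ, r, h⟩ := h1
    have h3 : ∀ᶠ y in 𝓝[C] x, ∀ m ∈ {m | m < N}, (sv y < b m ↔ sv x < b m) ∧
        (sv y = b m ↔ sv x = b m) := by
      refine (Set.Finite.eventually_all (Set.finite_lt_nat N)).2 fun m hmN => ?_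
      rcases lt_or_gt_of_ne (hm m hmN) with h4 | h4
      · filter_upwards [(hsv x hx).eventually_lt_const h4] with y hy
        exact ⟨iff_of_true hy h4, iff_of_false hy.ne h4.ne⟩
      · filter_upwards [(hsv x hx).eventually_const_lt h4] with y hy
        exact ⟨iff_of_false hy.not_gt h4.not_gt, iff_of_false hy.ne' h4.ne'⟩
    rw [eventually_nhdsWithin_iff] at h3
    obtain ⟨δ, hδ, hδ'⟩ := Metric.eventually_nhds_iff_ball.1 h3
    have hσc : Continuous σ := σ.continuous_of_finiteDimensional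
    have hc : ContinuousAt (fun z : E × ℝ => x + z.1 + σ z.2) (0, 0) := by
      apply Continuous.continuousAt; fun_prop
    have hev2 : ∀ᶠ z : E × ℝ in 𝓝 (0, 0), x + z.1 + σ z.2 ∈ ball x δ :=
      hc.eventually (by simp only [map_zero, add_zero]; exact ball_mem_nhds x hδ)
    have hev3 : ∀ᶠ z : E × ℝ in 𝓝 (0, 0), x + z.1 ∈ ball x δ := by
      have hc3 : ContinuousAt (fun z : E × ℝ => x + z.1) (0, 0) := by
        apply Continuous.continuousAt; fun_prop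
      exact hc3.eventually (by simp only [add_zero]; exact ball_mem_nhds x hδ)
    obtain ⟨ρ, hρ, hb⟩ := Metric.eventually_nhds_iff_ball.1 (hev2.and hev3)
    refine ⟨σ, min r ρ, h.mono (lt_min h.pos hρ) (min_le_left _ _), fun w s hw hs hwC m hmN => ?_⟩
    have hz : ((w, s) : E × ℝ) ∈ ball ((0:E), (0:ℝ)) ρ := by
      rw [mem_ball, Prod.dist_eq]
      simp only [dist_zero_right]
      exact max_lt (hw.trans_le (min_le_right _ _)) (hs.trans_le (min_le_right _ _))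
    obtain ⟨h5, h6⟩ := hb _ hz
    have h7 : x + w + σ s ∈ C := by
      have := h.iff t₀ w s (hw.trans_le (min_le_left _ _)) (hs.trans_le (min_le_left _ _))
      rw [ht₀] at this
      exact this.2 hwC
    obtain ⟨a1, a2⟩ := hδ' _ h5 h7 m hmN
    obtain ⟨b1, b2⟩ := hδ' _ h6 hwC m hmN
    exact ⟨a1.trans b1.symm, a2.trans b2.symm⟩

end flow

variable {γ τ K : Type*} {Ω Λ : Set (Fin 3 → ℝ)} {B : γ → BX 3}

/-- same points and sides of the levels of a box -/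
def LvB (B : BX 3) (y : Fin 3 → ℝ) (t : ℝ) : Prop :=
  ∀ m < B.N, (y B.j = B.a m ↔ t = B.a m) ∧ (y B.j < B.a m ↔ t < B.a m) ∧
    (B.a m < y B.j ↔ B.a m < t)

/-- **one family of boxes on one compact set** -/
theorem exists_passB (H : Fam Λ B) {C : Set (Fin 3 → ℝ)} (hC : IsCompact C)
    {h : (Fin 3 → ℝ) → Fin 3 → ℝ} (hh : CC h C) (hinj : InjOn h C) (hCΛ : h '' C ⊆ Λ)
    {M : τ → Set (Fin 3 → ℝ)} (Mg : γ → τ → Set (Fin 3 → ℝ)) (i₀ : τ) (hi₀ : ∀ g, Mg g i₀ = C)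
    {R : γ → Set (Fin 3 → ℝ)} (hRo : ∀ g, IsOpen (R g))
    (hRd : ∀ g g', g ≠ g' → Disjoint (R g) (R g')) (hKR : ∀ g, (B g).K ⊆ R g)
    {s : γ → (Fin 3 → ℝ) → ℝ} (hs : ∀ g, CC (s g) C)
    (hlev : ∀ g, ∀ x ∈ C, h x ∈ R g → LvB (B g) (h x) (s g x))
    (hreg : ∀ g, ∀ m < (B g).N, ∀ x ∈ C, s g x = (B g).a m →
      ∃ (σ : ℝ →ₗ[ℝ] (Fin 3 → ℝ)) (r : ℝ), FlowBox (s g) (Mg g) x σ r)
    (hMg : ∀ g, ∀ x ∈ C, h x ∈ R g → ∀ k, (x ∈ M k ↔ x ∈ Mg g k)) :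
    ∃ c₀ : ℝ, 0 < c₀ ∧ ∀ (c : γ → ℝ) (h0 : ∀ g, 0 < c g) (h1 : ∀ g, c g ≤ (B g).c),
      (∀ g, ((B g).K ∩ h '' C).Nonempty → c g ≤ c₀) →
      ∀ κ, IsQ (fun g => thin (B g) (c g) (h0 g) (h1 g)) κ →
        ∃ (Φ : ConHomeo C (κ ⁻¹' (h '' C))) (γ' : (Fin 3 → ℝ) → Fin 3 → ℝ),
          PassedD C h κ M Φ γ' := by
  classical
  have hhC : IsCompact (h '' C) := hC.image_of_continuousOn hh.cont
  have hfin := H.finite hhC hCΛ
  -- the bands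
  let J : Type _ := {p : γ × ℕ // p.2 < (B p.1).N ∧ ((B p.1).K ∩ h '' C).Nonempty}
  have hJ : Finite J := by
    have : {p : γ × ℕ | p.2 < (B p.1).N ∧ ((B p.1).K ∩ h '' C).Nonempty}.Finite := by
      have h2 : (⋃ g ∈ {g | ((B g).K ∩ h '' C).Nonempty},
          (fun k => (g, k)) '' {k : ℕ | k < (B g).N}).Finite :=
        hfin.biUnion fun g _ => (Set.finite_lt_nat _).image _
      refine h2.subset ?_
      rintro ⟨g, k⟩ ⟨h3, h4⟩
      exact mem_biUnion (show g ∈ {g | ((B g).K ∩ h '' C).Nonempty} from h4) ⟨k, h3, rfl⟩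
    exact this.to_subtype
  obtain ⟨η₀, hη₀, hmain⟩ := exists_passW (J := J) (M := M) (fun p => Mg p.1.1) hC i₀
    (fun p => hi₀ p.1.1) hh hinj
    (fun p => (B p.1.1).j) (fun p => (B p.1.1).a p.1.2) (fun p => R p.1.1) (fun p => (B p.1.1).K)
    (fun p => hRo p.1.1) (fun p => (B p.1.1).isCompact_K.isClosed) (fun p => hKR p.1.1)
    (by
      rintro ⟨⟨g, k⟩, hk, hg⟩ ⟨⟨g', k'⟩, hk', hg'⟩ hne x hx h1 h2 h3 h4
      simp only at hk hk' hg hg' h1 h2 h3 h4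
      by_cases hgg : g = g'
      · subst hgg
        have hkk : k = k' := by
          by_contra hkk
          rcases lt_or_gt_of_ne hkk with h5 | h5
          · have := (B g).lvs.strictMono h5 hk'
            linarith
          · have := (B g).lvs.strictMono h5 hk
            linarith
        subst hkk
        exact hne rfl
      · exact Set.disjoint_left.1 (hRd g g' hgg) (hKR g h2) (hKR g' h4))
    (fun p => s p.1.1) (fun p => hs p.1.1)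
    (fun p x hx hxR => hlev p.1.1 x hx hxR p.1.2 p.2.1)
    (fun p x hx hxa => hreg p.1.1 p.1.2 p.2.1 x hx hxa)
    (fun p x hx hxR k => hMg p.1.1 x hx hxR k)
  refine ⟨η₀ / 2, half_pos hη₀, fun c h0 h1 hc κ hκ => ?_⟩
  have hcell : ∀ g k, k < (B g).N → ∀ y : Fin 3 → ℝ, |y (B g).j - (B g).a k| < 2 * c g →
      (B g).al ≤ y (B g).j ∧ y (B g).j ≤ (B g).be := by
    intro g k hk y hy
    obtain ⟨a1, a2⟩ := abs_lt.1 hy
    have e2 := (B g).lvs.first_le hk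
    have e3 := (B g).lvs.le_last hk
    have e4 := h1 g
    constructor <;> linarith
  refine hmain (fun p => 2 * c p.1.1) (fun p => ⟨by have := h0 p.1.1; positivity, ?_⟩)
    (fun p => mu (thin (B p.1.1) (c p.1.1) (h0 _) (h1 _)))
    (fun p => thk_mu (thin (B p.1.1) (c p.1.1) (h0 _) (h1 _)))
    (fun p y hy hyK => mu_zero (thin (B p.1.1) (c p.1.1) (h0 _) (h1 _)) fun h2 =>
      hyK ((mem_K _).2 ⟨hcell _ _ p.2.1 y hy, h2⟩)) κ ?_ ?_
  · have e2 := hc p.1.1 p.2.2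
    linarith
  · rintro ⟨⟨g, k⟩, hk, hg⟩ y hy hyZ
    simp only at hk hg hy hyZ
    rw [hκ.on g y hyZ]
    exact Q_eq_kap (thin (B g) (c g) (h0 g) (h1 g)) hk hy.le
  · intro y hy hyJ
    by_cases h2 : ∃ g, y ∈ (thin (B g) (c g) (h0 g) (h1 g)).K
    · obtain ⟨g, hg⟩ := h2
      have hne : ((B g).K ∩ h '' C).Nonempty := by
        rcases hy with hy | hy
        · exact ⟨κ y, hκ.mapsK hg, hy⟩
        · exact ⟨y, hg, hy⟩
      rw [hκ.on g y hg]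
      refine Q_eq_self _ fun k hk => ?_
      exact hyJ ⟨(g, k), hk, hne⟩ hg
    · push Not at h2
      exact hκ.off y h2

/-! ### the two families -/

variable {Bu Bv : γ → BX 3} {R : γ → Set (Fin 3 → ℝ)} {su sv : γ → (Fin 3 → ℝ) → ℝ}

/-- the family for the first step -/
def Mcu (Bv : γ → BX 3) (R : γ → Set (Fin 3 → ℝ)) (sv : γ → (Fin 3 → ℝ) → ℝ)
    (C : Set (Fin 3 → ℝ)) (h : (Fin 3 → ℝ) → Fin 3 → ℝ) (M : τ → Set (Fin 3 → ℝ)) :
    τ ⊕ (γ ⊕ ((γ × ℕ) ⊕ (γ × ℕ))) → Set (Fin 3 → ℝ)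
  | .inl t => M t
  | .inr (.inl g) => {x | x ∈ C ∧ h x ∈ R g}
  | .inr (.inr (.inl p)) => {x | x ∈ C ∧ h x ∈ R p.1 ∧ p.2 < (Bv p.1).N ∧
      sv p.1 x < (Bv p.1).a p.2}
  | .inr (.inr (.inr p)) => {x | x ∈ C ∧ h x ∈ R p.1 ∧ p.2 < (Bv p.1).N ∧
      sv p.1 x = (Bv p.1).a p.2}

/-- the same in the plate `g'` -/
def Mgu (Bv : γ → BX 3) (sv : γ → (Fin 3 → ℝ) → ℝ)
    (C : Set (Fin 3 → ℝ)) (M : τ → Set (Fin 3 → ℝ)) (g' : γ) :
    τ ⊕ (γ ⊕ ((γ × ℕ) ⊕ (γ × ℕ))) → Set (Fin 3 → ℝ)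
  | .inl t => M t
  | .inr (.inl g) => {x | x ∈ C ∧ g = g'}
  | .inr (.inr (.inl p)) => {x | x ∈ C ∧ p.1 = g' ∧ p.2 < (Bv p.1).N ∧
      sv p.1 x < (Bv p.1).a p.2}
  | .inr (.inr (.inr p)) => {x | x ∈ C ∧ p.1 = g' ∧ p.2 < (Bv p.1).N ∧
      sv p.1 x = (Bv p.1).a p.2}

theorem Mcu_iff {C : Set (Fin 3 → ℝ)} {h : (Fin 3 → ℝ) → Fin 3 → ℝ} {M : τ → Set (Fin 3 → ℝ)}
    (hRd : ∀ g g', g ≠ g' → Disjoint (R g) (R g')) {g' : γ} {x : Fin 3 → ℝ} (hx : h x ∈ R g')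
    (k : τ ⊕ (γ ⊕ ((γ × ℕ) ⊕ (γ × ℕ)))) :
    x ∈ Mcu Bv R sv C h M k ↔ x ∈ Mgu Bv sv C M g' k := by
  have key : ∀ g, h x ∈ R g ↔ g = g' := by
    intro g
    constructor
    · intro h1
      by_contra hne
      exact Set.disjoint_left.1 (hRd g g' hne) h1 hx
    · rintro rfl; exact hx
  rcases k with t | g | p | p
  · exact Iff.rfl
  · show x ∈ C ∧ h x ∈ R g ↔ x ∈ C ∧ g = g'
    rw [key g]
  · show x ∈ C ∧ h x ∈ R p.1 ∧ _ ↔ x ∈ C ∧ p.1 = g' ∧ _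
    rw [key p.1]
  · show x ∈ C ∧ h x ∈ R p.1 ∧ _ ↔ x ∈ C ∧ p.1 = g' ∧ _
    rw [key p.1]

theorem exists_flow_Mgu {C : Set (Fin 3 → ℝ)} {M : τ → Set (Fin 3 → ℝ)} {t₀ : τ}
    (ht₀ : M t₀ = C) {g : γ} (hsv : ContinuousOn (sv g) C) {x : Fin 3 → ℝ} (hx : x ∈ C)
    {f : (Fin 3 → ℝ) → ℝ} (h1 : H805.Reg f M x)
    (h2 : ∀ m < (Bv g).N, sv g x = (Bv g).a m → H805.Reg (fun y => (f y, sv g y)) M x) :
    ∃ (σ : ℝ →ₗ[ℝ] (Fin 3 → ℝ)) (r : ℝ), FlowBox f (Mgu Bv sv C M g) x σ r := by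
  obtain ⟨σ, r, hF, hS⟩ := exists_flow2 ht₀ hsv hx h1 h2
  refine ⟨σ, r, hF.pos, hF.add, fun k w s hw hs => ?_⟩
  have hCC : x + w + σ s ∈ C ↔ x + w ∈ C := by
    have := hF.iff t₀ w s hw hs
    rwa [ht₀] at this
  rcases k with t | g' | p | p
  · exact hF.iff t w s hw hs
  · show x + w + σ s ∈ C ∧ g' = g ↔ x + w ∈ C ∧ g' = g
    rw [hCC]
  · show x + w + σ s ∈ C ∧ p.1 = g ∧ p.2 < (Bv p.1).N ∧ sv p.1 (x + w + σ s) < (Bv p.1).a p.2 ↔
      x + w ∈ C ∧ p.1 = g ∧ p.2 < (Bv p.1).N ∧ sv p.1 (x + w) < (Bv p.1).a p.2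
    constructor
    · rintro ⟨a1, a2, a3, a4⟩
      refine ⟨hCC.1 a1, a2, a3, ?_⟩
      subst a2
      exact (hS w s hw hs (hCC.1 a1) p.2 a3).1.1 a4
    · rintro ⟨a1, a2, a3, a4⟩
      refine ⟨hCC.2 a1, a2, a3, ?_⟩
      subst a2
      exact (hS w s hw hs a1 p.2 a3).1.2 a4
  · show x + w + σ s ∈ C ∧ p.1 = g ∧ p.2 < (Bv p.1).N ∧ sv p.1 (x + w + σ s) = (Bv p.1).a p.2 ↔
      x + w ∈ C ∧ p.1 = g ∧ p.2 < (Bv p.1).N ∧ sv p.1 (x + w) = (Bv p.1).a p.2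
    constructor
    · rintro ⟨a1, a2, a3, a4⟩
      refine ⟨hCC.1 a1, a2, a3, ?_⟩
      subst a2
      exact (hS w s hw hs (hCC.1 a1) p.2 a3).2.1 a4
    · rintro ⟨a1, a2, a3, a4⟩
      refine ⟨hCC.2 a1, a2, a3, ?_⟩
      subst a2
      exact (hS w s hw hs a1 p.2 a3).2.2 a4

/-- **[PASS2], one compact set** -/
theorem exists_pass2 (Hu : Fam Λ Bu) (Hv : Fam Λ Bv) {C : Set (Fin 3 → ℝ)} (hC : IsCompact C)
    {h : (Fin 3 → ℝ) → Fin 3 → ℝ} (hh : CC h C) (hinj : InjOn h C) (hCΛ : h '' C ⊆ Λ)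
    {M : τ → Set (Fin 3 → ℝ)} (t₀ : τ) (ht₀ : M t₀ = C)
    (hRo : ∀ g, IsOpen (R g)) (hRd : ∀ g g', g ≠ g' → Disjoint (R g) (R g'))
    (hKu : ∀ g, (Bu g).K ⊆ R g) (hKv : ∀ g, (Bv g).K ⊆ R g) (hj : ∀ g, (Bu g).j ≠ (Bv g).j)
    (hsu : ∀ g, CC (su g) C) (hsv : ∀ g, CC (sv g) C)
    (hlu : ∀ g, ∀ x ∈ C, h x ∈ R g → LvB (Bu g) (h x) (su g x))
    (hlv : ∀ g, ∀ x ∈ C, h x ∈ R g → LvB (Bv g) (h x) (sv g x))
    (hru : ∀ g, ∀ m < (Bu g).N, ∀ x ∈ C, su g x = (Bu g).a m → H805.Reg (su g) M x)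
    (hrv : ∀ g, ∀ m < (Bv g).N, ∀ x ∈ C, sv g x = (Bv g).a m → H805.Reg (sv g) M x)
    (hruv : ∀ g, ∀ m < (Bu g).N, ∀ m' < (Bv g).N, ∀ x ∈ C, su g x = (Bu g).a m →
      sv g x = (Bv g).a m' → H805.Reg (fun y => (su g y, sv g y)) M x) :
    ∃ c₀ : ℝ, 0 < c₀ ∧ ∀ (cu : γ → ℝ) (h0 : ∀ g, 0 < cu g) (h1 : ∀ g, cu g ≤ (Bu g).c),
      (∀ g, ((Bu g).K ∩ h '' C).Nonempty → cu g ≤ c₀) →
      ∀ κu, IsQ (fun g => thin (Bu g) (cu g) (h0 g) (h1 g)) κu →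
      ∃ c₁ : ℝ, 0 < c₁ ∧ ∀ (cv : γ → ℝ) (h0' : ∀ g, 0 < cv g) (h1' : ∀ g, cv g ≤ (Bv g).c),
        (∀ g, ((Bv g).K ∩ κu ⁻¹' (h '' C)).Nonempty → cv g ≤ c₁) →
        ∀ κv, IsQ (fun g => thin (Bv g) (cv g) (h0' g) (h1' g)) κv →
          ∃ (Φ : ConHomeo C ((fun y => κu (κv y)) ⁻¹' (h '' C)))
            (γ' : (Fin 3 → ℝ) → Fin 3 → ℝ), PassedD C h (fun y => κu (κv y)) M Φ γ' := by
  classical
  obtain ⟨c₀, hc₀, hstep⟩ := exists_passB Hu hC hh hinj hCΛ (M := Mcu Bv R sv C h M)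
    (fun g => Mgu Bv sv C M g) (.inl t₀) (fun g => ht₀) hRo hRd hKu hsu hlu
    (fun g m hm x hx hxa => exists_flow_Mgu ht₀ (hsv g).cont hx (hru g m hm x hx hxa)
      fun m' hm' hxb => hruv g m hm m' hm' x hx hxa hxb)
    (fun g x hx hxR k => Mcu_iff hRd hxR k)
  refine ⟨c₀, hc₀, fun cu h0 h1 hcu κu hκu => ?_⟩
  obtain ⟨Φu, γu, Pu⟩ := hstep cu h0 h1 hcu κu hκu
  have hKu' : ∀ g, (thin (Bu g) (cu g) (h0 g) (h1 g)).K = (Bu g).K := fun g => rfl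
  -- the plates are invariant
  have hκR : ∀ g y, κu y ∈ R g ↔ y ∈ R g := by
    intro g y
    by_cases h2 : ∃ g', y ∈ (Bu g').K
    · obtain ⟨g', hg'⟩ := h2
      have h3 : κu y ∈ R g' := hKu g' (hκu.mapsK hg')
      have h4 : y ∈ R g' := hKu g' hg'
      by_cases hgg : g = g'
      · subst hgg; exact iff_of_true h3 h4
      · exact iff_of_false (fun h5 => Set.disjoint_left.1 (hRd g g' hgg) h5 h3)
          fun h5 => Set.disjoint_left.1 (hRd g g' hgg) h5 h4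
    · push Not at h2
      rw [hκu.off y h2]
  have hκl : ∀ g y, y ∈ R g → κu y (Bv g).j = y (Bv g).j := by
    intro g y hy
    by_cases h2 : ∃ g', y ∈ (Bu g').K
    · obtain ⟨g', hg'⟩ := h2
      have hgg : g' = g := by
        by_contra hne
        exact Set.disjoint_left.1 (hRd g' g hne) (hKu g' hg') hy
      subst hgg
      rw [hκu.on g' y hg']
      exact (thin (Bu g') (cu g') (h0 g') (h1 g')).Q_ne (hj g').symm y
    · push Not at h2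
      rw [hκu.off y h2]
  have himg : Φu.toFun '' C = κu ⁻¹' (h '' C) := Φu.image_eq
  have hΛ' : Φu.toFun '' C ⊆ Λ := by
    rw [himg]
    intro y hy
    exact hκu.mem_Λ (Hu.thin h0 h1) (hCΛ hy)
  obtain ⟨c₁, hc₁, hstep'⟩ := exists_passB Hv hC (h := Φu.toFun) Φu.cc Φu.injOn hΛ' (M := M)
    (fun _ => M) t₀ (fun _ => ht₀) hRo hRd hKv hsv
    (by
      intro g x hx hxR m hm
      have hγx := Pu.maps hx
      have e1 := Pu.eq x hx
      have h2 : h (γu x) ∈ R g := by rw [← e1]; exact (hκR g _).2 hxR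
      have h3 : h x ∈ R g := ((Pu.iff (.inr (.inl g)) x hx).1 ⟨hγx, h2⟩).2
      have h4 : Φu.toFun x (Bv g).j = h (γu x) (Bv g).j := by
        rw [← e1, hκl g _ hxR]
      obtain ⟨b1, b2, -⟩ := hlv g (γu x) hγx h2 m hm
      have h5 : sv g (γu x) < (Bv g).a m ↔ sv g x < (Bv g).a m := by
        have := Pu.iff (.inr (.inr (.inl (g, m)))) x hx
        exact ⟨fun h6 => (this.1 ⟨hγx, h2, hm, h6⟩).2.2.2,
          fun h6 => (this.2 ⟨hx, h3, hm, h6⟩).2.2.2⟩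
      have h7 : sv g (γu x) = (Bv g).a m ↔ sv g x = (Bv g).a m := by
        have := Pu.iff (.inr (.inr (.inr (g, m)))) x hx
        exact ⟨fun h6 => (this.1 ⟨hγx, h2, hm, h6⟩).2.2.2,
          fun h6 => (this.2 ⟨hx, h3, hm, h6⟩).2.2.2⟩
      have c1 : Φu.toFun x (Bv g).j = (Bv g).a m ↔ sv g x = (Bv g).a m := by
        rw [h4, b1, h7]
      have c2 : Φu.toFun x (Bv g).j < (Bv g).a m ↔ sv g x < (Bv g).a m := by
        rw [h4, b2, h5]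
      refine ⟨c1, c2, ?_⟩
      constructor
      · intro h8
        by_contra h9
        rcases (not_lt.1 h9).lt_or_eq with h10 | h10
        · exact absurd (c2.2 h10) h8.not_gt
        · exact absurd (c1.2 h10) h8.ne'
      · intro h8
        by_contra h9
        rcases (not_lt.1 h9).lt_or_eq with h10 | h10
        · exact absurd (c2.1 h10) h8.not_gt
        · exact absurd (c1.1 h10) h8.ne')
    (fun g m hm x hx hxa => hrv g m hm x hx hxa)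
    (fun g x hx hxR k => Iff.rfl)
  refine ⟨c₁, hc₁, fun cv h0' h1' hcv κv hκv => ?_⟩
  obtain ⟨Φv, γv, Pv⟩ := hstep' cv h0' h1' (by rw [himg]; exact hcv) κv hκv
  have hdom : κv ⁻¹' (Φu.toFun '' C) = (fun y => κu (κv y)) ⁻¹' (h '' C) := by
    rw [himg]; rfl
  refine ⟨Φv.cast rfl hdom, fun x => γu (γv x), ⟨Pu.maps.comp Pv.maps,
    Pu.cc.comp Pv.cc Pv.maps, fun x hx => ?_, fun t x hx => ?_, fun t => ?_⟩⟩
  · show κu (κv (Φv.toFun x)) = _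
    rw [Pv.eq x hx, Pu.eq _ (Pv.maps hx)]
  · exact (Pu.iff (.inl t) _ (Pv.maps hx)).trans (Pv.iff t x hx)
  · have e1 : Φv.toFun '' (M t ∩ C) = κv ⁻¹' (Φu.toFun '' (M t ∩ C)) := Pv.img t
    have e2 : Φu.toFun '' (M t ∩ C) = κu ⁻¹' (h '' (M t ∩ C)) := Pu.img (.inl t)
    rw [e2] at e1
    exact e1

/-- sign functions for a family of boxes: `s g` has the levels and the sides of `h` in the plate -/
structure SgnB (Ω : Set (Fin 3 → ℝ)) (h : (Fin 3 → ℝ) → Fin 3 → ℝ) (B : γ → BX 3)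
    (R : γ → Set (Fin 3 → ℝ)) (s : γ → (Fin 3 → ℝ) → ℝ) (M : τ → Set (Fin 3 → ℝ)) : Prop where
  cc : ∀ g, CC (s g) Ω
  lev : ∀ g, ∀ x ∈ Ω, h x ∈ R g → LvB (B g) (h x) (s g x)
  reg : ∀ g, ∀ x ∈ Ω, ∀ m < (B g).N, s g x = (B g).a m → H805.Reg (s g) M x

/-- **[PASS2]**: a locally finite family of compact sets -/
theorem exists_pass2_all (Hu : Fam Λ Bu) (Hv : Fam Λ Bv) (h : ConHomeo Ω Λ)
    (hRo : ∀ g, IsOpen (R g)) (hRd : ∀ g g', g ≠ g' → Disjoint (R g) (R g'))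
    (hKu : ∀ g, (Bu g).K ⊆ R g) (hKv : ∀ g, (Bv g).K ⊆ R g) (hj : ∀ g, (Bu g).j ≠ (Bv g).j)
    {M : τ → Set (Fin 3 → ℝ)} (Su : SgnB Ω h.toFun Bu R su M) (Sv : SgnB Ω h.toFun Bv R sv M)
    (hpair : ∀ g, ∀ x ∈ Ω, ∀ m < (Bu g).N, ∀ m' < (Bv g).N, su g x = (Bu g).a m →
      sv g x = (Bv g).a m' → H805.Reg (fun y => (su g y, sv g y)) M x)
    {F : K → Set (Fin 3 → ℝ)} (hF : ∀ k, IsCompact (F k)) (hcon : ∀ k, ConicalSet (F k))
    (hFΩ : ∀ k, F k ⊆ Ω) (hlf : ∀ X ⊆ Ω, IsCompact X → {k | (F k ∩ X).Nonempty}.Finite)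
    (t₀ : K → τ) (ht₀ : ∀ k, M (t₀ k) = F k) :
    ∃ c₀ : γ → ℝ, (∀ g, 0 < c₀ g) ∧ ∀ (cu : γ → ℝ) (h0 : ∀ g, 0 < cu g)
      (h1 : ∀ g, cu g ≤ (Bu g).c), (∀ g, cu g ≤ c₀ g) →
      ∀ κu, IsQ (fun g => thin (Bu g) (cu g) (h0 g) (h1 g)) κu →
      ∃ c₁ : γ → ℝ, (∀ g, 0 < c₁ g) ∧ ∀ (cv : γ → ℝ) (h0' : ∀ g, 0 < cv g)
        (h1' : ∀ g, cv g ≤ (Bv g).c), (∀ g, cv g ≤ c₁ g) →
        ∀ κv, IsQ (fun g => thin (Bv g) (cv g) (h0' g) (h1' g)) κv →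
          ∀ k, ∃ (Φ : ConHomeo (F k) ((fun y => κu (κv y)) ⁻¹' (h.toFun '' F k)))
            (γ' : (Fin 3 → ℝ) → Fin 3 → ℝ),
            PassedD (F k) h.toFun (fun y => κu (κv y)) M Φ γ' := by
  classical
  choose c₀ hc₀ hmain using fun k => exists_pass2 Hu Hv (hF k)
    (⟨h.cont.mono (hFΩ k), h.conical.mono (hcon k) (hFΩ k)⟩ : CC h.toFun (F k))
    (h.injOn.mono (hFΩ k))
    (by rintro _ ⟨x, hx, rfl⟩; exact h.mapsTo (hFΩ k hx)) (t₀ k) (ht₀ k) hRo hRd hKu hKv hj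
    (fun g => (Su.cc g).mono (hcon k) (hFΩ k)) (fun g => (Sv.cc g).mono (hcon k) (hFΩ k))
    (fun g x hx => Su.lev g x (hFΩ k hx)) (fun g x hx => Sv.lev g x (hFΩ k hx))
    (fun g m hm x hx => Su.reg g x (hFΩ k hx) m hm)
    (fun g m hm x hx => Sv.reg g x (hFΩ k hx) m hm)
    (fun g m hm m' hm' x hx => hpair g x (hFΩ k hx) m hm m' hm')
  have hbox : ∀ X : Set (Fin 3 → ℝ), IsCompact X → X ⊆ Λ →
      {k | (X ∩ h.toFun '' F k).Nonempty}.Finite := by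
    intro X hX hXΛ
    have h1 : IsCompact (h.invFun '' X) := hX.image_of_continuousOn (h.cont_inv.mono hXΛ)
    have h2 : h.invFun '' X ⊆ Ω := by
      rintro _ ⟨y, hy, rfl⟩; exact h.mapsTo_inv (hXΛ hy)
    refine (hlf _ h2 h1).subset ?_
    rintro k ⟨_, hy, x, hx, rfl⟩
    exact ⟨x, hx, h.toFun x, hy, h.left_inv (hFΩ k hx)⟩
  have hmin : ∀ (X : Set (Fin 3 → ℝ)), IsCompact X → X ⊆ Λ → ∀ f : K → ℝ, (∀ k, 0 < f k) →
      ∃ c : ℝ, 0 < c ∧ ∀ k, (X ∩ h.toFun '' F k).Nonempty → c ≤ f k := by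
    intro X hX hXΛ f hf
    have := (hbox X hX hXΛ).to_subtype
    obtain ⟨c, h1, h2⟩ := exists_pos_le
      (fun k : {k | (X ∩ h.toFun '' F k).Nonempty} => f k.1) fun k => hf k.1
    exact ⟨c, h1, fun k hk => h2 ⟨k, hk⟩⟩
  choose a ha0 ha using fun g => hmin _ (Bu g).isCompact_K (Hu.sub g) c₀ hc₀
  refine ⟨a, ha0, fun cu h0 h1 hcu κu hκu => ?_⟩
  choose c₁ hc₁ hmain' using fun k => hmain k cu h0 h1
    (fun g hg => (hcu g).trans (ha g k hg)) κu hκu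
  choose b hb0 hb using fun g => hmin ((Bu g).K ∪ (Bv g).K)
    ((Bu g).isCompact_K.union (Bv g).isCompact_K) (union_subset (Hu.sub g) (Hv.sub g)) c₁ hc₁
  refine ⟨b, hb0, fun cv h0' h1' hcv κv hκv k => ?_⟩
  refine hmain' k cv h0' h1' (fun g hg => (hcv g).trans (hb g k ?_)) κv hκv
  obtain ⟨y, hy, hyk⟩ := hg
  refine ⟨κu y, ?_, hyk⟩
  by_cases h2 : ∃ g', y ∈ (Bu g').K
  · obtain ⟨g', hg'⟩ := h2
    have hgg : g' = g := by
      by_contra hne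
      exact Set.disjoint_left.1 (hRd g' g hne) (hKu g' hg') (hKv g hy)
    subst hgg
    exact Or.inl (hκu.mapsK hg')
  · push Not at h2
    rw [hκu.off y h2]
    exact Or.inr hy

end P073.H399
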