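import Vale.Agent.P073.H399.PassV

/-!
# P073, H399: **[PASS-W]**, insertion of bands with sign functions in windows

`345`'s `exists_passedD` with sign functions: the level `b j` of `h (i j)` has, in the window `R j`,
the same points and the same sides as the level `b j` of the function `u j`, which is regular for the
family `Mj j`; the families are only compared in the windows.
-/

open Set Metric Topology Filter

namespace P073.H399

open P073 P073.TR P073.H936 P073.H345 P073.H926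

section cut

variable {n : ℕ}

theorem cut_cc' (ρ : ℝ) (p : Fin n → ℝ) : CC (fun y => cut ρ p y) univ := by
  have hU : ConicalSet (univ : Set (Fin n → ℝ)) := IsOpen.conicalSet isOpen_univ
  have h1 : CC (fun y : Fin n → ℝ => y - p) univ :=
    CC.sub ⟨continuousOn_id, conicalOn_id hU⟩ (CC.const p hU)
  have h2 : CC (fun y : Fin n → ℝ => ‖y - p‖) univ :=
    ⟨h1.cont.norm, (conicalOn_norm_pi n hU).comp h1.con (mapsTo_univ _ _) h1.cont⟩
  exact (CC.const 0 hU).max ((CC.const 1 hU).min ((CC.const 2 hU).sub (h2.div_right ρ)))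

/-- a conical cut-off function: `1` on the compact set `K`, `0` off the open set `W` -/
theorem exists_cutW {K W : Set (Fin n → ℝ)} (hK : IsCompact K) (hW : IsOpen W) (hKW : K ⊆ W) :
    ∃ ψ : (Fin n → ℝ) → ℝ, CC ψ univ ∧ (∀ y, 0 ≤ ψ y) ∧ (∀ y ∈ K, ψ y = 1) ∧
      ∀ y, y ∉ W → ψ y = 0 := by
  classical
  obtain ⟨δ, hδ, hδW⟩ := hK.exists_thickening_subset_open hW hKW
  obtain ⟨Q, hQK, hQf, hcov⟩ := hK.finite_cover_balls (show 0 < δ / 2 by positivity)
  obtain ⟨χ, c1, c2, c3, c4, -⟩ := exists_fmax hQf.toFinset (fun q y => cut (δ / 2) q y)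
    fun q _ => cut_cc' _ q
  refine ⟨χ, c1, c2, fun y hy => ?_, fun y hy => ?_⟩
  · obtain ⟨q, hq, hyq⟩ := mem_iUnion₂.1 (hcov hy)
    refine le_antisymm ?_ ?_
    · rcases c4 y with h | ⟨t, -, h⟩
      · rw [h]; exact zero_le_one
      · rw [h]; exact cut_le_one _ _ _
    · have h1 := c3 y q (hQf.mem_toFinset.2 hq)
      rwa [cut_one (by positivity) (by rw [← dist_eq_norm]; exact hyq.le)] at h1
  · rcases c4 y with h | ⟨t, ht, h⟩
    · exact h
    · rw [h]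
      refine cut_zero (by positivity) ?_
      by_contra hc
      push Not at hc
      refine hy (hδW (mem_thickening_iff.2 ⟨t, hQK (hQf.mem_toFinset.1 ht), ?_⟩))
      rw [dist_eq_norm]; linarith

end cut

variable {E : Type*} [NormedAddCommGroup E] [NormedSpace ℝ E] {n : ℕ}

omit [NormedSpace ℝ E] in
/-- points near `h X` and near the level are not in `P` -/
theorem exists_offW {X : Set E} {h : E → Fin n → ℝ} (hX : IsCompact X) (hh : ContinuousOn h X)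
    {P : Set (Fin n → ℝ)} (hP : IsClosed P) {i : Fin n} {b : ℝ}
    (hno : ∀ x ∈ X, h x i = b → h x ∉ P) :
    ∃ η₀ : ℝ, 0 < η₀ ∧ ∀ x ∈ X, ∀ y, ‖y - h x‖ ≤ η₀ → |y i - b| ≤ η₀ → y ∉ P := by
  by_contra hcon
  push Not at hcon
  have h1 : ∀ m : ℕ, ∃ x ∈ X, ∃ y, ‖y - h x‖ ≤ 1 / ((m : ℝ) + 1) ∧ |y i - b| ≤ 1 / ((m : ℝ) + 1) ∧
      y ∈ P := by
    intro m
    obtain ⟨x, hx, y, a1, a2, a3⟩ := hcon (1 / ((m : ℝ) + 1)) (by positivity)
    exact ⟨x, hx, y, a1, a2, a3⟩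
  choose x hx y a1 a2 a3 using h1
  have hS : IsCompact (h '' X) := hX.image_of_continuousOn hh
  obtain ⟨w, ⟨x', hx', rfl⟩, φ, hφ, hlim⟩ := hS.tendsto_subseq fun m => mem_image_of_mem h (hx m)
  have hlim0 : Tendsto (fun m : ℕ => (1 : ℝ) / ((φ m : ℝ) + 1)) atTop (𝓝 0) :=
    tendsto_one_div_add_atTop_nhds_zero_nat.comp hφ.tendsto_atTop
  have hy : Tendsto (fun m => y (φ m)) atTop (𝓝 (h x')) := by
    have h2 : Tendsto (fun m => y (φ m) - h (x (φ m))) atTop (𝓝 0) :=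
      squeeze_zero_norm (fun m => a1 (φ m)) hlim0
    have h3 := h2.add hlim
    rw [zero_add] at h3
    refine h3.congr fun m => ?_
    simp
  have hyi : Tendsto (fun m => y (φ m) i - b) atTop (𝓝 0) :=
    squeeze_zero_norm (fun m => by rw [Real.norm_eq_abs]; exact a2 (φ m)) hlim0
  have hyi' : Tendsto (fun m => y (φ m) i) atTop (𝓝 b) := by
    have := hyi.add_const b
    rw [zero_add] at this
    exact this.congr fun m => by ring
  have e1 : h x' i = b := tendsto_nhds_unique (((continuous_apply i).tendsto _).comp hy) hyi'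
  have h7 : h x' ∈ P := hP.mem_of_tendsto hy (Eventually.of_forall fun m => a3 (φ m))
  exact hno x' hx' e1 h7

/-- a neighbourhood of a compact subset of `C` is mapped into an open set -/
theorem exists_nbhd {C L : Set E} {h : E → Fin n → ℝ} (hh : ContinuousOn h C) (hL : IsCompact L)
    (hLC : L ⊆ C) {R : Set (Fin n → ℝ)} (hR : IsOpen R) (hLR : ∀ x ∈ L, h x ∈ R) :
    ∃ ε : ℝ, 0 < ε ∧ ∀ z ∈ L, ∀ x ∈ C, ‖x - z‖ ≤ ε → h x ∈ R := by
  obtain ⟨O, hO, hO2⟩ := continuousOn_iff'.1 hh R hR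
  have hLO : L ⊆ O := fun x hx => by
    have h1 : x ∈ h ⁻¹' R ∩ C := ⟨hLR x hx, hLC hx⟩
    rw [hO2] at h1
    exact h1.1
  obtain ⟨δ, hδ, hδO⟩ := hL.exists_thickening_subset_open hO hLO
  refine ⟨δ / 2, by positivity, fun z hz x hx hxz => ?_⟩
  have h1 : x ∈ O := hδO (mem_thickening_iff.2 ⟨z, hz, by rw [dist_eq_norm]; linarith⟩)
  have h2 : x ∈ O ∩ C := ⟨h1, hx⟩
  rw [← hO2] at h2
  exact h2.1

/-- **[PASS-W]** -/
theorem exists_passW [FiniteDimensional ℝ E] {J ι : Type*} [Finite J] {C : Set E}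
    {h : E → Fin n → ℝ} {M : ι → Set E} (Mj : J → ι → Set E) (hC : IsCompact C) (i₀ : ι)
    (hi₀ : ∀ j, Mj j i₀ = C)
    (hh : CC h C) (hinj : InjOn h C) (i : J → Fin n) (b : J → ℝ) (R Z : J → Set (Fin n → ℝ))
    (hR : ∀ j, IsOpen (R j)) (hZ : ∀ j, IsClosed (Z j)) (hZR : ∀ j, Z j ⊆ R j)
    (hdis : ∀ j j', j ≠ j' → ∀ x ∈ C, h x (i j) = b j → h x ∈ Z j → h x (i j') = b j' →
      h x ∉ Z j')
    (u : J → E → ℝ) (hu : ∀ j, CC (u j) C)
    (hul : ∀ j, ∀ x ∈ C, h x ∈ R j → (h x (i j) = b j ↔ u j x = b j) ∧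
      (h x (i j) < b j ↔ u j x < b j) ∧ (b j < h x (i j) ↔ b j < u j x))
    (hbox : ∀ j, ∀ x ∈ C, u j x = b j → ∃ (σ : ℝ →ₗ[ℝ] E) (r : ℝ), FlowBox (u j) (Mj j) x σ r)
    (hMj : ∀ j, ∀ x ∈ C, h x ∈ R j → ∀ k, (x ∈ M k ↔ x ∈ Mj j k)) :
    ∃ η₀ : ℝ, 0 < η₀ ∧ ∀ η : J → ℝ, (∀ j, 0 < η j ∧ η j ≤ η₀) →
      ∀ μ : J → (Fin n → ℝ) → ℝ, (∀ j, Thk (i j) (η j) (μ j)) →
      (∀ j y, |y (i j) - b j| < η j → y ∉ Z j → μ j y = 0) → ∀ κ : (Fin n → ℝ) → Fin n → ℝ,
      (∀ j y, |y (i j) - b j| < η j → y ∈ Z j → κ y = H345.kap (i j) (b j) (η j) (μ j) y) →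
      (∀ y, κ y ∈ h '' C ∨ y ∈ h '' C → (∀ j, y ∈ Z j → η j ≤ |y (i j) - b j|) → κ y = y) →
      ∃ (Φ : ConHomeo C (κ ⁻¹' (h '' C))) (γ : E → E), PassedD C h κ M Φ γ := by
  classical
  have hCcon : ConicalSet C := hh.con.conicalSet
  -- the pieces of the levels in the windows
  set Kj : J → Set (Fin n → ℝ) := fun j => (h '' C ∩ {y | y (i j) = b j}) ∩ Z j with hKj
  have hKjc : ∀ j, IsCompact (Kj j) := fun j => ((hC.image_of_continuousOn hh.cont).inter_right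
    (isClosed_eq (continuous_apply _) continuous_const)).inter_right (hZ j)
  obtain ⟨δ, hδ, hδd⟩ := exists_disj Kj hKjc (fun j => (hKjc j).isClosed) (by
    intro j j' hjj
    rw [Set.disjoint_left]
    rintro _ ⟨⟨⟨x, hx, rfl⟩, h1⟩, h2⟩ ⟨⟨-, h3⟩, h4⟩
    exact hdis j j' hjj x hx h1 h2 h3 h4)
  have hKW : ∀ j, Kj j ⊆ thickening δ (Kj j) ∩ R j := fun j => subset_inter
    (self_subset_thickening hδ _) fun y hy => hZR j hy.2
  choose ψ ψcc ψ0 ψone ψzero using fun j =>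
    exists_cutW (hKjc j) (isOpen_thickening.inter (hR j)) (hKW j)
  have hψR : ∀ j y, ψ j y ≠ 0 → y ∈ R j := fun j y h0 => by
    by_contra hc
    exact h0 (ψzero j y fun h1 => hc h1.2)
  have hψT : ∀ j y, ψ j y ≠ 0 → y ∈ thickening δ (Kj j) := fun j y h0 => by
    by_contra hc
    exact h0 (ψzero j y fun h1 => hc h1.1)
  -- the levels
  have hψh : ∀ j, CC (fun x => ψ j (h x)) C := fun j => (ψcc j).comp hh (mapsTo_univ _ _)
  have hLf : ∀ j, IsCompact (lev C (u j) (b j)) := fun j => isCompact_lev hC (hu j).cont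
  have hLfc : ∀ j, ConicalSet (lev C (u j) (b j)) := fun j => conicalSet_lev (hu j).con
  have hLC : ∀ j, lev C (u j) (b j) ⊆ C := fun j x hx => hx.1
  have hψl : ∀ j, CC (fun x => ψ j (h x)) (lev C (u j) (b j)) := fun j =>
    (hψh j).mono (hLfc j) (hLC j)
  set L : J → Set E := fun j => {z | z ∈ lev C (u j) (b j) ∧ 1 / 2 ≤ ψ j (h z)} with hL
  have hLcl : ∀ j, IsClosed (L j) := fun j =>
    isClosed_sep (hLf j).isClosed (hψl j).cont (isClosed_Ici (a := (1:ℝ) / 2))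
  have hLcpt : ∀ j, IsCompact (L j) := fun j =>
    (hLf j).of_isClosed_subset (hLcl j) fun x hx => hx.1
  have hLcon : ∀ j, ConicalSet (L j) := fun j => conicalSet_ge (hψl j) _
  have hLne : ∀ j, ∀ z ∈ L j, ψ j (h z) ≠ 0 := fun j z hz h0 => by
    have := hz.2; rw [h0] at this; norm_num at this
  have hLR : ∀ j, ∀ z ∈ L j, h z ∈ R j := fun j z hz => hψR j _ (hLne j z hz)
  have hLeq : ∀ j, ∀ z ∈ L j, h z (i j) = b j := fun j z hz =>
    (hul j z hz.1.1 (hLR j z hz)).1.2 hz.1.2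
  have hLdis : ∀ j j', j ≠ j' → Disjoint (L j) (L j') := by
    intro j j' hjj
    rw [Set.disjoint_left]
    intro z hz hz'
    exact Set.disjoint_left.1 (hδd j j' hjj)
      (thickening_subset_cthickening _ _ (hψT j _ (hLne j z hz)))
      (thickening_subset_cthickening _ _ (hψT j' _ (hLne j' z hz')))
  obtain ⟨ε₀, hε₀, hεd⟩ := exists_disj L hLcpt hLcl hLdis
  -- neighbourhoods in the windows
  choose ε₁ hε₁ hεR using fun j => exists_nbhd hh.cont (hLcpt j) (fun z hz => hz.1.1) (hR j)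
    (hLR j)
  -- the charts
  choose η₁ c hη₁ hc hchart using fun j => prod_band (M := Mj j) hC i₀ (hi₀ j) (hu j).cont
    (hu j).con isOpen_univ (subset_univ _) fun x (hx : x ∈ lev C (u j) (b j)) =>
      hbox j x hx.1 hx.2
  have hεex : ∀ j, ∃ ε : ℝ, 0 < ε ∧ ε ≤ η₁ j ∧ c j * ε ≤ min ε₀ (ε₁ j) := by
    intro j
    have hm : 0 < min ε₀ (ε₁ j) := lt_min hε₀ (hε₁ j)
    refine ⟨min (η₁ j) (min ε₀ (ε₁ j) / (c j + 1)), lt_min (hη₁ j)
      (div_pos hm (by linarith [hc j])), min_le_left _ _, ?_⟩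
    have h1 : c j * min (η₁ j) (min ε₀ (ε₁ j) / (c j + 1)) ≤
        c j * (min ε₀ (ε₁ j) / (c j + 1)) :=
      mul_le_mul_of_nonneg_left (min_le_right _ _) (hc j)
    refine h1.trans ?_
    rw [mul_div_assoc', div_le_iff₀ (by linarith [hc j])]
    nlinarith [hc j]
  choose ε hε hεη hεc using hεex
  choose Γf g1 g2 g3 g4 g5 using fun j => hchart j (ε j) (hε j) (hεη j)
  set N : J → Set E := fun j => (Γf j).toFun '' (L j ×ˢ Icc (-1:ℝ) 1) with hN
  have hLsub : ∀ j, L j ×ˢ Icc (-1:ℝ) 1 ⊆ lev C (u j) (b j) ×ˢ Icc (-1:ℝ) 1 := fun j =>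
    prod_mono (fun x hx => hx.1) Subset.rfl
  let Γ : ∀ j, ConHomeo (L j ×ˢ Icc (-1:ℝ) 1) (N j) := fun j =>
    (Γf j).restr (conicalSet_prod_Icc (hLcon j) _ _) (hLsub j)
  have hΓf : ∀ j q, (Γ j).toFun q = (Γf j).toFun q := fun j q => rfl
  have hNC : ∀ j, N j ⊆ C := by
    rintro j _ ⟨q, hq, rfl⟩
    exact ((Γf j).mapsTo (hLsub j hq)).1
  have hNR : ∀ j, ∀ x ∈ N j, h x ∈ R j := by
    rintro j _ ⟨⟨z, s⟩, ⟨hz, hs⟩, rfl⟩
    exact hεR j z hz _ ((Γf j).mapsTo (x := (z, s)) ⟨hz.1, hs⟩).1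
      ((g4 j z hz.1 s hs).trans ((hεc j).trans (min_le_right _ _)))
  have hS : ∀ j, SCht C h (i j) (b j) (L j) (N j) (Γ j) := fun j => by
    refine ⟨hLcon j, hLcpt j, hNC j, hLeq j,
      fun z hz => g2 j z hz.1, fun z hz s hs hs0 => ?_, fun z hz s hs hs0 => ?_⟩
    · have h1 : (Γf j).toFun (z, s) ∈ N j := ⟨(z, s), ⟨hz, hs⟩, rfl⟩
      refine (hul j _ (hNC j h1) (hNR j _ h1)).2.2.2 ?_
      rw [g1 j z hz.1 s hs]
      have := mul_pos (hε j) hs0
      linarith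
    · have h1 : (Γf j).toFun (z, s) ∈ N j := ⟨(z, s), ⟨hz, hs⟩, rfl⟩
      refine (hul j _ (hNC j h1) (hNR j _ h1)).2.1.2 ?_
      rw [g1 j z hz.1 s hs]
      have := mul_neg_of_pos_of_neg (hε j) hs0
      linarith
  have hNdis : ∀ j j', j ≠ j' → Disjoint (N j) (N j') := by
    intro j j' hjj
    refine (hεd j j' hjj).mono ?_ ?_
    · rintro _ ⟨⟨z, s⟩, ⟨hz, hs⟩, rfl⟩
      exact mem_cthickening_of_dist_le _ z _ _ hz (by
        rw [dist_eq_norm]
        exact (g4 j z hz.1 s hs).trans ((hεc j).trans (min_le_left _ _)))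
    · rintro _ ⟨⟨z, s⟩, ⟨hz, hs⟩, rfl⟩
      exact mem_cthickening_of_dist_le _ z _ _ hz (by
        rw [dist_eq_norm]
        exact (g4 j' z hz.1 s hs).trans ((hεc j').trans (min_le_left _ _)))
  have hself : ∀ j, ∀ z ∈ L j, z ∈ N j := fun j z hz =>
    ⟨(z, 0), ⟨hz, by norm_num⟩, g2 j z hz.1⟩
  -- the rest
  set L'' : J → Set E := fun j => {z | z ∈ lev C (u j) (b j) ∧ ψ j (h z) ≤ 1 / 2} with hL''
  have hL''cl : ∀ j, IsClosed (L'' j) := fun j =>
    isClosed_sep (hLf j).isClosed (hψl j).cont (isClosed_Iic (a := (1:ℝ) / 2))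
  have hL''cpt : ∀ j, IsCompact (L'' j) := fun j =>
    (hLf j).of_isClosed_subset (hL''cl j) fun x hx => hx.1
  have hL''con : ∀ j, ConicalSet (L'' j) := fun j => conicalSet_le (hψl j) _
  have hL''sub : ∀ j, L'' j ×ˢ Icc (-1:ℝ) 1 ⊆ lev C (u j) (b j) ×ˢ Icc (-1:ℝ) 1 := fun j =>
    prod_mono (fun x hx => hx.1) Subset.rfl
  have habs : ∀ j, CC (fun x => max (u j x - b j) (-(u j x - b j))) C := fun j =>
    ((hu j).sub (CC.const (b j) hCcon)).max ((hu j).sub (CC.const (b j) hCcon)).neg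
  set Aj : J → Set E := fun j => {x | x ∈ C ∧ ε j ≤ max (u j x - b j) (-(u j x - b j))} ∪
    (Γf j).toFun '' (L'' j ×ˢ Icc (-1:ℝ) 1) with hAj
  have hAj1cl : ∀ j, IsClosed {x | x ∈ C ∧ ε j ≤ max (u j x - b j) (-(u j x - b j))} := fun j =>
    isClosed_sep hC.isClosed (habs j).cont (isClosed_Ici (a := ε j))
  have hAj2c : ∀ j, IsCompact ((Γf j).toFun '' (L'' j ×ˢ Icc (-1:ℝ) 1)) := fun j =>
    ((hL''cpt j).prod isCompact_Icc).image_of_continuousOn ((Γf j).cont.mono (hL''sub j))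
  have hAjcl : ∀ j, IsClosed (Aj j) := fun j => (hAj1cl j).union (hAj2c j).isClosed
  have hAjcon : ∀ j, ConicalSet (Aj j) := fun j =>
    H341.conicalSet_union (conicalSet_ge (habs j) _)
      ((Γf j).conicalSet_image (conicalSet_prod_Icc (hL''con j) _ _) (hL''sub j)) (hAj1cl j)
      (hAj2c j).isClosed
  set A : Set E := {x | x ∈ C ∧ ∀ j, x ∈ Aj j} with hA
  have hAcl : IsClosed A := by
    have : A = C ∩ ⋂ j, Aj j := by ext x; simp [hA]
    rw [this]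
    exact hC.isClosed.inter (isClosed_iInter hAjcl)
  have hAcon : ConicalSet A := conicalSet_iInter hCcon hAjcon
  have hAC : A ⊆ C := fun x hx => hx.1
  have hcov : C ⊆ A ∪ ⋃ j, N j := by
    intro x hx
    by_cases hxA : ∀ j, x ∈ Aj j
    · exact Or.inl ⟨hx, hxA⟩
    · push Not at hxA
      obtain ⟨j, hj⟩ := hxA
      refine Or.inr (mem_iUnion.2 ⟨j, ?_⟩)
      have h1 : ¬ ε j ≤ max (u j x - b j) (-(u j x - b j)) := fun h => hj (Or.inl ⟨hx, h⟩)
      have h2 : x ∈ band C (u j) (b j) (ε j) := ⟨hx, (not_le.1 h1).le⟩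
      rw [← (Γf j).image_eq] at h2
      obtain ⟨⟨z, s⟩, ⟨hz, hs⟩, rfl⟩ := h2
      refine ⟨(z, s), ⟨⟨hz, ?_⟩, hs⟩, rfl⟩
      by_contra hlt
      push Not at hlt
      exact hj (Or.inr ⟨(z, s), ⟨⟨hz, hlt.le⟩, hs⟩, rfl⟩)
  -- points of the window on a level
  have hZL : ∀ j, ∀ x ∈ C, h x (i j) = b j → h x ∈ Z j → x ∈ lev C (u j) (b j) ∧
      ψ j (h x) = 1 := by
    intro j x hx hxb hxZ
    exact ⟨⟨hx, (hul j x hx (hZR j hxZ)).1.1 hxb⟩, ψone j _ ⟨⟨⟨x, hx, rfl⟩, hxb⟩, hxZ⟩⟩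
  -- points of `A` on a level
  have hAlev : ∀ j, ∀ x ∈ A, h x (i j) = b j → h x ∉ Z j := by
    intro j x hx hxb hxZ
    obtain ⟨hxl, hx1⟩ := hZL j x hx.1 hxb hxZ
    rcases hx.2 j with h1 | ⟨⟨z, s⟩, ⟨hz, hs⟩, hzx⟩
    · have h2 := h1.2
      rw [hxl.2, sub_self, neg_zero, max_self] at h2
      linarith [hε j]
    · have h2 : (Γf j).toFun (x, 0) = x := g2 j x hxl
      have h3 := (Γf j).injOn (hL''sub j ⟨hz, hs⟩) (⟨hxl, by norm_num⟩ :
        ((x, 0) : E × ℝ) ∈ lev C (u j) (b j) ×ˢ Icc (-1:ℝ) 1) (hzx.trans h2.symm)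
      have h4 : z = x := (Prod.mk.inj h3).1
      have h5 : ψ j (h z) ≤ 1 / 2 := hz.2
      rw [h4, hx1] at h5
      norm_num at h5
  choose ηA hηA hoffA using fun j => exists_offW (i := i j) (b := b j)
    (hC.of_isClosed_subset hAcl hAC) (hh.cont.mono hAC) (hZ j) (hAlev j)
  have hNcpt : ∀ j, IsCompact (N j) := fun j => (Γ j).isCompact_right
    ((hLcpt j).prod isCompact_Icc)
  have hNoff : ∀ j j', ∃ η₂ : ℝ, 0 < η₂ ∧ (j ≠ j' → ∀ x ∈ N j, ∀ y, ‖y - h x‖ ≤ η₂ →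
      |y (i j') - b j'| ≤ η₂ → y ∉ Z j') := by
    intro j j'
    by_cases hjj : j = j'
    · exact ⟨1, one_pos, fun h => absurd hjj h⟩
    obtain ⟨η₂, h1, h2⟩ := exists_offW (i := i j') (b := b j') (hNcpt j) (hh.cont.mono (hNC j))
      (hZ j') fun x hx hxb hxZ => by
        obtain ⟨h3, h4⟩ := hZL j' x (hNC j hx) hxb hxZ
        have h5 : x ∈ L j' := ⟨h3, by rw [h4]; norm_num⟩
        exact Set.disjoint_left.1 (hNdis j j' hjj) hx (hself j' x h5)
    exact ⟨η₂, h1, fun _ => h2⟩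
  choose ηN hηN hoffN using hNoff
  obtain ⟨η₀, hη₀, hle1, hle2⟩ : ∃ η₀ : ℝ, 0 < η₀ ∧ (∀ j, η₀ ≤ ηA j) ∧ ∀ j j', η₀ ≤ ηN j j' := by
    by_cases hne : Nonempty J
    · obtain ⟨j₀, hmin⟩ := Finite.exists_min ηA
      obtain ⟨⟨j₁, j₂⟩, hmin'⟩ := Finite.exists_min (fun p : J × J => ηN p.1 p.2)
      exact ⟨min (ηA j₀) (ηN j₁ j₂), lt_min (hηA _) (hηN _ _),
        fun j => (min_le_left _ _).trans (hmin j),
        fun j j' => (min_le_right _ _).trans (hmin' (j, j'))⟩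
    · exact ⟨1, one_pos, fun j => absurd ⟨j⟩ hne, fun j => absurd ⟨j⟩ hne⟩
  refine ⟨η₀, hη₀, ?_⟩
  intro η hη μ hμ hμZ κ hκ1 hκ0
  have hηpos : ∀ j, 0 < η j := fun j => (hη j).1
  have hkd : ∀ j y, ‖H345.kap (i j) (b j) (η j) (μ j) y - y‖ ≤ η₀ := fun j y =>
    (norm_kap_sub_le (hηpos j) y).trans (hη j).2
  have hkoff : ∀ j y, (y ∈ Z j → η j ≤ |y (i j) - b j|) →
      H345.kap (i j) (b j) (η j) (μ j) y = y := by
    intro j y hy
    rcases le_or_gt (η j) |y (i j) - b j| with h1 | h1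
    · exact kap_eq_self_of_far (hηpos j) h1
    · exact kap_eq_self_of_zero (hμZ j y h1 fun h2 => absurd (hy h2) (not_le.2 h1))
  -- displacement
  have hdisp : ∀ y, κ y ∈ h '' C → ‖y - κ y‖ ≤ η₀ := by
    intro y hy
    by_cases h1 : ∀ j, y ∈ Z j → η j ≤ |y (i j) - b j|
    · rw [hκ0 y (Or.inl hy) h1, sub_self, norm_zero]; exact hη₀.le
    · push Not at h1
      obtain ⟨j, hj1, hj2⟩ := h1
      rw [hκ1 j y hj2 hj1, norm_sub_rev]; exact hkd j y
  obtain ⟨Φ, γ, hΦ, -⟩ := exists_passS (J := J) (M := M) hC hh hinj hηpos hμ hS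
    (by
      intro j m z hz s hs
      have h1 : (Γf j).toFun (z, s) ∈ N j := ⟨(z, s), ⟨hz, hs⟩, rfl⟩
      rw [hΓf, hMj j _ (hNC j h1) (hNR j _ h1), hMj j z hz.1.1 (hLR j z hz)]
      exact g3 j m z hz.1 s hs) hNdis hAcl hAcon hAC hcov
    (by
      intro j z hz s hs hx
      rcases hx.2 j with h1 | ⟨⟨z', s'⟩, ⟨hz', hs'⟩, he⟩
      · have h2 := h1.2
        rw [hΓf, g1 j z hz.1 s hs, add_sub_cancel_left] at h2
        rcases le_max_iff.1 h2 with h3 | h3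
        · left
          have : 1 ≤ s := by
            by_contra hc
            push Not at hc
            nlinarith [hε j]
          exact le_antisymm hs.2 this
        · right; left
          have : s ≤ -1 := by
            by_contra hc
            push Not at hc
            nlinarith [hε j]
          exact le_antisymm this hs.1
      · right; right
        have h3 := (Γf j).injOn (hL''sub j ⟨hz', hs'⟩) (hLsub j (⟨hz, hs⟩ :
          ((z, s) : E × ℝ) ∈ L j ×ˢ Icc (-1:ℝ) 1)) he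
        have h4 : z' = z := (Prod.mk.inj h3).1
        rw [h4] at hz'
        have hzb := hLeq j z hz
        refine hμZ j _ (by rw [hzb, sub_self, abs_zero]; exact hηpos j) fun h5 => ?_
        have h6 := (hZL j z hz.1.1 hzb h5).2
        have h7 : ψ j (h z) ≤ 1 / 2 := hz'.2
        rw [h6] at h7
        norm_num at h7)
    (κ := κ)
    (by
      intro j y hy
      have hnear : ∃ x ∈ N j, ‖y - h x‖ ≤ η₀ := by
        rcases hy with ⟨x, hx, hxy⟩ | ⟨x, hx, hxy⟩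
        · refine ⟨x, hx, ?_⟩
          rw [hxy]; exact hdisp y ⟨x, hNC j hx, hxy⟩
        · refine ⟨x, hx, ?_⟩
          rw [hxy, norm_sub_rev]; exact hkd j y
      obtain ⟨x, hx, hxy⟩ := hnear
      by_cases h1 : ∀ j', y ∈ Z j' → η j' ≤ |y (i j') - b j'|
      · have h2 := hkoff j y (h1 j)
        rw [h2]
        refine hκ0 y (hy.imp (fun h3 => image_mono (hNC j) h3) fun h3 => ?_) h1
        rw [h2] at h3
        exact image_mono (hNC j) h3
      · push Not at h1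
        obtain ⟨j', hj1, hj2⟩ := h1
        by_cases hjj : j = j'
        · subst hjj; exact hκ1 j y hj2 hj1
        · exact absurd hj1 (hoffN j j' hjj x hx y (hxy.trans (hle2 j j'))
            ((hj2.le.trans (hη j').2).trans (hle2 j j'))))
    (by
      intro y hy
      have hCy : κ y ∈ h '' C ∨ y ∈ h '' C :=
        hy.imp (fun h1 => image_mono hAC h1) fun h1 => image_mono hAC h1
      have hnear : ∃ x ∈ A, ‖y - h x‖ ≤ η₀ := by
        rcases hy with ⟨x, hx, hxy⟩ | ⟨x, hx, hxy⟩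
        · refine ⟨x, hx, ?_⟩
          rw [hxy]; exact hdisp y ⟨x, hAC hx, hxy⟩
        · refine ⟨x, hx, ?_⟩
          rw [hxy, sub_self, norm_zero]; exact hη₀.le
      obtain ⟨x, hx, hxy⟩ := hnear
      refine hκ0 y hCy fun j hj => ?_
      by_contra h1
      push Not at h1
      exact hoffA j x hx y (hxy.trans (hle1 j)) ((h1.le.trans (hη j).2).trans (hle1 j)) hj)
  exact ⟨Φ, γ, hΦ⟩

end P073.H399
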