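import Vale.Agent.P073.H399.PassM2
import Vale.Agent.P073.H399.PassW

/-!
# P073, H399: **[PASS-G]**, insertion of bands with GIVEN macroscopic charts

The charts `Γ j` are product structures of bands of the functions `u j` (coordinates of an OLD map),
of macroscopic width.  The new map `h` has in the windows fewer level components: a point of the level
`b j` of `h (i j)` is a point of the level of `u j`, and near it `h (i j) = u j`.  The inserted map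
is the explicit map `ym` on all charts.
-/

open Set Metric Topology Filter

namespace P073.H399

open P073 P073.TR P073.H936 P073.H345 P073.H926

variable {E : Type*} [NormedAddCommGroup E] [NormedSpace ℝ E] {n : ℕ}

theorem br_of_zero {η ρ : ℝ} : br η 0 ρ = ρ := by
  unfold br
  rw [add_zero]
  exact max_eq_left (min_le_left _ _)

theorem br_of_ge {η m ρ : ℝ} (h : η ≤ ρ) : br η m ρ = ρ := by
  unfold br
  exact max_eq_left ((min_le_right _ _).trans (by linarith))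

omit [NormedSpace ℝ E] in
/-- the sign on a fibre -/
theorem sign_fibre {Q : Set E} {f u : E → ℝ} (hf : ContinuousOn f Q) {b w : ℝ} (hw : 0 < w)
    {z : E} {φ : ℝ → E} (hφ : ContinuousOn φ (Icc (-1:ℝ) 1)) (hφQ : MapsTo φ (Icc (-1:ℝ) 1) Q)
    (hφ0 : φ 0 = z) (hu : ∀ s ∈ Icc (-1:ℝ) 1, u (φ s) = b + w * s)
    (hne : ∀ s ∈ Icc (-1:ℝ) 1, f (φ s) = b → u (φ s) = b)
    (hev : ∀ᶠ y in 𝓝 z, y ∈ Q → f y = u y) :
    (∀ s ∈ Icc (-1:ℝ) 1, 0 < s → b < f (φ s)) ∧ ∀ s ∈ Icc (-1:ℝ) 1, s < 0 → f (φ s) < b := by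
  have hz : (0:ℝ) ∈ Icc (-1:ℝ) 1 := by norm_num
  have hg : ContinuousOn (fun s => f (φ s)) (Icc (-1:ℝ) 1) := hf.comp hφ hφQ
  have hne' : ∀ s ∈ Icc (-1:ℝ) 1, s ≠ 0 → f (φ s) ≠ b := by
    intro s hs hs0 he
    have h1 := hne s hs he
    rw [hu s hs] at h1
    have h2 : w * s = 0 := by linarith
    rcases mul_eq_zero.1 h2 with h3 | h3
    · exact hw.ne' h3
    · exact hs0 h3
  have h1 : Tendsto φ (𝓝[Icc (-1:ℝ) 1] 0) (𝓝 z) := by
    have := (hφ 0 hz).tendsto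
    rwa [hφ0] at this
  have h2 : ∀ᶠ s in 𝓝[Icc (-1:ℝ) 1] 0, f (φ s) = u (φ s) := by
    filter_upwards [h1.eventually hev, self_mem_nhdsWithin] with s h3 h4
    exact h3 (hφQ h4)
  obtain ⟨δ, hδ, hδ2⟩ := Metric.mem_nhdsWithin_iff.1 h2
  set t := min (δ / 2) 1 with ht
  have ht0 : 0 < t := lt_min (by positivity) one_pos
  have ht1 : t ≤ 1 := min_le_right _ _
  have htδ : t < δ := (min_le_left _ _).trans_lt (by linarith)
  have hpos : ∀ s, 0 < s → s ≤ t → b < f (φ s) := by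
    intro s h3 h4
    have h5 : s ∈ Icc (-1:ℝ) 1 := ⟨by linarith, by linarith⟩
    have h6 : f (φ s) = u (φ s) := hδ2 ⟨by
      rw [mem_ball, dist_zero_right, Real.norm_eq_abs, abs_of_pos h3]; linarith, h5⟩
    rw [h6, hu s h5]
    nlinarith
  have hneg : ∀ s, s < 0 → -t ≤ s → f (φ s) < b := by
    intro s h3 h4
    have h5 : s ∈ Icc (-1:ℝ) 1 := ⟨by linarith, by linarith⟩
    have h6 : f (φ s) = u (φ s) := hδ2 ⟨by
      rw [mem_ball, dist_zero_right, Real.norm_eq_abs, abs_of_neg h3]; linarith, h5⟩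
    rw [h6, hu s h5]
    nlinarith
  constructor
  · intro s hs hs0
    rcases le_or_gt s t with h3 | h3
    · exact hpos s hs0 h3
    · by_contra hcon
      push Not at hcon
      have hsub : Icc t s ⊆ Icc (-1:ℝ) 1 := Icc_subset_Icc (by linarith) hs.2
      have h4 := intermediate_value_Icc' h3.le (hg.mono hsub)
      obtain ⟨τ, h5, h6⟩ := h4 ⟨hcon, (hpos t ht0 le_rfl).le⟩
      exact hne' τ (hsub h5) (by linarith [h5.1]) h6
  · intro s hs hs0
    rcases le_or_gt (-t) s with h3 | h3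
    · exact hneg s hs0 h3
    · by_contra hcon
      push Not at hcon
      have hsub : Icc s (-t) ⊆ Icc (-1:ℝ) 1 := Icc_subset_Icc hs.1 (by linarith)
      have h4 := intermediate_value_Icc' h3.le (hg.mono hsub)
      obtain ⟨τ, h5, h6⟩ := h4 ⟨(hneg (-t) (by linarith) le_rfl).le, hcon⟩
      exact hne' τ (hsub h5) (by linarith [h5.2]) h6

/-- a cut-off function on the level which is less than `1/2` at the deleted components -/
theorem exists_chi {Q : Set E} {h : E → Fin n → ℝ} (hQ : IsCompact Q) (hh : CC h Q) {i : Fin n}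
    {b : ℝ} {Z W : Set (Fin n → ℝ)} (hZ : IsClosed Z) (hW : IsOpen W) (hZW : Z ⊆ W) {u : E → ℝ}
    (hu : CC u Q) (hlev : ∀ x ∈ Q, h x ∈ W → h x i = b → ∀ᶠ y in 𝓝 x, y ∈ Q → h y i = u y) :
    ∃ χ : E → ℝ, CC χ (lev Q u b) ∧
      (∀ z ∈ lev Q u b, 1 / 2 ≤ χ z → h z i = b ∧ h z ∈ W) ∧
      (∀ z ∈ lev Q u b, h z i = b → h z ∈ Z → χ z = 1) := by
  set L := lev Q u b with hL
  have hLQ : L ⊆ Q := fun x hx => hx.1
  have hLc : IsCompact L := isCompact_lev hQ hu.cont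
  have hLcon : ConicalSet L := conicalSet_lev hu.con
  have hhL : CC h L := hh.mono hLcon hLQ
  set K : Set (Fin n → ℝ) := (h '' Q ∩ {y | y i = b}) ∩ Z with hK
  have hKc : IsCompact K := ((hQ.image_of_continuousOn hh.cont).inter_right
    (isClosed_eq (continuous_apply _) continuous_const)).inter_right hZ
  obtain ⟨ψ, ψcc, ψ0, ψone, ψzero⟩ := exists_cutW hKc hW fun y hy => hZW hy.2
  have hψh : CC (fun x => ψ (h x)) L := ψcc.comp hhL (mapsTo_univ _ _)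
  -- the deleted part
  set D : Set E := {z | z ∈ L ∧ (1 / 4 ≤ ψ (h z) ∧ h z i ≠ b)} with hD
  have hDc : IsCompact D := by
    have h1 : IsClosed {z | z ∈ L ∧ 1 / 4 ≤ ψ (h z)} :=
      isClosed_sep hLc.isClosed hψh.cont (isClosed_Ici (a := (1:ℝ) / 4))
    refine hLc.of_isClosed_subset ?_ fun x hx => hx.1
    rw [← isOpen_compl_iff, isOpen_iff_mem_nhds]
    intro x hx
    by_cases hx1 : x ∈ {z | z ∈ L ∧ 1 / 4 ≤ ψ (h z)}
    · have hxb : h x i = b := by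
        by_contra hc
        exact hx ⟨hx1.1, hx1.2, hc⟩
      have hxW : h x ∈ W := by
        by_contra hc
        have := hx1.2
        rw [ψzero _ hc] at this
        norm_num at this
      filter_upwards [hlev x (hLQ hx1.1) hxW hxb] with y hy hyD
      exact hyD.2.2 ((hy (hLQ hyD.1)).trans hyD.1.2)
    · filter_upwards [h1.isOpen_compl.mem_nhds hx1] with y hy hyD
      exact hy ⟨hyD.1, hyD.2.1⟩
  have hg : CC (fun x => max (h x i - b) (-(h x i - b))) L := by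
    have h1 : CC (fun x => h x i - b) L := (hhL.apply i).sub (CC.const b hLcon)
    exact h1.max h1.neg
  obtain ⟨T, hT0, hT⟩ : ∃ T : ℝ, 0 ≤ T ∧ ∀ z ∈ D,
      ψ (h z) ≤ T * max (h z i - b) (-(h z i - b)) := by
    rcases D.eq_empty_or_nonempty with h1 | h1
    · exact ⟨0, le_rfl, fun z hz => by rw [h1] at hz; exact hz.elim⟩
    · have hDL : D ⊆ L := fun z hz => hz.1
      obtain ⟨z₁, hz₁, hmin⟩ := hDc.exists_isMinOn h1 (hg.cont.mono hDL)
      obtain ⟨z₂, hz₂, hmax⟩ := hDc.exists_isMaxOn h1 (hψh.cont.mono hDL)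
      have h2 : 0 < max (h z₁ i - b) (-(h z₁ i - b)) := by
        have h3 := hz₁.2.2
        rcases lt_or_gt_of_ne h3 with h4 | h4
        · exact lt_max_of_lt_right (by linarith)
        · exact lt_max_of_lt_left (by linarith)
      refine ⟨ψ (h z₂) / max (h z₁ i - b) (-(h z₁ i - b)), div_nonneg (ψ0 _) h2.le,
        fun z hz => ?_⟩
      have h3 : ψ (h z) ≤ ψ (h z₂) := hmax hz
      have h4 : max (h z₁ i - b) (-(h z₁ i - b)) ≤ max (h z i - b) (-(h z i - b)) := hmin hz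
      rw [div_mul_eq_mul_div, le_div_iff₀ h2]
      exact mul_le_mul h3 h4 h2.le (ψ0 _)
  refine ⟨fun z => ψ (h z) - T * max (h z i - b) (-(h z i - b)), hψh.sub (hg.mul_left T), ?_, ?_⟩
  · intro z hz h1
    have h2 : 0 ≤ max (h z i - b) (-(h z i - b)) := by
      rcases le_total 0 (h z i - b) with h3 | h3
      · exact le_max_of_le_left h3
      · exact le_max_of_le_right (by linarith)
    have h3 : 1 / 2 ≤ ψ (h z) := by
      have := mul_nonneg hT0 h2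
      linarith
    refine ⟨?_, ?_⟩
    · by_contra hc
      have := hT z ⟨hz, by linarith, hc⟩
      linarith
    · by_contra hc
      rw [ψzero _ hc] at h3
      norm_num at h3
  · intro z hz h1 h2
    have h3 : ψ (h z) = 1 := ψone _ ⟨⟨⟨z, hLQ hz, rfl⟩, h1⟩, h2⟩
    simp only
    rw [h3, h1, sub_self, neg_zero, max_self, mul_zero, sub_zero]

omit [NormedAddCommGroup E] [NormedSpace ℝ E] in
/-- no thickness: the inserted map is the map -/
theorem ym_triv {h : E → Fin n → ℝ} {i : Fin n} {b η r : ℝ} {μ : (Fin n → ℝ) → ℝ} {Γ : E × ℝ → E}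
    {z : E} {s : ℝ} (hη : 0 ≤ η) (hr : 0 < r) (hzb : h z i = b) (h0 : Γ (z, 0) = z)
    (hz0 : μ (h z) = 0) (hpos : 0 < s → b < h (Γ (z, s)) i)
    (hneg : s < 0 → h (Γ (z, s)) i < b)
    (hx : |h (Γ (z, s)) i - b| < η → μ (h (Γ (z, s))) = 0) :
    cm h r μ Γ (z, s) = Γ (z, s) ∧ ym h i b η r μ Γ (z, s) = h (Γ (z, s)) := by
  have hrm : rm h r μ (z, s) = s := by
    unfold rm
    simp only
    rw [hz0, mul_zero]; exact ph_zero_right
  have hcm : cm h r μ Γ (z, s) = Γ (z, s) := by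
    rw [cm, hrm]
  have hnb : ∀ t : ℝ, t = |h (Γ (z, s)) i - b| → br η (μ (h (Γ (z, s)))) t = t := by
    rintro t ht
    rcases le_or_gt η t with h4 | h4
    · exact br_of_ge h4
    · rw [hx (ht ▸ h4)]
      exact br_of_zero
  have hdm : dm h i b η r μ Γ (z, s) = h (Γ (z, s)) i - b := by
    rcases lt_trichotomy s 0 with h4 | h4 | h4
    · have h5 : h (Γ (z, s)) i - b < 0 := by linarith [hneg h4]
      have h6 : Γ (z, max s 0) = z := by rw [max_eq_right h4.le]; exact h0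
      rw [dm, hcm, hrm]
      simp only
      rw [h6, hz0, min_eq_left h4.le, ds_neg le_rfl (by positivity) h5
        (by rw [neg_zero]; exact (div_neg_of_neg_of_pos h4 hr).le) rfl,
        hnb _ (abs_of_neg h5).symm]
      ring
    · subst h4
      rw [dm, hcm, hrm, max_self, min_self, h0, hz0, zero_div, hzb, sub_self]
      exact ds_zero (by rw [abs_zero])
    · have h5 : 0 < h (Γ (z, s)) i - b := by linarith [hpos h4]
      have h6 : Γ (z, min s 0) = z := by rw [min_eq_right h4.le]; exact h0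
      rw [dm, hcm, hrm]
      simp only
      rw [h6, hz0, max_eq_left h4.le, ds_pos le_rfl (by positivity) h5 (div_pos h4 hr).le rfl,
        hnb _ (abs_of_pos h5).symm]
  refine ⟨hcm, ?_⟩
  rw [ym, hcm, hdm, add_sub_cancel, Function.update_eq_self]

/-- the data of the given charts; `D j` contains the part of `Q` in the window `R j` -/
structure GCh {J ι : Type*} (Q : Set E) (h : E → Fin n → ℝ) (M : ι → Set E) (i : J → Fin n)
    (b : J → ℝ) (W R : J → Set (Fin n → ℝ)) (D : J → Set E) (u : J → E → ℝ) (w : J → ℝ)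
    (Γ : ∀ j, ConHomeo (lev (D j) (u j) (b j) ×ˢ Icc (-1:ℝ) 1) (band (D j) (u j) (b j) (w j))) :
    Prop where
  hu : ∀ j, CC (u j) Q
  hw : ∀ j, 0 < w j
  Dsub : ∀ j, D j ⊆ Q
  Dcpt : ∀ j, IsCompact (D j)
  Dcon : ∀ j, ConicalSet (D j)
  Dcov : ∀ j, ∀ x ∈ Q, h x ∈ R j → x ∈ D j
  level : ∀ j, ∀ z ∈ lev (D j) (u j) (b j), ∀ s ∈ Icc (-1:ℝ) 1,
    u j ((Γ j).toFun (z, s)) = b j + w j * s
  zero : ∀ j, ∀ z ∈ lev (D j) (u j) (b j), (Γ j).toFun (z, 0) = z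
  inv : ∀ j k, ∀ z ∈ lev (D j) (u j) (b j), ∀ s ∈ Icc (-1:ℝ) 1,
    ((Γ j).toFun (z, s) ∈ M k ↔ z ∈ M k)
  win : ∀ j, ∀ z ∈ lev (D j) (u j) (b j), h z ∈ W j → ∀ s ∈ Icc (-1:ℝ) 1,
    h ((Γ j).toFun (z, s)) ∈ R j
  lev : ∀ j, ∀ x ∈ Q, h x ∈ R j → h x (i j) = b j → u j x = b j ∧
    ∀ᶠ y in 𝓝 x, y ∈ Q → h y (i j) = u j y
  dis : ∀ j j', j ≠ j' → ∀ x ∈ Q, h x ∈ R j → |u j x - b j| ≤ w j → h x ∈ R j' →
    w j' < |u j' x - b j'|

/-- **[PASS-G]** -/
theorem exists_passG {J ι : Type*} [Finite J] {Q : Set E} {h : E → Fin n → ℝ} {M : ι → Set E}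
    (hQ : IsCompact Q) (hh : CC h Q) (hinj : InjOn h Q) {i : J → Fin n} {b : J → ℝ}
    {W R : J → Set (Fin n → ℝ)} {D : J → Set E} {u : J → E → ℝ} {w : J → ℝ}
    {Γ : ∀ j, ConHomeo (lev (D j) (u j) (b j) ×ˢ Icc (-1:ℝ) 1) (band (D j) (u j) (b j) (w j))}
    (G : GCh Q h M i b W R D u w Γ) {Z : J → Set (Fin n → ℝ)}
    (hZ : ∀ j, IsClosed (Z j)) (hW : ∀ j, IsOpen (W j)) (hZW : ∀ j, Z j ⊆ W j)
    (hR : ∀ j, IsOpen (R j)) (hWR : ∀ j, W j ⊆ R j) :
    ∃ (A : Set E) (L : J → Set E), IsClosed A ∧ A ⊆ Q ∧ (∀ j, IsCompact (L j)) ∧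
      (∀ j, ∀ z ∈ L j, z ∈ D j ∧ u j z = b j ∧ h z (i j) = b j ∧ h z ∈ W j) ∧
      Q ⊆ A ∪ ⋃ j, (Γ j).toFun '' (L j ×ˢ Icc (-1:ℝ) 1) ∧
    ∃ η₀ : ℝ, 0 < η₀ ∧ ∀ η : J → ℝ, (∀ j, 0 < η j ∧ η j ≤ η₀) →
      ∀ μ : J → (Fin n → ℝ) → ℝ, (∀ j, Thk (i j) (η j) (μ j)) →
      (∀ j y, |y (i j) - b j| < η j → y ∉ Z j → μ j y = 0) →
      ∀ r : J → ℝ, (∀ j, 0 < r j) → (∀ j y, r j * μ j y ≤ 1 / 2) → ∀ κ : (Fin n → ℝ) → Fin n → ℝ,
      (∀ j y, |y (i j) - b j| < η j → y ∈ Z j → κ y = H345.kap (i j) (b j) (η j) (μ j) y) →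
      (∀ y, κ y ∈ h '' Q ∨ y ∈ h '' Q → (∀ j, y ∈ Z j → η j ≤ |y (i j) - b j|) → κ y = y) →
      ∃ (Φ : ConHomeo Q (κ ⁻¹' (h '' Q))) (γ : E → E), PassedD Q h κ M Φ γ ∧
        (∀ j, ∀ z ∈ Q, h z (i j) = b j → h z ∈ W j → ∀ s ∈ Icc (-1:ℝ) 1,
          γ ((Γ j).toFun (z, s)) = cm h (r j) (μ j) (Γ j).toFun (z, s) ∧
          Φ.toFun ((Γ j).toFun (z, s)) =
            ym h (i j) (b j) (η j) (r j) (μ j) (Γ j).toFun (z, s)) ∧
        (∀ x ∈ A, Φ.toFun x = h x ∧ γ x = x) ∧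
        (∀ x ∈ Q, (∀ j, ∀ z ∈ Q, h z (i j) = b j → h z ∈ W j → ∀ s ∈ Icc (-1:ℝ) 1,
          (Γ j).toFun (z, s) ≠ x) → Φ.toFun x = h x ∧ γ x = x) := by
  classical
  have hQcon : ConicalSet Q := hh.con.conicalSet
  have hu := G.hu
  have hw := G.hw
  have huD : ∀ j, CC (u j) (D j) := fun j => (hu j).mono (G.Dcon j) (G.Dsub j)
  have hLf : ∀ j, IsCompact (H936.lev (D j) (u j) (b j)) := fun j =>
    isCompact_lev (G.Dcpt j) (huD j).cont
  have hLfc : ∀ j, ConicalSet (H936.lev (D j) (u j) (b j)) := fun j => conicalSet_lev (huD j).con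
  have hLfQ : ∀ j, H936.lev (D j) (u j) (b j) ⊆ Q := fun j x hx => G.Dsub j hx.1
  have hband : ∀ j, ∀ z ∈ H936.lev (D j) (u j) (b j), ∀ s ∈ Icc (-1:ℝ) 1,
      (Γ j).toFun (z, s) ∈ band (D j) (u j) (b j) (w j) := fun j z hz s hs =>
    (Γ j).mapsTo (x := (z, s)) ⟨hz, hs⟩
  have hlevf : ∀ j, ∀ z ∈ Q, h z (i j) = b j → h z ∈ W j → z ∈ H936.lev (D j) (u j) (b j) :=
    fun j z hz h1 h2 => ⟨G.Dcov j z hz (hWR j h2), (G.lev j z hz (hWR j h2) h1).1⟩
  -- signs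
  have hsign : ∀ j, ∀ z ∈ Q, h z (i j) = b j → h z ∈ W j →
      (∀ s ∈ Icc (-1:ℝ) 1, 0 < s → b j < h ((Γ j).toFun (z, s)) (i j)) ∧
      ∀ s ∈ Icc (-1:ℝ) 1, s < 0 → h ((Γ j).toFun (z, s)) (i j) < b j := by
    intro j z hz h1 h2
    have hzl := hlevf j z hz h1 h2
    refine sign_fibre (f := fun x => h x (i j)) (u := u j) (φ := fun s => (Γ j).toFun (z, s))
      (hh.apply (i j)).cont (hw j) ?_ (fun s hs => G.Dsub j (hband j z hzl s hs).1) (G.zero j z hzl)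
      (fun s hs => G.level j z hzl s hs) (fun s hs he => ?_) (G.lev j z hz (hWR j h2) h1).2
    · exact (Γ j).cont.comp (by fun_prop) fun s hs => ⟨hzl, hs⟩
    · exact (G.lev j _ (G.Dsub j (hband j z hzl s hs).1) (G.win j z hzl h2 s hs) he).1
  -- the cut-off functions
  choose χ χcc χ1 χ2 using fun j => exists_chi (G.Dcpt j) (hh.mono (G.Dcon j) (G.Dsub j)) (hZ j)
    (hW j) (hZW j) (huD j) fun x hx h1 h2 =>
      ((G.lev j x (G.Dsub j hx) (hWR j h1) h2).2).mono fun y hy hyD => hy (G.Dsub j hyD)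
  set L : J → Set E := fun j => {z | z ∈ H936.lev (D j) (u j) (b j) ∧ 1 / 2 ≤ χ j z} with hL
  have hLcl : ∀ j, IsClosed (L j) := fun j =>
    isClosed_sep (hLf j).isClosed (χcc j).cont (isClosed_Ici (a := (1:ℝ) / 2))
  have hLcpt : ∀ j, IsCompact (L j) := fun j =>
    (hLf j).of_isClosed_subset (hLcl j) fun x hx => hx.1
  have hLcon : ∀ j, ConicalSet (L j) := fun j => conicalSet_ge (χcc j) _
  have hLeq : ∀ j, ∀ z ∈ L j, h z (i j) = b j := fun j z hz => (χ1 j z hz.1 hz.2).1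
  have hLW : ∀ j, ∀ z ∈ L j, h z ∈ W j := fun j z hz => (χ1 j z hz.1 hz.2).2
  set N : J → Set E := fun j => (Γ j).toFun '' (L j ×ˢ Icc (-1:ℝ) 1) with hN
  have hLsub : ∀ j, L j ×ˢ Icc (-1:ℝ) 1 ⊆ H936.lev (D j) (u j) (b j) ×ˢ Icc (-1:ℝ) 1 := fun j =>
    prod_mono (fun x hx => hx.1) Subset.rfl
  let Γr : ∀ j, ConHomeo (L j ×ˢ Icc (-1:ℝ) 1) (N j) := fun j =>
    (Γ j).restr (conicalSet_prod_Icc (hLcon j) _ _) (hLsub j)
  have hΓr : ∀ j q, (Γr j).toFun q = (Γ j).toFun q := fun j q => rfl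
  have hNb : ∀ j, N j ⊆ band (D j) (u j) (b j) (w j) := by
    rintro j _ ⟨q, hq, rfl⟩
    exact (Γ j).mapsTo (hLsub j hq)
  have hNQ : ∀ j, N j ⊆ Q := fun j x hx => G.Dsub j (hNb j hx).1
  have hNR : ∀ j, ∀ x ∈ N j, h x ∈ R j := by
    rintro j _ ⟨⟨z, s⟩, ⟨hz, hs⟩, rfl⟩
    exact G.win j z hz.1 (hLW j z hz) s hs
  have hS : ∀ j, SCht Q h (i j) (b j) (L j) (N j) (Γr j) := fun j =>
    ⟨hLcon j, hLcpt j, hNQ j, hLeq j, fun z hz => G.zero j z hz.1,
      fun z hz => (hsign j z (hLfQ j hz.1) (hLeq j z hz) (hLW j z hz)).1,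
      fun z hz => (hsign j z (hLfQ j hz.1) (hLeq j z hz) (hLW j z hz)).2⟩
  have hNdis : ∀ j j', j ≠ j' → Disjoint (N j) (N j') := by
    intro j j' hjj
    rw [Set.disjoint_left]
    intro x hx hx'
    have h1 := G.dis j j' hjj x (hNQ j hx) (hNR j x hx) (hNb j hx).2 (hNR j' x hx')
    exact absurd (hNb j' hx').2 (not_le.2 h1)
  have hself : ∀ j, ∀ z ∈ L j, z ∈ N j := fun j z hz =>
    ⟨(z, 0), ⟨hz, by norm_num⟩, G.zero j z hz.1⟩
  -- the rest
  set L'' : J → Set E := fun j => {z | z ∈ H936.lev (D j) (u j) (b j) ∧ χ j z ≤ 1 / 2} with hL''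
  have hL''cl : ∀ j, IsClosed (L'' j) := fun j =>
    isClosed_sep (hLf j).isClosed (χcc j).cont (isClosed_Iic (a := (1:ℝ) / 2))
  have hL''cpt : ∀ j, IsCompact (L'' j) := fun j =>
    (hLf j).of_isClosed_subset (hL''cl j) fun x hx => hx.1
  have hL''con : ∀ j, ConicalSet (L'' j) := fun j => conicalSet_le (χcc j) _
  have hL''sub : ∀ j, L'' j ×ˢ Icc (-1:ℝ) 1 ⊆ H936.lev (D j) (u j) (b j) ×ˢ Icc (-1:ℝ) 1 := fun j =>
    prod_mono (fun x hx => hx.1) Subset.rfl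
  have habs : ∀ j, CC (fun x => max (u j x - b j) (-(u j x - b j))) Q := fun j =>
    ((hu j).sub (CC.const (b j) hQcon)).max ((hu j).sub (CC.const (b j) hQcon)).neg
  have hNcpt : ∀ j, IsCompact (N j) := fun j => (Γr j).isCompact_right
    ((hLcpt j).prod isCompact_Icc)
  choose θ θcc θ0 θone θzero using fun j =>
    exists_cutW ((hNcpt j).image_of_continuousOn (hh.cont.mono (hNQ j))) (hR j)
      (by rintro _ ⟨x, hx, rfl⟩; exact hNR j x hx)
  have hθh : ∀ j, CC (fun x => θ j (h x)) Q := fun j => (θcc j).comp hh (mapsTo_univ _ _)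
  set Aj : J → Set E := fun j => ({x | x ∈ Q ∧ w j ≤ max (u j x - b j) (-(u j x - b j))} ∪
    (Γ j).toFun '' (L'' j ×ˢ Icc (-1:ℝ) 1)) ∪ {x | x ∈ Q ∧ θ j (h x) ≤ 1 / 2} with hAj
  have hAj1cl : ∀ j, IsClosed {x | x ∈ Q ∧ w j ≤ max (u j x - b j) (-(u j x - b j))} := fun j =>
    isClosed_sep hQ.isClosed (habs j).cont (isClosed_Ici (a := w j))
  have hAj2c : ∀ j, IsCompact ((Γ j).toFun '' (L'' j ×ˢ Icc (-1:ℝ) 1)) := fun j =>
    ((hL''cpt j).prod isCompact_Icc).image_of_continuousOn ((Γ j).cont.mono (hL''sub j))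
  have hAj3cl : ∀ j, IsClosed {x | x ∈ Q ∧ θ j (h x) ≤ 1 / 2} := fun j =>
    isClosed_sep hQ.isClosed (hθh j).cont (isClosed_Iic (a := (1:ℝ) / 2))
  have hAjcl : ∀ j, IsClosed (Aj j) := fun j =>
    ((hAj1cl j).union (hAj2c j).isClosed).union (hAj3cl j)
  have hAjcon : ∀ j, ConicalSet (Aj j) := fun j =>
    H341.conicalSet_union (H341.conicalSet_union (conicalSet_ge (habs j) _)
      ((Γ j).conicalSet_image (conicalSet_prod_Icc (hL''con j) _ _) (hL''sub j)) (hAj1cl j)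
      (hAj2c j).isClosed) (conicalSet_le (hθh j) _) ((hAj1cl j).union (hAj2c j).isClosed)
      (hAj3cl j)
  set A : Set E := {x | x ∈ Q ∧ ∀ j, x ∈ Aj j} with hA
  have hAcl : IsClosed A := by
    have : A = Q ∩ ⋂ j, Aj j := by ext x; simp [hA]
    rw [this]
    exact hQ.isClosed.inter (isClosed_iInter hAjcl)
  have hAcon : ConicalSet A := conicalSet_iInter hQcon hAjcon
  have hAQ : A ⊆ Q := fun x hx => hx.1
  have hnotA : ∀ j, ∀ x ∈ Q, x ∉ Aj j → x ∈ N j := by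
    intro j x hx hj
    have h1 : ¬ w j ≤ max (u j x - b j) (-(u j x - b j)) := fun h =>
      hj (Or.inl (Or.inl ⟨hx, h⟩))
    have h0 : h x ∈ R j := by
      by_contra hc
      refine hj (Or.inr ⟨hx, ?_⟩)
      rw [θzero j _ hc]; norm_num
    have h2 : x ∈ band (D j) (u j) (b j) (w j) := ⟨G.Dcov j x hx h0, (not_le.1 h1).le⟩
    rw [← (Γ j).image_eq] at h2
    obtain ⟨⟨z, s⟩, ⟨hz, hs⟩, rfl⟩ := h2
    refine ⟨(z, s), ⟨⟨hz, ?_⟩, hs⟩, rfl⟩
    by_contra hlt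
    push Not at hlt
    exact hj (Or.inl (Or.inr ⟨(z, s), ⟨⟨hz, hlt.le⟩, hs⟩, rfl⟩))
  have hcov : Q ⊆ A ∪ ⋃ j, N j := by
    intro x hx
    by_cases hxA : ∀ j, x ∈ Aj j
    · exact Or.inl ⟨hx, hxA⟩
    · push Not at hxA
      obtain ⟨j, hj⟩ := hxA
      exact Or.inr (mem_iUnion.2 ⟨j, hnotA j x hx hj⟩)
  -- points of the window on a level
  have hZL : ∀ j, ∀ x ∈ Q, h x (i j) = b j → h x ∈ Z j → x ∈ H936.lev (D j) (u j) (b j) ∧
      χ j x = 1 := by
    intro j x hx hxb hxZ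
    have h1 := hlevf j x hx hxb (hZW j hxZ)
    exact ⟨h1, χ2 j x h1 hxb hxZ⟩
  have hZN : ∀ j, ∀ x ∈ Q, h x (i j) = b j → h x ∈ Z j → x ∈ N j := by
    intro j x hx hxb hxZ
    obtain ⟨h3, h4⟩ := hZL j x hx hxb hxZ
    exact hself j x ⟨h3, by rw [h4]; norm_num⟩
  -- points of `A` on a level
  have hAlev : ∀ j, ∀ x ∈ A, h x (i j) = b j → h x ∉ Z j := by
    intro j x hx hxb hxZ
    obtain ⟨hxl, hx1⟩ := hZL j x hx.1 hxb hxZ
    rcases hx.2 j with (h1 | ⟨⟨z, s⟩, ⟨hz, hs⟩, hzx⟩) | h1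
    · have h2 := h1.2
      rw [hxl.2, sub_self, neg_zero, max_self] at h2
      linarith [hw j]
    · have h2 : (Γ j).toFun (x, 0) = x := G.zero j x hxl
      have h3 := (Γ j).injOn (hL''sub j ⟨hz, hs⟩) (⟨hxl, by norm_num⟩ :
        ((x, 0) : E × ℝ) ∈ H936.lev (D j) (u j) (b j) ×ˢ Icc (-1:ℝ) 1) (hzx.trans h2.symm)
      have h4 : z = x := (Prod.mk.inj h3).1
      have h5 : χ j z ≤ 1 / 2 := hz.2
      rw [h4, hx1] at h5
      norm_num at h5
    · have h2 := h1.2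
      rw [θone j _ ⟨x, hZN j x hx.1 hxb hxZ, rfl⟩] at h2
      norm_num at h2
  refine ⟨A, L, hAcl, hAQ, hLcpt, fun j z hz => ⟨hz.1.1, hz.1.2, hLeq j z hz, hLW j z hz⟩,
    hcov, ?_⟩
  choose ηA hηA hoffA using fun j => exists_offW (i := i j) (b := b j)
    (hQ.of_isClosed_subset hAcl hAQ) (hh.cont.mono hAQ) (hZ j) (hAlev j)
  have hNoff : ∀ j j', ∃ η₂ : ℝ, 0 < η₂ ∧ (j ≠ j' → ∀ x ∈ N j, ∀ y, ‖y - h x‖ ≤ η₂ →
      |y (i j') - b j'| ≤ η₂ → y ∉ Z j') := by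
    intro j j'
    by_cases hjj : j = j'
    · exact ⟨1, one_pos, fun h => absurd hjj h⟩
    obtain ⟨η₂, h1, h2⟩ := exists_offW (i := i j') (b := b j') (hNcpt j) (hh.cont.mono (hNQ j))
      (hZ j') fun x hx hxb hxZ => by
        exact Set.disjoint_left.1 (hNdis j j' hjj) hx (hZN j' x (hNQ j hx) hxb hxZ)
    exact ⟨η₂, h1, fun _ => h2⟩
  choose ηN hηN hoffN using hNoff
  obtain ⟨η₀, hη₀, hle1, hle2⟩ : ∃ η₀ : ℝ, 0 < η₀ ∧ (∀ j, η₀ ≤ ηA j) ∧ ∀ j j', η₀ ≤ ηN j j' := by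
    by_cases hne : Nonempty J
    · obtain ⟨j₀, hmin⟩ := Finite.exists_min ηA
      obtain ⟨⟨j₁, j₂⟩, hmin'⟩ := Finite.exists_min (fun p : J × J => ηN p.1 p.2)
      exact ⟨min (ηA j₀) (ηN j₁ j₂), lt_min (hηA _) (hηN _ _),
        fun j => (min_le_left _ _).trans (hmin j),
        fun j j' => (min_le_right _ _).trans (hmin' (j, j'))⟩
    · exact ⟨1, one_pos, fun j => absurd ⟨j⟩ hne, fun j => absurd ⟨j⟩ hne⟩
  refine ⟨η₀, hη₀, ?_⟩
  intro η hη μ hμ hμZ r hr hrμ κ hκ1 hκ0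
  have hηpos : ∀ j, 0 < η j := fun j => (hη j).1
  have hkd : ∀ j y, ‖H345.kap (i j) (b j) (η j) (μ j) y - y‖ ≤ η₀ := fun j y =>
    (norm_kap_sub_le (hηpos j) y).trans (hη j).2
  have hkoff : ∀ j y, (y ∈ Z j → η j ≤ |y (i j) - b j|) →
      H345.kap (i j) (b j) (η j) (μ j) y = y := by
    intro j y hy
    rcases le_or_gt (η j) |y (i j) - b j| with h1 | h1
    · exact kap_eq_self_of_far (hηpos j) h1
    · exact kap_eq_self_of_zero (hμZ j y h1 fun h2 => absurd (hy h2) (not_le.2 h1))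
  -- displacement
  have hdisp : ∀ y, κ y ∈ h '' Q → ‖y - κ y‖ ≤ η₀ := by
    intro y hy
    by_cases h1 : ∀ j, y ∈ Z j → η j ≤ |y (i j) - b j|
    · rw [hκ0 y (Or.inl hy) h1, sub_self, norm_zero]; exact hη₀.le
    · push Not at h1
      obtain ⟨j, hj1, hj2⟩ := h1
      rw [hκ1 j y hj2 hj1, norm_sub_rev]; exact hkd j y
  -- the thickness over the deleted part
  have hμ0 : ∀ j, ∀ z ∈ Q, h z (i j) = b j → h z ∉ Z j → μ j (h z) = 0 := fun j z _ h1 h2 =>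
    hμZ j _ (by rw [h1, sub_self, abs_zero]; exact hηpos j) h2
  obtain ⟨Φ, γ, hΦ, hΦA, hΦN⟩ := exists_passMy (J := J) (M := M) hQ hh hinj hr hμ hrμ hS
    (fun j m z hz s hs => G.inv j m z hz.1 s hs) hNdis hAcl hAcon hAQ hcov
    (by
      intro j z hz s hs hx
      rcases hx.2 j with (h1 | ⟨⟨z', s'⟩, ⟨hz', hs'⟩, he⟩) | h1
      · have h2 := h1.2
        rw [hΓr, G.level j z hz.1 s hs, add_sub_cancel_left] at h2
        rcases le_max_iff.1 h2 with h3 | h3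
        · left
          have : 1 ≤ s := by
            by_contra hc
            push Not at hc
            nlinarith [hw j]
          exact le_antisymm hs.2 this
        · right; left
          have : s ≤ -1 := by
            by_contra hc
            push Not at hc
            nlinarith [hw j]
          exact le_antisymm this hs.1
      · right; right
        have h3 := (Γ j).injOn (hL''sub j ⟨hz', hs'⟩) (hLsub j (⟨hz, hs⟩ :
          ((z, s) : E × ℝ) ∈ L j ×ˢ Icc (-1:ℝ) 1)) he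
        have h4 : z' = z := (Prod.mk.inj h3).1
        rw [h4] at hz'
        refine hμ0 j z (hLfQ j hz.1) (hLeq j z hz) fun h5 => ?_
        have h6 := (hZL j z (hLfQ j hz.1) (hLeq j z hz) h5).2
        have h7 : χ j z ≤ 1 / 2 := hz'.2
        rw [h6] at h7
        norm_num at h7
      · have h2 := h1.2
        have h3 : θ j (h ((Γr j).toFun (z, s))) = 1 :=
          θone j _ ⟨_, ⟨(z, s), ⟨hz, hs⟩, rfl⟩, rfl⟩
        rw [h3] at h2
        norm_num at h2)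
    (κ := κ)
    (by
      intro j y hy
      have hnear : ∃ x ∈ N j, ‖y - h x‖ ≤ η₀ := by
        rcases hy with ⟨x, hx, hxy⟩ | ⟨x, hx, hxy⟩
        · refine ⟨x, hx, ?_⟩
          rw [hxy]; exact hdisp y ⟨x, hNQ j hx, hxy⟩
        · refine ⟨x, hx, ?_⟩
          rw [hxy, norm_sub_rev]; exact hkd j y
      obtain ⟨x, hx, hxy⟩ := hnear
      by_cases h1 : ∀ j', y ∈ Z j' → η j' ≤ |y (i j') - b j'|
      · have h2 := hkoff j y (h1 j)
        rw [h2]
        refine hκ0 y (hy.imp (fun h3 => image_mono (hNQ j) h3) fun h3 => ?_) h1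
        rw [h2] at h3
        exact image_mono (hNQ j) h3
      · push Not at h1
        obtain ⟨j', hj1, hj2⟩ := h1
        by_cases hjj : j = j'
        · subst hjj; exact hκ1 j y hj2 hj1
        · exact absurd hj1 (hoffN j j' hjj x hx y (hxy.trans (hle2 j j'))
            ((hj2.le.trans (hη j').2).trans (hle2 j j'))))
    (by
      intro y hy
      have hCy : κ y ∈ h '' Q ∨ y ∈ h '' Q :=
        hy.imp (fun h1 => image_mono hAQ h1) fun h1 => image_mono hAQ h1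
      have hnear : ∃ x ∈ A, ‖y - h x‖ ≤ η₀ := by
        rcases hy with ⟨x, hx, hxy⟩ | ⟨x, hx, hxy⟩
        · refine ⟨x, hx, ?_⟩
          rw [hxy]; exact hdisp y ⟨x, hAQ hx, hxy⟩
        · refine ⟨x, hx, ?_⟩
          rw [hxy, sub_self, norm_zero]; exact hη₀.le
      obtain ⟨x, hx, hxy⟩ := hnear
      refine hκ0 y hCy fun j hj => ?_
      by_contra h1
      push Not at h1
      exact hoffA j x hx y (hxy.trans (hle1 j)) ((h1.le.trans (hη j).2).trans (hle1 j)) hj)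
  refine ⟨Φ, γ, hΦ, ?_, hΦA, ?_⟩
  · intro j z hz hzb hzW s hs
    have hzl := hlevf j z hz hzb hzW
    rcases le_or_gt (1 / 2) (χ j z) with h1 | h1
    · exact hΦN j (z, s) ⟨⟨hzl, h1⟩, hs⟩
    · -- the deleted part of the window
      have hzZ : h z ∉ Z j := fun h2 => by
        have h3 := χ2 j z hzl hzb h2
        rw [h3] at h1
        norm_num at h1
      have hxb := hband j z hzl s hs
      have hxQ := G.Dsub j hxb.1
      have hxR := G.win j z hzl hzW s hs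
      have hxA : (Γ j).toFun (z, s) ∈ A := by
        refine ⟨hxQ, fun j' => ?_⟩
        by_cases hjj : j = j'
        · subst hjj
          exact Or.inl (Or.inr ⟨(z, s), ⟨⟨hzl, h1.le⟩, hs⟩, rfl⟩)
        · by_contra hcon
          have h2 := hnotA j' _ hxQ hcon
          have h3 := G.dis j j' hjj _ hxQ hxR hxb.2 (hNR j' _ h2)
          exact absurd (hNb j' h2).2 (not_le.2 h3)
      obtain ⟨h2, h3⟩ := hΦA _ hxA
      have hz0 : μ j (h z) = 0 := hμ0 j z hz hzb hzZ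
      obtain ⟨h4, h5⟩ := ym_triv (η := η j) (Γ := (Γ j).toFun) (hηpos j).le (hr j) hzb
        (G.zero j z hzl) hz0 ((hsign j z hz hzb hzW).1 s hs) ((hsign j z hz hzb hzW).2 s hs)
        fun h6 => hμZ j _ h6 (hoffA j _ hxA _ (by rw [sub_self, norm_zero]; exact (hηA j).le)
          ((h6.le.trans (hη j).2).trans (hle1 j)))
      exact ⟨by rw [h3, h4], by rw [h2, h5]⟩
  · intro x hx hno
    rcases hcov hx with h1 | h1
    · exact hΦA x h1
    · obtain ⟨j, ⟨z, s⟩, ⟨hz, hs⟩, he⟩ := mem_iUnion.1 h1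
      exact absurd he (hno j z (hLfQ j hz.1) (hLeq j z hz) (hLW j z hz) s hs)

end P073.H399
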