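import Vale.Agent.P073.H399.PassS1
import Vale.Agent.P073.ConGlue

/-!
# P073, H399: **[PASS-SIGN]** with a free scale of the source

The same as `exists_passS`, but the collapse on the source uses the scale `M j` (any number with
`M j * μ j ≤ 1 / 2`; `M j = 1 / η j` is `exists_passS`).  With `M j` macroscopic the inserted map is
metrically controlled on the chart.
-/

open Set Metric Topology Filter

namespace P073.H399

open P073 P073.TR P073.H936 P073.H345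

variable {E : Type*} [NormedAddCommGroup E] [NormedSpace ℝ E] {n : ℕ}

section band

variable {C L N : Set E} {h : E → Fin n → ℝ} {i : Fin n} {b η r : ℝ} {μ : (Fin n → ℝ) → ℝ}

/-- collapse of the parameter -/
noncomputable def rm (h : E → Fin n → ℝ) (r : ℝ) (μ : (Fin n → ℝ) → ℝ) (q : E × ℝ) : ℝ :=
  ph 1 (r * μ (h q.1)) q.2

/-- collapse of the chart -/
noncomputable def cm (h : E → Fin n → ℝ) (r : ℝ) (μ : (Fin n → ℝ) → ℝ) (Γ : E × ℝ → E)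
    (q : E × ℝ) : E := Γ (q.1, rm h r μ q)

/-- the inserted coordinate -/
noncomputable def dm (h : E → Fin n → ℝ) (i : Fin n) (b η r : ℝ) (μ : (Fin n → ℝ) → ℝ)
    (Γ : E × ℝ → E) (q : E × ℝ) : ℝ :=
  ds η (μ (h q.1)) (μ (h (Γ (q.1, max (rm h r μ q) 0))))
    (μ (h (Γ (q.1, min (rm h r μ q) 0)))) (h (cm h r μ Γ q) i - b) (q.2 / r)

/-- the inserted map on the product -/
noncomputable def ym (h : E → Fin n → ℝ) (i : Fin n) (b η r : ℝ) (μ : (Fin n → ℝ) → ℝ)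
    (Γ : E × ℝ → E) (q : E × ℝ) : Fin n → ℝ :=
  Function.update (h (cm h r μ Γ q)) i (b + dm h i b η r μ Γ q)

omit [NormedAddCommGroup E] [NormedSpace ℝ E] in
theorem rm_mem {q : E × ℝ} (hq : q.2 ∈ Icc (-1:ℝ) 1) : rm h r μ q ∈ Icc (-1:ℝ) 1 := by
  have h1 : |rm h r μ q| ≤ |q.2| := abs_ph_le
  have h2 : |q.2| ≤ 1 := abs_le.2 hq
  exact abs_le.1 (h1.trans h2)

omit [NormedAddCommGroup E] [NormedSpace ℝ E] in
theorem maxrm_mem {q : E × ℝ} (hq : q.2 ∈ Icc (-1:ℝ) 1) :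
    max (rm h r μ q) 0 ∈ Icc (-1:ℝ) 1 := by
  have h1 := rm_mem (h := h) (r := r) (μ := μ) hq
  exact ⟨h1.1.trans (le_max_left _ _), max_le h1.2 (by norm_num)⟩

omit [NormedAddCommGroup E] [NormedSpace ℝ E] in
theorem minrm_mem {q : E × ℝ} (hq : q.2 ∈ Icc (-1:ℝ) 1) :
    min (rm h r μ q) 0 ∈ Icc (-1:ℝ) 1 := by
  have h1 := rm_mem (h := h) (r := r) (μ := μ) hq
  exact ⟨le_min h1.1 (by norm_num), (min_le_left _ _).trans h1.2⟩

variable {Γ : ConHomeo (L ×ˢ Icc (-1:ℝ) 1) N}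

/-- the collapse on the product is continuous and conical -/
theorem cm_cc (hh : CC h C) (hμ : Thk i η μ) (hΓ : SCht C h i b L N Γ) :
    CC (cm h r μ Γ.toFun) (L ×ˢ Icc (-1:ℝ) 1) := by
  have hPcon : ConicalSet (L ×ˢ Icc (-1:ℝ) 1) := conicalSet_prod_Icc hΓ.con _ _
  have hfst : CC (fun q : E × ℝ => q.1) (L ×ˢ Icc (-1:ℝ) 1) :=
    ⟨continuous_fst.continuousOn, conicalOn_linear (LinearMap.fst ℝ E ℝ) hPcon⟩
  have hsnd : CC (fun q : E × ℝ => q.2) (L ×ˢ Icc (-1:ℝ) 1) :=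
    ⟨continuous_snd.continuousOn, conicalOn_linear (LinearMap.snd ℝ E ℝ) hPcon⟩
  have hz : CC (fun q : E × ℝ => μ (h q.1)) (L ×ˢ Icc (-1:ℝ) 1) :=
    hμ.cc.comp (hh.comp hfst fun q hq => hΓ.sub (hΓ.mem hq.1)) (mapsTo_univ _ _)
  have hrr : CC (rm h r μ) (L ×ˢ Icc (-1:ℝ) 1) := CC.ph hPcon (hz.mul_left r) hsnd
  have key : CC (fun q : E × ℝ => Γ.toFun (q.1, rm h r μ q)) (L ×ˢ Icc (-1:ℝ) 1) :=
    CC.comp (Y := L ×ˢ Icc (-1:ℝ) 1) Γ.cc (hfst.prodMk hrr) fun q hq => ⟨hq.1, rm_mem hq.2⟩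
  exact key

/-- the map on the product is continuous and conical -/
theorem ym_cc (hh : CC h C) (hμ : Thk i η μ) (hΓ : SCht C h i b L N Γ) :
    CC (ym h i b η r μ Γ.toFun) (L ×ˢ Icc (-1:ℝ) 1) := by
  have hPcon : ConicalSet (L ×ˢ Icc (-1:ℝ) 1) := conicalSet_prod_Icc hΓ.con _ _
  have hfst : CC (fun q : E × ℝ => q.1) (L ×ˢ Icc (-1:ℝ) 1) :=
    ⟨continuous_fst.continuousOn, conicalOn_linear (LinearMap.fst ℝ E ℝ) hPcon⟩
  have hsnd : CC (fun q : E × ℝ => q.2) (L ×ˢ Icc (-1:ℝ) 1) :=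
    ⟨continuous_snd.continuousOn, conicalOn_linear (LinearMap.snd ℝ E ℝ) hPcon⟩
  have hμh : ∀ {f : E × ℝ → E}, CC f (L ×ˢ Icc (-1:ℝ) 1) → MapsTo f (L ×ˢ Icc (-1:ℝ) 1) C →
      CC (fun q => μ (h (f q))) (L ×ˢ Icc (-1:ℝ) 1) :=
    fun hf hm => hμ.cc.comp (hh.comp hf hm) (mapsTo_univ _ _)
  have hz : CC (fun q : E × ℝ => μ (h q.1)) (L ×ˢ Icc (-1:ℝ) 1) :=
    hμh hfst fun q hq => hΓ.sub (hΓ.mem hq.1)
  have hR : CC (fun q : E × ℝ => q.2 / r) (L ×ˢ Icc (-1:ℝ) 1) := hsnd.div_right r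
  have hrr : CC (rm h r μ) (L ×ˢ Icc (-1:ℝ) 1) := CC.ph hPcon (hz.mul_left r) hsnd
  have h0 : CC (fun _ : E × ℝ => (0:ℝ)) (L ×ˢ Icc (-1:ℝ) 1) := CC.const 0 hPcon
  have hG : ∀ {t : E × ℝ → ℝ}, CC t (L ×ˢ Icc (-1:ℝ) 1) →
      (∀ q ∈ L ×ˢ Icc (-1:ℝ) 1, t q ∈ Icc (-1:ℝ) 1) →
      CC (fun q => Γ.toFun (q.1, t q)) (L ×ˢ Icc (-1:ℝ) 1) := fun ht hm =>
    CC.comp (Y := L ×ˢ Icc (-1:ℝ) 1) Γ.cc (hfst.prodMk ht) fun q hq => ⟨hq.1, hm q hq⟩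
  have hGC : ∀ {t : E × ℝ → ℝ}, (∀ q ∈ L ×ˢ Icc (-1:ℝ) 1, t q ∈ Icc (-1:ℝ) 1) →
      MapsTo (fun q : E × ℝ => Γ.toFun (q.1, t q)) (L ×ˢ Icc (-1:ℝ) 1) C := fun {t} hm q hq =>
    hΓ.sub (Γ.mapsTo (x := (q.1, t q)) ⟨hq.1, hm q hq⟩)
  have m0 : ∀ q ∈ L ×ˢ Icc (-1:ℝ) 1, rm h r μ q ∈ Icc (-1:ℝ) 1 := fun q hq => rm_mem hq.2
  have m1 : ∀ q ∈ L ×ˢ Icc (-1:ℝ) 1, max (rm h r μ q) 0 ∈ Icc (-1:ℝ) 1 :=
    fun q hq => maxrm_mem hq.2
  have m2 : ∀ q ∈ L ×ˢ Icc (-1:ℝ) 1, min (rm h r μ q) 0 ∈ Icc (-1:ℝ) 1 :=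
    fun q hq => minrm_mem hq.2
  have hc : CC (cm h r μ Γ.toFun) (L ×ˢ Icc (-1:ℝ) 1) := hG hrr m0
  have hcC : MapsTo (cm h r μ Γ.toFun) (L ×ˢ Icc (-1:ℝ) 1) C := hGC m0
  have hp : CC (fun q => μ (h (Γ.toFun (q.1, max (rm h r μ q) 0)))) (L ×ˢ Icc (-1:ℝ) 1) :=
    hμh (hG (hrr.max h0) m1) (hGC m1)
  have hn : CC (fun q => μ (h (Γ.toFun (q.1, min (rm h r μ q) 0)))) (L ×ˢ Icc (-1:ℝ) 1) :=
    hμh (hG (hrr.min h0) m2) (hGC m2)
  have hρ : CC (fun q => h (cm h r μ Γ.toFun q) i - b) (L ×ˢ Icc (-1:ℝ) 1) :=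
    ((hh.comp hc hcC).apply i).sub (CC.const b hPcon)
  have hdq : CC (dm h i b η r μ Γ.toFun) (L ×ˢ Icc (-1:ℝ) 1) := CC.ds hPcon hz hp hn hρ hR
  refine CC.pi hPcon fun j => ?_
  by_cases hj : j = i
  · subst hj
    refine ((CC.const b hPcon).add hdq).congr fun q _ => ?_
    simp only [ym, Function.update_self]
  · refine ((hh.comp hc hcC).apply j).congr fun q _ => ?_
    simp only [ym, Function.update_of_ne hj]

/-! ### Pointwise facts -/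

/-- the three cases: position of the inserted point -/
structure Fcm (C : Set E) (h : E → Fin n → ℝ) (i : Fin n) (b η r : ℝ) (μ : (Fin n → ℝ) → ℝ)
    (Γ : E × ℝ → E) (q : E × ℝ) : Prop where
  mem : cm h r μ Γ q ∈ C
  pos : 0 < rm h r μ q → 0 < h (cm h r μ Γ q) i - b ∧ dm h i b η r μ Γ q =
    br η (μ (h (cm h r μ Γ q))) (h (cm h r μ Γ q) i - b)
  neg : rm h r μ q < 0 → h (cm h r μ Γ q) i - b < 0 ∧ dm h i b η r μ Γ q =
    - br η (μ (h (cm h r μ Γ q))) (-(h (cm h r μ Γ q) i - b))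
  zero : rm h r μ q = 0 → cm h r μ Γ q = q.1 ∧ dm h i b η r μ Γ q = q.2 / r ∧
    |q.2 / r| ≤ μ (h q.1)

theorem fcm (hr : 0 < r) (hμ : Thk i η μ) (hrμ : ∀ y, r * μ y ≤ 1 / 2)
    (hΓ : SCht C h i b L N Γ) {q : E × ℝ}
    (hq : q ∈ L ×ˢ Icc (-1:ℝ) 1) : Fcm C h i b η r μ Γ.toFun q := by
  have m0 := rm_mem (h := h) (r := r) (μ := μ) hq.2
  have hz0 := hμ.nonneg (h q.1)
  have hz1 := hμ.le (h q.1)
  have hs0 : 0 ≤ r * μ (h q.1) := mul_nonneg hr.le hz0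
  have hs1 : r * μ (h q.1) ≤ 1 / 2 := hrμ _
  refine ⟨hΓ.sub (Γ.mapsTo (x := (q.1, rm h r μ q)) ⟨hq.1, m0⟩), ?_, ?_, ?_⟩
  · intro hρ
    have h1 : μ (h q.1) ≤ q.2 / r := by
      rw [le_div_iff₀ hr, mul_comm]
      exact (lt_of_ph_pos hs0 hs1 hρ).le
    have h2 : Γ.toFun (q.1, min (rm h r μ q) 0) = q.1 := by
      rw [min_eq_right hρ.le]; exact hΓ.zero _ hq.1
    have h3 : 0 < h (cm h r μ Γ.toFun q) i - b := by
      have := hΓ.pos q.1 hq.1 _ m0 hρ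
      exact sub_pos.2 this
    refine ⟨h3, ?_⟩
    rw [dm, h2, ds_pos hz0 hz1 h3 h1 rfl, max_eq_left hρ.le]
    rfl
  · intro hρ
    have h1 : q.2 / r ≤ - μ (h q.1) := by
      have := lt_of_ph_neg hs0 hs1 hρ
      rw [div_le_iff₀ hr]
      linarith
    have h2 : Γ.toFun (q.1, max (rm h r μ q) 0) = q.1 := by
      rw [max_eq_right hρ.le]; exact hΓ.zero _ hq.1
    have h3 : h (cm h r μ Γ.toFun q) i - b < 0 := by
      have := hΓ.neg q.1 hq.1 _ m0 hρ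
      exact sub_neg.2 this
    refine ⟨h3, ?_⟩
    rw [dm, h2, ds_neg hz0 hz1 h3 h1 rfl, min_eq_left hρ.le]
    rfl
  · intro hρ
    have h1 : |q.2 / r| ≤ μ (h q.1) := by
      have h0 : |q.2| ≤ r * μ (h q.1) := (ph_zero_iff hs0 hs1).1 hρ
      rw [abs_div, abs_of_pos hr, div_le_iff₀ hr]
      linarith
    have h2 : cm h r μ Γ.toFun q = q.1 := by
      rw [cm, hρ]; exact hΓ.zero _ hq.1
    refine ⟨h2, ?_, h1⟩
    rw [dm, h2, hρ, max_self, min_self, hΓ.zero _ hq.1, hΓ.eq _ hq.1, sub_self]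
    exact ds_zero h1

omit [NormedAddCommGroup E] [NormedSpace ℝ E] in
theorem mu_ym (hμ : Thk i η μ) (Γ : E × ℝ → E) (q : E × ℝ) :
    μ (ym h i b η r μ Γ q) = μ (h (cm h r μ Γ q)) := hμ.indep _ _

omit [NormedAddCommGroup E] [NormedSpace ℝ E] in
theorem ym_self (Γ : E × ℝ → E) (q : E × ℝ) : ym h i b η r μ Γ q i = b + dm h i b η r μ Γ q :=
  Function.update_self _ _ _

/-- the collapse of the inserted point -/
theorem kap_ym (hr : 0 < r) (hμ : Thk i η μ) (hrμ : ∀ y, r * μ y ≤ 1 / 2)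
    (hΓ : SCht C h i b L N Γ) {q : E × ℝ}
    (hq : q ∈ L ×ˢ Icc (-1:ℝ) 1) :
    kap i b η μ (ym h i b η r μ Γ.toFun q) = h (cm h r μ Γ.toFun q) := by
  have hf := fcm hr hμ hrμ hΓ hq
  have key : ph η (μ (h (cm h r μ Γ.toFun q))) (dm h i b η r μ Γ.toFun q) =
      h (cm h r μ Γ.toFun q) i - b := by
    rcases lt_trichotomy (rm h r μ q) 0 with hρ | hρ | hρ
    · obtain ⟨h1, h2⟩ := hf.neg hρ
      rw [h2, ph_neg, ph_br (hμ.nonneg _) (hμ.le _) (by linarith)]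
      ring
    · obtain ⟨h1, h2, h3⟩ := hf.zero hρ
      rw [h1, h2, hΓ.eq _ hq.1, sub_self]
      exact (ph_zero_iff (hμ.nonneg _) (hμ.le _)).2 h3
    · obtain ⟨h1, h2⟩ := hf.pos hρ
      rw [h2, ph_br (hμ.nonneg _) (hμ.le _) h1]
  unfold kap
  rw [mu_ym hμ, ym_self, add_sub_cancel_left, key, add_sub_cancel, ym, Function.update_idem,
    Function.update_eq_self]

theorem ym_injOn (hr : 0 < r) (hμ : Thk i η μ) (hrμ : ∀ y, r * μ y ≤ 1 / 2)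
    (hΓ : SCht C h i b L N Γ) (hinj : InjOn h C) :
    InjOn (ym h i b η r μ Γ.toFun) (L ×ˢ Icc (-1:ℝ) 1) := by
  intro q hq q' hq' he
  have hf := fcm hr hμ hrμ hΓ hq
  have hf' := fcm hr hμ hrμ hΓ hq'
  have hs0 : ∀ q : E × ℝ, 0 ≤ r * μ (h q.1) := fun q => mul_nonneg hr.le (hμ.nonneg _)
  have h1 : cm h r μ Γ.toFun q = cm h r μ Γ.toFun q' := by
    apply hinj hf.mem hf'.mem
    rw [← kap_ym hr hμ hrμ hΓ hq, he, kap_ym hr hμ hrμ hΓ hq']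
  have e1 : ((q.1, rm h r μ q) : E × ℝ) ∈ L ×ˢ Icc (-1:ℝ) 1 := ⟨hq.1, rm_mem hq.2⟩
  have e2 : ((q'.1, rm h r μ q') : E × ℝ) ∈ L ×ˢ Icc (-1:ℝ) 1 := ⟨hq'.1, rm_mem hq'.2⟩
  have h2 : ((q.1, rm h r μ q) : E × ℝ) = (q'.1, rm h r μ q') := Γ.injOn e1 e2 h1
  obtain ⟨h3, h5⟩ := Prod.mk.inj h2
  have h6 : q.2 = q'.2 := by
    rcases lt_trichotomy (rm h r μ q) 0 with hρ | hρ | hρ
    · -- invert the branch
      have key : ∀ q : E × ℝ, rm h r μ q < 0 →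
          q.2 = - br 1 (r * μ (h q.1)) (- rm h r μ q) := by
        intro q hρ
        have h8 := br_ph (hs0 q) (hrμ _) (lt_of_ph_neg (hs0 q) (hrμ _) hρ)
        rw [ph_neg] at h8
        unfold rm
        linarith
      rw [key q hρ, key q' (h5 ▸ hρ), h5, h3]
    · obtain ⟨-, h7, -⟩ := hf.zero hρ
      obtain ⟨-, h8, -⟩ := hf'.zero (h5 ▸ hρ)
      have h9 : q.2 / r = q'.2 / r := by
        rw [← h7, ← h8]
        have := congrFun he i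
        rw [ym_self, ym_self] at this
        linarith
      have := hr.ne'
      field_simp at h9
      exact h9
    · have key : ∀ q : E × ℝ, 0 < rm h r μ q →
          q.2 = br 1 (r * μ (h q.1)) (rm h r μ q) := by
        intro q hρ
        exact (br_ph (hs0 q) (hrμ _) (lt_of_ph_pos (hs0 q) (hrμ _) hρ)).symm
      rw [key q hρ, key q' (h5 ▸ hρ), h5, h3]
  exact Prod.ext h3 h6

/-- every point over `N` is attained -/
theorem exists_ym (hr : 0 < r) (hμ : Thk i η μ) (hrμ : ∀ y, r * μ y ≤ 1 / 2)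
    (hΓ : SCht C h i b L N Γ) {y : Fin n → ℝ} {x : E}
    (hx : x ∈ N) (hy : kap i b η μ y = h x) :
    ∃ q ∈ L ×ˢ Icc (-1:ℝ) 1, ym h i b η r μ Γ.toFun q = y ∧ cm h r μ Γ.toFun q = x := by
  obtain ⟨⟨z, τ⟩, ⟨hz, hτ⟩, rfl⟩ : x ∈ Γ.toFun '' (L ×ˢ Icc (-1:ℝ) 1) := by
    rw [Γ.image_eq]; exact hx
  simp only at hz hτ
  have hμy : μ y = μ (h (Γ.toFun (z, τ))) := by
    rw [← hy]; exact (hμ.indep _ _).symm
  have hyi : ph η (μ y) (y i - b) = h (Γ.toFun (z, τ)) i - b := by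
    have := congrFun hy i
    rw [kap_self] at this
    linarith
  have hs0 : 0 ≤ r * μ (h z) := mul_nonneg hr.le (hμ.nonneg _)
  have hs1 : r * μ (h z) ≤ 1 / 2 := hrμ _
  have hfin : ∀ s ∈ Icc (-1:ℝ) 1, rm h r μ (z, s) = τ →
      dm h i b η r μ Γ.toFun (z, s) = y i - b → ∃ q ∈ L ×ˢ Icc (-1:ℝ) 1,
        ym h i b η r μ Γ.toFun q = y ∧ cm h r μ Γ.toFun q = Γ.toFun (z, τ) := by
    intro s hs h1 h2
    have h3 : cm h r μ Γ.toFun (z, s) = Γ.toFun (z, τ) := by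
      rw [cm, h1]
    refine ⟨(z, s), ⟨hz, hs⟩, ?_, h3⟩
    rw [ym, h3, h2, add_sub_cancel, ← hy, kap, Function.update_idem, Function.update_eq_self]
  -- the branch in the domain
  have hbr : ∀ t : ℝ, 0 < t → t ≤ 1 → 0 ≤ br 1 (r * μ (h z)) t ∧ br 1 (r * μ (h z)) t ≤ 1 := by
    intro t h1 h2
    refine ⟨h1.le.trans (le_max_left _ _), max_le h2 ((min_le_right _ _).trans (by linarith))⟩
  rcases lt_trichotomy τ 0 with ht | ht | ht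
  · -- negative side
    obtain ⟨hR0, hR1⟩ := hbr (-τ) (by linarith) (by linarith [hτ.1])
    set R := br 1 (r * μ (h z)) (-τ) with hR
    have hs : -R ∈ Icc (-1:ℝ) 1 := ⟨by linarith, by linarith⟩
    have h1 : rm h r μ (z, -R) = τ := by
      unfold rm
      simp only
      rw [ph_neg, hR, ph_br hs0 hs1 (by linarith)]
      ring
    refine hfin _ hs h1 ?_
    have hf := fcm hr hμ hrμ hΓ (q := (z, -R)) ⟨hz, hs⟩
    have h3 : cm h r μ Γ.toFun (z, -R) = Γ.toFun (z, τ) := by rw [cm, h1]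
    obtain ⟨h4, h5⟩ := hf.neg (by rw [h1]; exact ht)
    rw [h5, h3, ← hμy]
    rw [h3] at h4
    have hlt : μ y < -(y i - b) := lt_of_ph_neg (hμ.nonneg _) (hμ.le _) (by rw [hyi]; exact h4)
    have h8 := br_ph (η := η) (hμ.nonneg y) (hμ.le y) hlt
    rw [ph_neg, hyi] at h8
    rw [h8]; ring
  · subst ht
    have hzz : Γ.toFun (z, 0) = z := hΓ.zero z hz
    rw [hzz] at hμy hyi
    rw [hΓ.eq z hz, sub_self] at hyi
    have h1 : |y i - b| ≤ μ y := (ph_zero_iff (hμ.nonneg _) (hμ.le _)).1 hyi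
    have h1' : |r * (y i - b)| ≤ r * μ (h z) := by
      rw [abs_mul, abs_of_pos hr, ← hμy]
      exact mul_le_mul_of_nonneg_left h1 hr.le
    obtain ⟨h2, h3⟩ := abs_le.1 h1'
    have hs : r * (y i - b) ∈ Icc (-1:ℝ) 1 := ⟨by linarith, by linarith⟩
    have h4 : rm h r μ (z, r * (y i - b)) = 0 := by
      unfold rm
      simp only
      exact (ph_zero_iff hs0 hs1).2 h1'
    refine hfin _ hs h4 ?_
    have hf := fcm hr hμ hrμ hΓ (q := (z, r * (y i - b))) ⟨hz, hs⟩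
    rw [(hf.zero h4).2.1]
    exact mul_div_cancel_left₀ _ hr.ne'
  · obtain ⟨hR0, hR1⟩ := hbr τ ht hτ.2
    set R := br 1 (r * μ (h z)) τ with hR
    have hs : R ∈ Icc (-1:ℝ) 1 := ⟨by linarith, hR1⟩
    have h1 : rm h r μ (z, R) = τ := by
      unfold rm
      simp only
      rw [hR, ph_br hs0 hs1 ht]
    refine hfin _ hs h1 ?_
    have hf := fcm hr hμ hrμ hΓ (q := (z, R)) ⟨hz, hs⟩
    have h3 : cm h r μ Γ.toFun (z, R) = Γ.toFun (z, τ) := by rw [cm, h1]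
    obtain ⟨h4, h5⟩ := hf.pos (by rw [h1]; exact ht)
    rw [h5, h3, ← hμy]
    rw [h3] at h4
    have hlt : μ y < y i - b := lt_of_ph_pos (hμ.nonneg _) (hμ.le _) (by rw [hyi]; exact h4)
    have h8 := br_ph (η := η) (hμ.nonneg y) (hμ.le y) hlt
    rw [hyi] at h8
    exact h8

theorem le_br {η m ρ : ℝ} (hm : m ≤ η / 2) (hρ : 0 < ρ) : m ≤ br η m ρ :=
  (le_min (by linarith) (by linarith)).trans (le_max_right _ _)

/-- above the flat part -/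
theorem ym_ge (hr : 0 < r) (hμ : Thk i η μ) (hrμ : ∀ y, r * μ y ≤ 1 / 2)
    (hΓ : SCht C h i b L N Γ) {q : E × ℝ} (hq : q ∈ L ×ˢ Icc (-1:ℝ) 1)
    (hs : r * μ (h q.1) ≤ q.2) :
    μ (ym h i b η r μ Γ.toFun q) ≤ ym h i b η r μ Γ.toFun q i - b := by
  have hf := fcm hr hμ hrμ hΓ hq
  have hs0 : 0 ≤ r * μ (h q.1) := mul_nonneg hr.le (hμ.nonneg _)
  have hs1 : r * μ (h q.1) ≤ 1 / 2 := hrμ _
  rw [mu_ym hμ, ym_self, add_sub_cancel_left]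
  rcases hs.lt_or_eq with h1 | h1
  · obtain ⟨h2, h3⟩ := hf.pos (ph_pos hs0 h1)
    rw [h3]
    exact le_br (hμ.le _) h2
  · have h0 : rm h r μ q = 0 :=
      (ph_zero_iff hs0 hs1).2 (by rw [← h1, abs_of_nonneg hs0])
    obtain ⟨h2, h3, -⟩ := hf.zero h0
    rw [h3, h2, ← h1, mul_div_cancel_left₀ _ hr.ne']

/-- below the flat part -/
theorem ym_le (hr : 0 < r) (hμ : Thk i η μ) (hrμ : ∀ y, r * μ y ≤ 1 / 2)
    (hΓ : SCht C h i b L N Γ) {q : E × ℝ} (hq : q ∈ L ×ˢ Icc (-1:ℝ) 1)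
    (hs : q.2 ≤ -(r * μ (h q.1))) :
    ym h i b η r μ Γ.toFun q i - b ≤ - μ (ym h i b η r μ Γ.toFun q) := by
  have hf := fcm hr hμ hrμ hΓ hq
  have hs0 : 0 ≤ r * μ (h q.1) := mul_nonneg hr.le (hμ.nonneg _)
  have hs1 : r * μ (h q.1) ≤ 1 / 2 := hrμ _
  rw [mu_ym hμ, ym_self, add_sub_cancel_left]
  rcases hs.lt_or_eq with h1 | h1
  · have h4 : rm h r μ q < 0 := by
      have := ph_pos (η := 1) hs0 (show r * μ (h q.1) < -q.2 by linarith)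
      rw [ph_neg] at this
      unfold rm
      linarith
    obtain ⟨h2, h3⟩ := hf.neg h4
    rw [h3]
    have := le_br (hμ.le (h (cm h r μ Γ.toFun q))) (show 0 < -(h (cm h r μ Γ.toFun q) i - b) by
      linarith)
    linarith
  · have h0 : rm h r μ q = 0 :=
      (ph_zero_iff hs0 hs1).2 (by rw [h1, abs_neg, abs_of_nonneg hs0])
    obtain ⟨h2, h3, -⟩ := hf.zero h0
    rw [h3, h2, h1, neg_div, mul_div_cancel_left₀ _ hr.ne']

/-- on the flat part -/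
theorem ym_flat (hr : 0 < r) (hμ : Thk i η μ) (hrμ : ∀ y, r * μ y ≤ 1 / 2)
    (hΓ : SCht C h i b L N Γ) {q : E × ℝ} (hq : q ∈ L ×ˢ Icc (-1:ℝ) 1)
    (hs : |q.2| ≤ r * μ (h q.1)) :
    ym h i b η r μ Γ.toFun q = Function.update (h q.1) i (b + q.2 / r) := by
  have hf := fcm hr hμ hrμ hΓ hq
  have hs0 : 0 ≤ r * μ (h q.1) := mul_nonneg hr.le (hμ.nonneg _)
  have hs1 : r * μ (h q.1) ≤ 1 / 2 := hrμ _
  obtain ⟨h2, h3, -⟩ := hf.zero ((ph_zero_iff hs0 hs1).2 hs)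
  rw [ym, h2, h3]

end band

end P073.H399
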