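import Vale.Agent.P073.H399.PassM

/-!
# P073, H399: **[PASS-SIGN]**, finitely many slots on a compact set, free scales of the source

`C` is covered by `A` (no slot is active there) and by the pairwise disjoint neighbourhoods `N j` of
pieces of the levels, with sign charts.
-/

open Set Metric Topology Filter

namespace P073.H399

open P073 P073.TR P073.H936 P073.H345

variable {E : Type*} [NormedAddCommGroup E] [NormedSpace ℝ E] {n : ℕ}

/-- **[PASS-SIGN]** with free scales of the source; `Φ` and the collapse in formulas. -/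
theorem exists_passMy {J ι : Type*} [Finite J] {C A : Set E} {h : E → Fin n → ℝ} {M : ι → Set E}
    (hC : IsCompact C) (hh : CC h C) (hinj : InjOn h C)
    {i : J → Fin n} {b η r : J → ℝ} {μ : J → (Fin n → ℝ) → ℝ} (hr : ∀ j, 0 < r j)
    (hμ : ∀ j, Thk (i j) (η j) (μ j)) (hrμ : ∀ j y, r j * μ j y ≤ 1 / 2) {L N : J → Set E}
    {Γ : ∀ j, ConHomeo (L j ×ˢ Icc (-1:ℝ) 1) (N j)}
    (hΓ : ∀ j, SCht C h (i j) (b j) (L j) (N j) (Γ j))
    (hM : ∀ j m, ∀ z ∈ L j, ∀ s ∈ Icc (-1:ℝ) 1, ((Γ j).toFun (z, s) ∈ M m ↔ z ∈ M m))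
    (hdis : ∀ j j', j ≠ j' → Disjoint (N j) (N j'))
    (hA : IsClosed A) (hAcon : ConicalSet A) (hAC : A ⊆ C) (hcov : C ⊆ A ∪ ⋃ j, N j)
    (hAN : ∀ j, ∀ z ∈ L j, ∀ s ∈ Icc (-1:ℝ) 1, (Γ j).toFun (z, s) ∈ A →
      s = 1 ∨ s = -1 ∨ μ j (h z) = 0)
    {κ : (Fin n → ℝ) → Fin n → ℝ}
    (hκN : ∀ j y, (κ y ∈ h '' N j ∨ kap (i j) (b j) (η j) (μ j) y ∈ h '' N j) →
      κ y = kap (i j) (b j) (η j) (μ j) y)
    (hκA : ∀ y, (κ y ∈ h '' A ∨ y ∈ h '' A) → κ y = y) :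
    ∃ (Φ : ConHomeo C (κ ⁻¹' (h '' C))) (γ : E → E), PassedD C h κ M Φ γ ∧
      (∀ x ∈ A, Φ.toFun x = h x ∧ γ x = x) ∧
      (∀ j, ∀ q ∈ L j ×ˢ Icc (-1:ℝ) 1,
        γ ((Γ j).toFun q) = cm h (r j) (μ j) (Γ j).toFun q ∧
        Φ.toFun ((Γ j).toFun q) = ym h (i j) (b j) (η j) (r j) (μ j) (Γ j).toFun q) := by
  classical
  have hPc : ∀ j, IsCompact (L j ×ˢ Icc (-1:ℝ) 1) := fun j => (hΓ j).cpt.prod isCompact_Icc
  have hNc : ∀ j, IsCompact (N j) := fun j => (Γ j).isCompact_right (hPc j)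
  have hAcpt : IsCompact A := hC.of_isClosed_subset hA hAC
  -- the pieces
  have hYex : ∀ j, ∃ Y : ConHomeo (L j ×ˢ Icc (-1:ℝ) 1)
      (ym h (i j) (b j) (η j) (r j) (μ j) (Γ j).toFun '' (L j ×ˢ Icc (-1:ℝ) 1)),
      Y.toFun = ym h (i j) (b j) (η j) (r j) (μ j) (Γ j).toFun := fun j =>
    ⟨ConHomeo.ofCompact (hPc j) _ (ym_cc hh (hμ j) (hΓ j)).cont
      (ym_injOn (hr j) (hμ j) (hrμ j) (hΓ j) hinj) (ym_cc hh (hμ j) (hΓ j)).con rfl,
      ConHomeo.ofCompact_toFun _ _ _ _ _ _⟩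
  choose Y hY using hYex
  obtain ⟨H, hH⟩ : ∃ H : ConHomeo A (h '' A), H.toFun = h :=
    ⟨ConHomeo.ofCompact hAcpt h (hh.cont.mono hAC) (hinj.mono hAC) (hh.con.mono hAcon hAC) rfl,
      ConHomeo.ofCompact_toFun _ _ _ _ _ _⟩
  -- the family
  let X : Option J → Set E := fun o => Option.elim o A N
  let Z : Option J → Set (Fin n → ℝ) := fun o => Option.elim o (h '' A)
    fun j => ym h (i j) (b j) (η j) (r j) (μ j) (Γ j).toFun '' (L j ×ˢ Icc (-1:ℝ) 1)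
  let G : ∀ o, ConHomeo (X o) (Z o) := fun o => match o with
    | none => H
    | some j => (Γ j).symm.trans (Y j)
  have hG0 : ∀ x, (G none).toFun x = h x := fun x => by
    show H.toFun x = h x; rw [hH]
  have hGs : ∀ j, ∀ q ∈ L j ×ˢ Icc (-1:ℝ) 1, (G (some j)).toFun ((Γ j).toFun q) =
      ym h (i j) (b j) (η j) (r j) (μ j) (Γ j).toFun q := by
    intro j q hq
    show (Y j).toFun ((Γ j).invFun ((Γ j).toFun q)) = _
    rw [(Γ j).left_inv hq, hY]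
  -- the relation between `κ` and the pieces
  have hκs : ∀ j, ∀ q ∈ L j ×ˢ Icc (-1:ℝ) 1,
      κ (ym h (i j) (b j) (η j) (r j) (μ j) (Γ j).toFun q) = h (cm h (r j) (μ j) (Γ j).toFun q) := by
    intro j q hq
    have h1 := kap_ym (hr j) (hμ j) (hrμ j) (hΓ j) hq
    rw [hκN j _ (Or.inr ?_), h1]
    rw [h1]
    exact ⟨_, (Γ j).mapsTo (x := (q.1, rm h (r j) (μ j) q))
      ⟨hq.1, rm_mem hq.2⟩, rfl⟩
  have hend : ∀ j, ∀ q ∈ L j ×ˢ Icc (-1:ℝ) 1, (Γ j).toFun q ∈ A →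
      ym h (i j) (b j) (η j) (r j) (μ j) (Γ j).toFun q = h ((Γ j).toFun q) ∧
      cm h (r j) (μ j) (Γ j).toFun q = (Γ j).toFun q := by
    rintro j ⟨z, s⟩ ⟨hz, hs⟩ hx
    simp only at hz hs
    have h1 : rm h (r j) (μ j) (z, s) = s := by
      unfold rm
      simp only
      rcases hAN j z hz s hs hx with h2 | h2 | h2
      · subst h2; exact ph_of_abs_ge one_pos (by norm_num)
      · subst h2; exact ph_of_abs_ge one_pos (by norm_num)
      · rw [h2, mul_zero]; exact ph_zero_right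
    have h2 : cm h (r j) (μ j) (Γ j).toFun (z, s) = (Γ j).toFun (z, s) := by
      rw [cm, h1]
    refine ⟨?_, h2⟩
    have h3 := hκs j (z, s) ⟨hz, hs⟩
    rw [h2] at h3
    have h4 := hκA _ (Or.inl (by rw [h3]; exact ⟨_, hx, rfl⟩))
    rw [← h3]; exact h4.symm
  have hXcl : ∀ o, IsClosed (X o) := fun o => match o with
    | none => hA
    | some j => (hNc j).isClosed
  have hZcl : ∀ o, IsClosed (Z o) := fun o => match o with
    | none => (H.isCompact_right hAcpt).isClosed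
    | some j => ((Y j).isCompact_right (hPc j)).isClosed
  have hag : ∀ o o', EqOn (G o).toFun (G o').toFun (X o ∩ X o') := by
    have key : ∀ j, ∀ x ∈ A ∩ N j, (G none).toFun x = (G (some j)).toFun x := by
      rintro j x ⟨hxA, hxN⟩
      obtain ⟨q, hq, rfl⟩ : x ∈ (Γ j).toFun '' (L j ×ˢ Icc (-1:ℝ) 1) := by
        rw [(Γ j).image_eq]; exact hxN
      rw [hG0, hGs j q hq, (hend j q hq hxA).1]
    rintro (_ | j) (_ | j') x hx
    · rfl
    · exact key j' x hx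
    · exact (key j x hx.symm).symm
    · by_cases hjj : j = j'
      · subst hjj; rfl
      · exact absurd hx.2 (Set.disjoint_left.1 (hdis j j' hjj) hx.1)
  -- the images
  have hZN : ∀ j, Z (some j) = κ ⁻¹' (h '' N j) := by
    intro j
    ext y
    constructor
    · rintro ⟨q, hq, rfl⟩
      rw [mem_preimage, hκs j q hq]
      exact ⟨_, (Γ j).mapsTo (x := (q.1, rm h (r j) (μ j) q))
        ⟨hq.1, rm_mem hq.2⟩, rfl⟩
    · rintro ⟨x, hx, hxy⟩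
      have h1 : kap (i j) (b j) (η j) (μ j) y = h x := by
        rw [← hκN j y (Or.inl ⟨x, hx, hxy⟩), hxy]
      obtain ⟨q, hq, he, -⟩ := exists_ym (hr j) (hμ j) (hrμ j) (hΓ j) hx h1
      exact ⟨q, hq, he⟩
  have hZA : Z none = κ ⁻¹' (h '' A) := by
    ext y
    constructor
    · intro hy
      show κ y ∈ h '' A
      rw [hκA y (Or.inr hy)]; exact hy
    · intro hy
      have h1 := hκA y (Or.inl hy)
      have h2 : κ y ∈ h '' A := hy
      rw [h1] at h2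
      exact h2
  have hZκ : ∀ o, Z o = κ ⁻¹' (h '' X o) := fun o => match o with
    | none => hZA
    | some j => hZN j
  have hXC : ∀ o, X o ⊆ C := fun o => match o with
    | none => hAC
    | some j => (hΓ j).sub
  have himg : ∀ o o', Z o ∩ Z o' ⊆ (G o).toFun '' (X o ∩ X o') := by
    have key : ∀ j, ∀ x, x ∈ A → x ∈ N j → ∀ y, κ y = h x →
        (G none).toFun x = y ∧ (G (some j)).toFun x = y := by
      intro j x hxA hxN y hxy
      have h1 := hκA y (Or.inl ⟨x, hxA, hxy.symm⟩)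
      have h2 : (G none).toFun x = y := by rw [hG0, ← hxy, h1]
      exact ⟨h2, by rw [← hag none (some j) ⟨hxA, hxN⟩, h2]⟩
    intro o o' y hy
    have h1 := hy.1
    have h2 := hy.2
    rw [hZκ] at h1 h2
    obtain ⟨x, hx, hxy⟩ := h1
    obtain ⟨x', hx', hxy'⟩ := h2
    have he : x' = x := hinj (hXC _ hx') (hXC _ hx) (hxy'.trans hxy.symm)
    subst he
    rcases o with _ | j <;> rcases o' with _ | j'
    · rw [inter_self, (G none).image_eq]; exact hy.1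
    · exact ⟨x', ⟨hx, hx'⟩, (key j' x' hx hx' y hxy.symm).1⟩
    · exact ⟨x', ⟨hx, hx'⟩, (key j x' hx' hx y hxy.symm).2⟩
    · by_cases hjj : j = j'
      · subst hjj
        rw [inter_self, (G (some j)).image_eq]; exact hy.1
      · exact absurd hx' (Set.disjoint_left.1 (hdis j j' hjj) hx)
  obtain ⟨Φ₀, hΦ₀⟩ := ConHomeo.exists_glue_family (RelLF.of_finite hXcl) (RelLF.of_finite hZcl) G
    hag himg
  have hX : ⋃ o, X o = C := by
    apply Subset.antisymm (iUnion_subset hXC)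
    intro x hx
    rcases hcov hx with h1 | h1
    · exact mem_iUnion.2 ⟨none, h1⟩
    · obtain ⟨j, hj⟩ := mem_iUnion.1 h1
      exact mem_iUnion.2 ⟨some j, hj⟩
  have hZZ : ⋃ o, Z o = κ ⁻¹' (h '' C) := by
    rw [← hX, image_iUnion, preimage_iUnion]
    exact iUnion_congr hZκ
  have hΦA : ∀ x ∈ A, (Φ₀.cast hX hZZ).toFun x = h x := by
    intro x hx
    rw [ConHomeo.cast_toFun, (hΦ₀ none).1 (show x ∈ X none from hx), hG0]
  have hΦN : ∀ j, ∀ q ∈ L j ×ˢ Icc (-1:ℝ) 1, (Φ₀.cast hX hZZ).toFun ((Γ j).toFun q) =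
      ym h (i j) (b j) (η j) (r j) (μ j) (Γ j).toFun q := by
    intro j q hq
    rw [ConHomeo.cast_toFun, (hΦ₀ (some j)).1 (show (Γ j).toFun q ∈ X (some j) from
      (Γ j).mapsTo hq), hGs j q hq]
  -- the collapse
  have hcase : ∀ x ∈ C, x ∈ A ∨ ∃ j, ∃ q ∈ L j ×ˢ Icc (-1:ℝ) 1, (Γ j).toFun q = x := by
    intro x hx
    rcases hcov hx with h1 | h1
    · exact Or.inl h1
    · obtain ⟨j, hj⟩ := mem_iUnion.1 h1
      right
      have : x ∈ (Γ j).toFun '' (L j ×ˢ Icc (-1:ℝ) 1) := by rw [(Γ j).image_eq]; exact hj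
      obtain ⟨q, hq, rfl⟩ := this
      exact ⟨j, q, hq, rfl⟩
  obtain ⟨γ, hγN, hγA⟩ : ∃ γ : E → E, (∀ j, ∀ q ∈ L j ×ˢ Icc (-1:ℝ) 1,
      γ ((Γ j).toFun q) = cm h (r j) (μ j) (Γ j).toFun q) ∧ ∀ x ∈ A, γ x = x := by
    refine ⟨fun x => if hx : ∃ j, x ∈ N j then
      cm h (r hx.choose) (μ hx.choose) (Γ hx.choose).toFun ((Γ hx.choose).invFun x) else x, ?_, ?_⟩
    · intro j q hq
      have hex : ∃ j', (Γ j).toFun q ∈ N j' := ⟨j, (Γ j).mapsTo hq⟩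
      have hch : hex.choose = j := by
        by_contra hne
        exact Set.disjoint_left.1 (hdis _ _ hne) hex.choose_spec ((Γ j).mapsTo hq)
      simp only
      rw [dif_pos hex, hch, (Γ j).left_inv hq]
    · intro x hx
      simp only
      split_ifs with hex
      · set j := hex.choose
        have hj : x ∈ N j := hex.choose_spec
        have h1 : (Γ j).toFun ((Γ j).invFun x) = x := (Γ j).right_inv hj
        have h2 := (hend j _ ((Γ j).mapsTo_inv hj) (by rw [h1]; exact hx)).2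
        rw [h2, h1]
      · rfl
  have hγC : MapsTo γ C C := by
    intro x hx
    rcases hcase x hx with hxA | ⟨j, q, hq, rfl⟩
    · rw [hγA x hxA]; exact hx
    · rw [hγN j q hq]; exact (fcm (hr j) (hμ j) (hrμ j) (hΓ j) hq).mem
  have heq : ∀ x ∈ C, κ ((Φ₀.cast hX hZZ).toFun x) = h (γ x) := by
    intro x hx
    rcases hcase x hx with hxA | ⟨j, q, hq, rfl⟩
    · rw [hγA x hxA, hΦA x hxA, hκA _ (Or.inr ⟨x, hxA, rfl⟩)]
    · rw [hγN j q hq, hΦN j q hq, hκs j q hq]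
  have hiff : ∀ m, ∀ x ∈ C, (γ x ∈ M m ↔ x ∈ M m) := by
    intro m x hx
    rcases hcase x hx with hxA | ⟨j, q, hq, rfl⟩
    · rw [hγA x hxA]
    · rw [hγN j q hq, cm, hM j m q.1 hq.1 _ (rm_mem hq.2), ← hM j m q.1 hq.1 q.2 hq.2]
  refine ⟨Φ₀.cast hX hZZ, γ, ⟨hγC, ?_, heq, hiff, ?_⟩, fun x hx => ⟨hΦA x hx, hγA x hx⟩, ?_⟩
  · have h1 : ∀ o, CC γ (X o) := by
      rintro (_ | j)
      · exact CC.congr ⟨continuousOn_id, conicalOn_id hAcon⟩ fun x hx => hγA x hx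
      · have h3 : CC (fun x => cm h (r j) (μ j) (Γ j).toFun ((Γ j).invFun x)) (N j) :=
          CC.comp (Y := L j ×ˢ Icc (-1:ℝ) 1) (cm_cc hh (hμ j) (hΓ j))
            ⟨(Γ j).cont_inv, (Γ j).conical_inv⟩ (Γ j).mapsTo_inv
        refine h3.congr fun x hx => ?_
        have h4 : (Γ j).toFun ((Γ j).invFun x) = x := (Γ j).right_inv hx
        have h5 := hγN j _ ((Γ j).mapsTo_inv hx)
        rw [h4] at h5
        exact h5
    rw [← hX]
    refine ⟨?_, ConicalOn.iUnion_finite (fun o => (h1 o).con) fun o x _ hcl => by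
      rwa [(hXcl o).closure_eq] at hcl⟩
    exact (locallyFinite_of_finite X).continuousOn_iUnion hXcl fun o => (h1 o).cont
  · intro m
    ext y
    constructor
    · rintro ⟨x, ⟨hxM, hxC⟩, rfl⟩
      exact ⟨γ x, ⟨(hiff m x hxC).2 hxM, hγC hxC⟩, (heq x hxC).symm⟩
    · rintro ⟨x', ⟨hxM, hxC⟩, hxy⟩
      have hy : y ∈ κ ⁻¹' (h '' C) := ⟨x', hxC, hxy⟩
      rw [← (Φ₀.cast hX hZZ).image_eq] at hy
      obtain ⟨x, hx, rfl⟩ := hy
      rw [heq x hx] at hxy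
      have h1 : x' = γ x := hinj hxC (hγC hx) hxy
      exact ⟨x, ⟨(hiff m x hx).1 (h1 ▸ hxM), hx⟩, rfl⟩
  · exact fun j q hq => ⟨hγN j q hq, hΦN j q hq⟩

/-- **[PASS-SIGN]** with free scales `M j` of the source; `Φ` is controlled on the charts. -/
theorem exists_passM {J ι : Type*} [Finite J] {C A : Set E} {h : E → Fin n → ℝ} {M : ι → Set E}
    (hC : IsCompact C) (hh : CC h C) (hinj : InjOn h C)
    {i : J → Fin n} {b η r : J → ℝ} {μ : J → (Fin n → ℝ) → ℝ} (hr : ∀ j, 0 < r j)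
    (hμ : ∀ j, Thk (i j) (η j) (μ j)) (hrμ : ∀ j y, r j * μ j y ≤ 1 / 2) {L N : J → Set E}
    {Γ : ∀ j, ConHomeo (L j ×ˢ Icc (-1:ℝ) 1) (N j)}
    (hΓ : ∀ j, SCht C h (i j) (b j) (L j) (N j) (Γ j))
    (hM : ∀ j m, ∀ z ∈ L j, ∀ s ∈ Icc (-1:ℝ) 1, ((Γ j).toFun (z, s) ∈ M m ↔ z ∈ M m))
    (hdis : ∀ j j', j ≠ j' → Disjoint (N j) (N j'))
    (hA : IsClosed A) (hAcon : ConicalSet A) (hAC : A ⊆ C) (hcov : C ⊆ A ∪ ⋃ j, N j)
    (hAN : ∀ j, ∀ z ∈ L j, ∀ s ∈ Icc (-1:ℝ) 1, (Γ j).toFun (z, s) ∈ A →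
      s = 1 ∨ s = -1 ∨ μ j (h z) = 0)
    {κ : (Fin n → ℝ) → Fin n → ℝ}
    (hκN : ∀ j y, (κ y ∈ h '' N j ∨ kap (i j) (b j) (η j) (μ j) y ∈ h '' N j) →
      κ y = kap (i j) (b j) (η j) (μ j) y)
    (hκA : ∀ y, (κ y ∈ h '' A ∨ y ∈ h '' A) → κ y = y) :
    ∃ (Φ : ConHomeo C (κ ⁻¹' (h '' C))) (γ : E → E), PassedD C h κ M Φ γ ∧
      (∀ x ∈ A, Φ.toFun x = h x ∧ γ x = x) ∧
      (∀ j, ∀ z ∈ L j, ∀ s ∈ Icc (-1:ℝ) 1,
        γ ((Γ j).toFun (z, s)) = (Γ j).toFun (z, ph 1 (r j * μ j (h z)) s) ∧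
        (∀ l, l ≠ i j → Φ.toFun ((Γ j).toFun (z, s)) l = h (γ ((Γ j).toFun (z, s))) l) ∧
        μ j (Φ.toFun ((Γ j).toFun (z, s))) = μ j (h (γ ((Γ j).toFun (z, s)))) ∧
        (|s| ≤ r j * μ j (h z) → Φ.toFun ((Γ j).toFun (z, s)) =
          Function.update (h z) (i j) (b j + s / r j)) ∧
        (r j * μ j (h z) ≤ s → μ j (Φ.toFun ((Γ j).toFun (z, s))) ≤
          Φ.toFun ((Γ j).toFun (z, s)) (i j) - b j) ∧
        (s ≤ -(r j * μ j (h z)) → Φ.toFun ((Γ j).toFun (z, s)) (i j) - b j ≤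
          - μ j (Φ.toFun ((Γ j).toFun (z, s))))) := by
  obtain ⟨Φ, γ, hP, hA1, hN1⟩ := exists_passMy hC hh hinj hr hμ hrμ hΓ hM hdis hA hAcon hAC hcov
    hAN hκN hκA
  refine ⟨Φ, γ, hP, hA1, fun j z hz s hs => ?_⟩
  have hq : ((z, s) : E × ℝ) ∈ L j ×ˢ Icc (-1:ℝ) 1 := ⟨hz, hs⟩
  obtain ⟨h1, h2⟩ := hN1 j _ hq
  refine ⟨h1, ?_, ?_, ?_, ?_, ?_⟩
  · intro l hl
    rw [h1, h2, ym, Function.update_of_ne hl]
  · rw [h1, h2]; exact mu_ym (hμ j) _ _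
  · intro h3; rw [h2]; exact ym_flat (hr j) (hμ j) (hrμ j) (hΓ j) hq h3
  · intro h3; rw [h2]; exact ym_ge (hr j) (hμ j) (hrμ j) (hΓ j) hq h3
  · intro h3; rw [h2]; exact ym_le (hr j) (hμ j) (hrμ j) (hΓ j) hq h3

end P073.H399
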