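import Vale.Agent.P073.H399.Pass2
import Vale.Agent.P073.H880.Stage2P
import Vale.Agent.P073.H805.PlateC

/-!
# P073, H399: **[PASS2]** for a mesh and for the plates of round P

`exists_pass2_mesh`: for all small thicknesses of the two families, every face is a `PassFace` for
`κu ∘ κv`, and the fibres over the vertices are points.  `SgnB.of_plates`: the sign functions from
the output of the exchange process in the plates.
-/

open Set Metric Topology Filter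

namespace P073.H399

open P073 P073.TR P073.H936 P073.H345 P073.H236 P073.H579
open Vale.Agent.P073.H73 (Mesh)
open Vale.Agent.P073.H193 (Edges)

variable {γ τ K : Type*} {Ω Λ : Set (Fin 3 → ℝ)} {Bu Bv : γ → BX 3} {R : γ → Set (Fin 3 → ℝ)}
  {su sv : γ → (Fin 3 → ℝ) → ℝ}

/-- the preimage under the composition -/
theorem pre_eq_two {κu κv : (Fin 3 → ℝ) → Fin 3 → ℝ} (Hu : Fam Λ Bu) (Hv : Fam Λ Bv)
    (hκu : IsQ Bu κu) (hκv : IsQ Bv κv) (h : ConHomeo Ω Λ) {X : Set (Fin 3 → ℝ)} (hX : X ⊆ Ω) :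
    Pre (fun y => κu (κv y)) Λ h X = (fun y => κu (κv y)) ⁻¹' (h.toFun '' X) := by
  ext y
  refine ⟨fun h1 => h1.2, fun h1 => ⟨hκv.mem_Λ Hv (hκu.mem_Λ Hu ?_), h1⟩⟩
  obtain ⟨x, hx, hxy⟩ := h1
  have h2 : h.toFun x = κu (κv y) := hxy
  rw [← h2]
  exact h.mapsTo (hX hx)

/-- `κu` preserves the plates and the other coordinate -/
theorem isQ_plate {B : γ → BX 3} {κ : (Fin 3 → ℝ) → Fin 3 → ℝ} (hκ : IsQ B κ)
    (hRd : ∀ g g', g ≠ g' → Disjoint (R g) (R g')) (hK : ∀ g, (B g).K ⊆ R g) (g : γ)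
    (y : Fin 3 → ℝ) : (κ y ∈ R g ↔ y ∈ R g) ∧ (y ∈ R g → ∀ l, l ≠ (B g).j → κ y l = y l) := by
  by_cases h2 : ∃ g', y ∈ (B g').K
  · obtain ⟨g', hg'⟩ := h2
    have h3 : κ y ∈ R g' := hK g' (hκ.mapsK hg')
    have h4 : y ∈ R g' := hK g' hg'
    by_cases hgg : g = g'
    · subst hgg
      refine ⟨iff_of_true h3 h4, fun _ l hl => ?_⟩
      rw [hκ.on g y hg']
      exact (B g).Q_ne hl y
    · have h5 : y ∉ R g := fun h5 => Set.disjoint_left.1 (hRd g g' hgg) h5 h4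
      exact ⟨iff_of_false (fun h5 => Set.disjoint_left.1 (hRd g g' hgg) h5 h3) h5,
        fun h6 => absurd h6 h5⟩
  · push Not at h2
    rw [hκ.off y h2]
    exact ⟨Iff.rfl, fun _ _ _ => rfl⟩

/-- vertices are not on levels -/
theorem SgnB.notMem {B : γ → BX 3} {s : γ → (Fin 3 → ℝ) → ℝ} {M : τ → Set (Fin 3 → ℝ)}
    {h : (Fin 3 → ℝ) → Fin 3 → ℝ} (S : SgnB Ω h B R s M) {x : Fin 3 → ℝ} (hx : x ∈ Ω) {t : τ}
    (ht : M t = {x}) {g : γ} (hg : h x ∈ R g) {m : ℕ} (hm : m < (B g).N) :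
    h x (B g).j ≠ (B g).a m := fun h1 =>
  not_reg_singleton ht (S.reg g x hx m hm ((S.lev g x hx hg m hm).1.1 h1))

/-- **[PASS2] for a mesh** -/
theorem exists_pass2_mesh (M : Mesh Ω) (E : Edges M) (h : ConHomeo Ω Λ)
    (Hu : Fam Λ Bu) (Hv : Fam Λ Bv)
    (hRo : ∀ g, IsOpen (R g)) (hRd : ∀ g g', g ≠ g' → Disjoint (R g) (R g'))
    (hKu : ∀ g, (Bu g).K ⊆ R g) (hKv : ∀ g, (Bv g).K ⊆ R g) (hj : ∀ g, (Bu g).j ≠ (Bv g).j)
    (Su : SgnB Ω h.toFun Bu R su (fam M E)) (Sv : SgnB Ω h.toFun Bv R sv (fam M E))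
    (hpair : ∀ g, ∀ x ∈ Ω, ∀ m < (Bu g).N, ∀ m' < (Bv g).N, su g x = (Bu g).a m →
      sv g x = (Bv g).a m' → H805.Reg (fun y => (su g y, sv g y)) (fam M E) x) :
    ∃ c₀ : γ → ℝ, (∀ g, 0 < c₀ g) ∧ ∀ (cu : γ → ℝ) (h0 : ∀ g, 0 < cu g)
      (h1 : ∀ g, cu g ≤ (Bu g).c), (∀ g, cu g ≤ c₀ g) →
      ∀ κu, IsQ (fun g => thin (Bu g) (cu g) (h0 g) (h1 g)) κu →
      ∃ c₁ : γ → ℝ, (∀ g, 0 < c₁ g) ∧ ∀ (cv : γ → ℝ) (h0' : ∀ g, 0 < cv g)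
        (h1' : ∀ g, cv g ≤ (Bv g).c), (∀ g, cv g ≤ c₁ g) →
        ∀ κv, IsQ (fun g => thin (Bv g) (cv g) (h0' g) (h1' g)) κv →
          (∀ k, H880.PassFace M E h (fun y => κu (κv y)) k) ∧
          ∀ x ∈ E.verts, (Pre (fun y => κu (κv y)) Λ h {x}).Subsingleton := by
  classical
  have hFΩ : ∀ k, M.F k ⊆ Ω := Vale.Agent.P073.H193.mesh_sub M
  obtain ⟨c₀, hc₀, hmain⟩ := exists_pass2_all (K := M.κ) Hu Hv h hRo hRd hKu hKv hj Su Sv hpair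
    (F := M.F) (fun k => (Vale.Agent.P073.H193.pgn_of_fat (M.fat k)).cpt)
    (fun k => (Vale.Agent.P073.H244.conBall_face M k).conicalSet) hFΩ M.ffin
    (fun k => Sum.inl k) (fun k => rfl)
  refine ⟨c₀, hc₀, fun cu h0 h1 hcu κu hκu => ?_⟩
  obtain ⟨c₁, hc₁, hmain'⟩ := hmain cu h0 h1 hcu κu hκu
  refine ⟨c₁, hc₁, fun cv h0' h1' hcv κv hκv => ⟨fun k => ?_, fun x hx => ?_⟩⟩
  · have Hu' := Hu.thin h0 h1
    have Hv' := Hv.thin h0' h1'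
    obtain ⟨Φ, γ', P⟩ := hmain' cv h0' h1' hcv κv hκv k
    refine ⟨Φ.cast rfl (pre_eq_two Hu' Hv' hκu hκv h (hFΩ k)).symm, fun e he => ?_,
      fun x hxN hxk => ?_⟩
    · have h2 := P.img (Sum.inr (Sum.inl e))
      have h3 : fam M E (Sum.inr (Sum.inl e)) ∩ M.F k = E.seg e := inter_eq_left.2 he
      rw [h3] at h2
      rw [pre_eq_two Hu' Hv' hκu hκv h (he.trans (hFΩ k))]
      exact h2
    · show κu (κv (Φ.toFun x)) = h.toFun x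
      have h4 : κu (κv (Φ.toFun x)) = h.toFun (γ' x) := P.eq x hxk
      have h5 := (P.iff (Sum.inr (Sum.inr ⟨x, hxN⟩)) x hxk).2 rfl
      rw [h4, show γ' x = x from h5]
  · have hxΩ : x ∈ Ω := by
      obtain ⟨k, hk⟩ := exists_face_of_vert E hx
      exact hFΩ k hk
    have ht : fam M E (Sum.inr (Sum.inr ⟨x, hx⟩)) = {x} := rfl
    rintro y ⟨-, x1, hx1, hy⟩ y' ⟨-, x2, hx2, hy'⟩
    rw [mem_singleton_iff] at hx1 hx2
    subst hx1 hx2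
    have hy1 : κu (κv y) = h.toFun x2 := hy.symm
    have hy2 : κu (κv y') = h.toFun x2 := hy'.symm
    have e1 : κv y = κv y' := hκu.inj_off (Hu.thin h0 h1) hy1 hy2 fun g hg m hm =>
      Su.notMem hxΩ ht (hKu g hg) hm
    refine hκv.inj_off (Hv.thin h0' h1') (w := κv y) rfl e1.symm fun g hg m hm h3 => ?_
    have h4 : κv y ∈ R g := hKv g hg
    obtain ⟨h5, h6⟩ := isQ_plate hκu hRd hKu g (κv y)
    have h7 : h.toFun x2 ∈ R g := by rw [← hy1]; exact h5.2 h4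
    refine Sv.notMem hxΩ ht h7 hm ?_
    rw [← hy1, h6 h4 (Bv g).j (hj g).symm]
    exact h3

/-! ### the sign functions of the plates -/

open H805 in
/-- swap of a joint flow box -/
theorem reg_swap {E : Type*} [NormedAddCommGroup E] [NormedSpace ℝ E] {u v : E → ℝ}
    {M : τ → Set E} {x : E} (h : Reg (fun y => (u y, v y)) M x) :
    Reg (fun y => (v y, u y)) M x := by
  obtain ⟨σ, r, h⟩ := h
  refine ⟨σ ∘ₗ (LinearMap.prod (LinearMap.snd ℝ ℝ ℝ) (LinearMap.fst ℝ ℝ ℝ)), r, h.pos,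
    fun w s hw hs => ?_, fun k w s hw hs => ?_⟩
  · have hs' : ‖((s.2, s.1) : ℝ × ℝ)‖ < r := by
      rw [Prod.norm_def] at hs ⊢
      rwa [max_comm]
    have h1 := h.add w (s.2, s.1) hw hs'
    have e1 := congrArg Prod.fst h1
    have e2 := congrArg Prod.snd h1
    exact Prod.ext e2 e1
  · have hs' : ‖((s.2, s.1) : ℝ × ℝ)‖ < r := by
      rw [Prod.norm_def] at hs ⊢
      rwa [max_comm]
    exact h.iff k w (s.2, s.1) hw hs'

open H805 in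
/-- the sign functions of the first direction -/
theorem SgnB.of_plates_i {Γ γ : Type} {h h' : ConHomeo Ω Λ} {G : Γ → Set (Fin 3 → ℝ)}
    {P : γ → Plate} {R : γ → Set (Fin 3 → ℝ)} {u v : γ → (Fin 3 → ℝ) → ℝ}
    (hP : ∀ c, PReg h h' G P c (u c) (v c))
    (hbox : ∀ d, ∀ x ∈ Ω, h'.toFun x ∈ Icc (P d).lo (P d).hi ↔ h.toFun x ∈ Icc (P d).lo (P d).hi)
    (hRP : ∀ c d, d ≠ c → Disjoint (R c) (Icc (P d).lo (P d).hi)) {B : γ → BX 3}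
    (hBj : ∀ c, (B c).j = (P c).i) (hBa : ∀ c, ∀ m < (B c).N, (B c).a m ∈ (P c).a)
    {M : τ → Set (Fin 3 → ℝ)} (hM : ∀ t, ∃ g, M t = G g) : SgnB Ω h'.toFun B R u M where
  cc := fun c => ⟨(hP c).contu, (hP c).conu⟩
  lev := fun c x hx hxR m hm => by
    have h1 : x ∈ {x | x ∈ Ω ∧ ∀ d, d ≠ c → h.toFun x ∉ interior (Icc (P d).lo (P d).hi)} :=
      ⟨hx, fun d hd h2 => Set.disjoint_left.1 (hRP c d hd) hxR
        ((hbox d x hx).2 (interior_subset h2))⟩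
    have := (hP c).su _ (hBa c m hm) x h1
    simp only at this
    rw [hBj c]
    exact this
  reg := fun c x hx m hm hxm => ((hP c).regu x hx (hxm ▸ hBa c m hm)).reindex fun t => by
    obtain ⟨g, hg⟩ := hM t
    exact ⟨Sum.inl g, hg⟩

open H805 in
/-- the sign functions of the second direction -/
theorem SgnB.of_plates_j {Γ γ : Type} {h h' : ConHomeo Ω Λ} {G : Γ → Set (Fin 3 → ℝ)}
    {P : γ → Plate} {R : γ → Set (Fin 3 → ℝ)} {u v : γ → (Fin 3 → ℝ) → ℝ}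
    (hP : ∀ c, PReg h h' G P c (u c) (v c))
    (hbox : ∀ d, ∀ x ∈ Ω, h'.toFun x ∈ Icc (P d).lo (P d).hi ↔ h.toFun x ∈ Icc (P d).lo (P d).hi)
    (hRP : ∀ c d, d ≠ c → Disjoint (R c) (Icc (P d).lo (P d).hi)) {B : γ → BX 3}
    (hBj : ∀ c, (B c).j = (P c).j) (hBa : ∀ c, ∀ m < (B c).N, (B c).a m ∈ (P c).b)
    {M : τ → Set (Fin 3 → ℝ)} (hM : ∀ t, ∃ g, M t = G g) : SgnB Ω h'.toFun B R v M where
  cc := fun c => ⟨(hP c).contv, (hP c).conv⟩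
  lev := fun c x hx hxR m hm => by
    have h1 : x ∈ {x | x ∈ Ω ∧ ∀ d, d ≠ c → h.toFun x ∉ interior (Icc (P d).lo (P d).hi)} :=
      ⟨hx, fun d hd h2 => Set.disjoint_left.1 (hRP c d hd) hxR
        ((hbox d x hx).2 (interior_subset h2))⟩
    have := (hP c).sv _ (hBa c m hm) x h1
    simp only at this
    rw [hBj c]
    exact this
  reg := fun c x hx m hm hxm => ((hP c).regv x hx (hxm ▸ hBa c m hm)).reindex fun t => by
    obtain ⟨g, hg⟩ := hM t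
    exact ⟨Sum.inl g, hg⟩

open H805 in
/-- **the output of the exchange process in the plates gives the input of [PASS2]**; the outer
map is in the direction `P.j`, the inner one in the direction `P.i` -/
theorem exists_pass2_plates {Γ γ : Type} (M : Mesh Ω) (E : Edges M) {h h' : ConHomeo Ω Λ}
    {G : Γ → Set (Fin 3 → ℝ)} {P : γ → Plate} {R : γ → Set (Fin 3 → ℝ)}
    (hreg : ∀ c, ∃ u v : (Fin 3 → ℝ) → ℝ, PReg h h' G P c u v)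
    (hbox : ∀ d, ∀ x ∈ Ω, h'.toFun x ∈ Icc (P d).lo (P d).hi ↔ h.toFun x ∈ Icc (P d).lo (P d).hi)
    (hM : ∀ t, ∃ g, fam M E t = G g)
    (hRo : ∀ g, IsOpen (R g)) (hRd : ∀ g g', g ≠ g' → Disjoint (R g) (R g'))
    (hRP : ∀ c d, d ≠ c → Disjoint (R c) (Icc (P d).lo (P d).hi))
    {B₀ B₁ : γ → BX 3} (H₀ : Fam Λ B₀) (H₁ : Fam Λ B₁)
    (hK₀ : ∀ g, (B₀ g).K ⊆ R g) (hK₁ : ∀ g, (B₁ g).K ⊆ R g)
    (hj₀ : ∀ c, (B₀ c).j = (P c).i) (hj₁ : ∀ c, (B₁ c).j = (P c).j)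
    (hij : ∀ c, (P c).i ≠ (P c).j)
    (ha₀ : ∀ c, ∀ m < (B₀ c).N, (B₀ c).a m ∈ (P c).a)
    (ha₁ : ∀ c, ∀ m < (B₁ c).N, (B₁ c).a m ∈ (P c).b) :
    ∃ c₁ : γ → ℝ, (∀ g, 0 < c₁ g) ∧ ∀ (d₁ : γ → ℝ) (h0 : ∀ g, 0 < d₁ g)
      (h1 : ∀ g, d₁ g ≤ (B₁ g).c), (∀ g, d₁ g ≤ c₁ g) →
      ∀ κ₁, IsQ (fun g => thin (B₁ g) (d₁ g) (h0 g) (h1 g)) κ₁ →
      ∃ c₀ : γ → ℝ, (∀ g, 0 < c₀ g) ∧ ∀ (d₀ : γ → ℝ) (h0' : ∀ g, 0 < d₀ g)
        (h1' : ∀ g, d₀ g ≤ (B₀ g).c), (∀ g, d₀ g ≤ c₀ g) →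
        ∀ κ₀, IsQ (fun g => thin (B₀ g) (d₀ g) (h0' g) (h1' g)) κ₀ →
          (∀ k, H880.PassFace M E h' (fun y => κ₁ (κ₀ y)) k) ∧
          ∀ x ∈ E.verts, (Pre (fun y => κ₁ (κ₀ y)) Λ h' {x}).Subsingleton := by
  choose u v hP using hreg
  refine exists_pass2_mesh (su := v) (sv := u) M E h' H₁ H₀ hRo hRd hK₁ hK₀
    (fun g => by rw [hj₀, hj₁]; exact (hij g).symm)
    (SgnB.of_plates_j hP hbox hRP hj₁ ha₁ hM) (SgnB.of_plates_i hP hbox hRP hj₀ ha₀ hM) ?_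
  intro g x hx m hm m' hm' h1 h2
  exact reg_swap (((hP g).reguv x hx (h2 ▸ ha₀ g m' hm') (h1 ▸ ha₁ g m hm)).reindex fun t => by
    obtain ⟨g, hg⟩ := hM t
    exact ⟨Sum.inl g, hg⟩)

end P073.H399
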