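import Vale.Agent.P073.H345.PassD

/-!
# P073, H399: **[PASS-SIGN]**, insertion of a band of variable thickness at a level with a sign chart

The same as `H345.exists_passed`, but the chart of the band is only compatible with the signs of
`h i - b` (`SCht`), not with the values.  This is the situation after the exchange process: the
level sets and the sides are those of a regular function, the values in between are not controlled.
-/

open Set Metric Topology Filter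

namespace P073.H399

open P073 P073.TR P073.H936 P073.H345

/-! ### one-dimensional maps -/

/-- the inverse branch of `ph` -/
noncomputable def br (η m ρ : ℝ) : ℝ := max ρ (min (ρ + m) ((ρ + η) / 2))

theorem br_zero {η m : ℝ} (h0 : 0 ≤ m) (hm : m ≤ η / 2) : br η m 0 = m := by
  unfold br
  rw [zero_add, zero_add, min_eq_left hm, max_eq_right h0]

theorem ph_br {η m ρ : ℝ} (h0 : 0 ≤ m) (hm : m ≤ η / 2) (hρ : 0 < ρ) :
    ph η m (br η m ρ) = ρ := by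
  have hη : 0 ≤ η := by linarith
  unfold br
  rcases le_total ρ η with h | h
  · rw [max_eq_right (le_min (by linarith) (by linarith))]
    exact ph_branch h0 hρ h
  · rw [max_eq_left ((min_le_right _ _).trans (by linarith))]
    rw [ph_of_nonneg hρ.le]
    exact min_eq_left ((le_trans (by linarith) (le_max_right (ρ - m) _)).trans (le_max_right _ _))

theorem br_ph {η m r : ℝ} (h0 : 0 ≤ m) (hm : m ≤ η / 2) (hr : m < r) :
    br η m (ph η m r) = r := by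
  have hr0 : 0 < r := lt_of_le_of_lt h0 hr
  rcases le_total r η with h | h
  · have h1 := branch_ph h0 hm hr h
    have h2 : ph η m r ≤ r := ph_le hr0.le
    unfold br
    rw [h1, max_eq_right h2]
  · have h1 : ph η m r = r := by
      rw [ph_of_nonneg hr0.le]
      exact min_eq_left ((le_trans (by linarith) (le_max_right (r - m) _)).trans (le_max_right _ _))
    unfold br
    rw [h1, max_eq_left ((min_le_right _ _).trans (by linarith))]

theorem lt_of_ph_pos {η m r : ℝ} (h0 : 0 ≤ m) (hm : m ≤ η / 2) (h : 0 < ph η m r) : m < r := by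
  by_contra hc
  push Not at hc
  rcases le_total (-m) r with h1 | h1
  · have := (ph_zero_iff h0 hm).2 (abs_le.2 ⟨h1, hc⟩)
    linarith
  · have := ph_nonneg (η := η) (m := m) (r := -r) (by linarith)
    rw [ph_neg] at this
    linarith

theorem lt_of_ph_neg {η m r : ℝ} (h0 : 0 ≤ m) (hm : m ≤ η / 2) (h : ph η m r < 0) : m < -r := by
  refine lt_of_ph_pos h0 hm ?_
  rw [ph_neg]; linarith

/-- the inserted coordinate -/
noncomputable def ds (η mz mp mn ρ R : ℝ) : ℝ :=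
  max (-mz) (min mz R) + br η mp (max ρ 0) - br η mn (max (-ρ) 0)

theorem ds_pos {η mz mp mn ρ R : ℝ} (h0 : 0 ≤ mz) (hm : mz ≤ η / 2) (hρ : 0 < ρ) (hR : mz ≤ R)
    (hn : mn = mz) : ds η mz mp mn ρ R = br η mp ρ := by
  unfold ds
  rw [hn, max_eq_left hρ.le, max_eq_right (by linarith : -ρ ≤ 0), br_zero h0 hm,
    min_eq_left hR, max_eq_right (by linarith)]
  ring

theorem ds_neg {η mz mp mn ρ R : ℝ} (h0 : 0 ≤ mz) (hm : mz ≤ η / 2) (hρ : ρ < 0) (hR : R ≤ -mz)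
    (hp : mp = mz) : ds η mz mp mn ρ R = -br η mn (-ρ) := by
  unfold ds
  rw [hp, max_eq_right hρ.le, max_eq_left (by linarith : (0:ℝ) ≤ -ρ), br_zero h0 hm,
    min_eq_right (by linarith : R ≤ mz), max_eq_left hR]
  ring

theorem ds_zero {η mz R : ℝ} (hR : |R| ≤ mz) :
    ds η mz mz mz 0 R = R := by
  unfold ds
  obtain ⟨h1, h2⟩ := abs_le.1 hR
  rw [min_eq_right h2, max_eq_right h1, neg_zero, max_self]
  ring

variable {E F : Type*} [NormedAddCommGroup E] [NormedSpace ℝ E] [NormedAddCommGroup F]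
  [NormedSpace ℝ F] {n : ℕ}

theorem CC.br {f g : E → ℝ} {η : ℝ} {X : Set E} (hX : ConicalSet X) (hf : CC f X) (hg : CC g X) :
    CC (fun x => H399.br η (f x) (g x)) X :=
  hg.max ((hg.add hf).min ((hg.add (CC.const η hX)).div_right 2))

theorem CC.ds {a b c d e : E → ℝ} {η : ℝ} {X : Set E} (hX : ConicalSet X) (ha : CC a X)
    (hb : CC b X) (hc : CC c X) (hd : CC d X) (he : CC e X) :
    CC (fun x => H399.ds η (a x) (b x) (c x) (d x) (e x)) X := by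
  have h0 : CC (fun _ : E => (0:ℝ)) X := CC.const 0 hX
  exact ((ha.neg.max (ha.min he)).add (CC.br hX hb (hd.max h0))).sub
    (CC.br hX hc (hd.neg.max h0))

section band

variable {C L N : Set E} {h : E → Fin n → ℝ} {i : Fin n} {b η : ℝ} {μ : (Fin n → ℝ) → ℝ}

/-- **sign chart** of a neighbourhood `N` of the part `L` of the level `{h i = b}` -/
structure SCht (C : Set E) (h : E → Fin n → ℝ) (i : Fin n) (b : ℝ) (L N : Set E)
    (Γ : ConHomeo (L ×ˢ Icc (-1:ℝ) 1) N) : Prop where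
  con : ConicalSet L
  cpt : IsCompact L
  sub : N ⊆ C
  eq : ∀ z ∈ L, h z i = b
  zero : ∀ z ∈ L, Γ.toFun (z, 0) = z
  pos : ∀ z ∈ L, ∀ s ∈ Icc (-1:ℝ) 1, 0 < s → b < h (Γ.toFun (z, s)) i
  neg : ∀ z ∈ L, ∀ s ∈ Icc (-1:ℝ) 1, s < 0 → h (Γ.toFun (z, s)) i < b

/-- the inserted coordinate -/
noncomputable def dqs (h : E → Fin n → ℝ) (i : Fin n) (b η : ℝ) (μ : (Fin n → ℝ) → ℝ)
    (Γ : E × ℝ → E) (q : E × ℝ) : ℝ :=
  ds η (μ (h q.1)) (μ (h (Γ (q.1, max (rr h η μ q) 0 / η))))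
    (μ (h (Γ (q.1, min (rr h η μ q) 0 / η)))) (h (cc h η μ Γ q) i - b) (η * q.2)

/-- the inserted map on the product -/
noncomputable def yys (h : E → Fin n → ℝ) (i : Fin n) (b η : ℝ) (μ : (Fin n → ℝ) → ℝ)
    (Γ : E × ℝ → E) (q : E × ℝ) : Fin n → ℝ :=
  Function.update (h (cc h η μ Γ q)) i (b + dqs h i b η μ Γ q)

variable {Γ : ConHomeo (L ×ˢ Icc (-1:ℝ) 1) N}

theorem SCht.mem (hΓ : SCht C h i b L N Γ) {z : E} (hz : z ∈ L) : z ∈ N := by
  have := Γ.mapsTo (x := (z, 0)) ⟨hz, by norm_num⟩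
  rwa [hΓ.zero z hz] at this

/-- the collapse on the product is continuous and conical -/
theorem ccs_cc (hη : 0 < η) (hh : CC h C) (hμ : Thk i η μ) (hΓ : SCht C h i b L N Γ) :
    CC (cc h η μ Γ.toFun) (L ×ˢ Icc (-1:ℝ) 1) := by
  have hPcon : ConicalSet (L ×ˢ Icc (-1:ℝ) 1) := conicalSet_prod_Icc hΓ.con _ _
  have hfst : CC (fun q : E × ℝ => q.1) (L ×ˢ Icc (-1:ℝ) 1) :=
    ⟨continuous_fst.continuousOn, conicalOn_linear (LinearMap.fst ℝ E ℝ) hPcon⟩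
  have hsnd : CC (fun q : E × ℝ => q.2) (L ×ˢ Icc (-1:ℝ) 1) :=
    ⟨continuous_snd.continuousOn, conicalOn_linear (LinearMap.snd ℝ E ℝ) hPcon⟩
  have hz : CC (fun q : E × ℝ => μ (h q.1)) (L ×ˢ Icc (-1:ℝ) 1) :=
    hμ.cc.comp (hh.comp hfst fun q hq => hΓ.sub (hΓ.mem hq.1)) (mapsTo_univ _ _)
  have hrr : CC (rr h η μ) (L ×ˢ Icc (-1:ℝ) 1) := CC.ph hPcon hz (hsnd.mul_left η)
  have key : CC (fun q : E × ℝ => Γ.toFun (q.1, rr h η μ q / η)) (L ×ˢ Icc (-1:ℝ) 1) :=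
    CC.comp (Y := L ×ˢ Icc (-1:ℝ) 1) Γ.cc (hfst.prodMk (hrr.div_right η))
      fun q hq => ⟨hq.1, rr_div_mem hη hq.2⟩
  exact key

/-- the map on the product is continuous and conical -/
theorem yys_cc (hη : 0 < η) (hh : CC h C) (hμ : Thk i η μ) (hΓ : SCht C h i b L N Γ) :
    CC (yys h i b η μ Γ.toFun) (L ×ˢ Icc (-1:ℝ) 1) := by
  have hPcon : ConicalSet (L ×ˢ Icc (-1:ℝ) 1) := conicalSet_prod_Icc hΓ.con _ _
  have hfst : CC (fun q : E × ℝ => q.1) (L ×ˢ Icc (-1:ℝ) 1) :=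
    ⟨continuous_fst.continuousOn, conicalOn_linear (LinearMap.fst ℝ E ℝ) hPcon⟩
  have hsnd : CC (fun q : E × ℝ => q.2) (L ×ˢ Icc (-1:ℝ) 1) :=
    ⟨continuous_snd.continuousOn, conicalOn_linear (LinearMap.snd ℝ E ℝ) hPcon⟩
  have hμh : ∀ {f : E × ℝ → E}, CC f (L ×ˢ Icc (-1:ℝ) 1) → MapsTo f (L ×ˢ Icc (-1:ℝ) 1) C →
      CC (fun q => μ (h (f q))) (L ×ˢ Icc (-1:ℝ) 1) :=
    fun hf hm => hμ.cc.comp (hh.comp hf hm) (mapsTo_univ _ _)
  have hz : CC (fun q : E × ℝ => μ (h q.1)) (L ×ˢ Icc (-1:ℝ) 1) :=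
    hμh hfst fun q hq => hΓ.sub (hΓ.mem hq.1)
  have hR : CC (fun q : E × ℝ => η * q.2) (L ×ˢ Icc (-1:ℝ) 1) := hsnd.mul_left η
  have hrr : CC (rr h η μ) (L ×ˢ Icc (-1:ℝ) 1) := CC.ph hPcon hz hR
  have h0 : CC (fun _ : E × ℝ => (0:ℝ)) (L ×ˢ Icc (-1:ℝ) 1) := CC.const 0 hPcon
  have hG : ∀ {t : E × ℝ → ℝ}, CC t (L ×ˢ Icc (-1:ℝ) 1) →
      (∀ q ∈ L ×ˢ Icc (-1:ℝ) 1, t q ∈ Icc (-1:ℝ) 1) →
      CC (fun q => Γ.toFun (q.1, t q)) (L ×ˢ Icc (-1:ℝ) 1) := fun ht hm =>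
    CC.comp (Y := L ×ˢ Icc (-1:ℝ) 1) Γ.cc (hfst.prodMk ht) fun q hq => ⟨hq.1, hm q hq⟩
  have hGC : ∀ {t : E × ℝ → ℝ}, (∀ q ∈ L ×ˢ Icc (-1:ℝ) 1, t q ∈ Icc (-1:ℝ) 1) →
      MapsTo (fun q : E × ℝ => Γ.toFun (q.1, t q)) (L ×ˢ Icc (-1:ℝ) 1) C := fun {t} hm q hq =>
    hΓ.sub (Γ.mapsTo (x := (q.1, t q)) ⟨hq.1, hm q hq⟩)
  have m0 : ∀ q ∈ L ×ˢ Icc (-1:ℝ) 1, rr h η μ q / η ∈ Icc (-1:ℝ) 1 :=
    fun q hq => rr_div_mem hη hq.2
  have m1 : ∀ q ∈ L ×ˢ Icc (-1:ℝ) 1, max (rr h η μ q) 0 / η ∈ Icc (-1:ℝ) 1 :=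
    fun q hq => maxrr_div_mem hη hq.2
  have m2 : ∀ q ∈ L ×ˢ Icc (-1:ℝ) 1, min (rr h η μ q) 0 / η ∈ Icc (-1:ℝ) 1 :=
    fun q hq => minrr_div_mem hη hq.2
  have hc : CC (cc h η μ Γ.toFun) (L ×ˢ Icc (-1:ℝ) 1) := hG (hrr.div_right η) m0
  have hcC : MapsTo (cc h η μ Γ.toFun) (L ×ˢ Icc (-1:ℝ) 1) C := hGC m0
  have hp : CC (fun q => μ (h (Γ.toFun (q.1, max (rr h η μ q) 0 / η)))) (L ×ˢ Icc (-1:ℝ) 1) :=
    hμh (hG ((hrr.max h0).div_right η) m1) (hGC m1)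
  have hn : CC (fun q => μ (h (Γ.toFun (q.1, min (rr h η μ q) 0 / η)))) (L ×ˢ Icc (-1:ℝ) 1) :=
    hμh (hG ((hrr.min h0).div_right η) m2) (hGC m2)
  have hρ : CC (fun q => h (cc h η μ Γ.toFun q) i - b) (L ×ˢ Icc (-1:ℝ) 1) :=
    ((hh.comp hc hcC).apply i).sub (CC.const b hPcon)
  have hdq : CC (dqs h i b η μ Γ.toFun) (L ×ˢ Icc (-1:ℝ) 1) := CC.ds hPcon hz hp hn hρ hR
  refine CC.pi hPcon fun j => ?_
  by_cases hj : j = i
  · subst hj
    refine ((CC.const b hPcon).add hdq).congr fun q _ => ?_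
    simp only [yys, Function.update_self]
  · refine ((hh.comp hc hcC).apply j).congr fun q _ => ?_
    simp only [yys, Function.update_of_ne hj]

/-! ### Pointwise facts -/

/-- the three cases: position of the inserted point -/
structure Fcs (C : Set E) (h : E → Fin n → ℝ) (i : Fin n) (b η : ℝ) (μ : (Fin n → ℝ) → ℝ)
    (Γ : E × ℝ → E) (q : E × ℝ) : Prop where
  mem : cc h η μ Γ q ∈ C
  pos : 0 < rr h η μ q → 0 < h (cc h η μ Γ q) i - b ∧ dqs h i b η μ Γ q =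
    br η (μ (h (cc h η μ Γ q))) (h (cc h η μ Γ q) i - b)
  neg : rr h η μ q < 0 → h (cc h η μ Γ q) i - b < 0 ∧ dqs h i b η μ Γ q =
    - br η (μ (h (cc h η μ Γ q))) (-(h (cc h η μ Γ q) i - b))
  zero : rr h η μ q = 0 → cc h η μ Γ q = q.1 ∧ dqs h i b η μ Γ q = η * q.2 ∧
    |η * q.2| ≤ μ (h q.1)

theorem fcs (hη : 0 < η) (hμ : Thk i η μ) (hΓ : SCht C h i b L N Γ) {q : E × ℝ}
    (hq : q ∈ L ×ˢ Icc (-1:ℝ) 1) : Fcs C h i b η μ Γ.toFun q := by
  have m0 := rr_div_mem (h := h) (μ := μ) hη hq.2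
  have hz0 := hμ.nonneg (h q.1)
  have hz1 := hμ.le (h q.1)
  refine ⟨hΓ.sub (Γ.mapsTo (x := (q.1, rr h η μ q / η)) ⟨hq.1, m0⟩), ?_, ?_, ?_⟩
  · intro hρ
    have h1 : μ (h q.1) ≤ η * q.2 := (lt_of_ph_pos hz0 hz1 hρ).le
    have h2 : Γ.toFun (q.1, min (rr h η μ q) 0 / η) = q.1 := by
      rw [min_eq_right hρ.le, zero_div]; exact hΓ.zero _ hq.1
    have h3 : 0 < h (cc h η μ Γ.toFun q) i - b := by
      have := hΓ.pos q.1 hq.1 _ m0 (div_pos hρ hη)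
      exact sub_pos.2 this
    refine ⟨h3, ?_⟩
    rw [dqs, h2, ds_pos hz0 hz1 h3 h1 rfl, max_eq_left hρ.le]
    rfl
  · intro hρ
    have h1 : η * q.2 ≤ - μ (h q.1) := by
      have := lt_of_ph_neg hz0 hz1 hρ
      linarith
    have h2 : Γ.toFun (q.1, max (rr h η μ q) 0 / η) = q.1 := by
      rw [max_eq_right hρ.le, zero_div]; exact hΓ.zero _ hq.1
    have h3 : h (cc h η μ Γ.toFun q) i - b < 0 := by
      have := hΓ.neg q.1 hq.1 _ m0 (div_neg_of_neg_of_pos hρ hη)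
      exact sub_neg.2 this
    refine ⟨h3, ?_⟩
    rw [dqs, h2, ds_neg hz0 hz1 h3 h1 rfl, min_eq_left hρ.le]
    rfl
  · intro hρ
    have h1 : |η * q.2| ≤ μ (h q.1) := (ph_zero_iff hz0 hz1).1 hρ
    have h2 : cc h η μ Γ.toFun q = q.1 := by
      rw [cc, hρ, zero_div]; exact hΓ.zero _ hq.1
    refine ⟨h2, ?_, h1⟩
    rw [dqs, h2, hρ, max_self, min_self, zero_div, hΓ.zero _ hq.1, hΓ.eq _ hq.1, sub_self]
    exact ds_zero h1

omit [NormedAddCommGroup E] [NormedSpace ℝ E] in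
theorem mu_yys (hμ : Thk i η μ) (Γ : E × ℝ → E) (q : E × ℝ) :
    μ (yys h i b η μ Γ q) = μ (h (cc h η μ Γ q)) := hμ.indep _ _

omit [NormedAddCommGroup E] [NormedSpace ℝ E] in
theorem yys_self (Γ : E × ℝ → E) (q : E × ℝ) : yys h i b η μ Γ q i = b + dqs h i b η μ Γ q :=
  Function.update_self _ _ _

/-- the collapse of the inserted point -/
theorem kap_yys (hη : 0 < η) (hμ : Thk i η μ) (hΓ : SCht C h i b L N Γ) {q : E × ℝ}
    (hq : q ∈ L ×ˢ Icc (-1:ℝ) 1) :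
    kap i b η μ (yys h i b η μ Γ.toFun q) = h (cc h η μ Γ.toFun q) := by
  have hf := fcs hη hμ hΓ hq
  have key : ph η (μ (h (cc h η μ Γ.toFun q))) (dqs h i b η μ Γ.toFun q) =
      h (cc h η μ Γ.toFun q) i - b := by
    rcases lt_trichotomy (rr h η μ q) 0 with hρ | hρ | hρ
    · obtain ⟨h1, h2⟩ := hf.neg hρ
      rw [h2, ph_neg, ph_br (hμ.nonneg _) (hμ.le _) (by linarith)]
      ring
    · obtain ⟨h1, h2, h3⟩ := hf.zero hρ
      rw [h1, h2, hΓ.eq _ hq.1, sub_self]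
      exact (ph_zero_iff (hμ.nonneg _) (hμ.le _)).2 h3
    · obtain ⟨h1, h2⟩ := hf.pos hρ
      rw [h2, ph_br (hμ.nonneg _) (hμ.le _) h1]
  unfold kap
  rw [mu_yys hμ, yys_self, add_sub_cancel_left, key, add_sub_cancel, yys, Function.update_idem,
    Function.update_eq_self]

theorem yys_injOn (hη : 0 < η) (hμ : Thk i η μ) (hΓ : SCht C h i b L N Γ) (hinj : InjOn h C) :
    InjOn (yys h i b η μ Γ.toFun) (L ×ˢ Icc (-1:ℝ) 1) := by
  intro q hq q' hq' he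
  have hf := fcs hη hμ hΓ hq
  have hf' := fcs hη hμ hΓ hq'
  have h1 : cc h η μ Γ.toFun q = cc h η μ Γ.toFun q' := by
    apply hinj hf.mem hf'.mem
    rw [← kap_yys hη hμ hΓ hq, he, kap_yys hη hμ hΓ hq']
  have e1 : ((q.1, rr h η μ q / η) : E × ℝ) ∈ L ×ˢ Icc (-1:ℝ) 1 := ⟨hq.1, rr_div_mem hη hq.2⟩
  have e2 : ((q'.1, rr h η μ q' / η) : E × ℝ) ∈ L ×ˢ Icc (-1:ℝ) 1 := ⟨hq'.1, rr_div_mem hη hq'.2⟩
  have h2 : ((q.1, rr h η μ q / η) : E × ℝ) = (q'.1, rr h η μ q' / η) := Γ.injOn e1 e2 h1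
  obtain ⟨h3, h4⟩ := Prod.mk.inj h2
  have h5 : rr h η μ q = rr h η μ q' := by
    have := hη.ne'
    field_simp at h4
    exact h4
  have h6 : η * q.2 = η * q'.2 := by
    rcases lt_trichotomy (rr h η μ q) 0 with hρ | hρ | hρ
    · -- invert the branch
      have key : ∀ q : E × ℝ, rr h η μ q < 0 →
          η * q.2 = - br η (μ (h q.1)) (- rr h η μ q) := by
        intro q hρ
        have h8 := br_ph (hμ.nonneg (h q.1)) (hμ.le _) (lt_of_ph_neg (hμ.nonneg _) (hμ.le _) hρ)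
        rw [ph_neg] at h8
        unfold rr
        linarith
      rw [key q hρ, key q' (h5 ▸ hρ), h5, h3]
    · obtain ⟨-, h7, -⟩ := hf.zero hρ
      obtain ⟨-, h8, -⟩ := hf'.zero (h5 ▸ hρ)
      rw [← h7, ← h8]
      have := congrFun he i
      rw [yys_self, yys_self] at this
      linarith
    · have key : ∀ q : E × ℝ, 0 < rr h η μ q →
          η * q.2 = br η (μ (h q.1)) (rr h η μ q) := by
        intro q hρ
        exact (br_ph (hμ.nonneg (h q.1)) (hμ.le _)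
          (lt_of_ph_pos (hμ.nonneg _) (hμ.le _) hρ)).symm
      rw [key q hρ, key q' (h5 ▸ hρ), h5, h3]
  exact Prod.ext h3 (mul_left_cancel₀ hη.ne' h6)

/-- every point over `N` is attained -/
theorem exists_yys (hη : 0 < η) (hμ : Thk i η μ) (hΓ : SCht C h i b L N Γ) {y : Fin n → ℝ} {x : E}
    (hx : x ∈ N) (hy : kap i b η μ y = h x) :
    ∃ q ∈ L ×ˢ Icc (-1:ℝ) 1, yys h i b η μ Γ.toFun q = y ∧ cc h η μ Γ.toFun q = x := by
  obtain ⟨⟨z, τ⟩, ⟨hz, hτ⟩, rfl⟩ : x ∈ Γ.toFun '' (L ×ˢ Icc (-1:ℝ) 1) := by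
    rw [Γ.image_eq]; exact hx
  simp only at hz hτ
  have hμy : μ y = μ (h (Γ.toFun (z, τ))) := by
    rw [← hy]; exact (hμ.indep _ _).symm
  have hyi : ph η (μ y) (y i - b) = h (Γ.toFun (z, τ)) i - b := by
    have := congrFun hy i
    rw [kap_self] at this
    linarith
  have hz0 := hμ.nonneg (h z)
  have hz1 := hμ.le (h z)
  have hfin : ∀ s ∈ Icc (-1:ℝ) 1, rr h η μ (z, s) = η * τ →
      dqs h i b η μ Γ.toFun (z, s) = y i - b → ∃ q ∈ L ×ˢ Icc (-1:ℝ) 1,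
        yys h i b η μ Γ.toFun q = y ∧ cc h η μ Γ.toFun q = Γ.toFun (z, τ) := by
    intro s hs h1 h2
    have h3 : cc h η μ Γ.toFun (z, s) = Γ.toFun (z, τ) := by
      rw [cc, h1, mul_div_cancel_left₀ _ hη.ne']
    refine ⟨(z, s), ⟨hz, hs⟩, ?_, h3⟩
    rw [yys, h3, h2, add_sub_cancel, ← hy, kap, Function.update_idem, Function.update_eq_self]
  -- the branch in the domain
  have hbr : ∀ t : ℝ, 0 < t → t ≤ η → 0 ≤ br η (μ (h z)) t ∧ br η (μ (h z)) t ≤ η := by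
    intro t h1 h2
    refine ⟨h1.le.trans (le_max_left _ _), max_le h2 ((min_le_right _ _).trans (by linarith))⟩
  rcases lt_trichotomy τ 0 with ht | ht | ht
  · -- negative side
    have hητ : 0 < -(η * τ) := by have := mul_neg_of_pos_of_neg hη ht; linarith
    have hητ1 : -(η * τ) ≤ η := by nlinarith [hτ.1]
    obtain ⟨hR0, hR1⟩ := hbr _ hητ hητ1
    set R := br η (μ (h z)) (-(η * τ)) with hR
    have hs : -R / η ∈ Icc (-1:ℝ) 1 := by
      constructor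
      · rw [le_div_iff₀ hη]; linarith
      · rw [div_le_iff₀ hη]; linarith
    have h1 : rr h η μ (z, -R / η) = η * τ := by
      unfold rr
      simp only
      rw [mul_div_cancel₀ _ hη.ne', ph_neg, hR, ph_br hz0 hz1 hητ]
      ring
    refine hfin _ hs h1 ?_
    have hf := fcs hη hμ hΓ (q := (z, -R / η)) ⟨hz, hs⟩
    have h3 : cc h η μ Γ.toFun (z, -R / η) = Γ.toFun (z, τ) := by
      rw [cc, h1, mul_div_cancel_left₀ _ hη.ne']
    obtain ⟨h4, h5⟩ := hf.neg (by rw [h1]; linarith)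
    rw [h5, h3, ← hμy]
    rw [h3] at h4
    have hlt : μ y < -(y i - b) := lt_of_ph_neg (hμ.nonneg _) (hμ.le _) (by rw [hyi]; exact h4)
    have h8 := br_ph (η := η) (hμ.nonneg y) (hμ.le y) hlt
    rw [ph_neg, hyi] at h8
    rw [h8]; ring
  · subst ht
    have hzz : Γ.toFun (z, 0) = z := hΓ.zero z hz
    rw [hzz] at hμy hyi
    rw [hΓ.eq z hz, sub_self] at hyi
    have h1 : |y i - b| ≤ μ y := (ph_zero_iff (hμ.nonneg _) (hμ.le _)).1 hyi
    obtain ⟨h2, h3⟩ := abs_le.1 h1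
    have hμη := hμ.le y
    have hs : (y i - b) / η ∈ Icc (-1:ℝ) 1 := by
      constructor
      · rw [le_div_iff₀ hη]; linarith
      · rw [div_le_iff₀ hη]; linarith
    have h4 : rr h η μ (z, (y i - b) / η) = 0 := by
      unfold rr
      simp only
      rw [mul_div_cancel₀ _ hη.ne']
      exact (ph_zero_iff hz0 hz1).2 (hμy ▸ h1)
    refine hfin _ hs (by rw [h4, mul_zero]) ?_
    have hf := fcs hη hμ hΓ (q := (z, (y i - b) / η)) ⟨hz, hs⟩
    rw [(hf.zero h4).2.1]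
    exact mul_div_cancel₀ _ hη.ne'
  · have hητ : 0 < η * τ := mul_pos hη ht
    have hητ1 : η * τ ≤ η := by nlinarith [hτ.2]
    obtain ⟨hR0, hR1⟩ := hbr _ hητ hητ1
    set R := br η (μ (h z)) (η * τ) with hR
    have hs : R / η ∈ Icc (-1:ℝ) 1 := by
      constructor
      · rw [le_div_iff₀ hη]; linarith
      · rw [div_le_iff₀ hη]; linarith
    have h1 : rr h η μ (z, R / η) = η * τ := by
      unfold rr
      simp only
      rw [mul_div_cancel₀ _ hη.ne', hR, ph_br hz0 hz1 hητ]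
    refine hfin _ hs h1 ?_
    have hf := fcs hη hμ hΓ (q := (z, R / η)) ⟨hz, hs⟩
    have h3 : cc h η μ Γ.toFun (z, R / η) = Γ.toFun (z, τ) := by
      rw [cc, h1, mul_div_cancel_left₀ _ hη.ne']
    obtain ⟨h4, h5⟩ := hf.pos (by rw [h1]; exact hητ)
    rw [h5, h3, ← hμy]
    rw [h3] at h4
    have hlt : μ y < y i - b := lt_of_ph_pos (hμ.nonneg _) (hμ.le _) (by rw [hyi]; exact h4)
    have h8 := br_ph (η := η) (hμ.nonneg y) (hμ.le y) hlt
    rw [hyi] at h8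
    exact h8

end band

end P073.H399
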