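import Vale.Agent.P073.H399.PassS2
import Vale.Agent.P073.H926.Cut
import Vale.Agent.P073.H341.Mid

/-!
# P073, H399: **[PASS-V]**, insertion of bands near a compact subset of a passive face

`C` is a passive face, `K ⊆ C` the part which is in the thick set.  The slots are `(i j, b j)`; the
level sets and the sides of `h (i j)` are those of a regular function `u j`.  If the thicknesses
`μ j` are supported near `h K ∩ {y (i j) = b j}`, then every map `κ` which is locally one of the maps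
`kap` has a good lift on `C`.
-/

open Set Metric Topology Filter

namespace P073.H399

open P073 P073.TR P073.H936 P073.H345 P073.H926

variable {E : Type*} [NormedAddCommGroup E] [NormedSpace ℝ E] {n : ℕ}

theorem conicalSet_le {f : E → ℝ} {X : Set E} (hf : CC f X) (t : ℝ) :
    ConicalSet {x | x ∈ X ∧ f x ≤ t} := by
  rintro x ⟨hx, hxt⟩
  obtain ⟨r, hr, H⟩ := hf.con x hx
  refine ⟨r, hr, fun v hv hxv s hs => ?_⟩
  obtain ⟨h1, h2⟩ := H v hv hxv.1 s hs
  refine ⟨h1, ?_⟩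
  rw [smul_eq_mul] at h2
  have h3 := hxv.2
  nlinarith [hs.1, hs.2]

theorem conicalSet_ge {f : E → ℝ} {X : Set E} (hf : CC f X) (t : ℝ) :
    ConicalSet {x | x ∈ X ∧ t ≤ f x} := by
  have h1 := conicalSet_le hf.neg (-t)
  have h2 : {x | x ∈ X ∧ -f x ≤ -t} = {x | x ∈ X ∧ t ≤ f x} := by
    ext x; simp only [mem_ofPred_eq, neg_le_neg_iff]
  rwa [h2] at h1

omit [NormedSpace ℝ E] in
theorem isClosed_sep {f : E → ℝ} {X : Set E} (hX : IsClosed X) (hf : ContinuousOn f X) {s : Set ℝ}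
    (hs : IsClosed s) : IsClosed {x | x ∈ X ∧ f x ∈ s} :=
  hf.preimage_isClosed_of_isClosed hX hs

theorem conicalSet_iInter {J : Type*} [Finite J] {C : Set E} (hC : ConicalSet C) {A : J → Set E}
    (hA : ∀ j, ConicalSet (A j)) : ConicalSet {x | x ∈ C ∧ ∀ j, x ∈ A j} := by
  classical
  rintro x ⟨hx, hxA⟩
  choose r hr H using fun j => hA j x (hxA j)
  obtain ⟨r₀, hr₀, H₀⟩ := hC x hx
  obtain ⟨c, hc, hle⟩ : ∃ c : ℝ, 0 < c ∧ ∀ j, c ≤ r j := by
    by_cases hne : Nonempty J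
    · obtain ⟨j₀, hmin⟩ := Finite.exists_min r
      exact ⟨r j₀, hr _, hmin⟩
    · exact ⟨1, one_pos, fun j => absurd ⟨j⟩ hne⟩
  refine ⟨min c r₀, lt_min hc hr₀, fun v hv hxv t ht => ⟨H₀ v (hv.trans (min_le_right _ _)) hxv.1 t ht,
    fun j => H j v ((hv.trans (min_le_left _ _)).trans (hle j)) (hxv.2 j) t ht⟩⟩

theorem exists_disj {J X : Type*} [Finite J] [PseudoMetricSpace X] (L : J → Set X)
    (hc : ∀ j, IsCompact (L j)) (hcl : ∀ j, IsClosed (L j))
    (hd : ∀ j j', j ≠ j' → Disjoint (L j) (L j')) :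
    ∃ δ : ℝ, 0 < δ ∧ ∀ j j', j ≠ j' → Disjoint (cthickening δ (L j)) (cthickening δ (L j')) := by
  classical
  have key : ∀ j j', ∃ δ : ℝ, 0 < δ ∧ (j ≠ j' →
      Disjoint (cthickening δ (L j)) (cthickening δ (L j'))) := by
    intro j j'
    by_cases hjj : j = j'
    · exact ⟨1, one_pos, fun h => absurd hjj h⟩
    obtain ⟨δ, hδ, h1⟩ := (hd j j' hjj).exists_cthickenings (hc j) (hcl j')
    exact ⟨δ, hδ, fun _ => h1⟩
  choose δ hδ h1 using key
  by_cases hne : Nonempty J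
  · obtain ⟨⟨j₀, j₁⟩, hmin⟩ := Finite.exists_min (fun p : J × J => δ p.1 p.2)
    exact ⟨δ j₀ j₁, hδ _ _, fun j j' hjj => (h1 j j' hjj).mono
      (cthickening_mono (hmin (j, j')) _) (cthickening_mono (hmin (j, j')) _)⟩
  · exact ⟨1, one_pos, fun j => absurd ⟨j⟩ hne⟩

omit [NormedSpace ℝ E] in
/-- points near `h X` and near the level do not project into `P` -/
theorem exists_off {X : Set E} {h : E → Fin n → ℝ} (hX : IsCompact X) (hh : ContinuousOn h X)
    {P : Set (Fin n → ℝ)} (hP : IsClosed P) {i : Fin n} {b : ℝ}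
    (hno : ∀ x ∈ X, h x i = b → h x ∉ P) :
    ∃ η₀ : ℝ, 0 < η₀ ∧ ∀ x ∈ X, ∀ y, ‖y - h x‖ ≤ η₀ → |y i - b| ≤ η₀ → pr i b y ∉ P := by
  by_contra hcon
  push Not at hcon
  have h1 : ∀ m : ℕ, ∃ x ∈ X, ∃ y, ‖y - h x‖ ≤ 1 / ((m : ℝ) + 1) ∧ |y i - b| ≤ 1 / ((m : ℝ) + 1) ∧
      pr i b y ∈ P := by
    intro m
    obtain ⟨x, hx, y, a1, a2, a3⟩ := hcon (1 / ((m : ℝ) + 1)) (by positivity)
    exact ⟨x, hx, y, a1, a2, a3⟩
  choose x hx y a1 a2 a3 using h1
  have hS : IsCompact (h '' X) := hX.image_of_continuousOn hh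
  obtain ⟨w, ⟨x', hx', rfl⟩, φ, hφ, hlim⟩ := hS.tendsto_subseq fun m => mem_image_of_mem h (hx m)
  have hlim0 : Tendsto (fun m : ℕ => (1 : ℝ) / ((φ m : ℝ) + 1)) atTop (𝓝 0) :=
    tendsto_one_div_add_atTop_nhds_zero_nat.comp hφ.tendsto_atTop
  have hy : Tendsto (fun m => y (φ m)) atTop (𝓝 (h x')) := by
    have h2 : Tendsto (fun m => y (φ m) - h (x (φ m))) atTop (𝓝 0) :=
      squeeze_zero_norm (fun m => a1 (φ m)) hlim0
    have h3 := h2.add hlim
    rw [zero_add] at h3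
    refine h3.congr fun m => ?_
    simp
  have hyi : Tendsto (fun m => y (φ m) i - b) atTop (𝓝 0) :=
    squeeze_zero_norm (fun m => by rw [Real.norm_eq_abs]; exact a2 (φ m)) hlim0
  have hyi' : Tendsto (fun m => y (φ m) i) atTop (𝓝 b) := by
    have := hyi.add_const b
    rw [zero_add] at this
    exact this.congr fun m => by ring
  have e1 : h x' i = b := tendsto_nhds_unique (((continuous_apply i).tendsto _).comp hy) hyi'
  have hpr : Tendsto (fun m => pr i b (y (φ m))) atTop (𝓝 (h x')) := by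
    have h4 : pr i b (h x') = h x' := by
      show Function.update (h x') i b = h x'
      rw [← e1, Function.update_eq_self]
    have h5 : Continuous (pr i b : (Fin n → ℝ) → Fin n → ℝ) := by
      show Continuous fun y : Fin n → ℝ => Function.update y i b
      exact continuous_id.update i continuous_const
    have h6 := (h5.tendsto (h x')).comp hy
    rwa [h4] at h6
  have h7 : h x' ∈ P := hP.mem_of_tendsto hpr (Eventually.of_forall fun m => a3 (φ m))
  exact hno x' hx' e1 h7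

/-- the slot is active at `y` -/
def Actv (i : Fin n) (b η : ℝ) (μ : (Fin n → ℝ) → ℝ) (y : Fin n → ℝ) : Prop :=
  |y i - b| < η ∧ μ y ≠ 0

theorem kap_of_not_actv {i : Fin n} {b η : ℝ} {μ : (Fin n → ℝ) → ℝ} {y : Fin n → ℝ} (hη : 0 < η)
    (h : ¬ Actv i b η μ y) : H345.kap i b η μ y = y := by
  by_cases h1 : μ y = 0
  · exact kap_eq_self_of_zero h1
  · have h2 : ¬ |y i - b| < η := fun h2 => h ⟨h2, h1⟩
    exact kap_eq_self_of_far hη (not_lt.1 h2)

theorem norm_kap_sub_le {i : Fin n} {b η : ℝ} {μ : (Fin n → ℝ) → ℝ} (hη : 0 < η) (y : Fin n → ℝ) :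
    ‖H345.kap i b η μ y - y‖ ≤ η := by
  rcases le_or_gt η |y i - b| with h | h
  · rw [kap_eq_self_of_far hη h, sub_self, norm_zero]; exact hη.le
  · refine (pi_norm_le_iff_of_nonneg hη.le).2 fun j => ?_
    rw [Pi.sub_apply, Real.norm_eq_abs]
    by_cases hj : j = i
    · subst hj
      rw [kap_self]
      obtain ⟨h1, h2⟩ := abs_lt.1 h
      rcases le_total 0 (y j - b) with h3 | h3
      · have h4 := ph_nonneg (η := η) (m := μ y) h3
        have h5 := ph_le (η := η) (m := μ y) h3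
        rw [abs_le]; constructor <;> linarith
      · have h4 := ph_nonneg (η := η) (m := μ y) (r := -(y j - b)) (by linarith)
        have h5 := ph_le (η := η) (m := μ y) (r := -(y j - b)) (by linarith)
        rw [ph_neg] at h4 h5
        rw [abs_le]; constructor <;> linarith
    · rw [kap_ne hj, sub_self, abs_zero]; exact hη.le

/-- **[PASS-V]** -/
theorem exists_passV [FiniteDimensional ℝ E] {J ι : Type*} [Finite J] {C K : Set E}
    {h : E → Fin n → ℝ} {M : ι → Set E} (hC : IsCompact C) (i₀ : ι) (hi₀ : M i₀ = C)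
    (hh : CC h C) (hinj : InjOn h C) (hK : IsCompact K) (hKC : K ⊆ C) (i : J → Fin n) (b : J → ℝ)
    (hcr : ∀ j j', j ≠ j' → ∀ x ∈ K, h x (i j) = b j → h x (i j') ≠ b j')
    (u : J → E → ℝ) (hu : ∀ j, CC (u j) C)
    (hul : ∀ j, ∀ x ∈ C, (h x (i j) = b j ↔ u j x = b j) ∧ (h x (i j) < b j ↔ u j x < b j) ∧
      (b j < h x (i j) ↔ b j < u j x))
    (hbox : ∀ j, ∀ x ∈ C, u j x = b j → ∃ (σ : ℝ →ₗ[ℝ] E) (r : ℝ), FlowBox (u j) M x σ r) :
    ∃ (U : J → Set (Fin n → ℝ)) (η₀ : ℝ), 0 < η₀ ∧ (∀ j, IsOpen (U j)) ∧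
      (∀ j, ∀ x ∈ K, h x (i j) = b j → h x ∈ U j) ∧
      ∀ η : J → ℝ, (∀ j, 0 < η j ∧ η j ≤ η₀) → ∀ μ : J → (Fin n → ℝ) → ℝ,
      (∀ j, Thk (i j) (η j) (μ j)) → (∀ j y, pr (i j) (b j) y ∉ U j → μ j y = 0) →
      ∀ κ : (Fin n → ℝ) → Fin n → ℝ, (∀ y, κ y ∈ h '' C → ‖κ y - y‖ ≤ η₀) →
      (∀ y, κ y ∈ h '' C ∨ y ∈ h '' C → (∀ j, ¬ Actv (i j) (b j) (η j) (μ j) y) → κ y = y) →
      (∀ j y, κ y ∈ h '' C ∨ H345.kap (i j) (b j) (η j) (μ j) y ∈ h '' C →
        (∀ j', j' ≠ j → ¬ Actv (i j') (b j') (η j') (μ j') y ∧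
          ¬ Actv (i j') (b j') (η j') (μ j') (H345.kap (i j) (b j) (η j) (μ j) y)) →
        κ y = H345.kap (i j) (b j) (η j) (μ j) y) →
      ∃ (Φ : ConHomeo C (κ ⁻¹' (h '' C))) (γ : E → E), PassedD C h κ M Φ γ := by
  classical
  have hCcon : ConicalSet C := hh.con.conicalSet
  -- the pieces of the levels in `K`
  set Kj : J → Set (Fin n → ℝ) := fun j => h '' K ∩ {y | y (i j) = b j} with hKj
  have hKjc : ∀ j, IsCompact (Kj j) := fun j => (hK.image_of_continuousOn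
    (hh.cont.mono hKC)).inter_right (isClosed_eq (continuous_apply _) continuous_const)
  obtain ⟨δ, hδ, hδd⟩ := exists_disj Kj hKjc (fun j => (hKjc j).isClosed) (by
    intro j j' hjj
    rw [Set.disjoint_left]
    rintro _ ⟨⟨x, hx, rfl⟩, h1⟩ ⟨-, h2⟩
    exact hcr j j' hjj x hx h1 h2)
  have hKW : ∀ j, Kj j ⊆ thickening δ (Kj j) := fun j => self_subset_thickening hδ _
  choose χ r hr χcc χ0 χ1 χind χone χzero using fun j =>
    exists_cutU (hKjc j) isOpen_thickening (hKW j) (i j) (b j)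
  have χcont : ∀ j, Continuous (χ j) := fun j => continuousOn_univ.1 (χcc j).cont
  have hprl : ∀ j, ∀ x, h x (i j) = b j → pr (i j) (b j) (h x) = h x := by
    intro j x hx
    show Function.update (h x) (i j) (b j) = h x
    rw [← hx, Function.update_eq_self]
  have χW : ∀ j, ∀ x, h x (i j) = b j → χ j (h x) ≠ 0 → h x ∈ thickening δ (Kj j) := by
    intro j x hx h0
    by_contra hc
    exact h0 (χzero j _ (by rw [hprl j x hx]; exact hc))
  have χK : ∀ j, ∀ x ∈ K, h x (i j) = b j → χ j (h x) = 1 := by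
    intro j x hx hxb
    refine χone j _ ⟨h x, ⟨⟨x, hx, rfl⟩, hxb⟩, ?_⟩
    rw [hprl j x hxb, sub_self, norm_zero]
    exact hr j
  -- the levels
  have hlev : ∀ j, ∀ x ∈ C, (x ∈ lev C (u j) (b j) ↔ h x (i j) = b j) := fun j x hx =>
    ⟨fun h1 => (hul j x hx).1.2 h1.2, fun h1 => ⟨hx, (hul j x hx).1.1 h1⟩⟩
  have hχh : ∀ j, CC (fun x => χ j (h x)) C := fun j => (χcc j).comp hh (mapsTo_univ _ _)
  have hLf : ∀ j, IsCompact (lev C (u j) (b j)) := fun j => isCompact_lev hC (hu j).cont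
  have hLfc : ∀ j, ConicalSet (lev C (u j) (b j)) := fun j => conicalSet_lev (hu j).con
  have hLC : ∀ j, lev C (u j) (b j) ⊆ C := fun j x hx => hx.1
  have hχl : ∀ j, CC (fun x => χ j (h x)) (lev C (u j) (b j)) := fun j =>
    (hχh j).mono (hLfc j) (hLC j)
  set L : J → Set E := fun j => {z | z ∈ lev C (u j) (b j) ∧ 1 / 2 ≤ χ j (h z)} with hL
  have hLcl : ∀ j, IsClosed (L j) := fun j =>
    isClosed_sep (hLf j).isClosed (hχl j).cont (isClosed_Ici (a := (1:ℝ) / 2))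
  have hLcpt : ∀ j, IsCompact (L j) := fun j =>
    (hLf j).of_isClosed_subset (hLcl j) fun x hx => hx.1
  have hLcon : ∀ j, ConicalSet (L j) := fun j => conicalSet_ge (hχl j) _
  have hLdis : ∀ j j', j ≠ j' → Disjoint (L j) (L j') := by
    intro j j' hjj
    rw [Set.disjoint_left]
    rintro z ⟨hz, h1⟩ ⟨hz', h2⟩
    have e1 := χW j z ((hlev j z hz.1).1 hz) (by intro h0; rw [h0] at h1; norm_num at h1)
    have e2 := χW j' z ((hlev j' z hz.1).1 hz') (by intro h0; rw [h0] at h2; norm_num at h2)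
    exact Set.disjoint_left.1 (hδd j j' hjj) (thickening_subset_cthickening _ _ e1)
      (thickening_subset_cthickening _ _ e2)
  obtain ⟨ε₀, hε₀, hεd⟩ := exists_disj L hLcpt hLcl hLdis
  -- the charts
  choose η₁ c hη₁ hc hchart using fun j => prod_band (M := M) hC i₀ hi₀ (hu j).cont (hu j).con
    isOpen_univ (subset_univ _) fun x (hx : x ∈ lev C (u j) (b j)) => hbox j x hx.1 hx.2
  have hεex : ∀ j, ∃ ε : ℝ, 0 < ε ∧ ε ≤ η₁ j ∧ c j * ε ≤ ε₀ := by
    intro j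
    refine ⟨min (η₁ j) (ε₀ / (c j + 1)), lt_min (hη₁ j) (div_pos hε₀ (by linarith [hc j])),
      min_le_left _ _, ?_⟩
    have h1 : c j * min (η₁ j) (ε₀ / (c j + 1)) ≤ c j * (ε₀ / (c j + 1)) :=
      mul_le_mul_of_nonneg_left (min_le_right _ _) (hc j)
    refine h1.trans ?_
    rw [mul_div_assoc', div_le_iff₀ (by linarith [hc j])]
    nlinarith [hc j]
  choose ε hε hεη hεc using hεex
  choose Γf g1 g2 g3 g4 g5 using fun j => hchart j (ε j) (hε j) (hεη j)
  have hfull : ∀ j, ConicalSet (lev C (u j) (b j) ×ˢ Icc (-1:ℝ) 1) := fun j =>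
    conicalSet_prod_Icc (hLfc j) _ _
  set N : J → Set E := fun j => (Γf j).toFun '' (L j ×ˢ Icc (-1:ℝ) 1) with hN
  have hLsub : ∀ j, L j ×ˢ Icc (-1:ℝ) 1 ⊆ lev C (u j) (b j) ×ˢ Icc (-1:ℝ) 1 := fun j =>
    prod_mono (fun x hx => hx.1) Subset.rfl
  let Γ : ∀ j, ConHomeo (L j ×ˢ Icc (-1:ℝ) 1) (N j) := fun j =>
    (Γf j).restr (conicalSet_prod_Icc (hLcon j) _ _) (hLsub j)
  have hΓf : ∀ j q, (Γ j).toFun q = (Γf j).toFun q := fun j q => rfl
  have hNC : ∀ j, N j ⊆ C := by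
    rintro j _ ⟨q, hq, rfl⟩
    exact ((Γf j).mapsTo (hLsub j hq)).1
  have hS : ∀ j, SCht C h (i j) (b j) (L j) (N j) (Γ j) := fun j => by
    refine ⟨hLcon j, hLcpt j, hNC j, fun z hz => (hlev j z hz.1.1).1 hz.1,
      fun z hz => g2 j z hz.1, fun z hz s hs hs0 => ?_, fun z hz s hs hs0 => ?_⟩
    · have h1 := ((Γf j).mapsTo (x := (z, s)) ⟨hz.1, hs⟩).1
      refine (hul j _ h1).2.2.2 ?_
      rw [g1 j z hz.1 s hs]
      have := mul_pos (hε j) hs0
      linarith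
    · have h1 := ((Γf j).mapsTo (x := (z, s)) ⟨hz.1, hs⟩).1
      refine (hul j _ h1).2.1.2 ?_
      rw [g1 j z hz.1 s hs]
      have := mul_neg_of_pos_of_neg (hε j) hs0
      linarith
  have hNdis : ∀ j j', j ≠ j' → Disjoint (N j) (N j') := by
    intro j j' hjj
    refine (hεd j j' hjj).mono ?_ ?_
    · rintro _ ⟨⟨z, s⟩, ⟨hz, hs⟩, rfl⟩
      exact mem_cthickening_of_dist_le _ z _ _ hz (by
        rw [dist_eq_norm]; exact (g4 j z hz.1 s hs).trans (hεc j))
    · rintro _ ⟨⟨z, s⟩, ⟨hz, hs⟩, rfl⟩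
      exact mem_cthickening_of_dist_le _ z _ _ hz (by
        rw [dist_eq_norm]; exact (g4 j' z hz.1 s hs).trans (hεc j'))
  have hself : ∀ j, ∀ z ∈ L j, z ∈ N j := fun j z hz =>
    ⟨(z, 0), ⟨hz, by norm_num⟩, g2 j z hz.1⟩
  -- the rest
  set L'' : J → Set E := fun j => {z | z ∈ lev C (u j) (b j) ∧ χ j (h z) ≤ 1 / 2} with hL''
  have hL''cl : ∀ j, IsClosed (L'' j) := fun j =>
    isClosed_sep (hLf j).isClosed (hχl j).cont (isClosed_Iic (a := (1:ℝ) / 2))
  have hL''cpt : ∀ j, IsCompact (L'' j) := fun j =>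
    (hLf j).of_isClosed_subset (hL''cl j) fun x hx => hx.1
  have hL''con : ∀ j, ConicalSet (L'' j) := fun j => conicalSet_le (hχl j) _
  have hL''sub : ∀ j, L'' j ×ˢ Icc (-1:ℝ) 1 ⊆ lev C (u j) (b j) ×ˢ Icc (-1:ℝ) 1 := fun j =>
    prod_mono (fun x hx => hx.1) Subset.rfl
  have habs : ∀ j, CC (fun x => max (u j x - b j) (-(u j x - b j))) C := fun j =>
    ((hu j).sub (CC.const (b j) hCcon)).max ((hu j).sub (CC.const (b j) hCcon)).neg
  set Aj : J → Set E := fun j => {x | x ∈ C ∧ ε j ≤ max (u j x - b j) (-(u j x - b j))} ∪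
    (Γf j).toFun '' (L'' j ×ˢ Icc (-1:ℝ) 1) with hAj
  have hAj1cl : ∀ j, IsClosed {x | x ∈ C ∧ ε j ≤ max (u j x - b j) (-(u j x - b j))} := fun j =>
    isClosed_sep hC.isClosed (habs j).cont (isClosed_Ici (a := ε j))
  have hAj2c : ∀ j, IsCompact ((Γf j).toFun '' (L'' j ×ˢ Icc (-1:ℝ) 1)) := fun j =>
    ((hL''cpt j).prod isCompact_Icc).image_of_continuousOn ((Γf j).cont.mono (hL''sub j))
  have hAjcl : ∀ j, IsClosed (Aj j) := fun j => (hAj1cl j).union (hAj2c j).isClosed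
  have hAjcon : ∀ j, ConicalSet (Aj j) := fun j =>
    H341.conicalSet_union (conicalSet_ge (habs j) _)
      ((Γf j).conicalSet_image (conicalSet_prod_Icc (hL''con j) _ _) (hL''sub j)) (hAj1cl j)
      (hAj2c j).isClosed
  set A : Set E := {x | x ∈ C ∧ ∀ j, x ∈ Aj j} with hA
  have hAcl : IsClosed A := by
    have : A = C ∩ ⋂ j, Aj j := by ext x; simp [hA]
    rw [this]
    exact hC.isClosed.inter (isClosed_iInter hAjcl)
  have hAcon : ConicalSet A := conicalSet_iInter hCcon hAjcon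
  have hAC : A ⊆ C := fun x hx => hx.1
  have hcov : C ⊆ A ∪ ⋃ j, N j := by
    intro x hx
    by_cases hxA : ∀ j, x ∈ Aj j
    · exact Or.inl ⟨hx, hxA⟩
    · push Not at hxA
      obtain ⟨j, hj⟩ := hxA
      refine Or.inr (mem_iUnion.2 ⟨j, ?_⟩)
      have h1 : ¬ ε j ≤ max (u j x - b j) (-(u j x - b j)) := fun h => hj (Or.inl ⟨hx, h⟩)
      have h2 : x ∈ band C (u j) (b j) (ε j) := ⟨hx, (not_le.1 h1).le⟩
      rw [← (Γf j).image_eq] at h2
      obtain ⟨⟨z, s⟩, ⟨hz, hs⟩, rfl⟩ := h2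
      refine ⟨(z, s), ⟨⟨hz, ?_⟩, hs⟩, rfl⟩
      by_contra hlt
      push Not at hlt
      exact hj (Or.inr ⟨(z, s), ⟨⟨hz, hlt.le⟩, hs⟩, rfl⟩)
  -- points of `A` on a level
  have hAlev : ∀ j, ∀ x ∈ A, h x (i j) = b j → χ j (h x) ≤ 1 / 2 := by
    intro j x hx hxb
    have hxl : x ∈ lev C (u j) (b j) := (hlev j x hx.1).2 hxb
    rcases hx.2 j with h1 | ⟨⟨z, s⟩, ⟨hz, hs⟩, hzx⟩
    · have h2 := h1.2
      rw [hxl.2, sub_self, neg_zero, max_self] at h2
      linarith [hε j]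
    · have h2 : (Γf j).toFun (x, 0) = x := g2 j x hxl
      have h3 := (Γf j).injOn (hL''sub j ⟨hz, hs⟩) (⟨hxl, by norm_num⟩ :
        ((x, 0) : E × ℝ) ∈ lev C (u j) (b j) ×ˢ Icc (-1:ℝ) 1) (hzx.trans h2.symm)
      have h4 : z = x := (Prod.mk.inj h3).1
      rw [← h4]; exact hz.2
  -- the closed sets for the activity
  set P : J → Set (Fin n → ℝ) := fun j => {y | 3 / 4 ≤ χ j y} with hP
  have hPcl : ∀ j, IsClosed (P j) := fun j => isClosed_le continuous_const (χcont j)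
  choose ηA hηA hoffA using fun j => exists_off (i := i j) (b := b j)
    (hC.of_isClosed_subset hAcl hAC) (hh.cont.mono hAC) (hPcl j) fun x hx hxb hxP => by
      have h1 := hAlev j x hx hxb
      have h2 : 3 / 4 ≤ χ j (h x) := hxP
      linarith
  have hNcpt : ∀ j, IsCompact (N j) := fun j => (Γ j).isCompact_right
    ((hLcpt j).prod isCompact_Icc)
  have hNoff : ∀ j j', ∃ η₂ : ℝ, 0 < η₂ ∧ (j ≠ j' → ∀ x ∈ N j, ∀ y, ‖y - h x‖ ≤ η₂ →
      |y (i j') - b j'| ≤ η₂ → pr (i j') (b j') y ∉ P j') := by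
    intro j j'
    by_cases hjj : j = j'
    · exact ⟨1, one_pos, fun h => absurd hjj h⟩
    obtain ⟨η₂, h1, h2⟩ := exists_off (i := i j') (b := b j') (hNcpt j) (hh.cont.mono (hNC j))
      (hPcl j') fun x hx hxb hxP => by
        have h2 : 3 / 4 ≤ χ j' (h x) := hxP
        have h3 : x ∈ L j' := ⟨(hlev j' x (hNC j hx)).2 hxb, by linarith⟩
        exact Set.disjoint_left.1 (hNdis j j' hjj) hx (hself j' x h3)
    exact ⟨η₂, h1, fun _ => h2⟩
  choose ηN hηN hoffN using hNoff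
  obtain ⟨η₀, hη₀, hle1, hle2⟩ : ∃ η₀ : ℝ, 0 < η₀ ∧ (∀ j, η₀ ≤ ηA j) ∧ ∀ j j', 2 * η₀ ≤ ηN j j' := by
    by_cases hne : Nonempty J
    · obtain ⟨j₀, hmin⟩ := Finite.exists_min ηA
      obtain ⟨⟨j₁, j₂⟩, hmin'⟩ := Finite.exists_min (fun p : J × J => ηN p.1 p.2)
      refine ⟨min (ηA j₀) (ηN j₁ j₂ / 2), lt_min (hηA _) (half_pos (hηN _ _)),
        fun j => (min_le_left _ _).trans (hmin j), fun j j' => ?_⟩
      have h1 := min_le_right (ηA j₀) (ηN j₁ j₂ / 2)
      have h2 := hmin' (j, j')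
      simp only at h2
      linarith
    · exact ⟨1, one_pos, fun j => absurd ⟨j⟩ hne, fun j => absurd ⟨j⟩ hne⟩
  refine ⟨fun j => {y | 3 / 4 < χ j y}, η₀, hη₀,
    fun j => isOpen_lt continuous_const (χcont j), fun j x hx hxb => ?_, ?_⟩
  · show 3 / 4 < χ j (h x)
    rw [χK j x hx hxb]; norm_num
  intro η hη μ hμ hμU κ hκd hκ0 hκ1
  have hηpos : ∀ j, 0 < η j := fun j => (hη j).1
  -- active points
  have hact : ∀ j y, Actv (i j) (b j) (η j) (μ j) y → |y (i j) - b j| ≤ η₀ ∧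
      pr (i j) (b j) y ∈ P j := by
    rintro j y ⟨h1, h2⟩
    refine ⟨h1.le.trans (hη j).2, ?_⟩
    by_contra hc
    refine h2 (hμU j y fun h3 => hc ?_)
    have h4 : 3 / 4 < χ j (pr (i j) (b j) y) := h3
    exact h4.le
  have hactA : ∀ j, ∀ x ∈ A, ∀ y, ‖y - h x‖ ≤ η₀ → ¬ Actv (i j) (b j) (η j) (μ j) y := by
    intro j x hx y hy ha
    obtain ⟨h1, h2⟩ := hact j y ha
    exact hoffA j x hx y (hy.trans (hle1 j)) (h1.trans (hle1 j)) h2
  have hactN : ∀ j j', j' ≠ j → ∀ x ∈ N j, ∀ y, ‖y - h x‖ ≤ 2 * η₀ →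
      ¬ Actv (i j') (b j') (η j') (μ j') y := by
    intro j j' hjj x hx y hy ha
    obtain ⟨h1, h2⟩ := hact j' y ha
    exact hoffN j j' (Ne.symm hjj) x hx y (hy.trans (hle2 j j'))
      (h1.trans (by linarith [hle2 j j'])) h2
  have hkd : ∀ j y, ‖H345.kap (i j) (b j) (η j) (μ j) y - y‖ ≤ η₀ := fun j y =>
    (norm_kap_sub_le (hηpos j) y).trans (hη j).2
  obtain ⟨Φ, γ, hΦ, -⟩ := exists_passS (J := J) (M := M) hC hh hinj hηpos hμ hS
    (fun j m z hz s hs => g3 j m z hz.1 s hs) hNdis hAcl hAcon hAC hcov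
    (by
      intro j z hz s hs hx
      rcases hx.2 j with h1 | ⟨⟨z', s'⟩, ⟨hz', hs'⟩, he⟩
      · have h2 := h1.2
        rw [hΓf, g1 j z hz.1 s hs, add_sub_cancel_left] at h2
        rcases le_max_iff.1 h2 with h3 | h3
        · left
          have : 1 ≤ s := by
            by_contra hc
            push Not at hc
            nlinarith [hε j]
          exact le_antisymm hs.2 this
        · right; left
          have : s ≤ -1 := by
            by_contra hc
            push Not at hc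
            nlinarith [hε j]
          exact le_antisymm this hs.1
      · right; right
        have h3 := (Γf j).injOn (hL''sub j ⟨hz', hs'⟩) (hLsub j (⟨hz, hs⟩ :
          ((z, s) : E × ℝ) ∈ L j ×ˢ Icc (-1:ℝ) 1)) he
        have h4 : z' = z := (Prod.mk.inj h3).1
        rw [h4] at hz'
        refine hμU j _ fun h5 => ?_
        rw [hprl j z ((hlev j z hz.1.1).1 hz.1)] at h5
        have h6 : 3 / 4 < χ j (h z) := h5
        have h7 : χ j (h z) ≤ 1 / 2 := hz'.2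
        linarith)
    (κ := κ)
    (by
      intro j y hy
      have hCy : κ y ∈ h '' C ∨ H345.kap (i j) (b j) (η j) (μ j) y ∈ h '' C :=
        hy.imp (fun h1 => image_mono (hNC j) h1) fun h1 => image_mono (hNC j) h1
      refine hκ1 j y hCy fun j' hjj => ?_
      rcases hy with ⟨x, hx, hxy⟩ | ⟨x, hx, hxy⟩
      · have h1 : ‖y - h x‖ ≤ η₀ := by
          rw [hxy, norm_sub_rev]; exact hκd y ⟨x, hNC j hx, hxy⟩
        refine ⟨hactN j j' hjj x hx y (by linarith), hactN j j' hjj x hx _ ?_⟩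
        have h2 := norm_sub_le_norm_sub_add_norm_sub (H345.kap (i j) (b j) (η j) (μ j) y) y (h x)
        have h3 := hkd j y
        linarith
      · refine ⟨hactN j j' hjj x hx y ?_, hactN j j' hjj x hx _ ?_⟩
        · rw [hxy, norm_sub_rev]
          have h3 := hkd j y
          linarith
        · rw [hxy, sub_self, norm_zero]; linarith)
    (by
      intro y hy
      have hCy : κ y ∈ h '' C ∨ y ∈ h '' C :=
        hy.imp (fun h1 => image_mono hAC h1) fun h1 => image_mono hAC h1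
      refine hκ0 y hCy fun j => ?_
      rcases hy with ⟨x, hx, hxy⟩ | ⟨x, hx, hxy⟩
      · refine hactA j x hx y ?_
        rw [hxy, norm_sub_rev]; exact hκd y ⟨x, hAC hx, hxy⟩
      · refine hactA j x hx y ?_
        rw [hxy, sub_self, norm_zero]; exact hη₀.le)
  exact ⟨Φ, γ, hΦ⟩

end P073.H399
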