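import Vale.Agent.P073.H399.Grid

/-!
# P073 / H399: second step, crosscuts of the strips
-/

open Set Metric Topology Filter

namespace P073.H399

open P073 P073.H339

section

variable {m : ℕ} {σ : ℝ}

/-- a single crosscut -/
theorem exists_box (hm : 1 ≤ m) (hσ : 0 < σ) (hσ1 : σ < 1 / 4)
    (φ : ConHomeo (rc 0 (m:ℝ) 0 m) (rc 0 (m:ℝ) 0 m)) (hbd : ∀ x ∈ rb 0 (m:ℝ) 0 m, φ.toFun x = x)
    (hD : ∀ i j : ℕ, i < m → j < m → ∀ x ∈ rc ((i:ℝ) + σ) (i + 1 - σ) (j + σ) (j + 1 - σ),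
      φ.toFun x = x) (hcl : ∀ x ∈ rc 0 (m:ℝ) 0 m, ‖φ.toFun x - x‖ ≤ 1 / 8) {i j : ℕ} (hi : i ≤ m)
    (hj : j < m) :
    ∃ k : ConHomeo (rc (sl σ i) (su m σ i) j (j + 1)) (rc (sl σ i) (su m σ i) j (j + 1)),
      (∀ x ∈ rb (sl σ i) (su m σ i) j (j + 1), k.toFun x = x) ∧
      ∀ x ∈ hs (sl σ i) (su m σ i) (j + 1 / 2), k.toFun x = φ.toFun x := by
  obtain ⟨A, hA⟩ : ∃ A, A = sl σ i := ⟨_, rfl⟩
  obtain ⟨B, hB⟩ : ∃ B, B = su m σ i := ⟨_, rfl⟩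
  obtain ⟨y, hy⟩ : ∃ y, y = (j:ℝ) + 1 / 2 := ⟨_, rfl⟩
  rw [← hA, ← hB, ← hy]
  have hAB : A < B := by
    rw [hA, hB]
    exact (iv_strip hm hσ (by linarith)).lt ⟨i, Nat.lt_succ_of_le hi⟩
  have hA0 : 0 ≤ A := hA ▸ le_max_left _ _
  have hBm : B ≤ m := hB ▸ min_le_left _ _
  have hj1 : (j:ℝ) + 1 ≤ m := by exact_mod_cast hj
  have hj0 : (0:ℝ) ≤ j := Nat.cast_nonneg j
  have hjy : (j:ℝ) < y := by rw [hy]; linarith
  have hyj : y < (j:ℝ) + 1 := by rw [hy]; linarith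
  have hi0 : (0:ℝ) ≤ i := Nat.cast_nonneg i
  -- the left end
  have hAc : A = 0 ∨ ∃ i' : ℕ, i' < m ∧ (i:ℝ) = i' + 1 ∧ A = i' + 1 - σ := by
    rcases Nat.eq_zero_or_pos i with h | h
    · left
      rw [hA, h]
      exact max_eq_left (by push_cast; linarith)
    · right
      obtain ⟨i', rfl⟩ := Nat.exists_eq_succ_of_ne_zero h.ne'
      refine ⟨i', by omega, by push_cast; ring, ?_⟩
      rw [hA]
      have : (0:ℝ) ≤ i' := Nat.cast_nonneg i'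
      unfold sl
      rw [max_eq_right (by push_cast; linarith)]
      push_cast; ring
  have hBc : B = m ∨ (i < m ∧ B = i + σ) := by
    rcases hi.lt_or_eq with h | h
    · right
      refine ⟨h, ?_⟩
      have : (i:ℝ) + 1 ≤ m := by exact_mod_cast h
      rw [hB]
      exact min_eq_right (by linarith)
    · left
      rw [hB, h]
      exact min_eq_left (by linarith)
  have fixA : ∀ z ∈ rc 0 (m:ℝ) 0 m, z.1 = A → |z.2 - y| ≤ 1 / 8 → φ.toFun z = z := by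
    intro z hz h1 h2
    rw [abs_le] at h2
    rcases hAc with h | ⟨i', hi', -, h⟩
    · exact hbd z ⟨hz, Or.inl (h1.trans h)⟩
    · refine hD i' j hi' hj z ⟨⟨?_, ?_⟩, ?_, ?_⟩ <;> linarith
  have fixB : ∀ z ∈ rc 0 (m:ℝ) 0 m, z.1 = B → |z.2 - y| ≤ 1 / 8 → φ.toFun z = z := by
    intro z hz h1 h2
    rw [abs_le] at h2
    rcases hBc with h | ⟨hi', h⟩
    · exact hbd z ⟨hz, Or.inr (Or.inl (h1.trans h))⟩
    · refine hD i j hi' hj z ⟨⟨?_, ?_⟩, ?_, ?_⟩ <;> linarith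
  have hsQ : hs A B y ⊆ rc 0 (m:ℝ) 0 m := by
    rintro x ⟨h1, h2, h3⟩
    exact ⟨⟨by linarith, by linarith⟩, by rw [h1]; linarith, by rw [h1]; linarith⟩
  have near : ∀ x ∈ hs A B y, |(φ.toFun x).2 - y| ≤ 1 / 8 ∧ |(φ.toFun x).1 - x.1| ≤ 1 / 8 := by
    intro x hx
    have h1 := hcl x (hsQ hx)
    rw [Prod.norm_def, max_le_iff, Prod.fst_sub, Prod.snd_sub, Real.norm_eq_abs,
      Real.norm_eq_abs] at h1
    rw [← hx.1]
    exact ⟨h1.2, h1.1⟩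
  have inb : ∀ x ∈ hs A B y, φ.toFun x ∈ rc A B j (j + 1) := by
    intro x hx
    obtain ⟨n2, n1⟩ := near x hx
    have hz := φ.mapsTo (hsQ hx)
    have n2' := abs_le.1 n2
    have n1' := abs_le.1 n1
    have hx2 := hx.2
    refine ⟨⟨?_, ?_⟩, by linarith, by linarith⟩
    · by_contra hlt
      push Not at hlt
      rcases hAc with h | ⟨i', hi', -, h⟩
      · linarith [hz.1.1]
      · have h5 : φ.toFun (φ.toFun x) = φ.toFun x := by
          refine hD i' j hi' hj _ ⟨⟨?_, ?_⟩, ?_, ?_⟩ <;> linarith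
        have h6 := φ.injOn hz (hsQ hx) h5
        rw [h6] at hlt
        linarith
    · by_contra hlt
      push Not at hlt
      rcases hBc with h | ⟨hi', h⟩
      · linarith [hz.1.2]
      · have h5 : φ.toFun (φ.toFun x) = φ.toFun x := by
          refine hD i j hi' hj _ ⟨⟨?_, ?_⟩, ?_, ?_⟩ <;> linarith
        have h6 := φ.injOn hz (hsQ hx) h5
        rw [h6] at hlt
        linarith
  have ends : ∀ x ∈ hs A B y, ((φ.toFun x).1 = A ∨ (φ.toFun x).1 = B) →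
      φ.toFun x ∈ ({(A, y), (B, y)} : Set (ℝ × ℝ)) := by
    intro x hx h
    obtain ⟨n2, n1⟩ := near x hx
    have hz := φ.mapsTo (hsQ hx)
    have h5 : φ.toFun (φ.toFun x) = φ.toFun x := by
      rcases h with h | h
      · exact fixA _ hz h n2
      · exact fixB _ hz h n2
    have h6 := φ.injOn hz (hsQ hx) h5
    rw [h6] at h ⊢
    rcases h with h | h
    · exact Or.inl (Prod.ext h hx.1)
    · exact Or.inr (Prod.ext h hx.1)
  have hb : H339.AmbDisc (rc A B j (j + 1)) (cup A B j y ∪ cap A B y (j + 1)) := by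
    rw [← rb_eq_cup_cap hjy hyj]
    exact ambDisc_rc hAB (by linarith)
  have hp : φ.toFun (A, y) = (A, y) :=
    fixA _ (hsQ ⟨rfl, le_refl _, hAB.le⟩) rfl (by simp)
  have hq : φ.toFun (B, y) = (B, y) :=
    fixB _ (hsQ ⟨rfl, hAB.le, le_refl _⟩) rfl (by simp)
  obtain ⟨K, k1, k2⟩ := exists_cross hb (isArc_cup hAB hjy) (isArc_cap hAB hyj) (isArc_hs hAB y)
    (by
      rintro x ⟨⟨⟨-, -, h1⟩, h2⟩, ⟨⟨-, h3, -⟩, -⟩⟩
      have h4 : x.2 = y := le_antisymm h1 h3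
      rcases h2 with h | h | h
      · exact Or.inl (Prod.ext h h4)
      · exact Or.inr (Prod.ext h h4)
      · rw [h4] at h; linarith)
    (by
      rintro x ⟨h1, h2⟩
      exact ⟨h2, by rw [h1]; exact hjy.le, by rw [h1]; exact hyj.le⟩)
    (by
      rintro x ⟨⟨h1, -⟩, ⟨-, h2⟩⟩
      rcases h2 with h | h | h
      · exact Or.inl (Prod.ext h h1)
      · exact Or.inr (Prod.ext h h1)
      · rw [h1] at h; linarith)
    (by
      rintro x ⟨⟨h1, -⟩, ⟨-, h2⟩⟩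
      rcases h2 with h | h | h
      · exact Or.inl (Prod.ext h h1)
      · exact Or.inr (Prod.ext h h1)
      · rw [h1] at h; linarith)
    (φ.restr (isArc_hs hAB y).conicalSet hsQ) hp hq
    (by
      rintro _ ⟨x, hx, rfl⟩
      exact inb x hx)
    (by
      rintro _ ⟨⟨x, hx, rfl⟩, ⟨-, h2⟩⟩
      rcases h2 with h | h | h
      · exact ends x hx (Or.inl h)
      · exact ends x hx (Or.inr h)
      · have h' : (φ.toFun x).2 = j := h
        have := abs_le.1 (near x hx).1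
        linarith)
    (by
      rintro _ ⟨⟨x, hx, rfl⟩, ⟨-, h2⟩⟩
      rcases h2 with h | h | h
      · exact ends x hx (Or.inl h)
      · exact ends x hx (Or.inr h)
      · have h' : (φ.toFun x).2 = j + 1 := h
        have := abs_le.1 (near x hx).1
        linarith)
  refine ⟨K, ?_, fun x hx => k2 hx⟩
  intro x hx
  rw [rb_eq_cup_cap hjy hyj] at hx
  exact k1 x hx

/-- **Second step.** -/
theorem step2 (hm : 1 ≤ m) (hσ : 0 < σ) (hσ1 : σ < 1 / 4)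
    (φ : ConHomeo (rc 0 (m:ℝ) 0 m) (rc 0 (m:ℝ) 0 m)) (hbd : ∀ x ∈ rb 0 (m:ℝ) 0 m, φ.toFun x = x)
    (hD : ∀ i j : ℕ, i < m → j < m → ∀ x ∈ rc ((i:ℝ) + σ) (i + 1 - σ) (j + σ) (j + 1 - σ),
      φ.toFun x = x) (hcl : ∀ x ∈ rc 0 (m:ℝ) 0 m, ‖φ.toFun x - x‖ ≤ 1 / 8) {X : Set (ℝ × ℝ)}
    (hX : X ⊆ cols m σ) :
    ∃ K : ConHomeo (rc 0 (m:ℝ) 0 m) (rc 0 (m:ℝ) 0 m),
      (∀ j < m, ∀ x ∈ rc 0 (m:ℝ) 0 m, x.2 = (j:ℕ) + 1 / 2 → K.toFun x = φ.toFun x) ∧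
      (∀ x ∈ cols m σ, K.toFun x = x) ∧ (∀ x ∈ rb 0 (m:ℝ) 0 m, K.toFun x = x) ∧
      IsoE (rc 0 (m:ℝ) 0 m) (rb 0 m 0 m ∪ X) 1 K := by
  have hT := tiles_strip hm hσ (by linarith : σ < 1 / 2)
  have hS := iv_strip hm hσ (by linarith : σ ≤ 1 / 2)
  choose k k1 k2 using fun ab : Fin (m + 1) × Fin m => exists_box hm hσ hσ1 φ hbd hD hcl
    (Nat.lt_succ_iff.1 ab.1.2) ab.2.2
  obtain ⟨K, hK, hKR⟩ := hT.exists_glue k k1
  have hcolsQ : cols m σ ⊆ rc 0 (m:ℝ) 0 m := fun x hx => by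
    rw [hT.cov]; exact Or.inl hx
  have hKB : ∀ ab : Fin (m + 1) × Fin m, ∀ x ∈ rb (sl σ ab.1) (su m σ ab.1) ((ab.2:ℕ):ℝ)
      (((ab.2:ℕ):ℝ) + 1), K.toFun x = x := fun ab x hx => by
    rw [hK ab (rb_subset _ _ _ _ hx)]; exact k1 ab x hx
  have hKbd : ∀ x ∈ rb 0 (m:ℝ) 0 m, K.toFun x = x := by
    intro x hx
    have hx' : x ∈ rc 0 (m:ℝ) 0 m := hx.1
    rw [hT.cov] at hx'
    rcases hx' with h | h
    · exact hKR x h
    · obtain ⟨ab, hab⟩ := mem_iUnion.1 h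
      exact hKB ab x (hS.rb_sub (iv_cell m) hx hab)
  refine ⟨K, ?_, hKR, hKbd, ?_⟩
  · intro j hj x hx hxj
    rcases strip_cases hm σ hx.1.1 hx.1.2 with ⟨i, hi, h1, h2⟩ | ⟨i, hi, h1, h2⟩
    · have hmem : x ∈ rc (sl σ i) (su m σ i) j (j + 1) :=
        ⟨⟨h1, h2⟩, by rw [hxj]; linarith, by rw [hxj]; linarith⟩
      rw [hK (⟨i, Nat.lt_succ_of_le hi⟩, ⟨j, hj⟩) hmem]
      exact k2 (⟨i, Nat.lt_succ_of_le hi⟩, ⟨j, hj⟩) x ⟨hxj, h1, h2⟩
    · rw [hKR x (mem_cols.2 ⟨⟨i, hi, h1, h2⟩, hx.2⟩)]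
      refine (hD i j hi hj x ⟨⟨h1, h2⟩, ?_, ?_⟩).symm
      · rw [hxj]; linarith
      · rw [hxj]; linarith
  · have hAB : ∀ (i : Fin (m + 1) × Fin m), ∀ x ∈ rb 0 (m:ℝ) 0 m ∪ X,
        x ∈ rc (sl σ i.1) (su m σ i.1) ((i.2:ℕ):ℝ) (((i.2:ℕ):ℝ) + 1) →
        x ∈ rb (sl σ i.1) (su m σ i.1) ((i.2:ℕ):ℝ) (((i.2:ℕ):ℝ) + 1) := by
      rintro i x (hx | hx) hxi
      · exact hS.rb_sub (iv_cell m) hx hxi
      · exact hT.CR i ⟨hxi, hX hx⟩
    refine hT.isoE zero_le_one ?_ ?_ ?_ hKR hKB ?_ ?_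
    · intro i x hx y hy
      exact hS.diam (iv_cell m) hx hy
    · exact union_subset (rb_subset _ _ _ _) (hX.trans hcolsQ)
    · intro i x hx y _ hxi _ hxb _
      exact absurd (hAB i x hx hxi) hxb
    · intro i
      rw [(hK i).image_eq, (k i).image_eq]
    · rintro x (hx | hx)
      · exact hKbd x hx
      · exact hKR x (hX hx)

end

end P073.H399
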