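import Vale.Agent.P073.H399.Step1
import Vale.Agent.P073.H399.Step2

/-!
# P073 / H399: the controlled isotopy theorem in the square `[0,m]²`
-/

open Set Metric Topology Filter

namespace P073.H399

open P073 P073.H339

/-- swap of coordinates -/
def sw (p : ℝ × ℝ) : ℝ × ℝ := (p.2, p.1)

@[simp] theorem sw_sw (p : ℝ × ℝ) : sw (sw p) = p := rfl

@[simp] theorem sw_fst (p : ℝ × ℝ) : (sw p).1 = p.2 := rfl

@[simp] theorem sw_snd (p : ℝ × ℝ) : (sw p).2 = p.1 := rfl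

@[simp] theorem norm_sw (p : ℝ × ℝ) : ‖sw p‖ = ‖p‖ := by
  rw [Prod.norm_def, Prod.norm_def]; simp [max_comm]

theorem sw_sub (p q : ℝ × ℝ) : sw p - sw q = sw (p - q) := rfl

theorem continuous_sw : Continuous sw := by unfold sw; fun_prop

/-- swap as a linear map -/
def swL : (ℝ × ℝ) →ₗ[ℝ] ℝ × ℝ where
  toFun := sw
  map_add' := fun _ _ => rfl
  map_smul' := fun _ _ => rfl

/-- swap as a conical homeomorphism -/
def swH : ConHomeo (univ : Set (ℝ × ℝ)) (univ : Set (ℝ × ℝ)) where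
  toFun := sw
  invFun := sw
  mapsTo := mapsTo_univ _ _
  mapsTo_inv := mapsTo_univ _ _
  left_inv := fun p _ => sw_sw p
  right_inv := fun p _ => sw_sw p
  cont := continuous_sw.continuousOn
  cont_inv := continuous_sw.continuousOn
  conical := conicalOn_linear swL (IsOpen.conicalSet isOpen_univ)

theorem sw_mem_rc {a b c d : ℝ} {p : ℝ × ℝ} (hp : p ∈ rc a b c d) : sw p ∈ rc c d a b :=
  ⟨hp.2, hp.1⟩

theorem sw_mem_rb {a b c d : ℝ} {p : ℝ × ℝ} (hp : p ∈ rb a b c d) : sw p ∈ rb c d a b := by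
  refine ⟨sw_mem_rc hp.1, ?_⟩
  rcases hp.2 with h | h | h | h
  · exact Or.inr (Or.inr (Or.inl h))
  · exact Or.inr (Or.inr (Or.inr h))
  · exact Or.inl h
  · exact Or.inr (Or.inl h)

theorem sw_image_rc (m : ℝ) : sw '' rc 0 m 0 m = rc 0 m 0 m := by
  ext p
  constructor
  · rintro ⟨q, hq, rfl⟩; exact sw_mem_rc hq
  · intro hp; exact ⟨sw p, sw_mem_rc hp, sw_sw p⟩

theorem exists_swQ (m : ℝ) : ∃ s : ConHomeo (rc 0 m 0 m) (rc 0 m 0 m),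
    (∀ x, s.toFun x = sw x) ∧ ∀ x, s.invFun x = sw x :=
  ⟨(swH.restr (conicalSet_rc 0 m 0 m) (subset_univ _)).cast rfl (sw_image_rc m),
    fun _ => rfl, fun _ => rfl⟩

theorem exists_pos_le {α : Type*} {X : Set α} (hX : X.Finite) {P : α → ℝ → Prop}
    (hP : ∀ x ∈ X, ∃ s > 0, P x s) (hmono : ∀ x s t, 0 < s → s ≤ t → P x t → P x s) :
    ∃ s > 0, ∀ x ∈ X, P x s := by
  induction X, hX using Set.Finite.induction_on with
  | empty => exact ⟨1, one_pos, fun x hx => absurd hx (notMem_empty x)⟩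
  | @insert a S ha hS ih =>
    obtain ⟨s, hs, h1⟩ := ih fun x hx => hP x (Or.inr hx)
    obtain ⟨t, ht, h2⟩ := hP a (Or.inl rfl)
    refine ⟨min s t, lt_min hs ht, ?_⟩
    rintro x (rfl | hx)
    · exact hmono _ _ _ (lt_min hs ht) (min_le_right _ _) h2
    · exact hmono _ _ _ (lt_min hs ht) (min_le_left _ _) (h1 x hx)

theorem between {m : ℕ} {x : ℝ} (h0 : 0 ≤ x) (h1 : x ≤ m) (hm : 1 ≤ m) (hn : ∀ n : ℕ, x ≠ n) :
    ∃ i : ℕ, i < m ∧ ∃ s > 0, (i:ℝ) + s ≤ x ∧ x ≤ i + 1 - s := by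
  obtain ⟨i, hi, h2, h3⟩ := cell_cases hm h0 h1
  have h4 : (i:ℝ) < x := lt_of_le_of_ne h2 (hn i).symm
  have h5 : x < (i:ℝ) + 1 := lt_of_le_of_ne h3 (by have := hn (i + 1); push_cast at this; exact this)
  refine ⟨i, hi, min (x - i) (i + 1 - x), lt_min (by linarith) (by linarith), ?_, ?_⟩
  · have := min_le_left (x - i) (i + 1 - x); linarith
  · have := min_le_right (x - i) (i + 1 - x); linarith

theorem dual_side {m i : ℕ} (hi : i ≤ m) {x : ℝ} (h : x = sl (1 / 2) i ∨ x = su m (1 / 2) i) :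
    x = 0 ∨ x = m ∨ ∃ i' : ℕ, i' < m ∧ x = i' + 1 / 2 := by
  rcases h with h | h
  · rcases Nat.eq_zero_or_pos i with h0 | h0
    · left
      rw [h, h0]; unfold sl
      exact max_eq_left (by norm_num)
    · obtain ⟨i', rfl⟩ := Nat.exists_eq_succ_of_ne_zero h0.ne'
      right; right
      refine ⟨i', by omega, ?_⟩
      have : (0:ℝ) ≤ i' := Nat.cast_nonneg i'
      rw [h]; unfold sl
      rw [max_eq_right (by push_cast; linarith)]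
      push_cast; ring
  · rcases hi.lt_or_eq with h0 | h0
    · right; right
      have : (i:ℝ) + 1 ≤ m := by exact_mod_cast h0
      refine ⟨i, h0, ?_⟩
      rw [h]
      exact min_eq_right (by linarith)
    · right; left
      rw [h, h0]
      exact min_eq_left (by linarith)

/-- **The controlled isotopy theorem in the square.** -/
theorem plan {m : ℕ} (hm : 1 ≤ m) {X : Set (ℝ × ℝ)} (hXf : X.Finite) (hXQ : X ⊆ rc 0 (m:ℝ) 0 m)
    (hX1 : ∀ x ∈ X, ∀ n : ℕ, x.1 ≠ n) (hX2 : ∀ x ∈ X, ∀ n : ℕ, x.2 ≠ n)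
    (hXs : ∀ x ∈ X, ∀ y ∈ X, ‖x - y‖ ≤ 1 → x = y) :
    ∃ ρ > 0, ∀ ψ : ConHomeo (rc 0 (m:ℝ) 0 m) (rc 0 (m:ℝ) 0 m),
      (∀ x ∈ rb 0 (m:ℝ) 0 m, ψ.toFun x = x) → (∀ x ∈ X, ψ.toFun x = x) →
      (∀ x ∈ rc 0 (m:ℝ) 0 m, ‖ψ.toFun x - x‖ ≤ ρ) →
      IsoE (rc 0 (m:ℝ) 0 m) (rb 0 m 0 m ∪ X) 4 ψ := by
  obtain ⟨σ₀, hσ₀, H⟩ := step1 hm (η := 1 / 16) (by norm_num)
  obtain ⟨σ₁, hσ₁, hXσ⟩ := exists_pos_le hXf (P := fun x s => ∃ i j : ℕ, i < m ∧ j < m ∧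
      x ∈ rc ((i:ℝ) + s) (i + 1 - s) (j + s) (j + 1 - s))
    (by
      intro x hx
      obtain ⟨⟨a1, a2⟩, a3, a4⟩ := hXQ hx
      obtain ⟨i, hi, s, hs, b1, b2⟩ := between a1 a2 hm (hX1 x hx)
      obtain ⟨j, hj, t, ht, c1, c2⟩ := between a3 a4 hm (hX2 x hx)
      have e1 := min_le_left s t
      have e2 := min_le_right s t
      exact ⟨min s t, lt_min hs ht, i, j, hi, hj, ⟨by linarith, by linarith⟩, by linarith,
        by linarith⟩)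
    (by
      rintro x s t hs hst ⟨i, j, hi, hj, ⟨a1, a2⟩, a3, a4⟩
      exact ⟨i, j, hi, hj, ⟨by linarith, by linarith⟩, by linarith, by linarith⟩)
  obtain ⟨σ, hσdef⟩ : ∃ σ, σ = min (min σ₀ σ₁) (1 / 5) := ⟨_, rfl⟩
  have hσ : 0 < σ := by rw [hσdef]; exact lt_min (lt_min hσ₀ hσ₁) (by norm_num)
  have hσa : σ ≤ σ₀ := hσdef ▸ (min_le_left _ _).trans (min_le_left _ _)
  have hσb : σ ≤ σ₁ := hσdef ▸ (min_le_left _ _).trans (min_le_right _ _)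
  have hσc : σ ≤ 1 / 5 := hσdef ▸ min_le_right _ _
  have hXD : ∀ x ∈ X, ∃ i j : ℕ, i < m ∧ j < m ∧
      x ∈ rc ((i:ℝ) + σ) (i + 1 - σ) (j + σ) (j + 1 - σ) := by
    intro x hx
    obtain ⟨i, j, hi, hj, ⟨a1, a2⟩, a3, a4⟩ := hXσ x hx
    exact ⟨i, j, hi, hj, ⟨by linarith, by linarith⟩, by linarith, by linarith⟩
  obtain ⟨ρ, hρ, H'⟩ := H σ hσ hσa
  refine ⟨min ρ (1 / 16), lt_min hρ (by norm_num), fun ψ hψb hψX hψc => ?_⟩
  obtain ⟨K₁, k1, k1b, k1c, k1I⟩ := H' ψ (fun x hx => (hψc x hx).trans (min_le_left _ _)) X hXQ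
    hψX hXD hXs
  have hbQ : rb 0 (m:ℝ) 0 m ⊆ rc 0 (m:ℝ) 0 m := rb_subset _ _ _ _
  have hAQ : rb 0 (m:ℝ) 0 m ∪ X ⊆ rc 0 (m:ℝ) 0 m := union_subset hbQ hXQ
  have inv_fix : ∀ (K : ConHomeo (rc 0 (m:ℝ) 0 m) (rc 0 (m:ℝ) 0 m)) (x y : ℝ × ℝ),
      x ∈ rc 0 (m:ℝ) 0 m → K.toFun x = y → K.invFun y = x := by
    intro K x y hx he
    rw [← he, K.left_inv hx]
  have hDQ : ∀ i j : ℕ, i < m → j < m →
      rc ((i:ℝ) + σ) (i + 1 - σ) (j + σ) (j + 1 - σ) ⊆ rc 0 (m:ℝ) 0 m := by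
    rintro i j hi hj x ⟨⟨a1, a2⟩, a3, a4⟩
    have b1 : (0:ℝ) ≤ i := Nat.cast_nonneg i
    have b2 : (0:ℝ) ≤ j := Nat.cast_nonneg j
    have b3 : (i:ℝ) + 1 ≤ m := by exact_mod_cast hi
    have b4 : (j:ℝ) + 1 ≤ m := by exact_mod_cast hj
    exact ⟨⟨by linarith, by linarith⟩, by linarith, by linarith⟩
  -- first map
  obtain ⟨φ, hφ⟩ : ∃ φ : ConHomeo (rc 0 (m:ℝ) 0 m) (rc 0 (m:ℝ) 0 m), φ = ψ.trans K₁.symm :=
    ⟨_, rfl⟩
  have hφv : ∀ x, φ.toFun x = K₁.invFun (ψ.toFun x) := fun x => by rw [hφ]; rfl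
  have hφb : ∀ x ∈ rb 0 (m:ℝ) 0 m, φ.toFun x = x := by
    intro x hx
    rw [hφv, hψb x hx]
    exact inv_fix K₁ x x (hbQ hx) (k1b x hx)
  have hφD : ∀ i j : ℕ, i < m → j < m → ∀ x ∈ rc ((i:ℝ) + σ) (i + 1 - σ) (j + σ) (j + 1 - σ),
      φ.toFun x = x := by
    intro i j hi hj x hx
    rw [hφv]
    exact inv_fix K₁ x _ (hDQ i j hi hj hx) (k1 i j hi hj x hx)
  have hφX : ∀ x ∈ X, φ.toFun x = x := by
    intro x hx
    obtain ⟨i, j, hi, hj, hij⟩ := hXD x hx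
    exact hφD i j hi hj x hij
  have hφc : ∀ x ∈ rc 0 (m:ℝ) 0 m, ‖φ.toFun x - x‖ ≤ 1 / 8 := by
    intro x hx
    have h1 := (hψc x hx).trans (min_le_right _ _)
    have hz := ψ.mapsTo hx
    have h2 := k1c _ (K₁.mapsTo_inv hz)
    rw [K₁.right_inv hz, norm_sub_rev] at h2
    have e : φ.toFun x - x = (K₁.invFun (ψ.toFun x) - ψ.toFun x) + (ψ.toFun x - x) := by
      rw [hφv]; abel
    rw [e]
    exact (norm_add_le _ _).trans (by linarith)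
  have hXc : X ⊆ cols m σ := by
    intro x hx
    obtain ⟨i, j, hi, hj, hij⟩ := hXD x hx
    exact mem_cols.2 ⟨⟨i, hi, hij.1⟩, (hXQ hx).2⟩
  obtain ⟨Ka, a1, a2, a3, a4⟩ := step2 hm hσ (by linarith) φ hφb hφD hφc hXc
  -- the swapped map
  obtain ⟨s, hs, hsi⟩ := exists_swQ (m:ℝ)
  obtain ⟨φ', hφ'⟩ : ∃ φ' : ConHomeo (rc 0 (m:ℝ) 0 m) (rc 0 (m:ℝ) 0 m),
      φ' = s.trans (φ.trans s) := ⟨_, rfl⟩
  have hφ'v : ∀ x, φ'.toFun x = sw (φ.toFun (sw x)) := fun x => by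
    rw [hφ']; simp only [ConHomeo.trans_toFun, Function.comp_apply, hs]
  obtain ⟨Kb', b1, b2, b3, b4⟩ := step2 hm hσ (by linarith) φ'
    (by
      intro x hx
      rw [hφ'v, hφb _ (sw_mem_rb hx), sw_sw])
    (by
      intro i j hi hj x hx
      rw [hφ'v, hφD j i hj hi _ (sw_mem_rc hx), sw_sw])
    (by
      intro x hx
      have h1 := hφc _ (sw_mem_rc hx)
      rw [hφ'v, show sw (φ.toFun (sw x)) - x = sw (φ.toFun (sw x) - sw x) from rfl, norm_sw]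
      exact h1)
    (X := sw '' X)
    (by
      rintro _ ⟨x, hx, rfl⟩
      obtain ⟨i, j, hi, hj, hij⟩ := hXD x hx
      exact mem_cols.2 ⟨⟨j, hj, hij.2⟩, (hXQ hx).1⟩)
  obtain ⟨Kb, hKb⟩ : ∃ Kb : ConHomeo (rc 0 (m:ℝ) 0 m) (rc 0 (m:ℝ) 0 m),
      Kb = s.trans (Kb'.trans s) := ⟨_, rfl⟩
  have hKbv : ∀ x, Kb.toFun x = sw (Kb'.toFun (sw x)) := fun x => by
    rw [hKb]; simp only [ConHomeo.trans_toFun, Function.comp_apply, hs]
  have hKbI : IsoE (rc 0 (m:ℝ) 0 m) (rb 0 m 0 m ∪ X) 1 Kb := by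
    refine IsoE.conj s hAQ (ε' := 1) ?_ ?_
    · refine (b4.mono ?_ (le_refl _)).congr ?_
      · rintro _ ⟨x, hx | hx, rfl⟩
        · rw [hs]; exact Or.inl (sw_mem_rb hx)
        · rw [hs]; exact Or.inr ⟨x, hx, rfl⟩
      · intro x _
        show Kb'.toFun x = s.toFun (Kb.toFun (s.invFun x))
        rw [hs, hsi, hKbv, sw_sw, sw_sw]
    · intro x _ y _ h
      rw [hsi, hsi, sw_sub, norm_sw]; exact h
  have hKbb : ∀ x ∈ rb 0 (m:ℝ) 0 m, Kb.toFun x = x := by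
    intro x hx
    rw [hKbv, b3 _ (sw_mem_rb hx), sw_sw]
  -- the last map
  obtain ⟨χ, hχ⟩ : ∃ χ : ConHomeo (rc 0 (m:ℝ) 0 m) (rc 0 (m:ℝ) 0 m),
      χ = φ.trans (Ka.symm.trans Kb.symm) := ⟨_, rfl⟩
  have hχv : ∀ x, χ.toFun x = Kb.invFun (Ka.invFun (φ.toFun x)) := fun x => by rw [hχ]; rfl
  have hχb : ∀ x ∈ rb 0 (m:ℝ) 0 m, χ.toFun x = x := by
    intro x hx
    rw [hχv, hφb x hx, inv_fix Ka x x (hbQ hx) (a3 x hx), inv_fix Kb x x (hbQ hx) (hKbb x hx)]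
  have hχh : ∀ j : ℕ, j < m → ∀ x ∈ rc 0 (m:ℝ) 0 m, x.2 = j + 1 / 2 → χ.toFun x = x := by
    intro j hj x hx hxj
    have h1 : Kb.toFun x = x := by
      rw [hKbv, b2 (sw x) (mem_cols.2 ⟨⟨j, hj, ?_, ?_⟩, hx.1⟩), sw_sw]
      · rw [sw_fst, hxj]; linarith
      · rw [sw_fst, hxj]; linarith
    rw [hχv, inv_fix Ka x _ hx (a1 j hj x hx hxj), inv_fix Kb x x hx h1]
  have hχw : ∀ i : ℕ, i < m → ∀ x ∈ rc 0 (m:ℝ) 0 m, x.1 = i + 1 / 2 → χ.toFun x = x := by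
    intro i hi x hx hxi
    have hz := φ.mapsTo hx
    have h1 : Ka.toFun (φ.toFun x) = φ.toFun x := by
      have h2 := hφc x hx
      rw [Prod.norm_def, max_le_iff, Prod.fst_sub, Real.norm_eq_abs, abs_le] at h2
      apply a2
      refine mem_cols.2 ⟨⟨i, hi, ?_, ?_⟩, hz.2⟩
      · linarith [h2.1.1]
      · linarith [h2.1.2]
    have h3 : Kb.toFun x = φ.toFun x := by
      rw [hKbv, b1 i hi (sw x) (sw_mem_rc hx) hxi, hφ'v, sw_sw, sw_sw]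
    rw [hχv, inv_fix Ka _ _ hz h1, inv_fix Kb x _ hx h3]
  have hχX : ∀ x ∈ X, χ.toFun x = x := by
    intro x hx
    obtain ⟨i, j, hi, hj, hij⟩ := hXD x hx
    have h1 : Kb.toFun x = x := by
      rw [hKbv, b2 (sw x) (mem_cols.2 ⟨⟨j, hj, hij.2⟩, (hXQ hx).1⟩), sw_sw]
    rw [hχv, hφX x hx, inv_fix Ka x x (hXQ hx) (a2 x (hXc hx)), inv_fix Kb x x (hXQ hx) h1]
  have hT := tiles_dual hm
  have hIv := iv_strip hm (σ := 1 / 2) (by norm_num) (le_refl _)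
  have hχB : ∀ ab : Fin (m + 1) × Fin (m + 1), ∀ x ∈ rb (sl (1 / 2) ab.1)
      (su m (1 / 2) ab.1) (sl (1 / 2) ab.2) (su m (1 / 2) ab.2), χ.toFun x = x := by
    rintro ⟨i, j⟩ x ⟨hx, h⟩
    have hxQ : x ∈ rc 0 (m:ℝ) 0 m := by
      rw [hT.cov]
      exact Or.inr (mem_iUnion.2 ⟨(i, j), hx⟩)
    have h' : (x.1 = sl (1 / 2) i ∨ x.1 = su m (1 / 2) i) ∨
        (x.2 = sl (1 / 2) j ∨ x.2 = su m (1 / 2) j) := by
      rcases h with h | h | h | h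
      · exact Or.inl (Or.inl h)
      · exact Or.inl (Or.inr h)
      · exact Or.inr (Or.inl h)
      · exact Or.inr (Or.inr h)
    rcases h' with h | h
    · rcases dual_side (Nat.lt_succ_iff.1 i.2) h with h | h | ⟨i', hi', h⟩
      · exact hχb x ⟨hxQ, Or.inl h⟩
      · exact hχb x ⟨hxQ, Or.inr (Or.inl h)⟩
      · exact hχw i' hi' x hxQ h
    · rcases dual_side (Nat.lt_succ_iff.1 j.2) h with h | h | ⟨j', hj', h⟩
      · exact hχb x ⟨hxQ, Or.inr (Or.inr (Or.inl h))⟩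
      · exact hχb x ⟨hxQ, Or.inr (Or.inr (Or.inr h))⟩
      · exact hχh j' hj' x hxQ h
  have hχI : IsoE (rc 0 (m:ℝ) 0 m) (rb 0 m 0 m ∪ X) 1 χ := by
    refine hT.isoE zero_le_one ?_ hAQ ?_ (fun x hx => absurd hx (notMem_empty x)) hχB ?_ ?_
    · intro i x hx y hy
      exact hIv.diam hIv hx hy
    · rintro i x (hx | hx) y (hy | hy) hxi hyi hxb hyb
      · exact absurd (hIv.rb_sub hIv hx hxi) hxb
      · exact absurd (hIv.rb_sub hIv hx hxi) hxb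
      · exact absurd (hIv.rb_sub hIv hy hyi) hyb
      · exact hXs x hx y hy (hIv.diam hIv hxi hyi)
    · intro i
      refine image_disc_eq (hT.ball i) χ ?_ (hχB i)
      intro x hx
      rw [hT.cov]
      exact Or.inr (mem_iUnion.2 ⟨i, hx⟩)
    · rintro x (hx | hx)
      · exact hχb x hx
      · exact hχX x hx
  have h2 : IsoE (rc 0 (m:ℝ) 0 m) (rb 0 m 0 m ∪ X) (1 + (1 + 1)) φ := by
    refine IsoE.of_trans' (η := Ka.symm.trans Kb.symm) ?_ ((a4.symm hAQ).trans (hKbI.symm hAQ)) hAQ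
    rw [← hχ]; exact hχI
  have h3 : IsoE (rc 0 (m:ℝ) 0 m) (rb 0 m 0 m ∪ X) (1 + (1 + 1) + 1) ψ := by
    refine IsoE.of_trans' (η := K₁.symm) ?_ (k1I.symm hAQ) hAQ
    rw [← hφ]; exact h2
  exact h3.mono subset_rfl (by norm_num)

end P073.H399
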