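import Vale.Agent.P073.H399.Refine3

/-!
# P073, H399: **[REF-TOP]**, part a: segments which do not meet the relative interiors of the pieces

`Pieces.Skel k u v`: the segment lies in the face `k`, does not meet the relative interiors of the
pieces, and its end points are vertices of the refined mesh. It is a union of edges of the refined
mesh (`exists_chain_sk`), the variation is additive (`evar_sk`).
-/

open Set Metric Topology Filter
open scoped ENNReal

namespace P073.H399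

open Vale.Agent.P073.St (V)
open Vale.Agent.P073.H73 (Mesh usq Fat)
open Vale.Agent.P073.H193 (Edges vtx Fam IsEdge Pgn Ed InLine pgn_of_fat fam_of_mesh mesh_sub edges)
open Vale.Agent.P073.H687 (Two Tiling)

variable {Ω : Set V}

namespace Pieces

variable {M : Mesh Ω} (P : Pieces M)

/-- a segment in the face `k` which does not meet the relative interiors of the pieces, between
vertices -/
structure Skel (k : M.κ) (u v : V) : Prop where
  ne : u ≠ v
  mu : u ∈ vtx P.mesh.F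
  mv : v ∈ vtx P.mesh.F
  sub : segment ℝ u v ⊆ M.F k
  dis : ∀ t, Disjoint (intrinsicInterior ℝ (P.A k t)) (segment ℝ u v)

theorem pgn (k : M.κ) (t : P.τ k) : Pgn (P.A k t) := (fam_of_mesh P.mesh).pgn ⟨k, t⟩

/-- a piece which contains two points of the segment contains a neighbourhood of each of them which is
not a vertex -/
theorem mem_nhds_sk {k : M.κ} {t : P.τ k} {u v : V} (huv : u ≠ v)
    (hdis : Disjoint (intrinsicInterior ℝ (P.A k t)) (segment ℝ u v)) {s s' : ℝ}
    (hs : s ∈ Icc (0:ℝ) 1) (hs' : s' ∈ Icc (0:ℝ) 1) (hss : s ≠ s')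
    (hA : AffineMap.lineMap u v s ∈ P.A k t) (hA' : AffineMap.lineMap u v s' ∈ P.A k t)
    (hn : AffineMap.lineMap u v s ∉ vtx P.mesh.F) :
    (AffineMap.lineMap u v : ℝ → V) ⁻¹' P.A k t ∈ 𝓝 s := by
  have hpg := P.pgn k t
  set f : ℝ →ᵃ[ℝ] V := AffineMap.lineMap u v with hf
  have hinj : Function.Injective f := AffineMap.lineMap_injective ℝ huv
  have hmemseg : ∀ r ∈ Icc (0:ℝ) 1, f r ∈ segment ℝ u v := fun r hr => by
    rw [segment_eq_image_lineMap]; exact ⟨r, hr, rfl⟩
  obtain ⟨S, hS, hJ⟩ := hpg.exists_ed (convex_segment (f s) (f s')) ⟨f s, left_mem_segment ℝ _ _⟩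
    ((P.convex k t).segment_subset hA hA') (Set.disjoint_left.2 fun x hx h' =>
      Set.disjoint_left.1 hdis h' ((convex_segment u v).segment_subset (hmemseg s hs)
        (hmemseg s' hs') hx))
  have hfs : f s ∈ S := hJ (left_mem_segment ℝ _ _)
  have hnext : (f s : V) ∉ (P.A k t).extremePoints ℝ := fun h =>
    hn (Vale.Agent.P073.H193.Fam.ext_vtx (F := P.mesh.F) (⟨k, t⟩ : Σ k, P.τ k) h)
  rw [mem_extremePoints_iff_left] at hnext
  push Not at hnext
  obtain ⟨p, hp, q, hq, hpq, hne⟩ := hnext hA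
  have hpS : p ∈ S := hS.isExtreme.2 hp hq hfs hpq
  have hqS : q ∈ S := hS.isExtreme.2 hq hp hfs (by rw [openSegment_symm]; exact hpq)
  have hff : f s ≠ f s' := fun h => hss (hinj h)
  have key : ∀ x ∈ S, ∃ α : ℝ, x = f α := by
    intro x hx
    obtain ⟨α, rfl⟩ := exists_param hS.inLine (hJ (left_mem_segment ℝ (f s) (f s')))
      (hJ (right_mem_segment ℝ (f s) (f s'))) hff hx
    exact ⟨AffineMap.lineMap s s' α, (AffineMap.apply_lineMap f s s' α).symm⟩
  obtain ⟨α, rfl⟩ := key p hpS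
  obtain ⟨β, rfl⟩ := key q hqS
  rw [← image_openSegment] at hpq
  obtain ⟨s'', hs'', he⟩ := hpq
  obtain rfl := hinj he
  have hαβ : α ≠ β := by
    rintro rfl
    rw [openSegment_same, mem_singleton_iff] at hs''
    exact hne (by rw [hs''])
  have hsubA : (f : ℝ → V) '' segment ℝ α β ⊆ P.A k t := by
    rw [image_segment]
    exact (P.convex k t).segment_subset hp hq
  rw [openSegment_eq_Ioo' hαβ] at hs''
  refine mem_of_superset (isOpen_Ioo.mem_nhds hs'') ?_
  intro r hr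
  apply hsubA
  refine ⟨r, ?_, rfl⟩
  rw [segment_eq_uIcc]
  exact ⟨hr.1.le, hr.2.le⟩

/-- **the chain of the edges of the refined mesh** -/
theorem exists_chain_sk {k : M.κ} {u v : V} (H : P.Skel k u v) :
    ∃ (n : ℕ) (s : ℕ → ℝ), s 0 = 0 ∧ s n = 1 ∧ (∀ i < n, s i < s (i + 1)) ∧
      ∀ i < n, ∃ e : (edges P.mesh).ε,
        ((edges P.mesh).a e = AffineMap.lineMap u v (s i) ∧
          (edges P.mesh).b e = AffineMap.lineMap u v (s (i + 1))) ∨
        ((edges P.mesh).a e = AffineMap.lineMap u v (s (i + 1)) ∧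
          (edges P.mesh).b e = AffineMap.lineMap u v (s i)) := by
  have huv := H.ne
  set f : ℝ →ᵃ[ℝ] V := AffineMap.lineMap u v with hf
  have hfi : Function.Injective f := AffineMap.lineMap_injective ℝ huv
  have hfc : Continuous f := AffineMap.lineMap_continuous
  have hFam := fam_of_mesh P.mesh
  have hpg := pgn_of_fat (M.fat k)
  have hfs : ∀ s ∈ Icc (0:ℝ) 1, f s ∈ segment ℝ u v := fun s hs => by
    rw [segment_eq_image_lineMap]; exact ⟨s, hs, rfl⟩
  have hFk : segment ℝ u v ⊆ M.F k := H.sub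
  -- the vertices on the segment
  have hT : (Icc (0:ℝ) 1 ∩ f ⁻¹' vtx P.mesh.F).Finite := by
    have hfin : (⋃ t : P.τ k, vtx P.mesh.F ∩ P.mesh.F ⟨k, t⟩).Finite := by
      have := P.fin k
      exact finite_iUnion fun t => hFam.vtx_finite _
    refine (hfin.preimage hfi.injOn).subset ?_
    rintro s ⟨hs, hs'⟩
    obtain ⟨t, ht⟩ := P.cover k _ (hFk (hfs s hs))
    exact mem_iUnion.2 ⟨t, hs', ht⟩
  have hmem : ∀ {s}, s ∈ hT.toFinset ↔ s ∈ Icc (0:ℝ) 1 ∧ f s ∈ vtx P.mesh.F := fun {s} =>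
    hT.mem_toFinset
  obtain ⟨n, s, s0, sn, slt, smem, sno⟩ := exists_sorted (T := hT.toFinset)
    (hmem.2 ⟨⟨le_refl _, zero_le_one⟩, by rw [hf, AffineMap.lineMap_apply_zero]; exact H.mu⟩)
    (hmem.2 ⟨⟨zero_le_one, le_refl _⟩, by rw [hf, AffineMap.lineMap_apply_one]; exact H.mv⟩)
    (fun t ht => (hmem.1 ht).1)
  refine ⟨n, s, s0, sn, slt, fun i hi => ?_⟩
  have ha := hmem.1 (smem i hi.le)
  have hb := hmem.1 (smem (i + 1) hi)
  have hab := slt i hi
  have hno := sno i hi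
  generalize s i = a at ha hab hno ⊢
  generalize s (i + 1) = b at hb hab hno ⊢
  have hI : ∀ r ∈ Icc a b, r ∈ Icc (0:ℝ) 1 := fun r hr => ⟨ha.1.1.trans hr.1, hr.2.trans hb.1.2⟩
  have hIo : ∀ r ∈ Ioo a b, r ∈ Icc (0:ℝ) 1 := fun r hr => hI r ⟨hr.1.le, hr.2.le⟩
  -- one piece contains two points
  obtain ⟨t, r₁, hr₁, r₂, hr₂, hr₁₂, ht₁, ht₂⟩ : ∃ t : P.τ k, ∃ r₁ ∈ Ioo a b, ∃ r₂ ∈ Ioo a b,
      r₁ ≠ r₂ ∧ f r₁ ∈ P.A k t ∧ f r₂ ∈ P.A k t := by
    have := P.fin k
    have hinf : Infinite (Ioo a b) := (Ioo_infinite hab).to_subtype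
    choose c hc using fun r : Ioo a b => P.cover k _ (hFk (hfs r (hIo r r.2)))
    obtain ⟨x, y, hxy, he⟩ := Finite.exists_ne_map_eq_of_infinite c
    exact ⟨c x, x, x.2, y, y.2, fun h => hxy (Subtype.ext h), hc x, he ▸ hc y⟩
  have hclosed : IsClosed (f ⁻¹' P.A k t) := (P.isClosed k t).preimage hfc
  have hnh : ∀ r ∈ Ioo a b, f r ∈ P.A k t → f ⁻¹' P.A k t ∈ 𝓝 r := by
    intro r hr hrA
    have hnv : f r ∉ vtx P.mesh.F := fun h => hno r (hmem.2 ⟨hI r ⟨hr.1.le, hr.2.le⟩, h⟩) hr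
    by_cases hrr : r = r₁
    · exact P.mem_nhds_sk huv (H.dis t) (hIo r hr) (hIo r₂ hr₂) (by rw [hrr]; exact hr₁₂) hrA ht₂ hnv
    · exact P.mem_nhds_sk huv (H.dis t) (hIo r hr) (hIo r₁ hr₁) hrr hrA ht₁ hnv
  have hIoo : Ioo a b ⊆ interior (f ⁻¹' P.A k t) := by
    refine isPreconnected_Ioo.subset_of_closure_inter_subset isOpen_interior
      ⟨r₁, hr₁, mem_interior_iff_mem_nhds.2 (hnh _ hr₁ ht₁)⟩ ?_
    rintro r ⟨hr1, hr2⟩
    have h1 : r ∈ f ⁻¹' P.A k t := hclosed.closure_subset_iff.2 interior_subset hr1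
    exact mem_interior_iff_mem_nhds.2 (hnh r hr2 h1)
  have hIcc : Icc a b ⊆ f ⁻¹' P.A k t := by
    rw [← closure_Ioo hab.ne]
    exact hclosed.closure_subset_iff.2 (hIoo.trans interior_subset)
  have hseg : segment ℝ (f a) (f b) = f '' Icc a b := by
    rw [← image_segment, segment_eq_Icc hab.le]
  have hop : openSegment ℝ (f a) (f b) = f '' Ioo a b := by
    rw [← image_openSegment, openSegment_eq_Ioo hab]
  have hdis : Disjoint (openSegment ℝ (f a) (f b)) (vtx P.mesh.F) := by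
    rw [hop, Set.disjoint_left]
    rintro _ ⟨r, hr, rfl⟩ h
    exact hno r (hmem.2 ⟨hI r ⟨hr.1.le, hr.2.le⟩, h⟩) hr
  have hfr : segment ℝ (f a) (f b) ⊆ intrinsicFrontier ℝ (P.mesh.F ⟨k, t⟩) := by
    rw [(hFam.pgn ⟨k, t⟩).fr_eq, hseg]
    rintro _ ⟨r, hr, rfl⟩
    exact ⟨hIcc hr, fun h => Set.disjoint_left.1 (H.dis t) h (hfs r (hI r hr))⟩
  rcases lt_or_gt_of_ne (fun h => hab.ne (hfi (toLex.injective h)) : toLex (f a) ≠ toLex (f b))
    with h | h
  · exact ⟨⟨(f a, f b), ⟨h, ha.2, hb.2, hdis, _, hfr⟩⟩, Or.inl ⟨rfl, rfl⟩⟩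
  · refine ⟨⟨(f b, f a), ⟨h, hb.2, ha.2, ?_, ⟨k, t⟩, ?_⟩⟩, Or.inr ⟨rfl, rfl⟩⟩
    · rw [openSegment_symm]; exact hdis
    · rw [segment_symm]; exact hfr

/-- an edge of `M` satisfies the hypotheses -/
theorem skel_edge (E : Edges M) (hV : E.verts ⊆ vtx P.mesh.F) {k : M.κ} {e : E.ε}
    (hk : E.seg e ⊆ M.F k) : P.Skel k (E.a e) (E.b e) where
  ne := E.ne e
  mu := hV (Or.inl ⟨e, rfl⟩)
  mv := hV (Or.inr ⟨e, rfl⟩)
  sub := hk
  dis := fun t => Set.disjoint_left.2 fun x hx hx' => by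
    have h1 := E.seg_sub_fr hk hx'
    rw [(pgn_of_fat (M.fat k)).fr_eq] at h1
    exact h1.2 (P.relint_sub k t hx)

/-- the edges of the refined mesh in a segment -/
def subs (u v : V) : Set (edges P.mesh).ε := {e | (edges P.mesh).seg e ⊆ segment ℝ u v}

theorem subs_finite {k : M.κ} {u v : V} (H : P.Skel k u v) : (P.subs u v).Finite := by
  refine ((edges P.mesh).fin (segment ℝ u v) (H.sub.trans (mesh_sub M k)) ?_).subset ?_
  · rw [segment_eq_image_lineMap]
    exact isCompact_Icc.image AffineMap.lineMap_continuous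
  · intro e he
    exact ⟨_, (edges P.mesh).left_mem e, he ((edges P.mesh).left_mem e)⟩

open Classical in
/-- **variation on a segment** = sum of the variations on the edges of the refined mesh in it -/
theorem evar_sk {W : Type*} [PseudoEMetricSpace W] {k : M.κ} {u v : V} (H : P.Skel k u v)
    (g : V → W) :
    eVariationOn (fun t : ℝ => g (AffineMap.lineMap u v t)) (Icc 0 1) =
      ∑ e ∈ (P.subs_finite H).toFinset,
        eVariationOn (fun t : ℝ => g (AffineMap.lineMap ((edges P.mesh).a e)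
          ((edges P.mesh).b e) t)) (Icc 0 1) ∧
    segment ℝ u v = ⋃ e ∈ P.subs u v, (edges P.mesh).seg e := by
  obtain ⟨n, s, s0, sn, hlt, hch⟩ := P.exists_chain_sk H
  set E' := edges P.mesh with hE'
  set f : ℝ →ᵃ[ℝ] V := AffineMap.lineMap u v with hf
  have hfi : Function.Injective f := AffineMap.lineMap_injective ℝ H.ne
  have hn : 0 < n := by
    rcases Nat.eq_zero_or_pos n with h | h
    · rw [h, s0] at sn; norm_num at sn
    · exact h
  have : Nonempty E'.ε := ⟨(hch 0 hn).choose⟩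
  choose! c hc using hch
  have hs01 : ∀ i ≤ n, s i ∈ Icc (0:ℝ) 1 := by
    intro i hi
    constructor
    · rcases Nat.eq_zero_or_pos i with h | h
      · rw [h, s0]
      · rw [← s0]; exact (chain_lt hlt h hi).le
    · rcases hi.lt_or_eq with h | h
      · rw [← sn]; exact (chain_lt hlt h le_rfl).le
      · rw [h, sn]
  have hfseg : ∀ r ∈ Icc (0:ℝ) 1, f r ∈ segment ℝ u v := fun r hr => by
    rw [segment_eq_image_lineMap]; exact ⟨r, hr, rfl⟩
  -- the edges of the chain
  have hseg : ∀ i < n, E'.seg (c i) = f '' Icc (s i) (s (i + 1)) := by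
    intro i hi
    have h1 : segment ℝ (f (s i)) (f (s (i + 1))) = f '' Icc (s i) (s (i + 1)) := by
      rw [← image_segment, segment_eq_Icc (hlt i hi).le]
    show segment ℝ (E'.a (c i)) (E'.b (c i)) = _
    rcases hc i hi with ⟨h2, h3⟩ | ⟨h2, h3⟩
    · rw [h2, h3]; exact h1
    · rw [h2, h3, segment_symm]; exact h1
  have hsub : ∀ i < n, c i ∈ P.subs u v := by
    intro i hi
    show E'.seg (c i) ⊆ _
    rw [hseg i hi]
    rintro _ ⟨r, hr, rfl⟩
    exact hfseg r ⟨(hs01 i hi.le).1.trans hr.1, hr.2.trans (hs01 (i + 1) hi).2⟩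
  have hcinj : ∀ i < n, ∀ j < n, c i = c j → i = j := by
    intro i hi j hj hij
    have h1 : f '' Icc (s i) (s (i + 1)) = f '' Icc (s j) (s (j + 1)) := by
      rw [← hseg i hi, ← hseg j hj, hij]
    rw [hfi.image_injective.eq_iff] at h1
    have h2 : s i = s j := by
      have h3 : s i ∈ Icc (s j) (s (j + 1)) := h1 ▸ left_mem_Icc.2 (hlt i hi).le
      have h4 : s j ∈ Icc (s i) (s (i + 1)) := h1 ▸ left_mem_Icc.2 (hlt j hj).le
      exact le_antisymm h4.1 h3.1
    rcases lt_trichotomy i j with h | h | h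
    · exact absurd h2 (chain_lt hlt h hj.le).ne
    · exact h
    · exact absurd h2 (chain_lt hlt h hi.le).ne'
  have hsurj : ∀ e' ∈ P.subs u v, ∃ i < n, c i = e' := by
    intro e' he'
    have hz : AffineMap.lineMap (E'.a e') (E'.b e') (1 / 2 : ℝ) ∈
        openSegment ℝ (E'.a e') (E'.b e') := by
      rw [openSegment_eq_image_lineMap]
      exact ⟨1 / 2, ⟨by norm_num, by norm_num⟩, rfl⟩
    generalize AffineMap.lineMap (E'.a e') (E'.b e') (1 / 2 : ℝ) = z at hz
    have h1 : z ∈ segment ℝ u v := he' (openSegment_subset_segment ℝ _ _ hz)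
    rw [segment_eq_image_lineMap] at h1
    obtain ⟨r, hr, rfl⟩ := h1
    obtain ⟨i, hi, hri⟩ := chain_mem (r := r) (s := s) (n := n) (by rw [s0]; exact hr.1)
      (by rw [sn]; exact hr.2) hn
    refine ⟨i, hi, (E'.eq_of_mem hz ?_).symm⟩
    rw [hseg i hi]
    exact ⟨r, hri, rfl⟩
  constructor
  · have h1 := evar_chain (fun t : ℝ => g (f t)) hlt
    rw [s0, sn] at h1
    rw [show (fun t : ℝ => g (AffineMap.lineMap u v t)) = fun t : ℝ => g (f t) from rfl, h1]
    refine Finset.sum_bij (fun i _ => c i) ?_ ?_ ?_ ?_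
    · intro i hi
      exact (P.subs_finite H).mem_toFinset.2 (hsub i (Finset.mem_range.1 hi))
    · intro i hi j hj hij
      exact hcinj i (Finset.mem_range.1 hi) j (Finset.mem_range.1 hj) hij
    · intro e' he'
      obtain ⟨i, hi, hie⟩ := hsurj e' ((P.subs_finite H).mem_toFinset.1 he')
      exact ⟨i, Finset.mem_range.2 hi, hie⟩
    · intro i hi
      have hi' := Finset.mem_range.1 hi
      have h2 := evar_part g u v (hlt i hi').le
      rcases hc i hi' with ⟨h3, h4⟩ | ⟨h3, h4⟩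
      · show _ = eVariationOn (fun t : ℝ => g (AffineMap.lineMap (E'.a (c i)) (E'.b (c i)) t)) _
        rw [h3, h4]
        exact h2.symm
      · show _ = eVariationOn (fun t : ℝ => g (AffineMap.lineMap (E'.a (c i)) (E'.b (c i)) t)) _
        rw [h3, h4, evar_symm]
        exact h2.symm
  · apply Subset.antisymm
    · intro x hx
      rw [segment_eq_image_lineMap] at hx
      obtain ⟨r, hr, rfl⟩ := hx
      obtain ⟨i, hi, hri⟩ := chain_mem (r := r) (s := s) (n := n) (by rw [s0]; exact hr.1)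
        (by rw [sn]; exact hr.2) hn
      refine mem_biUnion (hsub i hi) ?_
      rw [hseg i hi]
      exact ⟨r, hri, rfl⟩
    · exact iUnion₂_subset fun e' he' => he'

end Pieces

end P073.H399
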