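import Vale.Agent.P073.H399.RTa

/-!
# P073, H399: **[REF-TOP]**, part b: the perimeter of a polygon

`perim`: for an affine function `φ` on a convex polygon `A`, and finitely many segments with
disjoint interiors in the relative boundary of `A`, the sum of the variations of `φ` on these
segments is at most twice the oscillation of `φ` on `A` (the number of segments is arbitrary).
-/

open Set Metric Topology Filter MeasureTheory
open scoped ENNReal NNReal

namespace P073.H399

open Vale.Agent.P073.St (V)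
open Vale.Agent.P073.H73 (Mesh onSeg)
open Vale.Agent.P073.H193 (Edges vtx Fam Pgn Ed InLine fam_of_mesh edges)
open _root_.P073.Net (len)

theorem inLine_lev {A : Set V} {ν₀ μ : V →L[ℝ] ℝ} {t₀ c : ℝ} (hν : ν₀ ≠ 0)
    (hpl : ∀ x ∈ A, ν₀ x = t₀) {z : V} (hz : z ∈ A) (hzi : μ z ≠ c) :
    InLine {x | x ∈ A ∧ μ x = c} := by
  rcases ({x | x ∈ A ∧ μ x = c} : Set V).eq_empty_or_nonempty with he | ⟨x₀, hx₀⟩
  · exact Vale.Agent.P073.H193.InLine.of_subsingleton (by rw [he]; exact subsingleton_empty)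
  set L : V →ₗ[ℝ] ℝ × ℝ := (ν₀ : V →ₗ[ℝ] ℝ).prod (μ : V →ₗ[ℝ] ℝ) with hL
  have hLv : ∀ x, L x = (ν₀ x, μ x) := fun x => rfl
  obtain ⟨u, hu⟩ : ∃ u, ν₀ u ≠ 0 := by
    by_contra hcon
    push Not at hcon
    exact hν (ContinuousLinearMap.ext hcon)
  have hv0 : ν₀ (z - x₀) = 0 := by rw [map_sub, hpl z hz, hpl x₀ hx₀.1, sub_self]
  have hvi : μ (z - x₀) ≠ 0 := by
    rw [map_sub, hx₀.2]
    exact sub_ne_zero.2 hzi
  have hsurj : Function.Surjective L := by
    rintro ⟨α, β⟩
    refine ⟨(α / ν₀ u) • u + ((β - α / ν₀ u * μ u) / μ (z - x₀)) • (z - x₀), ?_⟩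
    rw [hLv]
    simp only [map_add, map_smul, smul_eq_mul, hv0]
    rw [Prod.mk.injEq]
    constructor
    · field_simp
      ring
    · rw [div_mul_cancel₀ _ hvi]
      ring
  have hker : Module.finrank ℝ (LinearMap.ker L) = 1 := by
    have h1 := L.finrank_range_add_finrank_ker
    rw [LinearMap.range_eq_top.2 hsurj, finrank_top, Module.finrank_prod, Module.finrank_self,
      Module.finrank_fin_fun] at h1
    omega
  obtain ⟨d, hd, hd'⟩ := finrank_eq_one_iff'.1 hker
  refine ⟨d, fun h => hd (Subtype.ext h), fun x hx y hy => ?_⟩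
  have hm : y - x ∈ LinearMap.ker L := by
    rw [LinearMap.mem_ker, hLv, map_sub, map_sub, hpl y hy.1, hpl x hx.1, hx.2, hy.2, sub_self,
      sub_self]
    rfl
  obtain ⟨s, hs⟩ := hd' ⟨y - x, hm⟩
  exact ⟨s, (congrArg Subtype.val hs).symm⟩

/-- of three points of a line one is between the others -/
theorem inLine_between {S : Set V} (hS : InLine S) {x y z : V} (hx : x ∈ S) (hy : y ∈ S)
    (hz : z ∈ S) (hxy : x ≠ y) (hxz : x ≠ z) (hyz : y ≠ z) :
    x ∈ openSegment ℝ y z ∨ y ∈ openSegment ℝ x z ∨ z ∈ openSegment ℝ x y := by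
  obtain ⟨d, hd, hl⟩ := hS
  obtain ⟨s, hs⟩ := hl x hx y hy
  obtain ⟨r, hr⟩ := hl x hx z hz
  set f : ℝ →ᵃ[ℝ] V := AffineMap.lineMap x (x + d) with hf
  have hfa : ∀ α : ℝ, f α = x + α • d := fun α => by
    rw [hf, AffineMap.lineMap_apply]
    simp only [vsub_eq_sub, vadd_eq_add, add_sub_cancel_left]
    rw [add_comm]
  have hx0 : x = f 0 := by rw [hfa, zero_smul, add_zero]
  have hy0 : y = f s := by rw [hfa, ← hs]; abel
  have hz0 : z = f r := by rw [hfa, ← hr]; abel
  have h1 : (0:ℝ) ≠ s := fun h => hxy (by rw [hx0, hy0, h])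
  have h2 : (0:ℝ) ≠ r := fun h => hxz (by rw [hx0, hz0, h])
  have h3 : s ≠ r := fun h => hyz (by rw [hy0, hz0, h])
  have key : ∀ {α β γ : ℝ}, α < β → β < γ → f β ∈ openSegment ℝ (f α) (f γ) := by
    intro α β γ h4 h5
    rw [← image_openSegment, openSegment_eq_Ioo (h4.trans h5)]
    exact ⟨β, ⟨h4, h5⟩, rfl⟩
  rw [hx0, hy0, hz0]
  rcases lt_or_gt_of_ne h1 with a | a <;> rcases lt_or_gt_of_ne h2 with b | b <;>
    rcases lt_or_gt_of_ne h3 with c | c
  · exact Or.inr (Or.inl (key a c))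
  · exact Or.inr (Or.inr (key b c))
  · exfalso; linarith
  · left; rw [openSegment_symm]; exact key b a
  · left; exact key a b
  · exfalso; linarith
  · right; right; rw [openSegment_symm]; exact key c b
  · right; left; rw [openSegment_symm]; exact key c a

/-- **the perimeter** -/
theorem perim {A : Set V} (hA : Pgn A) (φ : V →ᵃ[ℝ] ℝ) {m m' : ℝ}
    (hφ : ∀ x ∈ A, m ≤ φ x ∧ φ x ≤ m') (hm : m ≤ m') {ι : Type*} (T : Finset ι) (a b : ι → V)
    (hsub : ∀ e ∈ T, segment ℝ (a e) (b e) ⊆ intrinsicFrontier ℝ A)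
    (hdis : ∀ e ∈ T, ∀ e' ∈ T, e ≠ e' →
      Disjoint (openSegment ℝ (a e) (b e)) (openSegment ℝ (a e') (b e'))) :
    ∑ e ∈ T, |φ (b e) - φ (a e)| ≤ 2 * (m' - m) := by
  classical
  obtain ⟨ν₀, t₀, hν, hpl⟩ := hA.plane
  have hfrA : intrinsicFrontier ℝ A ⊆ A := intrinsicFrontier_subset hA.cpt.isClosed
  set μ : V →L[ℝ] ℝ := LinearMap.toContinuousLinearMap φ.linear with hμ
  have hμφ : ∀ x y, μ x - μ y = φ x - φ y := fun x y => by
    have := φ.linearMap_vsub x y
    rw [vsub_eq_sub, vsub_eq_sub] at this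
    rw [← this, ← map_sub]
    rfl
  set S : ι → Set ℝ := fun e => φ '' openSegment ℝ (a e) (b e) with hS
  set T' := T.filter fun e => φ (a e) ≠ φ (b e) with hT'
  -- at most two segments over each value
  have hcard : ∀ c : ℝ, (T'.filter fun e => c ∈ S e).card ≤ 2 := by
    intro c
    by_contra hcon
    push Not at hcon
    obtain ⟨e₁, h1, e₂, h2, e₃, h3, h12, h13, h23⟩ := Finset.two_lt_card.1 hcon
    rw [Finset.mem_filter, Finset.mem_filter] at h1 h2 h3
    obtain ⟨⟨hT1, hn1⟩, w₁, hw1, hc1⟩ := h1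
    obtain ⟨⟨hT2, hn2⟩, w₂, hw2, hc2⟩ := h2
    obtain ⟨⟨hT3, hn3⟩, w₃, hw3, hc3⟩ := h3
    have hwA : ∀ {e w}, e ∈ T → w ∈ openSegment ℝ (a e) (b e) → w ∈ A := fun he hw =>
      hfrA (hsub _ he (openSegment_subset_segment ℝ _ _ hw))
    have d12 : w₁ ≠ w₂ := fun h => Set.disjoint_left.1 (hdis _ hT1 _ hT2 h12) hw1 (h ▸ hw2)
    have d13 : w₁ ≠ w₃ := fun h => Set.disjoint_left.1 (hdis _ hT1 _ hT3 h13) hw1 (h ▸ hw3)
    have d23 : w₂ ≠ w₃ := fun h => Set.disjoint_left.1 (hdis _ hT2 _ hT3 h23) hw2 (h ▸ hw3)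
    -- the middle one
    have key : ∀ e w u u', e ∈ T → w ∈ openSegment ℝ (a e) (b e) → u ∈ A → u' ∈ A → u ≠ u' →
        φ u = φ u' → w ∈ openSegment ℝ u u' → φ (a e) ≠ φ (b e) → False := by
      intro e w u u' he hw hu hu' huu hφu hwu hne
      have hsA : segment ℝ (a e) (b e) ⊆ A := (hsub e he).trans hfrA
      obtain ⟨E, hE, hJ⟩ := hA.exists_ed (convex_segment (a e) (b e)) ⟨_, left_mem_segment ℝ _ _⟩
        hsA (Set.disjoint_left.2 fun x hx h' => by
          have := hsub e he hx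
          rw [hA.fr_eq] at this
          exact this.2 h')
      have hwE : w ∈ E := hJ (openSegment_subset_segment ℝ _ _ hw)
      have huE : u ∈ E := hE.isExtreme.2 hu hu' hwE hwu
      have hu'E : u' ∈ E := hE.isExtreme.2 hu' hu hwE (by rw [openSegment_symm]; exact hwu)
      obtain ⟨d, hd, hl⟩ := hE.inLine
      obtain ⟨s, hs⟩ := hl u huE u' hu'E
      have hs0 : s ≠ 0 := by
        rintro rfl
        rw [zero_smul, sub_eq_zero] at hs
        exact huu hs.symm
      have hμd : μ d = 0 := by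
        have h1 : μ (u' - u) = 0 := by rw [map_sub, hμφ, hφu, sub_self]
        rw [hs, map_smul, smul_eq_mul] at h1
        exact (mul_eq_zero.1 h1).resolve_left hs0
      obtain ⟨r, hr⟩ := hl (a e) (hJ (left_mem_segment ℝ _ _)) (b e) (hJ (right_mem_segment ℝ _ _))
      apply hne
      have h2 := hμφ (b e) (a e)
      rw [← map_sub, hr, map_smul, hμd, smul_zero] at h2
      linarith
    -- the three points are on a line
    have hline : InLine {x | x ∈ A ∧ μ x = μ w₁} := by
      have hz : ∃ z ∈ A, μ z ≠ μ w₁ := by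
        by_cases h : μ (a e₁) = μ w₁
        · refine ⟨b e₁, hfrA (hsub e₁ hT1 (right_mem_segment ℝ _ _)), fun h' => hn1 ?_⟩
          have := hμφ (a e₁) (b e₁)
          rw [h, h', sub_self] at this
          linarith
        · exact ⟨a e₁, hfrA (hsub e₁ hT1 (left_mem_segment ℝ _ _)), h⟩
      obtain ⟨z, hz, hz'⟩ := hz
      exact inLine_lev hν hpl hz hz'
    have m1 : w₁ ∈ {x | x ∈ A ∧ μ x = μ w₁} := ⟨hwA hT1 hw1, rfl⟩
    have m2 : w₂ ∈ {x | x ∈ A ∧ μ x = μ w₁} := ⟨hwA hT2 hw2, by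
      have := hμφ w₂ w₁; rw [hc1, hc2, sub_self] at this; linarith⟩
    have m3 : w₃ ∈ {x | x ∈ A ∧ μ x = μ w₁} := ⟨hwA hT3 hw3, by
      have := hμφ w₃ w₁; rw [hc1, hc3, sub_self] at this; linarith⟩
    rcases inLine_between hline m1 m2 m3 d12 d13 d23 with h | h | h
    · exact key e₁ w₁ w₂ w₃ hT1 hw1 m2.1 m3.1 d23 (hc2.trans hc3.symm) h hn1
    · exact key e₂ w₂ w₁ w₃ hT2 hw2 m1.1 m3.1 d13 (hc1.trans hc3.symm) h hn2
    · exact key e₃ w₃ w₁ w₂ hT3 hw3 m1.1 m2.1 d12 (hc1.trans hc2.symm) h hn3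
  -- measure
  have hSm : ∀ e, S e = openSegment ℝ (φ (a e)) (φ (b e)) := fun e => image_openSegment ℝ φ _ _
  have hmeas : ∀ e ∈ T', MeasurableSet (S e) := fun e he => by
    rw [hSm, openSegment_eq_Ioo' (Finset.mem_filter.1 he).2]
    exact measurableSet_Ioo
  have hvol : ∀ e ∈ T', volume (S e) = ENNReal.ofReal |φ (b e) - φ (a e)| := fun e he => by
    rw [hSm, openSegment_eq_Ioo' (Finset.mem_filter.1 he).2, Real.volume_Ioo,
      max_sub_min_eq_abs', abs_sub_comm]
  have hSsub : ∀ e ∈ T', S e ⊆ Icc m m' := by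
    rintro e he _ ⟨w, hw, rfl⟩
    exact hφ w (hfrA (hsub e (Finset.mem_filter.1 he).1 (openSegment_subset_segment ℝ _ _ hw)))
  have h1 : ∑ e ∈ T', volume (S e) ≤ ENNReal.ofReal (2 * (m' - m)) := by
    calc ∑ e ∈ T', volume (S e) = ∑ e ∈ T', ∫⁻ c, (S e).indicator 1 c := by
          refine Finset.sum_congr rfl fun e he => ?_
          rw [lintegral_indicator_one (hmeas e he)]
      _ = ∫⁻ c, ∑ e ∈ T', (S e).indicator 1 c := by
          rw [lintegral_finsetSum']
          exact fun e he => (measurable_one.indicator (hmeas e he)).aemeasurable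
      _ ≤ ∫⁻ c, (Icc m m').indicator (fun _ => 2) c := by
          refine lintegral_mono fun c => ?_
          by_cases hc : c ∈ Icc m m'
          · rw [indicator_of_mem hc]
            have h2 : ∑ e ∈ T', (S e).indicator (1 : ℝ → ℝ≥0∞) c =
                ((T'.filter fun e => c ∈ S e).card : ℝ≥0∞) := by
              rw [Finset.card_filter]
              push_cast
              refine Finset.sum_congr rfl fun e _ => ?_
              by_cases h : c ∈ S e
              · rw [indicator_of_mem h, if_pos h]; rfl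
              · rw [indicator_of_notMem h, if_neg h]
            rw [h2]
            have h5 := hcard c
            calc ((T'.filter fun e => c ∈ S e).card : ℝ≥0∞) ≤ ((2:ℕ) : ℝ≥0∞) :=
                  Nat.cast_le.2 h5
              _ = 2 := by norm_num
          · rw [indicator_of_notMem hc]
            refine le_of_eq (Finset.sum_eq_zero fun e he => ?_)
            exact indicator_of_notMem (fun h => hc (hSsub e he h)) _
      _ = ENNReal.ofReal (2 * (m' - m)) := by
          rw [lintegral_indicator_const measurableSet_Icc, Real.volume_Icc,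
            ENNReal.ofReal_mul (by norm_num), ENNReal.ofReal_ofNat]
  have h3 : ∑ e ∈ T, |φ (b e) - φ (a e)| = ∑ e ∈ T', |φ (b e) - φ (a e)| := by
    rw [hT', Finset.sum_filter]
    refine Finset.sum_congr rfl fun e _ => ?_
    by_cases h : φ (a e) = φ (b e)
    · rw [if_neg (fun h' => h' h), h, sub_self, abs_zero]
    · rw [if_pos h]
  rw [h3]
  have h4 : ENNReal.ofReal (∑ e ∈ T', |φ (b e) - φ (a e)|) ≤ ENNReal.ofReal (2 * (m' - m)) := by
    rw [ENNReal.ofReal_sum_of_nonneg fun e _ => abs_nonneg _]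
    rw [← Finset.sum_congr rfl hvol]
    exact h1
  exact (ENNReal.ofReal_le_ofReal_iff (by linarith)).1 h4

/-- length of an affine image of a segment -/
theorem len_affine {h : V → V} {B : V →ᵃ[ℝ] V} {a b : V} (hB : EqOn h B (segment ℝ a b)) :
    len (onSeg h (a, b)) (Icc 0 1) ≤ ENNReal.ofReal (2 * ∑ j, |h b j - h a j|) := by
  have h1 : ∀ t ∈ Icc (0:ℝ) 1, onSeg h (a, b) t = h a + t • (h b - h a) := by
    intro t ht
    have h2 : a + t • (b - a) ∈ segment ℝ a b := by
      rw [segment_eq_image']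
      exact ⟨t, ht, rfl⟩
    have h3 : a + t • (b - a) = AffineMap.lineMap a b t := by
      rw [AffineMap.lineMap_apply]; simp [add_comm]
    show h (a + t • (b - a)) = _
    rw [hB h2, hB (left_mem_segment ℝ a b), hB (right_mem_segment ℝ a b), h3,
      AffineMap.apply_lineMap, AffineMap.lineMap_apply]
    simp [add_comm]
  have h4 : len (onSeg h (a, b)) (Icc 0 1) ≤
      ((Real.toNNReal (_root_.Vale.Agent.P073.St.euc (h b - h a)) : ℝ≥0) : ℝ≥0∞) *
        eVariationOn (fun t : ℝ => t) (Icc 0 1) := by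
    refine _root_.P073.Net.eVariationOn_le_of_edist fun x hx y hy => ?_
    rw [_root_.P073.Net.edist_toLp, h1 x hx, h1 y hy, add_sub_add_left_eq_sub, ← sub_smul,
      _root_.P073.Net.euc_smul, edist_dist, Real.dist_eq, mul_comm,
      ENNReal.ofReal_mul (_root_.P073.Net.euc_nonneg _)]
    rfl
  have h5 : eVariationOn (fun t : ℝ => t) (Icc 0 1) ≤ ENNReal.ofReal (1 - 0) := by
    have := (monotoneOn_id (s := Icc (0:ℝ) 1)).eVariationOn_eq (left_mem_Icc.2 zero_le_one)
      (right_mem_Icc.2 zero_le_one)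
    rw [inter_self] at this
    exact this.le
  refine h4.trans ?_
  calc ((Real.toNNReal (_root_.Vale.Agent.P073.St.euc (h b - h a)) : ℝ≥0) : ℝ≥0∞) *
        eVariationOn (fun t : ℝ => t) (Icc 0 1) ≤
        ((Real.toNNReal (_root_.Vale.Agent.P073.St.euc (h b - h a)) : ℝ≥0) : ℝ≥0∞) *
          ENNReal.ofReal (1 - 0) := by gcongr
    _ = ENNReal.ofReal (_root_.Vale.Agent.P073.St.euc (h b - h a)) := by
        rw [sub_zero, ENNReal.ofReal_one, mul_one]; rfl
    _ ≤ _ := by
        refine ENNReal.ofReal_le_ofReal ((_root_.P073.Net.euc_le _).trans ?_)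
        refine mul_le_mul_of_nonneg_left ?_ (by norm_num)
        refine (pi_norm_le_iff_of_nonneg (Finset.sum_nonneg fun j _ => abs_nonneg _)).2 fun j => ?_
        rw [Pi.sub_apply, Real.norm_eq_abs]
        exact Finset.single_le_sum (f := fun j => |h b j - h a j|) (fun j _ => abs_nonneg _)
          (Finset.mem_univ j)

namespace Pieces

variable {Ω : Set V} {M : Mesh Ω} (P : Pieces M)

/-- **the sum of the lengths of the edges of a piece on which `h` is affine** -/
theorem perim_piece {h : V → V} {k : M.κ} {t : P.τ k} {B : V →ᵃ[ℝ] V}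
    (hB : EqOn h B (P.A k t)) {b : ℝ}
    (hosc : ∀ x ∈ P.A k t, ∀ y ∈ P.A k t, ‖h x - h y‖ ≤ b) {T : Finset (edges P.mesh).ε}
    (hT : ∀ e ∈ T, (edges P.mesh).seg e ⊆ P.A k t) :
    ∑ e ∈ T, len (onSeg h ((edges P.mesh).a e, (edges P.mesh).b e)) (Icc 0 1) ≤
      ENNReal.ofReal (12 * b) := by
  have hpg := P.pgn k t
  obtain ⟨x₀, hx₀⟩ := hpg.nonempty
  have hd : ∀ e ∈ T, ∀ e' ∈ T, e ≠ e' →
      Disjoint (openSegment ℝ ((edges P.mesh).a e) ((edges P.mesh).b e))
        (openSegment ℝ ((edges P.mesh).a e') ((edges P.mesh).b e')) := by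
    intro e _ e' _ hne
    rw [Set.disjoint_left]
    intro x hx hx'
    exact hne ((edges P.mesh).eq_of_mem hx (openSegment_subset_segment ℝ _ _ hx'))
  have hfr : ∀ e ∈ T, segment ℝ ((edges P.mesh).a e) ((edges P.mesh).b e) ⊆
      intrinsicFrontier ℝ (P.A k t) := fun e he =>
    (edges P.mesh).seg_sub_fr (k := (⟨k, t⟩ : Σ k, P.τ k)) (hT e he)
  have hj : ∀ j, ∑ e ∈ T, |h ((edges P.mesh).b e) j - h ((edges P.mesh).a e) j| ≤ 2 * b := by
    intro j
    set φ : V →ᵃ[ℝ] ℝ := (LinearMap.proj j : V →ₗ[ℝ] ℝ).toAffineMap.comp B with hφ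
    have hφh : ∀ x ∈ P.A k t, φ x = h x j := fun x hx => by
      rw [hB hx]; rfl
    have hc : ContinuousOn (fun x => φ x) (P.A k t) :=
      (AffineMap.continuous_of_finiteDimensional φ).continuousOn
    obtain ⟨u, hu, hu'⟩ := hpg.cpt.exists_isMinOn ⟨x₀, hx₀⟩ hc
    obtain ⟨v, hv, hv'⟩ := hpg.cpt.exists_isMaxOn ⟨x₀, hx₀⟩ hc
    have h1 := perim hpg φ (m := φ u) (m' := φ v) (fun x hx => ⟨hu' hx, hv' hx⟩) (hu' hv) T
      (edges P.mesh).a (edges P.mesh).b hfr hd
    have h2 : φ v - φ u ≤ b := by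
      rw [hφh v hv, hφh u hu]
      have h3 := hosc v hv u hu
      have h4 := norm_le_pi_norm (h v - h u) j
      rw [Pi.sub_apply, Real.norm_eq_abs] at h4
      exact (le_abs_self _).trans (h4.trans h3)
    have h5 : ∑ e ∈ T, |h ((edges P.mesh).b e) j - h ((edges P.mesh).a e) j| =
        ∑ e ∈ T, |φ ((edges P.mesh).b e) - φ ((edges P.mesh).a e)| := by
      refine Finset.sum_congr rfl fun e he => ?_
      rw [hφh _ (hT e he ((edges P.mesh).right_mem e)), hφh _ (hT e he ((edges P.mesh).left_mem e))]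
    rw [h5]
    linarith
  calc ∑ e ∈ T, len (onSeg h ((edges P.mesh).a e, (edges P.mesh).b e)) (Icc 0 1)
      ≤ ∑ e ∈ T,
          ENNReal.ofReal (2 * ∑ j, |h ((edges P.mesh).b e) j - h ((edges P.mesh).a e) j|) :=
        Finset.sum_le_sum fun e he => len_affine (hB.mono (hT e he))
    _ = ENNReal.ofReal
          (∑ e ∈ T, 2 * ∑ j, |h ((edges P.mesh).b e) j - h ((edges P.mesh).a e) j|) :=
        (ENNReal.ofReal_sum_of_nonneg fun e _ => mul_nonneg (by norm_num)
          (Finset.sum_nonneg fun j _ => abs_nonneg _)).symm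
    _ ≤ ENNReal.ofReal (12 * b) := by
        refine ENNReal.ofReal_le_ofReal ?_
        rw [← Finset.mul_sum, Finset.sum_comm]
        have h6 : ∑ j, ∑ e ∈ T, |h ((edges P.mesh).b e) j - h ((edges P.mesh).a e) j| ≤ 6 * b := by
          calc ∑ j, ∑ e ∈ T, |h ((edges P.mesh).b e) j - h ((edges P.mesh).a e) j|
              ≤ ∑ _j : Fin 3, 2 * b := Finset.sum_le_sum fun j _ => hj j
            _ = 6 * b := by simp; ring
        linarith

end Pieces

end P073.H399
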