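import Vale.Agent.P073.H399.RTa
import Vale.Agent.P073.H950.Adapt5
import Vale.Agent.P073.H304.OutB
import Vale.Agent.P073.H212.Sharp3

/-!
# P073, H399: **[REF-TOP]**, part c: from the refined mesh to the mesh

`Triv Pc 𝒲`: the faces outside of `𝒲` are not divided. The faces in `𝒲` are far from the shells.
`outB_ref`, `sharp_ref`: `OutB` and `SharpOut3` for the refined mesh give `OutB`, `SharpOut3` for `M`.
-/

open Set Metric Topology Filter MeasureTheory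
open scoped ENNReal

namespace P073.H399

open Vale.Agent.P073.St (V)
open Vale.Agent.P073.H73 (Mesh Adapted onSeg sqr ctr)
open Vale.Agent.P073.H193 (vtx Fam Pgn Ed InLine pgn_of_fat fam_of_mesh edges)
open Vale.Agent.P073.H304 (IsEdge Nb Cst OutB LipBd)
open Vale.Agent.P073.H212 (TvOut AuxOut SharpOut3 MonSide)
open Vale.Agent.P073.H239 (Deep faceI)
open _root_.P073 (ConHomeo)
open _root_.P073.Net (len dyc)
open Vale.Agent.P073.SQ (ev)

variable {Ω Λ : Set V} {M : Mesh Ω}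

theorem onSeg_eq (g : V → V) (u v : V) (t : ℝ) : onSeg g (u, v) t = g (AffineMap.lineMap u v t) := by
  rw [AffineMap.lineMap_apply, vsub_eq_sub, vadd_eq_add, add_comm]
  rfl

namespace Pieces

variable (Pc : Pieces M)

/-- the faces outside of `𝒲` are not divided -/
def Triv (𝒲 : Set M.κ) : Prop := ∀ k ∉ 𝒲, ∀ t, Pc.A k t = M.F k

/-- the sharp faces of the refined mesh -/
def YR (Y : Set M.κ) : Set Pc.mesh.κ := {a | (a : Σ k, Pc.τ k).1 ∈ Y}

theorem exists_t (k : M.κ) : Nonempty (Pc.τ k) := by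
  obtain ⟨x, hx⟩ := (pgn_of_fat (M.fat k)).nonempty
  exact ⟨(Pc.cover k x hx).choose⟩

/-- **lengths are additive** -/
theorem len_sk {k : M.κ} {u v : V} (H : Pc.Skel k u v) (g : V → V) :
    len (onSeg g (u, v)) (Icc 0 1) = ∑ e ∈ (Pc.subs_finite H).toFinset,
      len (onSeg g ((edges Pc.mesh).a e, (edges Pc.mesh).b e)) (Icc 0 1) := by
  have h1 := (Pc.evar_sk H (W := EuclideanSpace ℝ (Fin 3)) fun x => WithLp.toLp 2 (g x)).1
  have h2 : ∀ a b : V, len (onSeg g (a, b)) (Icc 0 1) = eVariationOn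
      (fun t : ℝ => (WithLp.toLp 2 (g (AffineMap.lineMap a b t)) : EuclideanSpace ℝ (Fin 3)))
      (Icc 0 1) := fun a b => by
    unfold len
    congr 1
    funext t
    rw [onSeg_eq]
  rw [h2, h1]
  exact Finset.sum_congr rfl fun e _ => (h2 _ _).symm

/-- **the total variations of the coordinates are additive** -/
theorem tv_sk {k : M.κ} {u v : V} (H : Pc.Skel k u v) (g : V → V) (A : Finset (Fin 3)) :
    Vale.Agent.P073.H239.tv g (u, v) A = ∑ e ∈ (Pc.subs_finite H).toFinset,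
      Vale.Agent.P073.H239.tv g ((edges Pc.mesh).a e, (edges Pc.mesh).b e) A := by
  unfold Vale.Agent.P073.H239.tv
  rw [Finset.sum_comm]
  refine Finset.sum_congr rfl fun j _ => ?_
  have h1 := (Pc.evar_sk H (W := ℝ) fun x => g x j).1
  have h2 : ∀ a b : V, eVariationOn (fun t => onSeg g (a, b) t j) (Icc 0 1) = eVariationOn
      (fun t : ℝ => g (AffineMap.lineMap a b t) j) (Icc 0 1) := fun a b => by
    congr 1
    funext t
    rw [onSeg_eq]
  rw [h2, h1]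
  exact Finset.sum_congr rfl fun e _ => (h2 _ _).symm

/-- an edge of `M` in the sense of `H304` -/
theorem skel_isEdge {k : M.κ} {e : V × V} (he : IsEdge M e)
    (hk : segment ℝ e.1 e.2 ⊆ M.F k) : Pc.Skel k e.1 e.2 := by
  rcases P073.H950.isEdge_iff.1 he with h | h
  · exact Pc.skel_edge (edges M) Pc.verts_sub (e := ⟨(e.1, e.2), h⟩) hk
  · have h1 := Pc.skel_edge (edges M) Pc.verts_sub (e := ⟨(e.2, e.1), h⟩) (k := k) (by
      show segment ℝ e.2 e.1 ⊆ _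
      rw [segment_symm]; exact hk)
    exact ⟨h1.ne.symm, h1.mv, h1.mu, hk, fun t => by rw [segment_symm]; exact h1.dis t⟩

/-- an edge of the refined mesh which lies in the face `k` lies in a piece of `k` -/
theorem exists_piece {k : M.κ} {e : (edges Pc.mesh).ε} (he : (edges Pc.mesh).seg e ⊆ M.F k) :
    ∃ t, (edges Pc.mesh).seg e ⊆ Pc.A k t := by
  have hz : AffineMap.lineMap ((edges Pc.mesh).a e) ((edges Pc.mesh).b e) (1 / 2 : ℝ) ∈
      openSegment ℝ ((edges Pc.mesh).a e) ((edges Pc.mesh).b e) := by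
    rw [openSegment_eq_image_lineMap]
    exact ⟨1 / 2, ⟨by norm_num, by norm_num⟩, rfl⟩
  obtain ⟨t, ht⟩ := Pc.cover k _ (he (openSegment_subset_segment ℝ _ _ hz))
  exact ⟨t, (edges Pc.mesh).sub_of_mem (k := (⟨k, t⟩ : Σ k, Pc.τ k)) hz ht⟩

theorem isEdge_edge (e : (edges Pc.mesh).ε) :
    IsEdge Pc.mesh ((edges Pc.mesh).a e, (edges Pc.mesh).b e) :=
  P073.H950.isEdge_iff.2 (Or.inl e.2)

/-- **estimates on the edges of the refined mesh give estimates on segments** -/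
theorem len_le_sk {k : M.κ} {u v : V} (H : Pc.Skel k u v) {g h : V → V} {D : ℝ}
    {ε' : Pc.mesh.κ → ℝ} (h0 : ∀ a, 0 ≤ ε' a)
    (hedge : ∀ a, ∀ e, IsEdge Pc.mesh e → segment ℝ e.1 e.2 ⊆ Pc.mesh.F a →
      len (onSeg g e) (Icc 0 1) ≤
        ENNReal.ofReal D * len (onSeg h e) (Icc 0 1) + ENNReal.ofReal (ε' a)) {ν : ℝ}
    (hν : ∀ T : Finset (edges Pc.mesh).ε, (∀ e ∈ T, (edges Pc.mesh).seg e ⊆ M.F k) →
      ∀ t : (edges Pc.mesh).ε → Pc.τ k, ∑ e ∈ T, ε' (⟨k, t e⟩ : Σ k, Pc.τ k) ≤ ν) :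
    len (onSeg g (u, v)) (Icc 0 1) ≤
      ENNReal.ofReal D * len (onSeg h (u, v)) (Icc 0 1) + ENNReal.ofReal ν := by
  classical
  have hsub : ∀ e ∈ (Pc.subs_finite H).toFinset, (edges Pc.mesh).seg e ⊆ M.F k := fun e he =>
    Subset.trans ((Pc.subs_finite H).mem_toFinset.1 he) H.sub
  obtain ⟨t₀⟩ := Pc.exists_t k
  have hex : ∀ e : (edges Pc.mesh).ε, ∃ t, (edges Pc.mesh).seg e ⊆ M.F k →
      (edges Pc.mesh).seg e ⊆ Pc.A k t := by
    intro e
    by_cases h : (edges Pc.mesh).seg e ⊆ M.F k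
    · obtain ⟨t, ht⟩ := Pc.exists_piece h
      exact ⟨t, fun _ => ht⟩
    · exact ⟨t₀, fun h' => absurd h' h⟩
  choose t ht using hex
  rw [Pc.len_sk H g, Pc.len_sk H h, Finset.mul_sum]
  calc ∑ e ∈ (Pc.subs_finite H).toFinset,
        len (onSeg g ((edges Pc.mesh).a e, (edges Pc.mesh).b e)) (Icc 0 1)
      ≤ ∑ e ∈ (Pc.subs_finite H).toFinset, (ENNReal.ofReal D *
          len (onSeg h ((edges Pc.mesh).a e, (edges Pc.mesh).b e)) (Icc 0 1) +
          ENNReal.ofReal (ε' (⟨k, t e⟩ : Σ k, Pc.τ k))) :=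
        Finset.sum_le_sum fun e he => hedge (⟨k, t e⟩ : Σ k, Pc.τ k) _ (Pc.isEdge_edge e)
          (ht e (hsub e he))
    _ ≤ _ := by
        rw [Finset.sum_add_distrib]
        refine add_le_add le_rfl ?_
        exact (ENNReal.ofReal_sum_of_nonneg fun e _ => h0 _).symm.le.trans
          (ENNReal.ofReal_le_ofReal (hν _ hsub t))

theorem cst_ref {Y : Set M.κ} {D D' D₀ D₀' : ℝ} (hD : D₀ ≤ D) (hD' : D₀' ≤ D') {S : Set V} {C : ℝ}
    (H : Cst M Y D D' S C) : Cst Pc.mesh (Pc.YR Y) D₀ D₀' S C := by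
  rcases H with h | ⟨h, h'⟩
  · exact Or.inl (hD'.trans h)
  · refine Or.inr ⟨hD.trans h, fun a ha => ?_⟩
    exact (h' _ ha).mono_left (Pc.sub _ _)

variable {Pc} {𝒲 : Set M.κ}

/-- an edge of `M` which does not meet the divided faces is an edge of the refined mesh -/
theorem Triv.isEdge (hT : Pc.Triv 𝒲) {e : V × V} (he : IsEdge M e)
    (hd : ∀ l ∈ 𝒲, Disjoint (M.F l) (segment ℝ e.1 e.2)) : IsEdge Pc.mesh e where
  ne := he.ne
  sub := by
    obtain ⟨k, hk⟩ := he.sub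
    have hkF := hk.trans (intrinsicFrontier_subset (pgn_of_fat (M.fat k)).cpt.isClosed)
    have hk𝒲 : k ∉ 𝒲 := fun h => Set.disjoint_left.1 (hd k h) (hkF (left_mem_segment ℝ _ _))
      (left_mem_segment ℝ _ _)
    obtain ⟨t⟩ := Pc.exists_t k
    refine ⟨(⟨k, t⟩ : Σ k, Pc.τ k), ?_⟩
    rw [mesh_F, hT k hk𝒲 t]
    exact hk
  edge := by
    rintro ⟨k, t⟩ ⟨x, hx, hx'⟩
    have hx1 : x ∈ M.F k := Pc.sub k t hx
    have hk𝒲 : k ∉ 𝒲 := fun h => Set.disjoint_left.1 (hd k h) hx1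
      (openSegment_subset_segment ℝ _ _ hx')
    rw [mesh_F, hT k hk𝒲 t]
    exact he.edge k ⟨x, hx1, hx'⟩
  max := by
    intro e' h1 h2
    refine he.max e' h1 fun l ⟨x, hx, hx'⟩ => ?_
    obtain ⟨t, ht⟩ := Pc.cover l x hx
    exact (h2 (⟨l, t⟩ : Σ k, Pc.τ k) ⟨x, ht, hx'⟩).trans (Pc.sub l t)

theorem Triv.adapted (hT : Pc.Triv 𝒲) {k : M.κ} (hk : k ∉ 𝒲)
    (hd : ∀ l ∈ 𝒲, Disjoint (M.F l) (M.F k)) (t : Pc.τ k) {E : Finset (V × V)}
    (H : Adapted M k E) : Adapted Pc.mesh (⟨k, t⟩ : Σ k, Pc.τ k) E where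
  ne := H.ne
  sub := fun e he => by
    rw [mesh_F, hT k hk t]; exact H.sub e he
  cover := by
    rw [mesh_F, hT k hk t]; exact H.cover
  edge := by
    rintro e he ⟨l, t'⟩ ⟨x, hx, hx'⟩
    have hx1 : x ∈ M.F l := Pc.sub l t' hx
    have hl : l ∉ 𝒲 := fun h => Set.disjoint_left.1 (hd l h) hx1
      (H.sub e he (openSegment_subset_segment ℝ _ _ hx'))
    rw [mesh_F, hT l hl t']
    exact H.edge e he l ⟨x, hx1, hx'⟩

theorem Triv.eq (hT : Pc.Triv 𝒲) {k : M.κ} (hk : k ∉ 𝒲) (t t' : Pc.τ k) : t = t' := by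
  by_contra hne
  obtain ⟨x, hx⟩ := Pc.relint_nonempty k t
  refine Set.disjoint_left.1 (Pc.dis k t t' hne) hx ?_
  rw [hT k hk t', ← hT k hk t]
  exact intrinsicInterior_subset hx

end Pieces

/-! ### Deep sets -/

theorem mem_frontier_dyc {w : V} {m : ℕ} {z : Fin 3 → ℤ} {x : V} (hx : x ∈ dyc w m z) {j : Fin 3}
    (hj : x j = w j + z j / 2 ^ m) : x ∈ frontier (dyc w m z) := by
  refine ⟨subset_closure hx, fun hi => ?_⟩
  rw [mem_interior_iff_mem_nhds] at hi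
  have hc : ContinuousAt (fun t : ℝ => Function.update x j (x j - t)) 0 := by
    have : Continuous fun t : ℝ => Function.update x j (x j - t) :=
      continuous_const.update j (by fun_prop)
    exact this.continuousAt
  have h0 : (fun t : ℝ => Function.update x j (x j - t)) 0 = x := by simp
  have h1 : ∀ᶠ t in 𝓝 (0:ℝ), Function.update x j (x j - t) ∈ dyc w m z := by
    apply hc
    rw [h0]; exact hi
  obtain ⟨δ, hδ, h2⟩ := Metric.eventually_nhds_iff.1 h1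
  have h3 := (h2 (y := δ / 2) (by
    rw [Real.dist_eq, sub_zero, abs_of_pos (by positivity)]; linarith) j).1
  rw [Function.update_self, hj] at h3
  linarith

/-- deep sets are in the shells -/
theorem deep_nb {c δ η : ℝ} (hc : 0 ≤ c) (hδη : δ ≤ η) (hη : 0 ≤ η) {w : V} {ρ : V → ℝ}
    {J₀ : Set (ℕ × (Fin 3 → ℤ))}
    {A : Finset (Fin 3)} (hA : A ≠ Finset.univ) {m : ℕ} {z : Fin 3 → ℤ} {S : Set V}
    (H : Deep c δ w ρ J₀ A m z S) : S ⊆ Nb w J₀ η := by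
  classical
  intro y hy
  have hp : (0:ℝ) < 2 ^ m := by positivity
  obtain ⟨j₀, hj₀⟩ : ∃ j, j ∉ A := by
    by_contra h
    push Not at h
    exact hA (Finset.eq_univ_iff_forall.2 h)
  set x : V := fun j => if j ∈ A then y j else w j + z j / 2 ^ m with hx
  have hxd : x ∈ dyc w m z := by
    intro j
    by_cases hj : j ∈ A
    · have h1 := H.mid y hy j hj
      have e : x j = y j := by rw [hx]; simp [hj]
      rw [e]
      constructor
      · refine le_trans ?_ h1.1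
        gcongr
        linarith
      · refine h1.2.trans ?_
        gcongr
        linarith
    · have e : x j = w j + z j / 2 ^ m := by rw [hx]; simp [hj]
      rw [e]
      refine ⟨le_rfl, ?_⟩
      gcongr
      linarith
  refine ⟨(m, z), H.act z (fun j _ => rfl) (fun j _ => Or.inl rfl), x,
    mem_frontier_dyc hxd (j := j₀) (by rw [hx]; simp [hj₀]), ?_⟩
  refine (pi_norm_le_iff_of_nonneg (by positivity)).2 fun j => ?_
  rw [Pi.sub_apply, Real.norm_eq_abs]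
  by_cases hj : j ∈ A
  · have e : x j = y j := by rw [hx]; simp [hj]
    rw [e, sub_self, abs_zero]
    positivity
  · have e : x j = w j + z j / 2 ^ m := by rw [hx]; simp [hj]
    rw [e]
    refine (H.near y hy j hj).trans ?_
    exact div_le_div_of_nonneg_right hδη hp.le

/-! ### Transfer -/

/-- the numbers of the refined mesh -/
theorem exists_epsR (Pc : Pieces M) {ε : M.κ → ℝ} (hε : ∀ k, 0 < ε k) :
    ∃ ε' : Pc.mesh.κ → ℝ, (∀ a, 0 < ε' a) ∧ (∀ a : Σ k, Pc.τ k, ε' a ≤ ε a.1) ∧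
      ∀ k, ∀ T : Finset (edges Pc.mesh).ε, (∀ e ∈ T, (edges Pc.mesh).seg e ⊆ M.F k) →
      ∀ t : (edges Pc.mesh).ε → Pc.τ k, ∑ e ∈ T, ε' (⟨k, t e⟩ : Σ k, Pc.τ k) ≤ ε k := by
  classical
  have hfin : ∀ k : M.κ, {e | (edges Pc.mesh).seg e ⊆ M.F k}.Finite := by
    intro k
    refine ((edges Pc.mesh).fin (M.F k) (Vale.Agent.P073.H193.mesh_sub M k)
      (pgn_of_fat (M.fat k)).cpt).subset fun e he => ?_
    exact ⟨_, (edges Pc.mesh).left_mem e, he ((edges Pc.mesh).left_mem e)⟩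
  refine ⟨fun a : Σ k, Pc.τ k => ε a.1 / ((hfin a.1).toFinset.card + 1), fun a => ?_, fun a => ?_,
    fun k T hT t => ?_⟩
  · exact div_pos (hε _) (by positivity)
  · refine div_le_self (hε _).le ?_
    have : (0:ℝ) ≤ (hfin a.1).toFinset.card := Nat.cast_nonneg _
    linarith
  · have h1 : T ⊆ (hfin k).toFinset := fun e he => (hfin k).mem_toFinset.2 (hT e he)
    have h2 : (T.card : ℝ) ≤ (hfin k).toFinset.card := Nat.cast_le.2 (Finset.card_le_card h1)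
    show ∑ e ∈ T, ε k / ((hfin k).toFinset.card + 1) ≤ ε k
    rw [Finset.sum_const, nsmul_eq_mul, mul_div_assoc', div_le_iff₀ (by positivity)]
    have := hε k
    nlinarith

/-- the divided faces are far from the shells -/
structure Far (Pc : Pieces M) (𝒲 : Set M.κ) (h : V → V) (w : V) (J₀ : Set (ℕ × (Fin 3 → ℤ)))
    (η : ℝ) (Z : Set M.ι) : Prop where
  triv : Pc.Triv 𝒲
  far : ∀ l ∈ 𝒲, Disjoint (h '' M.F l) (Nb w J₀ η)
  drawn : ∀ i ∈ Z, h '' M.Q i ⊆ Nb w J₀ η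

variable {Pc : Pieces M} {𝒲 : Set M.κ} {h : V → V} {w : V} {J₀ J : Set (ℕ × (Fin 3 → ℤ))} {η : ℝ}
  {P Z : Set M.ι}

theorem Far.dis (H : Far Pc 𝒲 h w J₀ η Z) {S : Set V} (hS : h '' S ⊆ Nb w J₀ η) :
    ∀ l ∈ 𝒲, Disjoint (M.F l) S := fun l hl => Set.disjoint_left.2 fun _ hx hx' =>
  Set.disjoint_left.1 (H.far l hl) (mem_image_of_mem h hx) (hS (mem_image_of_mem h hx'))

theorem Far.notMem (H : Far Pc 𝒲 h w J₀ η Z) {S : Set V} (hS : h '' S ⊆ Nb w J₀ η)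
    (hne : S.Nonempty) {k : M.κ} (hk : S ⊆ M.F k) : k ∉ 𝒲 := fun h' => by
  obtain ⟨x, hx⟩ := hne
  exact Set.disjoint_left.1 (H.dis hS k h') (hk hx) hx

theorem Far.face (H : Far Pc 𝒲 h w J₀ η Z) {k : M.κ} (hk : ∃ i ∈ Z, M.F k ⊆ M.Q i) :
    k ∉ 𝒲 ∧ ∀ l ∈ 𝒲, Disjoint (M.F l) (M.F k) := by
  obtain ⟨i, hi, hki⟩ := hk
  have h1 : h '' M.F k ⊆ Nb w J₀ η := (image_mono hki).trans (H.drawn i hi)
  exact ⟨H.notMem h1 (pgn_of_fat (M.fat k)).nonempty Subset.rfl, H.dis h1⟩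

/-- **`OutB` for the refined mesh gives `OutB` for `M`** -/
theorem outB_ref {p D D' D₀ D₀' c₀ m : ℝ} {ρ : V → ℝ} {Y : Set M.κ} {ε : M.κ → ℝ}
    {ε' : Pc.mesh.κ → ℝ} {g : ConHomeo Ω Λ} (HF : Far Pc 𝒲 h w J₀ η Z) (hp : 0 ≤ p)
    (h0 : 0 ≤ D₀) (h0' : D₀ ≤ D₀') (hD : D₀ ≤ D) (hD' : D₀' ≤ D') (hε0 : ∀ a, 0 ≤ ε' a)
    (hε1 : ∀ a : Σ k, Pc.τ k, ε' a ≤ ε a.1)
    (hε2 : ∀ k, ∀ T : Finset (edges Pc.mesh).ε, (∀ e ∈ T, (edges Pc.mesh).seg e ⊆ M.F k) →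
      ∀ t : (edges Pc.mesh).ε → Pc.τ k, ∑ e ∈ T, ε' (⟨k, t e⟩ : Σ k, Pc.τ k) ≤ ε k)
    (H : OutB p D₀ D₀' η c₀ m w ρ Pc.mesh h J₀ J P Z (Pc.YR Y) ε' g) :
    OutB p D D' η c₀ m w ρ M h J₀ J P Z Y ε g where
  off := H.off
  close := fun x hx t ht hn => (H.close x hx t ht hn).trans
    (div_le_div_of_nonneg_right hD (by positivity))
  prot := fun i hi x hx y hy => (H.prot i hi x hx y hy).trans
    (mul_le_mul_of_nonneg_right hD (norm_nonneg _))
  lip := fun hJ i hi K hK hL C hC => H.lip hJ i hi K hK hL C (Pc.cst_ref hD hD' hC)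
  edge := fun k e he hk => by
    refine (Pc.len_le_sk (Pc.skel_isEdge he hk) (g := g.toFun) (h := h) hε0 H.edge
      (hε2 k)).trans ?_
    gcongr
  elip := fun k e he hk hN C hC ℓ hℓ x hx y hy => by
    obtain ⟨t⟩ := Pc.exists_t k
    have hk𝒲 : k ∉ 𝒲 := HF.notMem hN ⟨_, left_mem_segment ℝ _ _⟩ hk
    have hC0 : 0 ≤ C := by
      rcases hC with h1 | ⟨h1, -⟩ <;> linarith
    refine (H.elip (⟨k, t⟩ : Σ k, Pc.τ k) e (HF.triv.isEdge he (HF.dis hN))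
      (by rw [Pieces.mesh_F, HF.triv k hk𝒲 t]; exact hk) hN C (Pc.cst_ref hD hD' hC) ℓ hℓ
      x hx y hy).trans ?_
    have h1 := hε1 ⟨k, t⟩
    refine mul_le_mul_of_nonneg_right (mul_le_mul_of_nonneg_left ?_ hC0) (norm_nonneg _)
    exact div_le_div_of_nonneg_right (by linarith) (norm_nonneg _)
  flip := fun k hk C hC E ℓ K hE hℓ => by
    obtain ⟨t⟩ := Pc.exists_t k
    obtain ⟨hk𝒲, hd⟩ := HF.face hk
    have hF : Pc.mesh.F (⟨k, t⟩ : Σ k, Pc.τ k) = M.F k := HF.triv k hk𝒲 t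
    have h1 := H.flip (⟨k, t⟩ : Σ k, Pc.τ k) (by rw [hF]; exact hk) C
      (by rw [hF]; exact Pc.cst_ref hD hD' hC) E ℓ K (HF.triv.adapted hk𝒲 hd t hE)
      fun e he => ⟨(hℓ e he).1, (add_le_add le_rfl (ENNReal.ofReal_le_ofReal (hε1 _))).trans
        (hℓ e he).2⟩
    rw [hF] at h1
    exact h1
  face := fun k hk C hC => by
    obtain ⟨t⟩ := Pc.exists_t k
    obtain ⟨hk𝒲, hd⟩ := HF.face hk
    have hF : Pc.mesh.F (⟨k, t⟩ : Σ k, Pc.τ k) = M.F k := HF.triv k hk𝒲 t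
    obtain ⟨G, hG, h1⟩ := H.face (⟨k, t⟩ : Σ k, Pc.τ k) (by rw [hF]; exact hk) C
      (by rw [hF]; exact Pc.cst_ref hD hD' hC)
    rw [hF] at hG h1
    refine ⟨G, hG, fun E ℓ a l σ hσ hFs hE hℓ => (h1 E ℓ a l σ hσ hFs
      (HF.triv.adapted hk𝒲 hd t hE) hℓ).trans ?_⟩
    refine mul_le_mul_right (Finset.sum_le_sum fun e _ => mul_le_mul_right ?_ _) _
    refine ENNReal.rpow_le_rpow (add_le_add le_rfl (ENNReal.ofReal_le_ofReal ?_)) hp
    exact div_le_div_of_nonneg_right (mul_le_mul_of_nonneg_right (hε1 _) (norm_nonneg _)) hσ.le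
  drawn := fun i hi C hC => by
    obtain ⟨G, hG, h1⟩ := H.drawn i hi C (Pc.cst_ref hD hD' hC)
    refine ⟨G, hG, fun v m z hQ E σ ℓ hE hσ hℓ => ?_⟩
    -- the faces of the cell
    have hcell : ∀ a : {a // Pc.mesh.F a ⊆ Pc.mesh.Q i},
        M.F (a.1 : Σ k, Pc.τ k).1 ⊆ M.Q i := fun a => (Pc.sub_Q_iff (a.1 : Σ k, Pc.τ k).2).1 a.2
    set φ : {a // Pc.mesh.F a ⊆ Pc.mesh.Q i} → {k // M.F k ⊆ M.Q i} := fun a =>
      ⟨(a.1 : Σ k, Pc.τ k).1, hcell a⟩ with hφ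
    have hf : ∀ a : {a // Pc.mesh.F a ⊆ Pc.mesh.Q i}, (φ a).1 ∉ 𝒲 ∧
        ∀ l ∈ 𝒲, Disjoint (M.F l) (M.F (φ a).1) := fun a => HF.face ⟨i, hi, (φ a).2⟩
    have hFa : ∀ a : {a // Pc.mesh.F a ⊆ Pc.mesh.Q i}, Pc.mesh.F a.1 = M.F (φ a).1 := fun a =>
      HF.triv _ (hf a).1 _
    have hinj : Function.Injective φ := by
      rintro ⟨⟨k, t⟩, ha⟩ ⟨⟨k', t'⟩, ha'⟩ he
      have hk : k = k' := congrArg Subtype.val he
      subst hk
      have := HF.triv.eq (hf ⟨⟨k, t⟩, ha⟩).1 t t'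
      subst this
      rfl
    refine (h1 v m z hQ (fun a => E (φ a)) (fun a => σ (φ a)) ℓ
      (fun a => HF.triv.adapted (hf a).1 (hf a).2 _ (hE (φ a)))
      (fun a => ⟨(hσ (φ a)).1, by rw [hFa a]; exact (hσ (φ a)).2⟩)
      (fun a e he => hℓ (φ a) e he)).trans ?_
    refine mul_le_mul_right ?_ _
    refine le_trans ?_ (ENNReal.tsum_comp_le_tsum_of_injective hinj (fun k : {k // M.F k ⊆ M.Q i} =>
      ENNReal.ofReal (σ k) * ∑ e ∈ E k, ENNReal.ofReal (‖e.2 - e.1‖ ^ (1 - p)) *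
          (ℓ e + ENNReal.ofReal (ε k.1 * ‖e.2 - e.1‖ / σ k)) ^ p))
    refine ENNReal.tsum_le_tsum fun a => mul_le_mul_right
      (Finset.sum_le_sum fun e _ => mul_le_mul_right ?_ _) _
    refine ENNReal.rpow_le_rpow (add_le_add le_rfl (ENNReal.ofReal_le_ofReal ?_)) hp
    exact div_le_div_of_nonneg_right (mul_le_mul_of_nonneg_right (hε1 _) (norm_nonneg _))
      (hσ (φ a)).1.le

theorem tvOut_ref {c δ : ℝ} {ρ : V → ℝ} {ε : M.κ → ℝ} {ε' : Pc.mesh.κ → ℝ} {q : V → V}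
    (HF : Far Pc 𝒲 h w J₀ η Z) (hc : 0 ≤ c) (hδη : δ ≤ η) (hη : 0 ≤ η)
    (hε1 : ∀ a : Σ k, Pc.τ k, ε' a ≤ ε a.1) (H : TvOut c δ w ρ Pc.mesh h J₀ ε' q) :
    TvOut c δ w ρ M h J₀ ε q := by
  intro k e he hk A hA hA' m z hd
  obtain ⟨t⟩ := Pc.exists_t k
  have hN := deep_nb hc hδη hη hA' hd
  have hk𝒲 : k ∉ 𝒲 := HF.notMem hN ⟨_, left_mem_segment ℝ _ _⟩ hk
  refine (H (⟨k, t⟩ : Σ k, Pc.τ k) e (HF.triv.isEdge he (HF.dis hN))
    (by rw [Pieces.mesh_F, HF.triv k hk𝒲 t]; exact hk) A hA hA' m z hd).trans ?_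
  exact add_le_add le_rfl (ENNReal.ofReal_le_ofReal (hε1 _))

/-- **`SharpOut3` for the refined mesh gives `SharpOut3` for `M`** -/
theorem sharp_ref {p D D₀ c₀ δ μ r : ℝ} {ρ : V → ℝ} {Y : Set M.κ} {ε : M.κ → ℝ}
    {ε' : Pc.mesh.κ → ℝ} {g : ConHomeo Ω Λ} (HF : Far Pc 𝒲 h w J₀ η Z) (hc : 0 ≤ c₀)
    (hδη : δ ≤ η) (hη : 0 ≤ η) (hD : D₀ ≤ D) (hε0 : ∀ a, 0 ≤ ε' a)
    (hε1 : ∀ a : Σ k, Pc.τ k, ε' a ≤ ε a.1)
    (hε2 : ∀ k, ∀ T : Finset (edges Pc.mesh).ε, (∀ e ∈ T, (edges Pc.mesh).seg e ⊆ M.F k) →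
      ∀ t : (edges Pc.mesh).ε → Pc.τ k, ∑ e ∈ T, ε' (⟨k, t e⟩ : Σ k, Pc.τ k) ≤ ε k)
    (H : SharpOut3 p D₀ c₀ δ μ r w ρ Pc.mesh h J₀ (Pc.YR Y) ε' g) :
    SharpOut3 p D c₀ δ μ r w ρ M h J₀ Y ε g where
  tv := tvOut_ref HF hc hδη hη hε1 H.tv
  aux := by
    obtain ⟨q, hq, h1⟩ := H.aux
    refine ⟨q, ⟨hq.off, fun x hx t ht hn => (hq.close x hx t ht hn).trans
      (div_le_div_of_nonneg_right hD (by positivity)), fun k e he hk => ?_,
      tvOut_ref HF hc hδη hη hε1 hq.tv⟩, ?_⟩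
    · refine (Pc.len_le_sk (Pc.skel_isEdge he hk) (g := q) (h := h) hε0 hq.edge
        (hε2 k)).trans ?_
      gcongr
    · intro k hk a l σ hσ hF m z hdeep hs
      obtain ⟨t⟩ := Pc.exists_t k
      have hA : (Finset.univ.erase l : Finset (Fin 3)) ≠ Finset.univ := fun h' =>
        Finset.notMem_erase l Finset.univ (by rw [h']; exact Finset.mem_univ l)
      have hN := deep_nb hc hδη hη hA hdeep
      have hk𝒲 : k ∉ 𝒲 := HF.notMem hN (pgn_of_fat (M.fat k)).nonempty Subset.rfl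
      have hFk : Pc.mesh.F (⟨k, t⟩ : Σ k, Pc.τ k) = M.F k := HF.triv k hk𝒲 t
      refine (h1 (⟨k, t⟩ : Σ k, Pc.τ k) hk a l σ hσ (hFk.trans hF) m z (by rw [hFk]; exact hdeep)
        fun i hi x hx hx' hb => ?_).trans (ENNReal.ofReal_le_ofReal
        (mul_le_mul_of_nonneg_right (by linarith [hε1 ⟨k, t⟩]) (by positivity)))
      obtain ⟨h2, h3⟩ := hs i hi x hx hx' hb
      refine ⟨HF.triv.isEdge h2 fun l hl => (HF.dis hN l hl).mono_right ?_, h3⟩
      rw [hF]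
      refine (convex_iff_segment_subset.1 ?_) hx hx'
      intro u hu v hv a' b' ha' hb' hab
      refine ⟨?_, fun j => ?_⟩
      · show a' * u _ + b' * v _ = _
        rw [hu.1, hv.1, ← add_mul, hab, one_mul]
      · show |a' * u j + b' * v j - a j| ≤ σ
        have e : a' * u j + b' * v j - a j = a' * (u j - a j) + b' * (v j - a j) := by
          have : a j = (a' + b') * a j := by rw [hab, one_mul]
          linear_combination -this
        rw [e]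
        have g1 := hu.2 j
        have g2 := hv.2 j
        refine (abs_add_le _ _).trans ?_
        rw [abs_mul, abs_mul, abs_of_nonneg ha', abs_of_nonneg hb']
        calc a' * |u j - a j| + b' * |v j - a j| ≤ a' * σ + b' * σ := by gcongr
          _ = σ := by rw [← add_mul, hab, one_mul]

end P073.H399
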