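import Vale.Agent.P073.H399.RTb
import Vale.Agent.P073.H399.RTc
import Vale.Agent.P073.H227.OscCell

/-!
# P073, H399: **[REF-TOP]**, part d: oscillation of the faces of `M`

From the estimates for the faces of the refined mesh (`hFO`, the body of `FOsc`) and its edges to the
oscillation of the faces of `M`.
-/

open Set Metric Topology Filter MeasureTheory
open scoped ENNReal

namespace P073.H399

open Vale.Agent.P073.St (V)
open Vale.Agent.P073.H73 (Mesh Adapted onSeg sqr ctr)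
open Vale.Agent.P073.H193 (Edges vtx Fam Pgn Ed InLine pgn_of_fat fam_of_mesh edges)
open Vale.Agent.P073.H304 (IsEdge Nb Cst Small)
open _root_.P073 (ConHomeo)
open _root_.P073.Net (len dyc)

variable {Ω Λ : Set V} {M : Mesh Ω}

/-- distance of two points of a curve -/
theorem norm_sub_le_len {g : V → V} {u v x y : V} (hx : x ∈ segment ℝ u v)
    (hy : y ∈ segment ℝ u v) : ENNReal.ofReal ‖g x - g y‖ ≤ len (onSeg g (u, v)) (Icc 0 1) := by
  rw [segment_eq_image'] at hx hy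
  obtain ⟨t, ht, rfl⟩ := hx
  obtain ⟨s, hs, rfl⟩ := hy
  have h1 := eVariationOn.edist_le
    (fun t => (WithLp.toLp 2 (onSeg g (u, v) t) : EuclideanSpace ℝ (Fin 3))) ht hs
  refine le_trans ?_ h1
  rw [_root_.P073.Net.edist_toLp]
  exact ENNReal.ofReal_le_ofReal (_root_.P073.Net.norm_le_euc _)

/-- the same as a real number -/
theorem norm_sub_le_of_len {g : V → V} {u v x y : V} (hx : x ∈ segment ℝ u v)
    (hy : y ∈ segment ℝ u v) {b : ℝ} (hb : 0 ≤ b)
    (h : len (onSeg g (u, v)) (Icc 0 1) ≤ ENNReal.ofReal b) : ‖g x - g y‖ ≤ b :=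
  (ENNReal.ofReal_le_ofReal_iff hb).1 ((norm_sub_le_len hx hy).trans h)

theorem len_symm (g : V → V) (u v : V) :
    len (onSeg g (v, u)) (Icc 0 1) = len (onSeg g (u, v)) (Icc 0 1) := by
  have h2 : ∀ a b : V, len (onSeg g (a, b)) (Icc 0 1) = eVariationOn
      (fun t : ℝ => (WithLp.toLp 2 (g (AffineMap.lineMap a b t)) : EuclideanSpace ℝ (Fin 3)))
      (Icc 0 1) := fun a b => by
    unfold len
    congr 1
    funext t
    rw [onSeg_eq]
  rw [h2, h2]
  exact evar_symm (fun x => (WithLp.toLp 2 (g x) : EuclideanSpace ℝ (Fin 3))) u v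

/-- **oscillation on the boundary of a face** -/
theorem osc_bd {g : ConHomeo Ω Λ} {k : M.κ} {w : (edges M).ε → ℝ} (hw : ∀ e, 0 ≤ w e)
    (hE : ∀ e, (edges M).seg e ⊆ M.F k → ∀ x ∈ (edges M).seg e, ∀ y ∈ (edges M).seg e,
      ‖g.toFun x - g.toFun y‖ ≤ w e) :
    ∀ x ∈ intrinsicFrontier ℝ (M.F k), ∀ y ∈ intrinsicFrontier ℝ (M.F k),
      ‖g.toFun x - g.toFun y‖ ≤ ∑ e ∈ ((edges M).fin_face k).toFinset, w e := by
  classical
  have hpg := pgn_of_fat (M.fat k)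
  have hcl := hpg.cpt.isClosed
  have hsub : intrinsicFrontier ℝ (M.F k) ⊆ Ω :=
    (intrinsicFrontier_subset hcl).trans (Vale.Agent.P073.H193.mesh_sub M k)
  intro x hx y hy
  refine (pi_norm_le_iff_of_nonneg (Finset.sum_nonneg fun e _ => hw e)).2 fun j => ?_
  rw [Pi.sub_apply, Real.norm_eq_abs]
  refine P073.H227.osc_le_sum (P073.H227.bd_conSphere k).isPreconnected
    (φ := fun x => g.toFun x j)
    ((continuous_apply j).comp_continuousOn (g.cont.mono hsub))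
    (T := ((edges M).fin_face k).toFinset) (S := fun e => (edges M).seg e) ?_
    (fun e _ => hw e) ?_ x hx y hy
  · intro z hz
    rw [(edges M).fr_eq] at hz
    obtain ⟨e, he, hze⟩ := mem_iUnion₂.1 hz
    exact mem_biUnion (Finset.mem_coe.2 (((edges M).fin_face k).mem_toFinset.2 he)) hze
  · intro e he u hu v hv
    have h1 := hE e (((edges M).fin_face k).mem_toFinset.1 he) u hu.1 v hv.1
    have h2 := norm_le_pi_norm (g.toFun u - g.toFun v) j
    rw [Pi.sub_apply, Real.norm_eq_abs] at h2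
    exact (le_abs_self _).trans (h2.trans h1)

/-- lengths under `g` of the edges in a finite set -/
theorem sum_len_le {ι : Type*} {T : Finset ι} {a b : ι → ℝ≥0∞} {ν : ι → ℝ} {D B B' : ℝ}
    (hD : 0 ≤ D) (hB : 0 ≤ B) (hν : ∀ e ∈ T, 0 ≤ ν e)
    (h : ∀ e ∈ T, a e ≤ ENNReal.ofReal D * b e + ENNReal.ofReal (ν e))
    (hb : ∑ e ∈ T, b e ≤ ENNReal.ofReal B) (hB' : ∑ e ∈ T, ν e ≤ B') :
    ∑ e ∈ T, (a e).toReal ≤ D * B + B' ∧ ∀ e ∈ T, a e ≠ ⊤ := by
  have h1 : ∑ e ∈ T, a e ≤ ENNReal.ofReal (D * B + B') := by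
    calc ∑ e ∈ T, a e ≤ ∑ e ∈ T, (ENNReal.ofReal D * b e + ENNReal.ofReal (ν e)) :=
          Finset.sum_le_sum h
      _ = ENNReal.ofReal D * ∑ e ∈ T, b e + ENNReal.ofReal (∑ e ∈ T, ν e) := by
          rw [Finset.sum_add_distrib, Finset.mul_sum, ENNReal.ofReal_sum_of_nonneg hν]
      _ ≤ ENNReal.ofReal D * ENNReal.ofReal B + ENNReal.ofReal B' :=
          add_le_add (mul_le_mul_right hb _) (ENNReal.ofReal_le_ofReal hB')
      _ = ENNReal.ofReal (D * B + B') := by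
          rw [ENNReal.ofReal_add (by positivity)
            ((Finset.sum_nonneg hν).trans hB'), ENNReal.ofReal_mul hD]
  have h2 : ∀ e ∈ T, a e ≠ ⊤ := fun e he => ne_top_of_le_ne_top ENNReal.ofReal_ne_top
    ((Finset.single_le_sum (fun _ _ => zero_le) he).trans h1)
  refine ⟨?_, h2⟩
  rw [← ENNReal.toReal_sum h2]
  exact ENNReal.toReal_le_of_le_ofReal (add_nonneg (by positivity)
    ((Finset.sum_nonneg hν).trans hB')) h1

/-- the finite set of `H304`-edges of a face, with the total length -/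
theorem exists_E (N : Mesh Ω) (h : V → V) {a : N.κ} {b : ℝ}
    (hb : ∑ e ∈ ((edges N).fin_face a).toFinset,
      len (onSeg h ((edges N).a e, (edges N).b e)) (Icc 0 1) ≤ ENNReal.ofReal b) :
    ∃ E : Finset (V × V), (∀ e, IsEdge N e → segment ℝ e.1 e.2 ⊆ N.F a → e ∈ E) ∧
      ∑ e ∈ E, len (onSeg h e) (Icc 0 1) ≤ ENNReal.ofReal (2 * b) := by
  classical
  set T := ((edges N).fin_face a).toFinset with hT
  refine ⟨T.image (fun e => ((edges N).a e, (edges N).b e)) ∪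
    T.image (fun e => ((edges N).b e, (edges N).a e)), fun e he hk => ?_, ?_⟩
  · rw [Finset.mem_union]
    rcases P073.H950.isEdge_iff.1 he with h1 | h1
    · left
      refine Finset.mem_image.2 ⟨⟨(e.1, e.2), h1⟩, ?_, rfl⟩
      exact ((edges N).fin_face a).mem_toFinset.2 hk
    · right
      refine Finset.mem_image.2 ⟨⟨(e.2, e.1), h1⟩, ?_, rfl⟩
      refine ((edges N).fin_face a).mem_toFinset.2 ?_
      show segment ℝ e.2 e.1 ⊆ _
      rw [segment_symm]; exact hk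
  · have h0 : 0 ≤ b ∨ b < 0 := le_or_gt 0 b
    have h1 : ∑ e ∈ T.image (fun e => ((edges N).a e, (edges N).b e)),
        len (onSeg h e) (Icc 0 1) =
        ∑ e ∈ T, len (onSeg h ((edges N).a e, (edges N).b e)) (Icc 0 1) := by
      rw [Finset.sum_image]
      intro e _ e' _ hee
      exact Subtype.ext hee
    have h2 : ∑ e ∈ T.image (fun e => ((edges N).b e, (edges N).a e)),
        len (onSeg h e) (Icc 0 1) =
        ∑ e ∈ T, len (onSeg h ((edges N).a e, (edges N).b e)) (Icc 0 1) := by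
      rw [Finset.sum_image]
      · exact Finset.sum_congr rfl fun e _ => len_symm h _ _
      · intro e _ e' _ hee
        have h3 : (edges N).b e = (edges N).b e' ∧ (edges N).a e = (edges N).a e' :=
          Prod.mk.inj hee
        exact Subtype.ext (Prod.ext h3.2 h3.1)
    have h3 := Finset.sum_union_inter (s₁ := T.image (fun e => ((edges N).a e, (edges N).b e)))
      (s₂ := T.image (fun e => ((edges N).b e, (edges N).a e)))
      (f := fun e => len (onSeg h e) (Icc 0 1))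
    calc _ ≤ _ := le_self_add
      _ = _ := h3
      _ ≤ ENNReal.ofReal b + ENNReal.ofReal b := by rw [h1, h2]; exact add_le_add hb hb
      _ ≤ ENNReal.ofReal (2 * b) := by
          rcases h0 with h0 | h0
          · rw [← ENNReal.ofReal_add h0 h0, two_mul]
          · rw [ENNReal.ofReal_of_nonpos h0.le, add_zero]; exact zero_le

/-- the edges of a cell -/
theorem sum_edges_le {h : V → V} {S : Set V} {B : ℝ}
    (hE : ∃ E : Finset (V × V), (∀ e, IsEdge M e → segment ℝ e.1 e.2 ⊆ S → e ∈ E) ∧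
      ∑ e ∈ E, len (onSeg h e) (Icc 0 1) ≤ ENNReal.ofReal B) {T : Finset (edges M).ε}
    (hT : ∀ e ∈ T, (edges M).seg e ⊆ S) :
    ∑ e ∈ T, len (onSeg h ((edges M).a e, (edges M).b e)) (Icc 0 1) ≤ ENNReal.ofReal B := by
  classical
  obtain ⟨E, h1, h2⟩ := hE
  refine le_trans ?_ h2
  rw [← Finset.sum_image (s := T) (g := fun e => ((edges M).a e, (edges M).b e))
    (f := fun e => len (onSeg h e) (Icc 0 1)) (fun e _ e' _ hee => Subtype.ext hee)]
  refine Finset.sum_le_sum_of_subset fun e he => ?_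
  obtain ⟨e', he', rfl⟩ := Finset.mem_image.1 he
  exact h1 _ (P073.H950.isEdge_iff.2 (Or.inl e'.2)) (hT e' he')

/-- the edges of an undivided face -/
theorem sum_sub_le {Pc : Pieces M} {𝒲 : Set M.κ} (hT : Pc.Triv 𝒲) {k : M.κ} (hk : k ∉ 𝒲)
    (t : Pc.τ k) (h : V → V) :
    ∑ e ∈ ((edges Pc.mesh).fin_face (⟨k, t⟩ : Σ k, Pc.τ k)).toFinset,
      len (onSeg h ((edges Pc.mesh).a e, (edges Pc.mesh).b e)) (Icc 0 1) ≤
    ∑ e ∈ ((edges M).fin_face k).toFinset,
      len (onSeg h ((edges M).a e, (edges M).b e)) (Icc 0 1) := by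
  classical
  set T' := ((edges Pc.mesh).fin_face (⟨k, t⟩ : Σ k, Pc.τ k)).toFinset with hT'
  set T := ((edges M).fin_face k).toFinset with hTd
  have hF : Pc.mesh.F (⟨k, t⟩ : Σ k, Pc.τ k) = M.F k := hT k hk t
  have hex : ∀ e' : (edges Pc.mesh).ε, ∃ e : Option (edges M).ε, e' ∈ T' →
      ∃ e₀, e = some e₀ ∧ (edges M).seg e₀ ⊆ M.F k ∧ (edges Pc.mesh).seg e' ⊆ (edges M).seg e₀ := by
    intro e'
    by_cases he : e' ∈ T'
    · have h1 : (edges Pc.mesh).seg e' ⊆ Pc.mesh.F (⟨k, t⟩ : Σ k, Pc.τ k) :=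
        ((edges Pc.mesh).fin_face (⟨k, t⟩ : Σ k, Pc.τ k)).mem_toFinset.1 he
      have h2 := (edges Pc.mesh).seg_sub_fr h1
      rw [hF] at h1 h2
      rcases Pc.edge_cases (edges M) Pc.verts_sub e' h1 with ⟨e₀, h3, h4⟩ | h3
      · exact ⟨some e₀, fun _ => ⟨e₀, rfl, h3, h4⟩⟩
      · exfalso
        have hz : AffineMap.lineMap ((edges Pc.mesh).a e') ((edges Pc.mesh).b e') (1 / 2 : ℝ) ∈
            openSegment ℝ ((edges Pc.mesh).a e') ((edges Pc.mesh).b e') := by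
          rw [openSegment_eq_image_lineMap]
          exact ⟨1 / 2, ⟨by norm_num, by norm_num⟩, rfl⟩
        have h5 := h2 (openSegment_subset_segment ℝ _ _ hz)
        rw [(pgn_of_fat (M.fat k)).fr_eq] at h5
        exact h5.2 (h3 hz)
    · exact ⟨none, fun h => absurd h he⟩
  choose c hc using hex
  have hmaps : ∀ e' ∈ T', c e' ∈ T.image some := by
    intro e' he'
    obtain ⟨e₀, h1, h2, -⟩ := hc e' he'
    rw [h1]
    exact Finset.mem_image_of_mem _ (((edges M).fin_face k).mem_toFinset.2 h2)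
  rw [← Finset.sum_fiberwise_of_maps_to hmaps, Finset.sum_image (fun _ _ _ _ h => Option.some_inj.1 h)]
  refine Finset.sum_le_sum fun e he => ?_
  have hek : (edges M).seg e ⊆ M.F k := ((edges M).fin_face k).mem_toFinset.1 he
  have H := Pc.skel_edge (edges M) Pc.verts_sub hek
  rw [Pc.len_sk H h]
  refine Finset.sum_le_sum_of_subset fun e' he' => ?_
  rw [Finset.mem_filter] at he'
  obtain ⟨e₀, h1, h2, h3⟩ := hc e' he'.1
  have h4 : e₀ = e := Option.some_inj.1 (h1.symm.trans he'.2)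
  subst h4
  exact (Pc.subs_finite H).mem_toFinset.2 h3

/-- **oscillation on a divided face** -/
theorem wface_osc {Pc : Pieces M} {k : M.κ} {g h : V → V} {C₀ D₀ β B : ℝ} (hD : 0 ≤ D₀)
    (hβ : 0 ≤ β) (hβB : β ≤ B) {sg : Finset (V × V)} {X : Finset V}
    (hsk : ∀ s ∈ sg, ∀ c, 0 ≤ c → len (onSeg h s) (Icc 0 1) ≤ ENNReal.ofReal c →
      ∀ x ∈ segment ℝ s.1 s.2, ∀ y ∈ segment ℝ s.1 s.2, ‖g x - g y‖ ≤ D₀ * c + β)
    (hpiece : ∀ t, ∀ x ∈ Pc.A k t, ∀ y ∈ Pc.A k t, ‖g x - g y‖ ≤ C₀ * B)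
    (route : ∀ t, ∀ p ∈ intrinsicFrontier ℝ (Pc.A k t), p ∈ intrinsicFrontier ℝ (M.F k) ∨
      (∃ s ∈ sg, p ∈ segment ℝ s.1 s.2 ∧ s.2 ∈ intrinsicFrontier ℝ (M.F k) ∧
        len (onSeg h s) (Icc 0 1) ≤ ENNReal.ofReal β) ∨
      ∃ s ∈ sg, ∃ s' ∈ sg, ∃ z ∈ X, p ∈ segment ℝ s.1 s.2 ∧ s.2 ∈ segment ℝ s'.1 s'.2 ∧
        z ∈ segment ℝ s'.1 s'.2 ∧ len (onSeg h s) (Icc 0 1) ≤ ENNReal.ofReal β ∧
        len (onSeg h s') (Icc 0 1) ≤ ENNReal.ofReal β)
    (chord : ∀ z ∈ X, z ∈ intrinsicFrontier ℝ (M.F k) ∨ ∃ y ∈ intrinsicFrontier ℝ (M.F k),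
      (z, y) ∈ sg ∧ len (onSeg h (z, y)) (Icc 0 1) ≤ ENNReal.ofReal (2 * B))
    (hbd : ∀ q ∈ intrinsicFrontier ℝ (M.F k), ∀ q' ∈ intrinsicFrontier ℝ (M.F k),
      ‖g q - g q'‖ ≤ D₀ * B + B) :
    ∀ x ∈ M.F k, ∀ y ∈ M.F k, ‖g x - g y‖ ≤ (2 * C₀ + 9 * D₀ + 7) * B := by
  have hB : 0 ≤ B := hβ.trans hβB
  -- from a point to the boundary
  have key : ∀ x ∈ M.F k, ∃ q ∈ intrinsicFrontier ℝ (M.F k),
      ‖g x - g q‖ ≤ (C₀ + 4 * D₀ + 3) * B := by
    intro x hx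
    obtain ⟨t, ht⟩ := Pc.cover k x hx
    obtain ⟨p, hp⟩ := (P073.H227.bd_conSphere (M := Pc.mesh) (⟨k, t⟩ : Σ k, Pc.τ k)).nonempty
    have hp' : p ∈ intrinsicFrontier ℝ (Pc.A k t) := hp
    have hpA : p ∈ Pc.A k t := intrinsicFrontier_subset (Pc.isClosed k t) hp'
    have h1 := hpiece t x ht p hpA
    have hDβ : D₀ * β ≤ D₀ * B := mul_le_mul_of_nonneg_left hβB hD
    rcases route t p hp' with h2 | ⟨s, hs, h3, h4, h5⟩ | ⟨s, hs, s', hs', z, hz, h3, h4, h5, h6, h7⟩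
    · refine ⟨p, h2, h1.trans ?_⟩
      nlinarith
    · refine ⟨s.2, h4, ?_⟩
      have h6 := hsk s hs β hβ h5 p h3 s.2 (right_mem_segment ℝ _ _)
      calc ‖g x - g s.2‖ ≤ ‖g x - g p‖ + ‖g p - g s.2‖ := norm_sub_le_norm_sub_add_norm_sub _ _ _
        _ ≤ C₀ * B + (D₀ * β + β) := add_le_add h1 h6
        _ ≤ _ := by nlinarith
    · have h8 := hsk s hs β hβ h6 p h3 s.2 (right_mem_segment ℝ _ _)
      have h9 := hsk s' hs' β hβ h7 s.2 h4 z h5
      have h10 : ‖g x - g z‖ ≤ C₀ * B + (D₀ * β + β) + (D₀ * β + β) := by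
        calc ‖g x - g z‖ ≤ ‖g x - g p‖ + ‖g p - g s.2‖ + ‖g s.2 - g z‖ := by
              refine (norm_sub_le_norm_sub_add_norm_sub _ (g s.2) _).trans (add_le_add ?_ le_rfl)
              exact norm_sub_le_norm_sub_add_norm_sub _ _ _
          _ ≤ _ := add_le_add (add_le_add h1 h8) h9
      rcases chord z hz with h11 | ⟨y, hy, hzy, h11⟩
      · exact ⟨z, h11, h10.trans (by nlinarith)⟩
      · have h12 := hsk (z, y) hzy (2 * B) (by positivity) h11 z (left_mem_segment ℝ _ _) y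
          (right_mem_segment ℝ _ _)
        refine ⟨y, hy, ?_⟩
        calc ‖g x - g y‖ ≤ ‖g x - g z‖ + ‖g z - g y‖ := norm_sub_le_norm_sub_add_norm_sub _ _ _
          _ ≤ C₀ * B + (D₀ * β + β) + (D₀ * β + β) + (D₀ * (2 * B) + β) := add_le_add h10 h12
          _ ≤ _ := by nlinarith
  intro x hx y hy
  obtain ⟨q, hq, h1⟩ := key x hx
  obtain ⟨q', hq', h2⟩ := key y hy
  have h3 := hbd q hq q' hq'
  rw [norm_sub_rev] at h2
  calc ‖g x - g y‖ ≤ ‖g x - g q‖ + ‖g q - g q'‖ + ‖g q' - g y‖ := by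
        refine (norm_sub_le_norm_sub_add_norm_sub _ (g q') _).trans (add_le_add ?_ le_rfl)
        exact norm_sub_le_norm_sub_add_norm_sub _ _ _
    _ ≤ (C₀ + 4 * D₀ + 3) * B + (D₀ * B + B) + (C₀ + 4 * D₀ + 3) * B :=
        add_le_add (add_le_add h1 h3) h2
    _ = _ := by ring

end P073.H399
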