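import Vale.Agent.P073.H399.RTd
import Vale.Agent.P073.H490.RTd1

/-!
# P073, H399: **[REF-TOP]**, part f: `OscOut` on `M` from the oscillation of the faces of the
refined mesh

`WData`: the data of the divided faces (segments, perimeter of the pieces, routes, chords).
`oscOut_ref`: `OscOut`.
-/

open Set Metric Topology Filter MeasureTheory
open scoped ENNReal

namespace P073.H399

open Vale.Agent.P073.St (V)
open Vale.Agent.P073.H73 (Mesh Adapted onSeg sqr ctr)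
open Vale.Agent.P073.H193 (Edges vtx Fam Pgn Ed InLine pgn_of_fat fam_of_mesh edges)
open Vale.Agent.P073.H304 (IsEdge Nb Cst Small OscOut Seg)
open _root_.P073 (ConHomeo)
open _root_.P073.Net (len dyc)

variable {Ω Λ : Set V} {M : Mesh Ω}

/-- the data of the divided faces -/
structure WData (Pc : Pieces M) (𝒲 : Set M.κ) (h : V → V) (β : M.κ → ℝ) (X : M.κ → Finset V)
    (sg : M.κ → Finset (V × V)) : Prop where
  skel : ∀ k ∈ 𝒲, ∀ s ∈ sg k, Pc.Skel k s.1 s.2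
  perim : ∀ k ∈ 𝒲, ∀ t, ∑ e ∈ ((edges Pc.mesh).fin_face (⟨k, t⟩ : Σ k, Pc.τ k)).toFinset,
    len (onSeg h ((edges Pc.mesh).a e, (edges Pc.mesh).b e)) (Icc 0 1) ≤ ENNReal.ofReal (β k / 2)
  route : ∀ k ∈ 𝒲, ∀ t, ∀ p ∈ intrinsicFrontier ℝ (Pc.A k t), p ∈ intrinsicFrontier ℝ (M.F k) ∨
      (∃ s ∈ sg k, p ∈ segment ℝ s.1 s.2 ∧ s.2 ∈ intrinsicFrontier ℝ (M.F k) ∧
        len (onSeg h s) (Icc 0 1) ≤ ENNReal.ofReal (β k)) ∨
      ∃ s ∈ sg k, ∃ s' ∈ sg k, ∃ z ∈ X k, p ∈ segment ℝ s.1 s.2 ∧ s.2 ∈ segment ℝ s'.1 s'.2 ∧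
        z ∈ segment ℝ s'.1 s'.2 ∧ len (onSeg h s) (Icc 0 1) ≤ ENNReal.ofReal (β k) ∧
        len (onSeg h s') (Icc 0 1) ≤ ENNReal.ofReal (β k)
  chord : ∀ k ∈ 𝒲, ∀ z ∈ X k, z ∈ M.F k ∧ (z ∈ intrinsicFrontier ℝ (M.F k) ∨
    ∃ y ∈ intrinsicFrontier ℝ (M.F k), (z, y) ∈ sg k ∧ ∀ y' ∈ intrinsicFrontier ℝ (M.F k),
      len (onSeg h (z, y)) (Icc 0 1) ≤ 2 * len (onSeg h (z, y')) (Icc 0 1))

theorem cst_div {Pc : Pieces M} {Y : Set M.κ} {D₀ D₀' : ℝ} {S : Set V} {C : ℝ}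
    (H : Cst M Y (38 * D₀) (38 * D₀') S C) : Cst Pc.mesh (Pc.YR Y) D₀ D₀' S (C / 38) := by
  rcases H with h | ⟨h, h'⟩
  · exact Or.inl (by rw [le_div_iff₀ (by norm_num)]; linarith)
  · refine Or.inr ⟨by rw [le_div_iff₀ (by norm_num)]; linarith, fun a ha => ?_⟩
    exact (h' _ ha).mono_left (Pc.sub _ _)

/-- the smaller tolerances -/
theorem exists_eps1 {ε β : M.κ → ℝ} (hε : ∀ k, 0 < ε k) (hβ : ∀ k, 0 < β k)
    {ν : (edges M).ε → ℝ} (hν : ∀ e, 0 < ν e) : ∃ ε₁ : M.κ → ℝ, (∀ k, 0 < ε₁ k) ∧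
      (∀ k, ε₁ k ≤ ε k) ∧ (∀ k, ε₁ k ≤ β k) ∧
      ∀ k e, (edges M).seg e ⊆ M.F k → ε₁ k ≤ ν e := by
  classical
  have h1 : ∀ k, ∃ t : ℝ, 0 < t ∧ ∀ e, (edges M).seg e ⊆ M.F k → t ≤ ν e := by
    intro k
    set T := ((edges M).fin_face k).toFinset with hT
    by_cases hne : T.Nonempty
    · refine ⟨T.inf' hne ν, (Finset.lt_inf'_iff hne).2 fun e _ => hν e, fun e he => ?_⟩
      exact Finset.inf'_le _ (((edges M).fin_face k).mem_toFinset.2 he)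
    · refine ⟨1, one_pos, fun e he => ?_⟩
      exact absurd ⟨e, ((edges M).fin_face k).mem_toFinset.2 he⟩ hne
  choose t ht ht' using h1
  refine ⟨fun k => min (ε k) (min (β k) (t k)), fun k => lt_min (hε k) (lt_min (hβ k) (ht k)),
    fun k => min_le_left _ _, fun k => (min_le_right _ _).trans (min_le_left _ _),
    fun k e he => ((min_le_right _ _).trans (min_le_right _ _)).trans (ht' k e he)⟩

/-- **`OscOut` on `M`** -/
theorem oscOut_ref {Pc : Pieces M} {𝒲 : Set M.κ} {h : V → V} {g : ConHomeo Ω Λ} {w : V}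
    {J₀ : Set (ℕ × (Fin 3 → ℤ))} {η c₀ D₀ D₀' : ℝ} {P Z : Set M.ι} {Y : Set M.κ}
    {β : M.κ → ℝ} {X : M.κ → Finset V} {sg : M.κ → Finset (V × V)} {ν : (edges M).ε → ℝ}
    {ε₁ : M.κ → ℝ} {ε' : Pc.mesh.κ → ℝ} (hΛ : IsOpen Λ) (HF : Far Pc 𝒲 h w J₀ η Z)
    (HW : WData Pc 𝒲 h β X sg) (hβ : ∀ k, 0 < β k)
    (hβ2 : ∀ k i, M.F k ⊆ M.Q i → ∀ B, (∀ x ∈ M.Q i, ∀ y ∈ M.Q i, ‖h x - h y‖ ≤ B) → β k ≤ B)
    (hν : ∀ e, 0 < ν e)
    (hν2 : ∀ i, ∀ T : Finset (edges M).ε, (∀ e ∈ T, (edges M).seg e ⊆ M.Q i) →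
      ∀ B, (∀ x ∈ M.Q i, ∀ y ∈ M.Q i, ‖h x - h y‖ ≤ B) → ∑ e ∈ T, ν e ≤ B)
    (hε0 : ∀ a, 0 ≤ ε' a)
    (hε2 : ∀ k, ∀ T : Finset (edges Pc.mesh).ε, (∀ e ∈ T, (edges Pc.mesh).seg e ⊆ M.F k) →
      ∀ t : (edges Pc.mesh).ε → Pc.τ k, ∑ e ∈ T, ε' (⟨k, t e⟩ : Σ k, Pc.τ k) ≤ ε₁ k)
    (hε3 : ∀ k, ε₁ k ≤ β k) (hε4 : ∀ k e, (edges M).seg e ⊆ M.F k → ε₁ k ≤ ν e)
    (h1 : 1 ≤ D₀) (h1' : D₀ ≤ D₀')
    (hedge : ∀ a, ∀ e, IsEdge Pc.mesh e → segment ℝ e.1 e.2 ⊆ Pc.mesh.F a →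
      len (onSeg g.toFun e) (Icc 0 1) ≤
        ENNReal.ofReal D₀ * len (onSeg h e) (Icc 0 1) + ENNReal.ofReal (ε' a))
    (FO : ∀ i, i ∉ P → ∀ C, Cst Pc.mesh (Pc.YR Y) D₀ D₀' (M.Q i) C → ∀ a,
      Pc.mesh.F a ⊆ M.Q i → ∀ b > 0, ((∀ x ∈ M.Q i, ∀ y ∈ M.Q i, ‖h x - h y‖ ≤ b) ∧
        ∃ E : Finset (V × V), (∀ e, IsEdge Pc.mesh e → segment ℝ e.1 e.2 ⊆ Pc.mesh.F a → e ∈ E) ∧
          ∑ e ∈ E, len (onSeg h e) (Icc 0 1) ≤ ENNReal.ofReal b) →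
      ∀ x ∈ Pc.mesh.F a, ∀ y ∈ Pc.mesh.F a, ‖g.toFun x - g.toFun y‖ ≤ C * b) :
    OscOut (38 * D₀) (38 * D₀') c₀ w M h J₀ P Z Y g.toFun := by
  classical
  intro i hi C hC B hB hs hsp
  obtain ⟨hosc, hE⟩ := hs
  have hC0 := cst_div (Pc := Pc) hC
  set C₀ := C / 38 with hC₀
  have hCC : C = 38 * C₀ := by rw [hC₀]; ring
  have hD₀C : D₀ ≤ C₀ := by
    rcases hC0 with h2 | ⟨h2, -⟩
    · exact h1'.trans h2
    · exact h2
  have hD0 : 0 ≤ D₀ := by linarith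
  -- edges of `M`
  have hedgeM : ∀ e : (edges M).ε,
      len (onSeg g.toFun ((edges M).a e, (edges M).b e)) (Icc 0 1) ≤
      ENNReal.ofReal D₀ * len (onSeg h ((edges M).a e, (edges M).b e)) (Icc 0 1) +
        ENNReal.ofReal (ν e) := by
    intro e
    obtain ⟨k, hk⟩ := (edges M).own e
    exact Pc.len_le_sk (Pc.skel_edge (edges M) Pc.verts_sub hk) hε0 hedge
      fun T hT t => (hε2 k T hT t).trans (hε4 k e hk)
  have hfaceQ : ∀ k, M.F k ⊆ M.Q i → ∀ e ∈ ((edges M).fin_face k).toFinset,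
      (edges M).seg e ⊆ M.Q i := fun k hk e he =>
    Subset.trans (((edges M).fin_face k).mem_toFinset.1 he) hk
  -- faces
  have hface : ∀ k, M.F k ⊆ M.Q i → ∀ x ∈ M.F k, ∀ y ∈ M.F k,
      ‖g.toFun x - g.toFun y‖ ≤ (18 * C₀) * B := by
    intro k hk
    have hβB : β k ≤ B := hβ2 k i hk B hosc
    have hsumF := sum_edges_le hE (hfaceQ k hk)
    by_cases hkW : k ∈ 𝒲
    · -- a divided face
      have hiZ : i ∉ Z := fun h' => (HF.face ⟨i, h', hk⟩).1 hkW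
      obtain ⟨hseg, -⟩ := hsp hiZ
      have hpiece : ∀ t, ∀ x ∈ Pc.A k t, ∀ y ∈ Pc.A k t,
          ‖g.toFun x - g.toFun y‖ ≤ C₀ * B := by
        intro t
        obtain ⟨E, hE1, hE2⟩ := exists_E Pc.mesh h (HW.perim k hkW t)
        refine FO i hi C₀ hC0 (⟨k, t⟩ : Σ k, Pc.τ k) ((Pc.sub k t).trans hk) B hB
          ⟨hosc, E, hE1, hE2.trans (ENNReal.ofReal_le_ofReal (by linarith))⟩
      have hbd : ∀ q ∈ intrinsicFrontier ℝ (M.F k), ∀ q' ∈ intrinsicFrontier ℝ (M.F k),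
          ‖g.toFun q - g.toFun q'‖ ≤ D₀ * B + B := by
        have h3 := sum_len_le (T := ((edges M).fin_face k).toFinset)
          (a := fun e => len (onSeg g.toFun ((edges M).a e, (edges M).b e)) (Icc 0 1)) hD0 hB.le
          (fun e _ => (hν e).le) (fun e _ => hedgeM e) hsumF (hν2 i _ (hfaceQ k hk) B hosc)
        intro q hq q' hq'
        refine (osc_bd (g := g) (k := k) (w := fun e =>
          (len (onSeg g.toFun ((edges M).a e, (edges M).b e)) (Icc 0 1)).toReal)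
          (fun e => ENNReal.toReal_nonneg) ?_ q hq q' hq').trans h3.1
        intro e he x hx y hy
        have h4 := h3.2 e (((edges M).fin_face k).mem_toFinset.2 he)
        refine norm_sub_le_of_len hx hy ENNReal.toReal_nonneg ?_
        rw [ENNReal.ofReal_toReal h4]
      have h5 := wface_osc (Pc := Pc) (k := k) (g := g.toFun) (h := h) (C₀ := C₀) (D₀ := D₀)
        (β := β k) (B := B) hD0 (hβ k).le hβB (sg := sg k) (X := X k)
        (fun s hs c hc hlen x hx y hy => by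
          have h6 := Pc.len_le_sk (HW.skel k hkW s hs) hε0 hedge (hε2 k)
          refine norm_sub_le_of_len hx hy (add_nonneg (mul_nonneg hD0 hc) (hβ k).le)
            (h6.trans ?_)
          rw [ENNReal.ofReal_add (mul_nonneg hD0 hc) (hβ k).le, ENNReal.ofReal_mul hD0]
          exact add_le_add (mul_le_mul_right hlen _) (ENNReal.ofReal_le_ofReal (hε3 k)))
        hpiece (HW.route k hkW) (fun z hz => by
          obtain ⟨hzF, h6⟩ := HW.chord k hkW z hz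
          rcases h6 with h6 | ⟨y, hy, hzy, h6⟩
          · exact Or.inl h6
          · refine Or.inr ⟨y, hy, hzy, ?_⟩
            obtain ⟨y', hy', h7⟩ := hseg k hk z hzF
            refine (h6 y' hy').trans ?_
            calc 2 * len (onSeg h (z, y')) (Icc 0 1) ≤ 2 * ENNReal.ofReal B := by gcongr
              _ = ENNReal.ofReal (2 * B) := by
                  rw [ENNReal.ofReal_mul (by norm_num)]; norm_num) hbd
      intro x hx y hy
      refine (h5 x hx y hy).trans (mul_le_mul_of_nonneg_right ?_ hB.le)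
      linarith
    · -- an undivided face
      obtain ⟨t⟩ := Pc.exists_t k
      have hF : Pc.mesh.F (⟨k, t⟩ : Σ k, Pc.τ k) = M.F k := HF.triv k hkW t
      obtain ⟨E, hE1, hE2⟩ := exists_E Pc.mesh h ((sum_sub_le HF.triv hkW t h).trans hsumF)
      have h5 := FO i hi C₀ hC0 (⟨k, t⟩ : Σ k, Pc.τ k) (by rw [hF]; exact hk) (2 * B)
        (by linarith) ⟨fun x hx y hy => (hosc x hx y hy).trans (by linarith), E, hE1, hE2⟩
      rw [hF] at h5
      intro x hx y hy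
      refine (h5 x hx y hy).trans ?_
      have : 0 ≤ C₀ * B := mul_nonneg (by linarith) hB.le
      linarith
  have h2 := Vale.Agent.P073.H490.osc_of_faces hΛ (g := g) (i := i) (B := B) (C₁ := 18 * C₀)
    (D := D₀) hB.le (by linarith) hD0 hface hE (fun e => (hν e).le)
    (fun T hT => hν2 i T hT B hosc) (fun e _ => hedgeM e)
  intro x hx y hy
  refine (h2 x hx y hy).trans ?_
  rw [hCC]
  refine mul_le_mul_of_nonneg_right ?_ hB.le
  linarith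

end P073.H399
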