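import Vale.Agent.P073.H399.RTf

/-!
# P073, H399: **[REF-TOP]**, part g: all outputs for `M` from the outputs for the refined mesh

`ref_out`: for all tolerances `ε` of `M` there are tolerances `ε'` of the refined mesh such that
`OutB` and the body of `FOsc` for the refined mesh give `OutB` and `OscOut` for `M`.
-/

open Set Metric Topology Filter MeasureTheory
open scoped ENNReal

namespace P073.H399

open Vale.Agent.P073.St (V)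
open Vale.Agent.P073.H73 (Mesh Adapted onSeg sqr ctr)
open Vale.Agent.P073.H193 (Edges vtx Fam Pgn Ed InLine pgn_of_fat fam_of_mesh edges)
open Vale.Agent.P073.H304 (IsEdge Nb Cst Small OscOut Seg OutB)
open _root_.P073 (ConHomeo)
open _root_.P073.Net (len dyc)

variable {Ω Λ : Set V} {M : Mesh Ω}

/-- the body of 233's `FOsc` -/
def FOscR (D D' : ℝ) (M : Mesh Ω) (h : V → V) (P : Set M.ι) (Y : Set M.κ) (g : V → V) : Prop :=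
  ∀ i, i ∉ P → ∀ C, Cst M Y D D' (M.Q i) C → ∀ k, M.F k ⊆ M.Q i → ∀ b > 0,
    ((∀ x ∈ M.Q i, ∀ y ∈ M.Q i, ‖h x - h y‖ ≤ b) ∧
      ∃ E : Finset (V × V), (∀ e, IsEdge M e → segment ℝ e.1 e.2 ⊆ M.F k → e ∈ E) ∧
        ∑ e ∈ E, len (onSeg h e) (Icc 0 1) ≤ ENNReal.ofReal b) →
    ∀ x ∈ M.F k, ∀ y ∈ M.F k, ‖g x - g y‖ ≤ C * b

/-- larger constants -/
theorem FOscR.mono {D D' D₁ D₁' : ℝ} {h g : V → V} {P : Set M.ι} {Y : Set M.κ}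
    (H : FOscR D D' M h P Y g) (hD : D ≤ D₁) (hD' : D' ≤ D₁') : FOscR D₁ D₁' M h P Y g :=
  fun i hi C hC => H i hi C (by
    rcases hC with h1 | ⟨h1, h2⟩
    · exact Or.inl (hD'.trans h1)
    · exact Or.inr ⟨hD.trans h1, h2⟩)

/-- **the outputs for `M`** -/
theorem ref_out (hΛ : IsOpen Λ) (h : ConHomeo Ω Λ) {Pc : Pieces M} {𝒲 : Set M.κ} {w : V}
    {J₀ : Set (ℕ × (Fin 3 → ℤ))} {η : ℝ} {Z : Set M.ι} {β : M.κ → ℝ} {X : M.κ → Finset V}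
    {sg : M.κ → Finset (V × V)} (HF : Far Pc 𝒲 h.toFun w J₀ η Z)
    (HW : WData Pc 𝒲 h.toFun β X sg) (hβ : ∀ k, 0 < β k)
    (hβ2 : ∀ k i, M.F k ⊆ M.Q i → ∀ B,
      (∀ x ∈ M.Q i, ∀ y ∈ M.Q i, ‖h.toFun x - h.toFun y‖ ≤ B) → β k ≤ B)
    {ε : M.κ → ℝ} (hε : ∀ k, 0 < ε k) :
    ∃ ε' : Pc.mesh.κ → ℝ, (∀ a, 0 < ε' a) ∧ (∀ a : Σ k, Pc.τ k, ε' a ≤ ε a.1) ∧
      ∀ {p D₀ D₀' c₀ m : ℝ} {ρ : V → ℝ} {J : Set (ℕ × (Fin 3 → ℤ))} {P : Set M.ι} {Y : Set M.κ}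
        {g : ConHomeo Ω Λ}, 0 ≤ p → 1 ≤ D₀ → D₀ ≤ D₀' →
        OutB p D₀ D₀' η c₀ m w ρ Pc.mesh h.toFun J₀ J P Z (Pc.YR Y) ε' g →
        OutB p (38 * D₀) (38 * D₀') η c₀ m w ρ M h.toFun J₀ J P Z Y ε g ∧
        (FOscR D₀ D₀' Pc.mesh h.toFun P (Pc.YR Y) g.toFun →
          OscOut (38 * D₀) (38 * D₀') c₀ w M h.toFun J₀ P Z Y g.toFun) ∧
        (∀ {δ μ r : ℝ}, 0 ≤ c₀ → 0 ≤ η → δ ≤ η →
          Vale.Agent.P073.H212.SharpOut3 p D₀ c₀ δ μ r w ρ Pc.mesh h.toFun J₀ (Pc.YR Y) ε' g →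
          Vale.Agent.P073.H212.SharpOut3 p (38 * D₀) c₀ δ μ r w ρ M h.toFun J₀ Y ε g) := by
  obtain ⟨ν, hν, hν2⟩ := Vale.Agent.P073.H490.exists_nu M h
  obtain ⟨ε₁, e0, e1, e2, e3⟩ := exists_eps1 hε hβ hν
  obtain ⟨ε', f0, f1, f2⟩ := exists_epsR Pc e0
  refine ⟨ε', f0, fun a => (f1 a).trans (e1 a.1), ?_⟩
  intro p D₀ D₀' c₀ m ρ J P Y g hp hD hD' H
  have h0 : 0 ≤ D₀ := by linarith
  refine ⟨outB_ref HF hp h0 hD' (by linarith) (by linarith) (fun a => (f0 a).le)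
    (fun a => (f1 a).trans (e1 a.1)) (fun k T hT t => (f2 k T hT t).trans (e1 k)) H,
    fun FO => ?_, fun {δ μ r} hc hη hδ HS => ?_⟩
  · exact oscOut_ref hΛ HF HW hβ hβ2 hν hν2 (fun a => (f0 a).le) f2 e2 e3 hD hD' H.edge FO
  · exact sharp_ref HF hc hδ hη (by linarith) (fun a => (f0 a).le)
      (fun a => (f1 a).trans (e1 a.1)) (fun k T hT t => (f2 k T hT t).trans (e1 k)) HS

end P073.H399
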