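import Vale.Agent.P073.H399.RTh
import Vale.Agent.P073.H936.TopSO
import Vale.Agent.P073.H340.TwoW

/-!
# P073, H399: **[REF-TOP]**, the composition in the form of 340 and 936: `TopO p → K3O p`

* `k3o_of_topO`: from the refined meshes (`RefInT`) and `TopO p`;
* `k3s_of_topS`: from `TopS p`;
* `k3c_of_tops`: `K3C p`.
-/

open Set Metric Topology Filter MeasureTheory
open scoped ENNReal

namespace P073.H399

open Vale.Agent.P073.St (V)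
open Vale.Agent.P073.H73 (Mesh)
open Vale.Agent.P073.H304 (OscOut OutB K3C)
open Vale.Agent.P073.H471 Vale.Agent.P073.H926
open Vale.Agent.P073.H936.KR (K3R NW TopS TopO)
open Vale.Agent.P073.H340.TwoW (K3S K3O outB_mono exists_pow_lt k3c_of_two)
open _root_.P073 (ConHomeo)
open _root_.P073.PA691 (BoxCx)

/-- **the second half of `K3C`** -/
theorem k3o_of_topO {p : ℝ} (hp : 0 ≤ p)
    (HR : ∀ {c₀ n δ : ℝ} {j : ℕ} {Ω Λ : Set V} {v w : V} {ρ : V → ℝ} {M : Mesh Ω}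
      {h : ConHomeo Ω Λ} {J₀ : Set (ℕ × (Fin 3 → ℤ))} {P Z : Set M.ι} {K : BoxCx Λ w}
      (D : KIn3 c₀ n j δ v w ρ M h J₀ J₀ P Z) (C : Cells ρ w K), RefInT D C)
    (H : TopO p) : K3O p := by
  obtain ⟨D, hD, D', hD', H⟩ := H
  refine ⟨38 * D, by linarith, fun c₀ h0 h1 => ?_⟩
  obtain ⟨n, hn, hnc, j₀, H⟩ := H c₀ h0 h1
  obtain ⟨j₁, hj₁⟩ := exists_pow_lt (δ3_pos hn)
  refine ⟨max j₀ j₁, fun j hj => ?_⟩
  obtain ⟨δ₀, hδ₀, H⟩ := H j ((le_max_left _ _).trans hj)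
  have hj2 : (1 : ℝ) / 2 ^ j ≤ δ3 n := (hj₁ j ((le_max_right _ _).trans hj)).le
  refine ⟨min δ₀ (1 / 2 ^ j / 4096), lt_min hδ₀ (by positivity), fun δ hδ hδle => ?_⟩
  obtain ⟨m, -, -, H⟩ := H δ hδ (hδle.trans (min_le_left _ _))
  have hδj : 4096 * δ ≤ 1 / 2 ^ j := by
    have := hδle.trans (min_le_right _ _)
    rw [le_div_iff₀ (by norm_num)] at this
    linarith
  intro Ω Λ hΩ hΛ v w ρ hρ M h J₀ J P Z hin hJ hm' ε hε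
  subst hJ
  obtain ⟨K, ⟨C⟩⟩ := exists_cells hρ w
  have D₀ : KIn3 c₀ n j δ v w ρ M h J J P Z :=
    ⟨hn, hnc, h1, hj2, hδ, hδj, hΩ, hΛ, hρ, by first | exact hin | exact hin.toW⟩
  obtain ⟨β, hβ, hβ2⟩ := Vale.Agent.P073.H490.exists_beta M h
  obtain ⟨Pc, 𝒲, X, sg, HF, HW, D₁, hNW⟩ := HR D₀ C hm' β hβ
  obtain ⟨ε', he0, he1, hout⟩ := ref_out D₀.bΛ.1 h HF HW hβ hβ2 hε
  have hY : Pc.YR (∅ : Set M.κ) = ∅ := by
    ext a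
    simp [Pieces.YR]
  obtain ⟨g, hg1, hg2⟩ := H Ω Λ v w ρ Pc.mesh h J P Z D₁ K C ε' he0 hm' hNW
  rw [← hY] at hg1 hg2
  obtain ⟨o1, o2, -⟩ := hout hp hD hD' hg1
  exact ⟨g, outB_mono (outB_mono (m' := c₀) o1 le_rfl le_rfl).empty le_rfl le_rfl,
    (o2 hg2).empty⟩

/-- **the first half of `K3C`** -/
theorem k3s_of_topS {p : ℝ} (H : TopS p) : K3S p := by
  obtain ⟨D, hD, H⟩ := H
  refine ⟨D, hD, fun μ hμ => ?_⟩
  obtain ⟨D', hD', r, hr, H⟩ := H μ hμ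
  refine ⟨D', hD', r, hr, fun c₀ h0 h1 => ?_⟩
  obtain ⟨n, hn, hnc, j₀, H⟩ := H c₀ h0 h1
  obtain ⟨j₁, hj₁⟩ := exists_pow_lt (δ3_pos hn)
  refine ⟨max j₀ j₁, fun j hj => ?_⟩
  obtain ⟨δ₀, hδ₀, H⟩ := H j ((le_max_left _ _).trans hj)
  have hj2 : (1 : ℝ) / 2 ^ j ≤ δ3 n := (hj₁ j ((le_max_right _ _).trans hj)).le
  refine ⟨min δ₀ (1 / 2 ^ j / 4096), lt_min hδ₀ (by positivity), fun δ hδ hδle => ?_⟩
  obtain ⟨m, -, -, H⟩ := H δ hδ (hδle.trans (min_le_left _ _))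
  have hδj : 4096 * δ ≤ 1 / 2 ^ j := by
    have := hδle.trans (min_le_right _ _)
    rw [le_div_iff₀ (by norm_num)] at this
    linarith
  intro Ω Λ hΩ hΛ v w ρ hρ M h J₀ J P Z hin Y ε hε
  obtain ⟨K, ⟨C⟩⟩ := exists_cells hρ w
  have D₀ : KIn3 c₀ n j δ v w ρ M h J₀ J P Z :=
    ⟨hn, hnc, h1, hj2, hδ, hδj, hΩ, hΛ, hρ, by first | exact hin | exact hin.toW⟩
  obtain ⟨g, hg1, hg2⟩ := H Ω Λ v w ρ M h J₀ J P Z D₀ K C Y ε hε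
  exact ⟨g, outB_mono hg1 le_rfl le_rfl, hg2⟩

/-- **`K3C` from `TopS` and `TopO`** -/
theorem k3c_of_tops {p : ℝ} (hp : 0 ≤ p)
    (HR : ∀ {c₀ n δ : ℝ} {j : ℕ} {Ω Λ : Set V} {v w : V} {ρ : V → ℝ} {M : Mesh Ω}
      {h : ConHomeo Ω Λ} {J₀ : Set (ℕ × (Fin 3 → ℤ))} {P Z : Set M.ι} {K : BoxCx Λ w}
      (D : KIn3 c₀ n j δ v w ρ M h J₀ J₀ P Z) (C : Cells ρ w K), RefInT D C)
    (HS : TopS p) (HO : TopO p) : K3C p :=
  k3c_of_two (k3s_of_topS HS) (k3o_of_topO hp HR HO)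

end P073.H399
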