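import Vale.Agent.P073.H687.Til
import Vale.Agent.P073.H193.EdgCx

/-!
# P073, H399: **[REFINE]**, the mesh with subdivided faces

`Pieces M`: a finite subdivision of each face of the mesh `M` into convex polygons.
`Pieces.mesh`: the mesh with the same cells, whose faces are the pieces.
-/

open Set Metric Topology Filter

namespace P073.H399

open Vale.Agent.P073.St (V)
open Vale.Agent.P073.H73 (Mesh usq Fat)
open Vale.Agent.P073.H193 (Edges vtx Fam IsEdge Pgn InLine pgn_of_fat fam_of_mesh mesh_sub)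
open Vale.Agent.P073.H687 (Two)

/-- a two-dimensional subset of a flat set has its relative interior inside -/
theorem relint_sub {A F : Set V} (hA : Two A) (hAF : A ⊆ F) {μ : V →L[ℝ] ℝ} {s : ℝ} (hμ : μ ≠ 0)
    (hF : ∀ x ∈ F, μ x = s) : intrinsicInterior ℝ A ⊆ intrinsicInterior ℝ F := by
  intro x hx
  obtain ⟨r, hr, hb⟩ := hA.exists_ball hμ (fun z hz => hF z (hAF hz)) hx
  have hxF : x ∈ F := hAF (intrinsicInterior_subset hx)
  refine ⟨⟨x, subset_affineSpan ℝ _ hxF⟩, ?_, rfl⟩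
  rw [mem_interior_iff_mem_nhds]
  refine Metric.mem_nhds_iff.2 ⟨r, hr, fun z hz => ?_⟩
  refine hAF (hb _ hz ?_)
  have h1 : (μ : V →ₗ[ℝ] ℝ).toAffineMap (z : V) ∈
      (affineSpan ℝ F).map (μ : V →ₗ[ℝ] ℝ).toAffineMap := ⟨z, z.2, rfl⟩
  rw [AffineSubspace.map_span] at h1
  have h2 : affineSpan ℝ ((μ : V →ₗ[ℝ] ℝ).toAffineMap '' F) ≤ affineSpan ℝ {s} := by
    apply affineSpan_mono
    rintro _ ⟨y, hy, rfl⟩
    exact hF y hy
  have h3 := h2 h1
  rw [AffineSubspace.mem_affineSpan_singleton] at h3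
  exact h3

variable {Ω : Set V}

/-- **pieces**: each face is divided into finitely many convex polygons -/
structure Pieces (M : Mesh Ω) where
  /-- index set of the pieces of a face -/
  τ : M.κ → Type
  fin : ∀ k, Finite (τ k)
  /-- the pieces -/
  A : ∀ k, τ k → Set V
  half : ∀ k t, ∃ (n : ℕ) (ν : Fin n → V →L[ℝ] ℝ) (s : Fin n → ℝ), A k t = {x | ∀ i, ν i x ≤ s i}
  two : ∀ k t, Two (A k t)
  sub : ∀ k t, A k t ⊆ M.F k
  cover : ∀ k, ∀ x ∈ M.F k, ∃ t, x ∈ A k t
  dis : ∀ k t t', t ≠ t' → Disjoint (intrinsicInterior ℝ (A k t)) (A k t')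

namespace Pieces

variable {M : Mesh Ω} (P : Pieces M)

theorem isClosed (k : M.κ) (t : P.τ k) : IsClosed (P.A k t) := by
  obtain ⟨n, ν, s, h⟩ := P.half k t
  rw [h]
  have : {x : V | ∀ i, ν i x ≤ s i} = ⋂ i, {x | ν i x ≤ s i} := by ext x; simp
  rw [this]
  exact isClosed_iInter fun i => isClosed_le (ν i).continuous continuous_const

theorem cpt (k : M.κ) (t : P.τ k) : IsCompact (P.A k t) :=
  (pgn_of_fat (M.fat k)).cpt.of_isClosed_subset (P.isClosed k t) (P.sub k t)

theorem convex (k : M.κ) (t : P.τ k) : Convex ℝ (P.A k t) :=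
  Vale.Agent.P073.H687.half_convex (P.half k t)

theorem exists_fat (k : M.κ) (t : P.τ k) : ∃ c, 0 < c ∧ Fat c 1 (P.A k t) := by
  obtain ⟨ν, s, hν, hF⟩ := (M.fat k).plane
  have hu : ∀ x ∈ P.A k t, ν x = s := fun x hx => hF x (P.sub k t hx)
  obtain ⟨y, hy⟩ := (P.two k t).nonempty.intrinsicInterior (P.convex k t)
  obtain ⟨r, hr, hb⟩ := (P.two k t).exists_ball hν hu hy
  exact Vale.Agent.P073.H687.exists_fat (P.half k t) (P.cpt k t) hν hu
    (intrinsicInterior_subset hy) hr hb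

theorem relint_sub (k : M.κ) (t : P.τ k) :
    intrinsicInterior ℝ (P.A k t) ⊆ intrinsicInterior ℝ (M.F k) := by
  obtain ⟨ν, s, hν, hF⟩ := (M.fat k).plane
  exact H399.relint_sub (P.two k t) (P.sub k t) hν hF

open Classical in
/-- **[REFINE]** the refined mesh: same cells, the faces are the pieces -/
noncomputable def mesh : Mesh Ω where
  ι := M.ι
  κ := Σ k, P.τ k
  Q := M.Q
  F := fun a => P.A a.1 a.2
  c := fun a => if P.A a.1 a.2 = M.F a.1 then M.c a.1 else Vale.Agent.P073.H687.cst (P.A a.1 a.2)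
  r := fun a => if P.A a.1 a.2 = M.F a.1 then M.r a.1 else 1
  poly := M.poly
  sub := M.sub
  cover := M.cover
  disj := M.disj
  fin := M.fin
  rpos := fun a => by
    by_cases h : P.A a.1 a.2 = M.F a.1
    · rw [if_pos h]; exact M.rpos a.1
    · rw [if_neg h]; exact one_pos
  fat := fun a => by
    by_cases h : P.A a.1 a.2 = M.F a.1
    · rw [if_pos h, if_pos h]
      rw [h]
      exact M.fat a.1
    · rw [if_neg h, if_neg h]
      exact Vale.Agent.P073.H687.fat_cst (P.exists_fat a.1 a.2)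
  two := fun a => by
    obtain ⟨i, j, hij, h⟩ := M.two a.1
    exact ⟨i, j, hij, (P.sub a.1 a.2).trans h⟩
  bd := fun i x hx => by
    obtain ⟨k, hk, hki⟩ := M.bd i x hx
    obtain ⟨t, ht⟩ := P.cover k x hk
    exact ⟨⟨k, t⟩, ht, (P.sub k t).trans hki⟩
  fdisj := by
    rintro ⟨k, t⟩ ⟨l, t'⟩ hne
    by_cases hkl : k = l
    · subst hkl
      exact P.dis k t t' fun h => hne (by rw [h])
    · exact ((M.fdisj k l hkl).mono_left (P.relint_sub k t)).mono_right (P.sub l t')
  ffin := fun K hK hKc => by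
    have h1 : (⋃ k ∈ {k | (M.F k ∩ K).Nonempty}, range fun t : P.τ k =>
        (⟨k, t⟩ : Σ k, P.τ k)).Finite :=
      (M.ffin K hK hKc).biUnion fun k _ => by
        have := P.fin k
        exact finite_range _
    refine h1.subset ?_
    rintro ⟨k, t⟩ ⟨x, hx, hxK⟩
    exact mem_biUnion (show k ∈ {k | (M.F k ∩ K).Nonempty} from ⟨x, P.sub k t hx, hxK⟩) ⟨t, rfl⟩

@[simp] theorem mesh_Q (i : M.ι) : P.mesh.Q i = M.Q i := rfl

@[simp] theorem mesh_F (a : Σ k, P.τ k) : P.mesh.F a = P.A a.1 a.2 := rfl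

/-- a face is the union of its pieces -/
theorem iUnion_eq (k : M.κ) : ⋃ t, P.A k t = M.F k := by
  apply Subset.antisymm
  · exact iUnion_subset fun t => P.sub k t
  · intro x hx
    obtain ⟨t, ht⟩ := P.cover k x hx
    exact mem_iUnion.2 ⟨t, ht⟩

/-- a face of the refined mesh in a cell, or in a face of another kind -/
theorem sub_cell {a : Σ k, P.τ k} {i : M.ι} (h : M.F a.1 ⊆ M.Q i) : P.mesh.F a ⊆ P.mesh.Q i :=
  (P.sub a.1 a.2).trans h

end Pieces

end P073.H399
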