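import Vale.Agent.P073.H399.Refine

/-!
# P073, H399: **[REFINE]**, part 2: cells, vertices and edges of the refined mesh

* `face_cell`: a cell which contains a relative interior point of a face contains the face;
* `Pieces.sub_Q_iff`: the piece is in the cell iff the face is in the cell;
* `Pieces.exists_chain`: an edge of `M` is a chain of edges of the refined mesh;
* `Pieces.edge_cases`: an edge of the refined mesh is contained in an edge of `M`, or in the relative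
  interior of a face of `M`.
-/

open Set Metric Topology Filter

namespace P073.H399

open Vale.Agent.P073.St (V)
open Vale.Agent.P073.H73 (Mesh usq Fat)
open Vale.Agent.P073.H193 (Edges vtx Fam IsEdge Pgn Ed InLine pgn_of_fat fam_of_mesh mesh_sub edges)
open Vale.Agent.P073.H687 (Two Tiling)

/-! ### Faces and cells -/

theorem two_of_pgn {F : Set V} (h : Pgn F) : Two F := by
  by_contra hcon
  obtain ⟨ν, t, hν, hF⟩ := h.plane
  have h1 := Vale.Agent.P073.H687.finrank_le_one hν hF hcon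
  have h2 : Collinear ℝ F := collinear_iff_finrank_le_one.2 h1
  obtain ⟨x₀, hx₀⟩ := h.nonempty
  obtain ⟨v, hv⟩ := (collinear_iff_of_mem hx₀).1 h2
  apply h.nl
  by_cases hv0 : v = 0
  · refine Vale.Agent.P073.H193.InLine.of_subsingleton fun x hx y hy => ?_
    obtain ⟨r, hr⟩ := hv x hx
    obtain ⟨r', hr'⟩ := hv y hy
    rw [hr, hr', hv0, smul_zero, smul_zero]
  · refine ⟨v, hv0, fun x hx y hy => ?_⟩
    obtain ⟨r, hr⟩ := hv x hx
    obtain ⟨r', hr'⟩ := hv y hy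
    exact ⟨r' - r, by rw [hr, hr', vadd_eq_add, vadd_eq_add, sub_smul]; abel⟩

variable {Ω : Set V}

/-- the tiling of a mesh -/
def tiling (M : Mesh Ω) : Tiling Ω where
  ι := M.ι
  Q := M.Q
  poly := M.poly
  sub := M.sub
  cover := M.cover
  disj := M.disj
  fin := M.fin

/-- a cell which contains a relative interior point of a face contains the face -/
theorem face_cell (M : Mesh Ω) {k : M.κ} {i : M.ι} {x : V} (hx : x ∈ intrinsicInterior ℝ (M.F k))
    (hi : x ∈ M.Q i) : M.F k ⊆ M.Q i := by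
  obtain ⟨a, b, hab, hk⟩ := M.two k
  obtain ⟨f, u, hf, h1, -, h2, -⟩ := (tiling M).sep (i := a) (j := b) hab
  have hu : ∀ z ∈ M.Q a ∩ M.Q b, f z = u := fun z hz => le_antisymm (h1 z hz.1) (h2 z hz.2)
  have hT := two_of_pgn (pgn_of_fat (M.fat k))
  have hT2 : Two (M.Q a ∩ M.Q b) := by
    have h3 := Submodule.finrank_mono (vectorSpan_mono ℝ hk)
    have h4 := Submodule.finrank_mono (Vale.Agent.P073.H687.vectorSpan_le_ker hu)
    rw [Vale.Agent.P073.H687.finrank_ker hf] at h4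
    rw [Two] at hT ⊢
    omega
  have hx' : x ∈ intrinsicInterior ℝ (M.Q a ∩ M.Q b) := relint_sub hT hk hf hu hx
  rcases (tiling M).third (i := a) (j := b) (l := i) hab hT2 hx' hi with rfl | rfl
  · exact hk.trans inter_subset_left
  · exact hk.trans inter_subset_right

namespace Pieces

variable {M : Mesh Ω} (P : Pieces M)

theorem relint_nonempty (k : M.κ) (t : P.τ k) : (intrinsicInterior ℝ (P.A k t)).Nonempty :=
  (P.two k t).nonempty.intrinsicInterior (P.convex k t)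

theorem sub_Q_iff {k : M.κ} (t : P.τ k) {i : M.ι} : P.A k t ⊆ M.Q i ↔ M.F k ⊆ M.Q i := by
  refine ⟨fun h => ?_, fun h => (P.sub k t).trans h⟩
  obtain ⟨x, hx⟩ := P.relint_nonempty k t
  exact face_cell M (P.relint_sub k t hx) (h (intrinsicInterior_subset hx))

/-! ### Vertices -/

theorem vtx_sub : vtx M.F ⊆ vtx P.mesh.F := by
  rintro x ⟨k, l, hx⟩
  obtain ⟨t, ht⟩ := P.cover k x hx.1.1
  obtain ⟨t', ht'⟩ := P.cover l x hx.1.2
  exact ⟨⟨k, t⟩, ⟨l, t'⟩, inter_extremePoints_subset_extremePoints_of_subset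
    (inter_subset_inter (P.sub k t) (P.sub l t')) ⟨⟨ht, ht'⟩, hx⟩⟩

theorem verts_sub : (edges M).verts ⊆ vtx P.mesh.F := by
  rintro x (⟨e, rfl⟩ | ⟨e, rfl⟩)
  · exact P.vtx_sub e.2.ma
  · exact P.vtx_sub e.2.mb

/-! ### Subdivision of segments in the boundary of a face -/

/-- points of the line -/
theorem exists_param {S : Set V} (hl : InLine S) {u v : V} (hu : u ∈ S) (hv : v ∈ S) (huv : u ≠ v)
    {p : V} (hp : p ∈ S) : ∃ α : ℝ, p = AffineMap.lineMap u v α := by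
  obtain ⟨d, hd, hl⟩ := hl
  obtain ⟨s, hs⟩ := hl u hu v hv
  obtain ⟨r, hr⟩ := hl u hu p hp
  have hs0 : s ≠ 0 := by
    rintro rfl
    rw [zero_smul, sub_eq_zero] at hs
    exact huv hs.symm
  refine ⟨r / s, ?_⟩
  rw [AffineMap.lineMap_apply, vsub_eq_sub, vadd_eq_add, hs, smul_smul, div_mul_cancel₀ _ hs0, ← hr,
    sub_add_cancel]

/-- a piece which contains a point of the segment, not a vertex, contains a neighbourhood -/
theorem mem_nhds_of_mem {k : M.κ} {t : P.τ k} {u v : V} (huv : u ≠ v)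
    (hsub : segment ℝ u v ⊆ intrinsicFrontier ℝ (M.F k)) {s : ℝ} (hs : s ∈ Icc (0:ℝ) 1)
    (hA : AffineMap.lineMap u v s ∈ P.A k t) (hn : AffineMap.lineMap u v s ∉ vtx P.mesh.F) :
    (AffineMap.lineMap u v : ℝ → V) ⁻¹' P.A k t ∈ 𝓝 s := by
  have hpg := pgn_of_fat (M.fat k)
  rw [hpg.fr_eq] at hsub
  obtain ⟨S, hS, hJ⟩ := hpg.exists_ed (convex_segment u v) ⟨u, left_mem_segment ℝ u v⟩
    (hsub.trans sdiff_subset) (Set.disjoint_left.2 fun x hx => (hsub hx).2)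
  have hfs : AffineMap.lineMap u v s ∈ S := hJ (by
    rw [segment_eq_image_lineMap]; exact ⟨s, hs, rfl⟩)
  have hnext : (AffineMap.lineMap u v s : V) ∉ (P.A k t).extremePoints ℝ := fun h =>
    hn (Vale.Agent.P073.H193.Fam.ext_vtx (F := P.mesh.F) (⟨k, t⟩ : Σ k, P.τ k) h)
  rw [mem_extremePoints_iff_left] at hnext
  push Not at hnext
  obtain ⟨p, hp, q, hq, hpq, hne⟩ := hnext hA
  have hpS : p ∈ S := hS.isExtreme.2 (P.sub k t hp) (P.sub k t hq) hfs hpq
  have hqS : q ∈ S := hS.isExtreme.2 (P.sub k t hq) (P.sub k t hp) hfs (by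
    rw [openSegment_symm]; exact hpq)
  obtain ⟨α, rfl⟩ := exists_param hS.inLine (hJ (left_mem_segment ℝ u v))
    (hJ (right_mem_segment ℝ u v)) huv hpS
  obtain ⟨β, rfl⟩ := exists_param hS.inLine (hJ (left_mem_segment ℝ u v))
    (hJ (right_mem_segment ℝ u v)) huv hqS
  have hinj : Function.Injective (AffineMap.lineMap u v : ℝ →ᵃ[ℝ] V) :=
    AffineMap.lineMap_injective ℝ huv
  rw [← image_openSegment] at hpq
  obtain ⟨s', hs', he⟩ := hpq
  obtain rfl := hinj he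
  have hαβ : α ≠ β := by
    rintro rfl
    rw [openSegment_same, mem_singleton_iff] at hs'
    exact hne (by rw [hs'])
  have hsubA : (AffineMap.lineMap u v : ℝ → V) '' segment ℝ α β ⊆ P.A k t := by
    have h1 : (AffineMap.lineMap u v : ℝ → V) '' segment ℝ α β =
        segment ℝ (AffineMap.lineMap u v α) (AffineMap.lineMap u v β) :=
      image_segment ℝ (AffineMap.lineMap u v : ℝ →ᵃ[ℝ] V) α β
    rw [h1]
    exact (P.convex k t).segment_subset hp hq
  rw [openSegment_eq_Ioo' hαβ] at hs'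
  refine mem_of_superset (isOpen_Ioo.mem_nhds hs') ?_
  intro r hr
  apply hsubA
  refine ⟨r, ?_, rfl⟩
  rw [segment_eq_uIcc]
  exact ⟨hr.1.le, hr.2.le⟩

/-- sorted lists -/
theorem exists_sorted {T : Finset ℝ} (h0 : (0:ℝ) ∈ T) (h1 : (1:ℝ) ∈ T)
    (hT : ∀ t ∈ T, 0 ≤ t ∧ t ≤ 1) : ∃ (n : ℕ) (s : ℕ → ℝ), s 0 = 0 ∧ s n = 1 ∧
      (∀ i < n, s i < s (i + 1)) ∧ (∀ i ≤ n, s i ∈ T) ∧ ∀ i < n, ∀ c ∈ T, ¬ (s i < c ∧ c < s (i + 1)) := by
  classical
  obtain ⟨n, hn⟩ : ∃ n, T.card = n + 1 :=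
    ⟨T.card - 1, (Nat.sub_add_cancel (Finset.card_pos.2 ⟨0, h0⟩)).symm⟩
  set f := T.orderEmbOfFin hn with hf
  have hr : Set.range f = T := Finset.range_orderEmbOfFin T hn
  have hmem : ∀ i, f i ∈ T := Finset.orderEmbOfFin_mem T hn
  refine ⟨n, fun i => f (Fin.ofNat (n + 1) i), ?_, ?_, ?_, ?_, ?_⟩
  · obtain ⟨i, hi⟩ : (0:ℝ) ∈ Set.range f := hr ▸ h0
    have h2 : f (Fin.ofNat (n + 1) 0) ≤ f i := f.monotone (Fin.zero_le i)
    exact le_antisymm (by rw [hi] at h2; exact h2) (hT _ (hmem _)).1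
  · obtain ⟨i, hi⟩ : (1:ℝ) ∈ Set.range f := hr ▸ h1
    have h2 : f i ≤ f (Fin.ofNat (n + 1) n) := f.monotone (by
      rw [Fin.le_def, Fin.val_ofNat, Nat.mod_eq_of_lt (Nat.lt_succ_self n)]
      exact Nat.lt_succ_iff.1 i.2)
    exact le_antisymm (hT _ (hmem _)).2 (by rw [hi] at h2; exact h2)
  · intro i hi
    apply f.strictMono
    rw [Fin.lt_def, Fin.val_ofNat, Fin.val_ofNat, Nat.mod_eq_of_lt (by omega),
      Nat.mod_eq_of_lt (by omega)]
    omega
  · intro i _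
    exact hmem _
  · rintro i hi c hc ⟨h2, h3⟩
    obtain ⟨j, rfl⟩ : c ∈ Set.range f := hr ▸ hc
    have h4 := f.lt_iff_lt.1 h2
    have h5 := f.lt_iff_lt.1 h3
    rw [Fin.lt_def, Fin.val_ofNat, Nat.mod_eq_of_lt (by omega)] at h4
    rw [Fin.lt_def, Fin.val_ofNat, Nat.mod_eq_of_lt (by omega)] at h5
    omega

/-- **the chain of the edges of the refined mesh in a segment** -/
theorem exists_chain {k : M.κ} {u v : V} (huv : u ≠ v) (hu : u ∈ vtx P.mesh.F)
    (hv : v ∈ vtx P.mesh.F) (hsub : segment ℝ u v ⊆ intrinsicFrontier ℝ (M.F k)) :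
    ∃ (n : ℕ) (s : ℕ → ℝ), s 0 = 0 ∧ s n = 1 ∧ (∀ i < n, s i < s (i + 1)) ∧
      ∀ i < n, ∃ e : (edges P.mesh).ε,
        ((edges P.mesh).a e = AffineMap.lineMap u v (s i) ∧
          (edges P.mesh).b e = AffineMap.lineMap u v (s (i + 1))) ∨
        ((edges P.mesh).a e = AffineMap.lineMap u v (s (i + 1)) ∧
          (edges P.mesh).b e = AffineMap.lineMap u v (s i)) := by
  set f : ℝ →ᵃ[ℝ] V := AffineMap.lineMap u v with hf
  have hfi : Function.Injective f := AffineMap.lineMap_injective ℝ huv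
  have hfc : Continuous f := AffineMap.lineMap_continuous
  have hFam := fam_of_mesh P.mesh
  have hpg := pgn_of_fat (M.fat k)
  have hfs : ∀ s ∈ Icc (0:ℝ) 1, f s ∈ segment ℝ u v := fun s hs => by
    rw [segment_eq_image_lineMap]; exact ⟨s, hs, rfl⟩
  have hFk : segment ℝ u v ⊆ M.F k := hsub.trans (intrinsicFrontier_subset hpg.cpt.isClosed)
  -- the vertices on the segment
  have hT : (Icc (0:ℝ) 1 ∩ f ⁻¹' vtx P.mesh.F).Finite := by
    have hfin : (⋃ t : P.τ k, vtx P.mesh.F ∩ P.mesh.F ⟨k, t⟩).Finite := by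
      have := P.fin k
      exact finite_iUnion fun t => hFam.vtx_finite _
    refine (hfin.preimage hfi.injOn).subset ?_
    rintro s ⟨hs, hs'⟩
    obtain ⟨t, ht⟩ := P.cover k _ (hFk (hfs s hs))
    exact mem_iUnion.2 ⟨t, hs', ht⟩
  have hmem : ∀ {s}, s ∈ hT.toFinset ↔ s ∈ Icc (0:ℝ) 1 ∧ f s ∈ vtx P.mesh.F := fun {s} =>
    hT.mem_toFinset
  obtain ⟨n, s, s0, sn, slt, smem, sno⟩ := exists_sorted (T := hT.toFinset)
    (hmem.2 ⟨⟨le_refl _, zero_le_one⟩, by rw [hf, AffineMap.lineMap_apply_zero]; exact hu⟩)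
    (hmem.2 ⟨⟨zero_le_one, le_refl _⟩, by rw [hf, AffineMap.lineMap_apply_one]; exact hv⟩)
    (fun t ht => (hmem.1 ht).1)
  refine ⟨n, s, s0, sn, slt, fun i hi => ?_⟩
  have ha := hmem.1 (smem i hi.le)
  have hb := hmem.1 (smem (i + 1) hi)
  have hab := slt i hi
  have hno := sno i hi
  generalize s i = a at ha hab hno ⊢
  generalize s (i + 1) = b at hb hab hno ⊢
  have hI : ∀ r ∈ Icc a b, r ∈ Icc (0:ℝ) 1 := fun r hr => ⟨ha.1.1.trans hr.1, hr.2.trans hb.1.2⟩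
  -- one piece contains the segment
  obtain ⟨t, ht⟩ := P.cover k _ (hFk (hfs ((a + b) / 2) (hI _ ⟨by linarith, by linarith⟩)))
  have hclosed : IsClosed (f ⁻¹' P.A k t) := (P.isClosed k t).preimage hfc
  have hnh : ∀ r ∈ Ioo a b, f r ∈ P.A k t → f ⁻¹' P.A k t ∈ 𝓝 r := by
    intro r hr hrA
    refine P.mem_nhds_of_mem huv hsub (hI r ⟨hr.1.le, hr.2.le⟩) hrA fun h => ?_
    exact hno r (hmem.2 ⟨hI r ⟨hr.1.le, hr.2.le⟩, h⟩) hr
  have hIoo : Ioo a b ⊆ interior (f ⁻¹' P.A k t) := by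
    refine isPreconnected_Ioo.subset_of_closure_inter_subset isOpen_interior
      ⟨(a + b) / 2, ⟨by linarith, by linarith⟩,
        mem_interior_iff_mem_nhds.2 (hnh _ ⟨by linarith, by linarith⟩ ht)⟩ ?_
    rintro r ⟨hr1, hr2⟩
    have h1 : r ∈ f ⁻¹' P.A k t := hclosed.closure_subset_iff.2 interior_subset hr1
    exact mem_interior_iff_mem_nhds.2 (hnh r hr2 h1)
  have hIcc : Icc a b ⊆ f ⁻¹' P.A k t := by
    rw [← closure_Ioo hab.ne]
    exact hclosed.closure_subset_iff.2 (hIoo.trans interior_subset)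
  have hseg : segment ℝ (f a) (f b) = f '' Icc a b := by
    rw [← image_segment, segment_eq_Icc hab.le]
  have hop : openSegment ℝ (f a) (f b) = f '' Ioo a b := by
    rw [← image_openSegment, openSegment_eq_Ioo hab]
  have hdis : Disjoint (openSegment ℝ (f a) (f b)) (vtx P.mesh.F) := by
    rw [hop, Set.disjoint_left]
    rintro _ ⟨r, hr, rfl⟩ h
    exact hno r (hmem.2 ⟨hI r ⟨hr.1.le, hr.2.le⟩, h⟩) hr
  have hfr : segment ℝ (f a) (f b) ⊆ intrinsicFrontier ℝ (P.mesh.F ⟨k, t⟩) := by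
    rw [(hFam.pgn ⟨k, t⟩).fr_eq, hseg]
    rintro _ ⟨r, hr, rfl⟩
    refine ⟨hIcc hr, fun h => ?_⟩
    have h1 := hsub (hfs r (hI r hr))
    rw [hpg.fr_eq] at h1
    exact h1.2 (P.relint_sub k t h)
  rcases lt_or_gt_of_ne (fun h => hab.ne (hfi (toLex.injective h)) : toLex (f a) ≠ toLex (f b))
    with h | h
  · exact ⟨⟨(f a, f b), ⟨h, ha.2, hb.2, hdis, _, hfr⟩⟩, Or.inl ⟨rfl, rfl⟩⟩
  · refine ⟨⟨(f b, f a), ⟨h, hb.2, ha.2, ?_, ⟨k, t⟩, ?_⟩⟩, Or.inr ⟨rfl, rfl⟩⟩
    · rw [openSegment_symm]; exact hdis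
    · rw [segment_symm]; exact hfr

end Pieces

end P073.H399
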