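import Vale.Agent.P073.H399.Refine2

/-!
# P073, H399: **[REFINE]**, part 3: edges of the refined mesh, variation on the edges

* `Pieces.edge_cases`: an edge of the refined mesh is contained in an edge of `M`, or in the relative
  interior of a face of `M`;
* `Pieces.seg_eq`: an edge of `M` is the union of the edges of the refined mesh in it;
* `Pieces.evar_eq`: the variation on an edge of `M` is the sum of the variations on these edges.
-/

open Set Metric Topology Filter
open scoped ENNReal

namespace P073.H399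

open Vale.Agent.P073.St (V)
open Vale.Agent.P073.H73 (Mesh usq Fat)
open Vale.Agent.P073.H193 (Edges vtx Fam IsEdge Pgn Ed InLine pgn_of_fat fam_of_mesh mesh_sub edges)
open Vale.Agent.P073.H687 (Two Tiling)

variable {Ω : Set V}

/-- open segments and relative interiors of polygons -/
theorem openSegment_relint {F : Set V} (hF : Pgn F) {a b z : V} (ha : a ∈ F) (hb : b ∈ F)
    (hz : z ∈ openSegment ℝ a b) (hzi : z ∈ intrinsicInterior ℝ F) :
    openSegment ℝ a b ⊆ intrinsicInterior ℝ F := by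
  obtain ⟨n, ν, t, rfl⟩ := hF.half
  intro w hw
  rw [Vale.Agent.P073.H193.mem_rel] at hzi ⊢
  refine ⟨hF.convex.openSegment_subset ha hb hw, fun i hi => ?_⟩
  obtain ⟨x, y, hx, hy, hxy, rfl⟩ := hw
  obtain ⟨x', y', hx', hy', hxy', rfl⟩ := hz
  have h1 := hzi.2 i hi
  have h2 := ha i
  have h3 := hb i
  rw [map_add, map_smul, map_smul, smul_eq_mul, smul_eq_mul] at h1 ⊢
  rcases h2.lt_or_eq with h4 | h4
  · have := mul_lt_mul_of_pos_left h4 hx
    have := mul_le_mul_of_nonneg_left h3 hy.le
    have h5 : t i = x * t i + y * t i := by rw [← add_mul, hxy, one_mul]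
    linarith
  · rcases h3.lt_or_eq with h6 | h6
    · have := mul_le_mul_of_nonneg_left h2 hx.le
      have := mul_lt_mul_of_pos_left h6 hy
      have h5 : t i = x * t i + y * t i := by rw [← add_mul, hxy, one_mul]
      linarith
    · exfalso
      have h5 : t i = x' * t i + y' * t i := by rw [← add_mul, hxy', one_mul]
      rw [h4, h6] at h1
      linarith

namespace Pieces

variable {M : Mesh Ω} (P : Pieces M)

/-- **the two kinds of edges of the refined mesh** -/
theorem edge_cases (E : Edges M) (hV : E.verts ⊆ vtx P.mesh.F) (e : (edges P.mesh).ε) {k : M.κ}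
    (hk : (edges P.mesh).seg e ⊆ M.F k) :
    (∃ e', E.seg e' ⊆ M.F k ∧ (edges P.mesh).seg e ⊆ E.seg e') ∨
      openSegment ℝ ((edges P.mesh).a e) ((edges P.mesh).b e) ⊆ intrinsicInterior ℝ (M.F k) := by
  have hpg := pgn_of_fat (M.fat k)
  set a := (edges P.mesh).a e with ha
  set b := (edges P.mesh).b e with hb
  have hab : a ≠ b := (edges P.mesh).ne e
  have haF : a ∈ M.F k := hk (left_mem_segment ℝ _ _)
  have hbF : b ∈ M.F k := hk (right_mem_segment ℝ _ _)
  by_cases h : Disjoint (openSegment ℝ a b) (intrinsicInterior ℝ (M.F k))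
  · left
    -- the whole segment is in the relative boundary
    have hfr : segment ℝ a b ⊆ intrinsicFrontier ℝ (M.F k) := by
      have hcl : IsClosed (intrinsicFrontier ℝ (M.F k)) := by
        rw [E.fr_eq k]
        exact (E.fin_face k).isClosed_biUnion fun e _ => (E.isCompact_seg e).isClosed
      rw [← closure_openSegment]
      refine hcl.closure_subset_iff.2 fun x hx => ?_
      rw [hpg.fr_eq]
      exact ⟨hk (openSegment_subset_segment ℝ a b hx), fun h' => Set.disjoint_left.1 h hx h'⟩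
    have hfr' := hfr
    rw [hpg.fr_eq] at hfr'
    obtain ⟨S, hS, hJ⟩ := hpg.exists_ed (convex_segment a b) ⟨a, left_mem_segment ℝ a b⟩
      (hfr'.trans sdiff_subset) (Set.disjoint_left.2 fun x hx => (hfr' hx).2)
    -- an edge through the midpoint
    have hz : AffineMap.lineMap a b (1 / 2 : ℝ) ∈ openSegment ℝ a b := by
      rw [openSegment_eq_image_lineMap]
      exact ⟨1 / 2, ⟨by norm_num, by norm_num⟩, rfl⟩
    generalize AffineMap.lineMap a b (1 / 2 : ℝ) = z at hz
    obtain ⟨e', h1, h2⟩ := E.bd k z (hfr (openSegment_subset_segment ℝ a b hz))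
    refine ⟨e', h2, ?_⟩
    -- the side of the edge
    have hfr2 : E.seg e' ⊆ intrinsicFrontier ℝ (M.F k) := E.seg_sub_fr h2
    rw [hpg.fr_eq] at hfr2
    obtain ⟨S', hS', hJ'⟩ := hpg.exists_ed (convex_segment (E.a e') (E.b e'))
      ⟨_, left_mem_segment ℝ _ _⟩ (hfr2.trans sdiff_subset)
      (Set.disjoint_left.2 fun x hx => (hfr2 hx).2)
    have hzS' : z ∈ S' := hJ' h1
    have haS' : a ∈ S' := hS'.isExtreme.2 haF hbF hzS' hz
    have hbS' : b ∈ S' := hS'.isExtreme.2 hbF haF hzS' (by rw [openSegment_symm]; exact hz)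
    exact Vale.Agent.P073.H193.seg_sub hS'.inLine haS' hbS' (hJ' (left_mem_segment ℝ _ _))
      (hJ' (right_mem_segment ℝ _ _)) hz h1 hab
      (fun h' => Set.disjoint_left.1 e.2.no h' (hV (Or.inl ⟨e', rfl⟩)))
      (fun h' => Set.disjoint_left.1 e.2.no h' (hV (Or.inr ⟨e', rfl⟩)))
  · right
    rw [Set.not_disjoint_iff] at h
    obtain ⟨z, hz, hzi⟩ := h
    exact openSegment_relint hpg haF hbF hz hzi

/-- the chain of an edge -/
theorem edge_chain (E : Edges M) (hV : E.verts ⊆ vtx P.mesh.F) (e : E.ε) :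
    ∃ (n : ℕ) (s : ℕ → ℝ), s 0 = 0 ∧ s n = 1 ∧ (∀ i < n, s i < s (i + 1)) ∧
      ∀ i < n, ∃ e' : (edges P.mesh).ε,
        ((edges P.mesh).a e' = AffineMap.lineMap (E.a e) (E.b e) (s i) ∧
          (edges P.mesh).b e' = AffineMap.lineMap (E.a e) (E.b e) (s (i + 1))) ∨
        ((edges P.mesh).a e' = AffineMap.lineMap (E.a e) (E.b e) (s (i + 1)) ∧
          (edges P.mesh).b e' = AffineMap.lineMap (E.a e) (E.b e) (s i)) := by
  obtain ⟨k, hk⟩ := E.own e
  exact P.exists_chain (E.ne e) (hV (Or.inl ⟨e, rfl⟩)) (hV (Or.inr ⟨e, rfl⟩)) (E.seg_sub_fr hk)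

/-- the edges of the refined mesh in an edge of `M` -/
def sub_edges (E : Edges M) (e : E.ε) : Set (edges P.mesh).ε :=
  {e' | (edges P.mesh).seg e' ⊆ E.seg e}

theorem sub_edges_finite (E : Edges M) (e : E.ε) : (P.sub_edges E e).Finite := by
  refine ((edges P.mesh).fin (E.seg e) (E.seg_sub_Ω e) (E.isCompact_seg e)).subset ?_
  intro e' he'
  exact ⟨_, (edges P.mesh).left_mem e', he' ((edges P.mesh).left_mem e')⟩

end Pieces

/-- a strictly increasing chain -/
theorem chain_lt {n : ℕ} {s : ℕ → ℝ} (hs : ∀ i < n, s i < s (i + 1)) {i j : ℕ} (hij : i < j)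
    (hj : j ≤ n) : s i < s j := by
  induction j with
  | zero => omega
  | succ j ih =>
    rcases Nat.lt_succ_iff_lt_or_eq.1 hij with h | rfl
    · exact (ih h (by omega)).trans (hs j (by omega))
    · exact hs i (by omega)

/-- points of the chain -/
theorem chain_mem {n : ℕ} {s : ℕ → ℝ} {r : ℝ} (h0 : s 0 ≤ r) (h1 : r ≤ s n) (hn : 0 < n) :
    ∃ i < n, r ∈ Icc (s i) (s (i + 1)) := by
  by_contra hcon
  push Not at hcon
  have h2 : ∀ i ≤ n, s i ≤ r := by
    intro i
    induction i with
    | zero => intro _; exact h0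
    | succ i ih =>
      intro hi
      have h3 := hcon i (by omega)
      rw [mem_Icc, not_and, not_le] at h3
      exact (h3 (ih (by omega))).le
  have h3 := hcon (n - 1) (by omega)
  apply h3
  refine ⟨h2 _ (by omega), ?_⟩
  rw [Nat.sub_add_cancel hn]
  exact h1

theorem evar_chain {W : Type*} [PseudoEMetricSpace W] (φ : ℝ → W) {n : ℕ} {s : ℕ → ℝ}
    (hs : ∀ i < n, s i < s (i + 1)) :
    eVariationOn φ (Icc (s 0) (s n)) = ∑ i ∈ Finset.range n, eVariationOn φ (Icc (s i) (s (i + 1))) := by
  induction n with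
  | zero => simp
  | succ n ih =>
    rw [Finset.sum_range_succ, ← ih fun i hi => hs i (by omega)]
    have h1 : s 0 ≤ s n := by
      rcases Nat.eq_zero_or_pos n with h | h
      · rw [h]
      · exact (chain_lt (n := n + 1) hs h (by omega)).le
    have h2 := eVariationOn.Icc_add_Icc φ (s := univ) h1 (hs n (by omega)).le (mem_univ _)
    rw [univ_inter, univ_inter, univ_inter] at h2
    exact h2.symm

/-- variation on a part of a segment -/
theorem evar_part {W : Type*} [PseudoEMetricSpace W] (g : V → W) (u v : V) {a b : ℝ} (hab : a ≤ b) :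
    eVariationOn (fun t : ℝ => g (AffineMap.lineMap (AffineMap.lineMap u v a : V)
      (AffineMap.lineMap u v b : V) t)) (Icc 0 1) =
      eVariationOn (fun t : ℝ => g (AffineMap.lineMap u v t)) (Icc a b) := by
  rcases hab.lt_or_eq with h | rfl
  · have h1 : (AffineMap.lineMap a b : ℝ → ℝ) '' Icc 0 1 = Icc a b := by
      rw [← segment_eq_image_lineMap, segment_eq_Icc hab]
    rw [← h1, ← eVariationOn.comp_eq_of_monotoneOn (fun t : ℝ => g (AffineMap.lineMap u v t))]
    · congr 1
      funext t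
      show g _ = g _
      congr 1
      exact (AffineMap.apply_lineMap (AffineMap.lineMap u v : ℝ →ᵃ[ℝ] V) a b t).symm
    · intro x _ y _ hxy
      rw [AffineMap.lineMap_apply, AffineMap.lineMap_apply]
      simp only [vsub_eq_sub, vadd_eq_add, smul_eq_mul]
      have : 0 ≤ b - a := by linarith
      nlinarith
  · rw [Icc_self, eVariationOn.subsingleton _ subsingleton_singleton]
    apply eVariationOn.constant_on
    rintro _ ⟨x, -, rfl⟩ _ ⟨y, -, rfl⟩
    simp

/-- variation on a segment, in the other direction -/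
theorem evar_symm {W : Type*} [PseudoEMetricSpace W] (g : V → W) (u v : V) :
    eVariationOn (fun t : ℝ => g (AffineMap.lineMap v u t)) (Icc 0 1) =
      eVariationOn (fun t : ℝ => g (AffineMap.lineMap u v t)) (Icc 0 1) := by
  have h1 : (fun t : ℝ => 1 - t) '' Icc (0:ℝ) 1 = Icc 0 1 := by
    ext x
    constructor
    · rintro ⟨y, hy, rfl⟩
      exact ⟨by linarith [hy.2], by linarith [hy.1]⟩
    · intro hx
      exact ⟨1 - x, ⟨by linarith [hx.2], by linarith [hx.1]⟩, by ring⟩
  have h2 := eVariationOn.comp_eq_of_antitoneOn (fun t : ℝ => g (AffineMap.lineMap u v t))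
    (t := Icc (0:ℝ) 1) (fun t : ℝ => 1 - t) (fun x _ y _ hxy => by linarith)
  rw [h1] at h2
  rw [← h2]
  congr 1
  funext t
  show g _ = g _
  rw [AffineMap.lineMap_apply_one_sub]

namespace Pieces

variable {M : Mesh Ω} (P : Pieces M)

open Classical in
/-- **variation on an edge of `M`** = sum of the variations on the edges of the refined mesh -/
theorem evar_eq {W : Type*} [PseudoEMetricSpace W] (E : Edges M) (hV : E.verts ⊆ vtx P.mesh.F)
    (e : E.ε) (g : V → W) :
    eVariationOn (fun t : ℝ => g (AffineMap.lineMap (E.a e) (E.b e) t)) (Icc 0 1) =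
      ∑ e' ∈ (P.sub_edges_finite E e).toFinset,
        eVariationOn (fun t : ℝ => g (AffineMap.lineMap ((edges P.mesh).a e')
          ((edges P.mesh).b e') t)) (Icc 0 1) ∧
    E.seg e = ⋃ e' ∈ P.sub_edges E e, (edges P.mesh).seg e' := by
  obtain ⟨n, s, s0, sn, hlt, hch⟩ := P.edge_chain E hV e
  set E' := edges P.mesh with hE'
  set f : ℝ →ᵃ[ℝ] V := AffineMap.lineMap (E.a e) (E.b e) with hf
  have hfi : Function.Injective f := AffineMap.lineMap_injective ℝ (E.ne e)
  have hn : 0 < n := by
    rcases Nat.eq_zero_or_pos n with h | h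
    · rw [h, s0] at sn; norm_num at sn
    · exact h
  have : Nonempty E'.ε := ⟨(hch 0 hn).choose⟩
  choose! c hc using hch
  have hs01 : ∀ i ≤ n, s i ∈ Icc (0:ℝ) 1 := by
    intro i hi
    constructor
    · rcases Nat.eq_zero_or_pos i with h | h
      · rw [h, s0]
      · rw [← s0]; exact (chain_lt hlt h hi).le
    · rcases hi.lt_or_eq with h | h
      · rw [← sn]; exact (chain_lt hlt h le_rfl).le
      · rw [h, sn]
  have hfseg : ∀ r ∈ Icc (0:ℝ) 1, f r ∈ E.seg e := fun r hr => by
    show _ ∈ segment ℝ _ _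
    rw [segment_eq_image_lineMap]; exact ⟨r, hr, rfl⟩
  -- the edges of the chain
  have hseg : ∀ i < n, E'.seg (c i) = f '' Icc (s i) (s (i + 1)) := by
    intro i hi
    have h1 : segment ℝ (f (s i)) (f (s (i + 1))) = f '' Icc (s i) (s (i + 1)) := by
      rw [← image_segment, segment_eq_Icc (hlt i hi).le]
    show segment ℝ (E'.a (c i)) (E'.b (c i)) = _
    rcases hc i hi with ⟨h2, h3⟩ | ⟨h2, h3⟩
    · rw [h2, h3]; exact h1
    · rw [h2, h3, segment_symm]; exact h1
  have hopen : ∀ i < n, openSegment ℝ (E'.a (c i)) (E'.b (c i)) = f '' Ioo (s i) (s (i + 1)) := by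
    intro i hi
    have h1 : openSegment ℝ (f (s i)) (f (s (i + 1))) = f '' Ioo (s i) (s (i + 1)) := by
      rw [← image_openSegment, openSegment_eq_Ioo (hlt i hi)]
    rcases hc i hi with ⟨h2, h3⟩ | ⟨h2, h3⟩
    · rw [h2, h3]; exact h1
    · rw [h2, h3, openSegment_symm]; exact h1
  have hsub : ∀ i < n, c i ∈ P.sub_edges E e := by
    intro i hi
    show E'.seg (c i) ⊆ _
    rw [hseg i hi]
    rintro _ ⟨r, hr, rfl⟩
    exact hfseg r ⟨(hs01 i hi.le).1.trans hr.1, hr.2.trans (hs01 (i + 1) hi).2⟩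
  have hcinj : ∀ i < n, ∀ j < n, c i = c j → i = j := by
    intro i hi j hj hij
    have h1 : f '' Icc (s i) (s (i + 1)) = f '' Icc (s j) (s (j + 1)) := by
      rw [← hseg i hi, ← hseg j hj, hij]
    rw [hfi.image_injective.eq_iff] at h1
    have h2 : s i = s j := by
      have h3 : s i ∈ Icc (s j) (s (j + 1)) := h1 ▸ left_mem_Icc.2 (hlt i hi).le
      have h4 : s j ∈ Icc (s i) (s (i + 1)) := h1 ▸ left_mem_Icc.2 (hlt j hj).le
      exact le_antisymm h4.1 h3.1
    rcases lt_trichotomy i j with h | h | h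
    · exact absurd h2 (chain_lt hlt h hj.le).ne
    · exact h
    · exact absurd h2 (chain_lt hlt h hi.le).ne'
  have hsurj : ∀ e' ∈ P.sub_edges E e, ∃ i < n, c i = e' := by
    intro e' he'
    have hz : AffineMap.lineMap (E'.a e') (E'.b e') (1 / 2 : ℝ) ∈
        openSegment ℝ (E'.a e') (E'.b e') := by
      rw [openSegment_eq_image_lineMap]
      exact ⟨1 / 2, ⟨by norm_num, by norm_num⟩, rfl⟩
    generalize AffineMap.lineMap (E'.a e') (E'.b e') (1 / 2 : ℝ) = z at hz
    have h1 : z ∈ E.seg e := he' (openSegment_subset_segment ℝ _ _ hz)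
    have h1' : z ∈ segment ℝ (E.a e) (E.b e) := h1
    rw [segment_eq_image_lineMap] at h1'
    obtain ⟨r, hr, rfl⟩ := h1'
    obtain ⟨i, hi, hri⟩ := chain_mem (r := r) (s := s) (n := n) (by rw [s0]; exact hr.1)
      (by rw [sn]; exact hr.2) hn
    refine ⟨i, hi, (E'.eq_of_mem hz ?_).symm⟩
    rw [hseg i hi]
    exact ⟨r, hri, rfl⟩
  constructor
  · have h1 := evar_chain (fun t : ℝ => g (f t)) hlt
    rw [s0, sn] at h1
    rw [show (fun t : ℝ => g (AffineMap.lineMap (E.a e) (E.b e) t)) = fun t : ℝ => g (f t) from rfl,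
      h1]
    refine Finset.sum_bij (fun i _ => c i) ?_ ?_ ?_ ?_
    · intro i hi
      exact (P.sub_edges_finite E e).mem_toFinset.2 (hsub i (Finset.mem_range.1 hi))
    · intro i hi j hj hij
      exact hcinj i (Finset.mem_range.1 hi) j (Finset.mem_range.1 hj) hij
    · intro e' he'
      obtain ⟨i, hi, hie⟩ := hsurj e' ((P.sub_edges_finite E e).mem_toFinset.1 he')
      exact ⟨i, Finset.mem_range.2 hi, hie⟩
    · intro i hi
      have hi' := Finset.mem_range.1 hi
      have h2 := evar_part g (E.a e) (E.b e) (hlt i hi').le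
      rcases hc i hi' with ⟨h3, h4⟩ | ⟨h3, h4⟩
      · show _ = eVariationOn (fun t : ℝ => g (AffineMap.lineMap (E'.a (c i)) (E'.b (c i)) t)) _
        rw [h3, h4]
        exact h2.symm
      · show _ = eVariationOn (fun t : ℝ => g (AffineMap.lineMap (E'.a (c i)) (E'.b (c i)) t)) _
        rw [h3, h4, evar_symm]
        exact h2.symm
  · apply Subset.antisymm
    · intro x hx
      have hx' : x ∈ segment ℝ (E.a e) (E.b e) := hx
      rw [segment_eq_image_lineMap] at hx'
      obtain ⟨r, hr, rfl⟩ := hx'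
      obtain ⟨i, hi, hri⟩ := chain_mem (r := r) (s := s) (n := n) (by rw [s0]; exact hr.1)
        (by rw [sn]; exact hr.2) hn
      refine mem_biUnion (hsub i hi) ?_
      rw [hseg i hi]
      exact ⟨r, hri, rfl⟩
    · exact iUnion₂_subset fun e' he' => he'

end Pieces

end P073.H399
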