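import Vale.Agent.P073.H193.CellTop
import Vale.Agent.P073.H439.CellSlot
import Vale.Agent.P073.H429.RowT
import Vale.Agent.P073.H237.RowC
import Vale.Agent.P073.H237.RowW
import Vale.Agent.P073.H340.RowsS

/-!
# P073, H399: the rows `cell` and `lip` of `Last3` over the slots

* `row_cellNum`: the numbers of the drawn cells;
* `row_cell`, `row_lip`;
* `rcell`: `RCell`.
-/

open Set Metric Topology Filter
open scoped ENNReal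

set_option linter.unusedSectionVars false

namespace Vale.Agent.P073.Top880

open _root_.P073 _root_.P073.Net _root_.P073.PA691 _root_.P073.H236 _root_.P073.H579
open _root_.P073.H142 (Num)
open _root_.P073.H429 (ebe eal)
open Vale.Agent.P073.St (V)
open Vale.Agent.P073.AB (Idx squ)
open Vale.Agent.P073.H471 Vale.Agent.P073.H267
open Vale.Agent.P073.H73 (Mesh onSeg)
open Vale.Agent.P073.H193 (Edges edges CellD CellNum TFaces Covered)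
open Vale.Agent.P073.H304 (Nb In Zmax)
open Vale.Agent.P073.H926
open Vale.Agent.P073.H238.K3
open Vale.Agent.P073.H267.K3
open Vale.Agent.P073.H212.K3
open Vale.Agent.P073.H233 (LAt Xp FullJ Tol Adm)

variable {c₀ n δ : ℝ} {j : ℕ} {Ω Λ : Set V} {v w : V} {ρ : V → ℝ} {M : Mesh Ω} {h : ConHomeo Ω Λ}
  {J₀ J : Set (ℕ × (Fin 3 → ℤ))} {P Z : Set M.ι} {K : BoxCx Λ w}
  {D : KIn3 c₀ n j δ v w ρ M h J₀ J P Z} {C : Cells ρ w K} {C₀ μT : ℝ}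
  {Ys : Set M.κ} {sc : Sharp}

/-- **the numbers of the drawn cells**, over the slots -/
theorem row_cellNum (D : KIn3 c₀ n j δ v w ρ M h J₀ J P Z) (C : Cells ρ w K) {p D₀ : ℝ}
    (hp : 0 < p) (hD₀ : 2 ≤ D₀) {ε : M.κ → ℝ} (hε : ∀ k, 0 < ε k) {εL : (edges M).ε → ℝ}
    (hεL : ∀ e, 0 < εL e) {lam : M.ι → ℝ} (hlam : ∀ i, 0 < lam i) :
    RowP D C C₀ μT Ys sc fun Y₅ => ∃ tin : M.ι → ℝ, CellNum Y₅ p D₀ ε εL lam tin := by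
  classical
  obtain ⟨m1, m10, hm1⟩ := Vale.Agent.P073.H439.exists_m1 D C hε hεL
  choose tin t0 tcd using fun X : S1 D C C₀ μT =>
    Vale.Agent.P073.H439.exists_tin (v := v) hp X.num.b_pos hlam
  choose dm dm0 hdm using fun X : S1 D C C₀ μT => Vale.Agent.P073.H439.exists_dm (t0 X) X
  choose r4 r40 hr4 using fun X : S1 D C C₀ μT => Vale.Agent.P073.H439.exists_tol4c (t0 X) X
  choose r5 r50 hr5 using fun (X : S1 D C C₀ μT) (f : ConHomeo Ω Λ) =>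
    Vale.Agent.P073.H439.exists_tol5c D C (t0 X) f
  choose w5 w50 hw5 using fun {X : S1 D C C₀ μT} {Y₂ : S2 X} {Y₃ : S3 Y₂ Ys sc} (Y₄ : S4 Y₃) =>
    Vale.Agent.P073.H439.exists_hwc (t0 X) Y₄
  refine ⟨{ Slots.one with
    εe := m1
    εe0 := m10
    dm := dm
    dm0 := dm0
    tol4 := fun {X} {_} _ _ _ s => r4 X s
    tol40 := fun {X} {_} _ _ _ s => r40 X s
    δT := fun {_} {_} {_} Y₄ => w5 Y₄
    δT0 := fun {_} {_} {_} Y₄ => w50 Y₄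
    tol5 := fun {X} {_} {_} _ f _ b => r5 X f b
    tol50 := fun {X} {_} {_} _ f _ b => r50 X f b }, ?_⟩
  intro N X Y₂ Y₃ Y₄ Y₅ H
  obtain ⟨h1, h2⟩ := hm1 C₀ μT X D₀ hD₀ H.εe
  exact ⟨tin X,
    { tin0 := t0 X
      cd := tcd X
      num := h1
      numL := h2
      om := hdm X Y₂ H.dP Ys sc Y₃ Y₄
      ε5 := hr4 X Y₂ Ys sc Y₃ Y₄ H.ε4
      hw := hw5 Y₄ Y₅ H.M5
      ε6 := fun b i hi => hr5 X Y₅.h6 b i hi _ (H.ε5 b) }⟩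

/-- the constant of the edges -/
theorem Ok5.q_eq {S : Slots D C C₀ μT Ys sc} {N : RTn M C J₀} {X : S1 D C C₀ μT} {Y₂ : S2 X}
    {Y₃ : S3 Y₂ Ys sc} {Y₄ : S4 Y₃} {Y₅ : S5 Y₄} (H : Ok5 S N Y₅) :
    Y₃.q = 8 * (500 * C₀ + 700) + 32 * C₀ := H.q

/-- **the row `Last3.cell`** -/
theorem row_cell (D : KIn3 c₀ n j δ v w ρ M h J₀ J P Z) (C : Cells ρ w K) (hC₀ : 1 ≤ C₀)
    {p A D₀ C₁ C₁' kT kT' : ℝ} (hp : 2 < p) (hA : 3 ≤ A) (hD₀ : 2 ≤ D₀) {ε : M.κ → ℝ}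
    (hε : ∀ k, 0 < ε k) {εL : (edges M).ε → ℝ} (hεL : ∀ e, 0 < εL e) {lam : M.ι → ℝ}
    (hlam : ∀ i, 0 < lam i)
    (HN : RowP D C C₀ μT Ys sc fun {_ _ _ _} Y₅ =>
      ∃ (τ ε' : M.κ → ℝ) (t4 : (D.dat C).S₀ → ℝ) (t5 : pG C J₀ → ℝ), RowNum Y₅ τ ε' t4 t5)
    (HT : RowP D C C₀ μT Ys sc fun Y₅ => TFaces Y₅ kT kT')
    (h1 : 312 * (8 * (500 * C₀ + 700) + 32 * C₀) ≤ C₁) (h2 : 1760 * C₀ ≤ C₁) (h3 : kT ≤ C₁)
    (h4 : 2 * FW31.DK sc.K * (8 * (500 * C₀ + 700) + 32 * C₀) ≤ C₁') (h5 : kT' ≤ C₁')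
    (hC : C₁ ≤ C₁') :
    RowP D C C₀ μT Ys sc fun Y₅ => CellF p A D₀ C₁ C₁' ε εL lam Y₅ := by
  obtain ⟨S, hS⟩ := ((row_cellNum (Ys := Ys) (sc := sc) (C₀ := C₀) (μT := μT) D C
    (by linarith : 0 < p) hD₀ hε hεL hlam).and (row_cover D C C₀ μT Ys sc)).and (HN.and HT)
  refine ⟨S, fun Y₅ H => ?_⟩
  obtain ⟨⟨⟨tin, k1⟩, k2⟩, ⟨τ, ε', t4, t5, k3⟩, k4⟩ := hS Y₅ H
  refine Y₅.cell k3 k1 hp (fun i hi => ?_) k2 k4 ?_ ?_ h2 h3 ?_ h5 hC hA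
  · exact D.inp.drawn i hi
  · rw [H.q_eq]; linarith
  · rw [H.q_eq]; exact h1
  · rw [H.q_eq]; exact h4

/-- **the row `Last3.lip`** -/
theorem row_lip (D : KIn3 c₀ n j δ v w ρ M h J₀ J P Z) (C : Cells ρ w K) (hC₀ : 1 ≤ C₀)
    {p Cc Cc' C₁ C₁' kT kT' : ℝ} (hp : 2 < p) {ε : M.κ → ℝ} {om εL : (edges M).ε → ℝ}
    {lam osc : M.ι → ℝ} (hε : ∀ k, 0 < ε k) (T : Tol M h.toFun ε om εL lam osc)
    (HN : RowP D C C₀ μT Ys sc fun {_ _ _ _} Y₅ =>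
      ∃ (τ ε' : M.κ → ℝ) (t4 : (D.dat C).S₀ → ℝ) (t5 : pG C J₀ → ℝ), RowNum Y₅ τ ε' t4 t5)
    (HT : RowP D C C₀ μT Ys sc fun Y₅ => TFaces Y₅ kT kT')
    (h1 : 312 * (8 * (500 * C₀ + 700) + 32 * C₀) ≤ Cc) (h2 : 1760 * C₀ ≤ Cc) (h3 : kT ≤ Cc)
    (h4 : 2 * FW31.DK sc.K * (8 * (500 * C₀ + 700) + 32 * C₀) ≤ Cc') (h5 : kT' ≤ Cc')
    (hC : Cc ≤ Cc') (hC₁ : 3 * (3 * (Vale.Agent.P073.H193.cs p * (38 * Cc + 1)) + 1) ≤ C₁)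
    (hC₁' : 3 * (3 * (Vale.Agent.P073.H193.cs p * (38 * Cc' + 1)) + 1) ≤ C₁')
    (hD₁ : 3 * C₀ + 1 ≤ C₁) (hD₁' : 3 * C₀ + 1 ≤ C₁') :
    RowP D C C₀ μT Ys sc fun Y₅ => LipF C₁ C₁' Y₅ := by
  have HW : RowP D C C₀ μT Ys sc fun Y₅ => FullJ w ρ J₀ J →
      ∀ i, i ∉ P → i ∉ Zd D → ∀ L > 0,
      (∀ i', (M.Q i ∩ M.Q i').Nonempty →
        ∀ x ∈ M.Q i', ∀ y ∈ M.Q i', ‖h.toFun x - h.toFun y‖ ≤ L * ‖x - y‖) →
      ∀ x ∈ M.Q i, LAt (D.B C) (Xp C J₀) ((3 * C₀ + 1) * L) (M.Q i) Y₅.f.toFun x :=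
    row_lipW D C hC₀ le_rfl
  obtain ⟨S, hS⟩ := ((row_cellNum (Ys := Ys) (sc := sc) (C₀ := C₀) (μT := μT) (D₀ := 2) D C
    (by linarith : 0 < p) le_rfl hε T.εL_pos T.lam_pos).and (row_cover D C C₀ μT Ys sc)).and
    ((HN.and HT).and HW)
  refine ⟨S, fun Y₅ H => ?_⟩
  obtain ⟨⟨⟨tin, k1⟩, k2⟩, ⟨⟨τ, ε', t4, t5, k3⟩, k4⟩, k5⟩ := hS Y₅ H
  refine Y₅.lip k3 k1 hp T.lam_le k2 k4 ?_ k5 ?_ h2 h3 ?_ h5 hC hC₁ hC₁' hD₁ hD₁'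
  · rw [H.q_eq]; linarith
  · rw [H.q_eq]; exact h1
  · rw [H.q_eq]; exact h4

/-- **the row of the drawn cells and of the Lipschitz constants** -/
theorem rcell {p C₀ : ℝ} (hp : 2 < p) (hC₀ : 1 ≤ C₀) : RCell p C₀ := by
  set q : ℝ := 8 * (500 * C₀ + 700) + 32 * C₀ with hq
  set kT : ℝ := 55 * (624 * q + 1) with hkT
  set Cc : ℝ := max (312 * q) (max (1760 * C₀) kT) with hCc
  have a1 : 312 * q ≤ Cc := le_max_left _ _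
  have a2 : 1760 * C₀ ≤ Cc := (le_max_left _ _).trans (le_max_right _ _)
  have a3 : kT ≤ Cc := (le_max_right _ _).trans (le_max_right _ _)
  refine ⟨3, by norm_num, 2, fun D₀ hD₀ => ⟨max Cc
    (max (3 * (3 * (Vale.Agent.P073.H193.cs p * (38 * Cc + 1)) + 1)) (3 * C₀ + 1)),
    fun C₁ hC₁ μ r ν sc _ => ?_⟩⟩
  have b1 : Cc ≤ C₁ := (le_max_left _ _).trans hC₁
  have b2 : 3 * (3 * (Vale.Agent.P073.H193.cs p * (38 * Cc + 1)) + 1) ≤ C₁ :=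
    ((le_max_left _ _).trans (le_max_right _ _)).trans hC₁
  have b3 : 3 * C₀ + 1 ≤ C₁ := ((le_max_right _ _).trans (le_max_right _ _)).trans hC₁
  set kT' : ℝ := max kT (55 * (4 * (FW31.DK sc.K * q) + 1)) with hkT'
  set Cc' : ℝ := max Cc (max (2 * FW31.DK sc.K * q) kT') with hCc'
  have c1 : 2 * FW31.DK sc.K * q ≤ Cc' := (le_max_left _ _).trans (le_max_right _ _)
  have c2 : kT' ≤ Cc' := (le_max_right _ _).trans (le_max_right _ _)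
  refine ⟨max Cc' (3 * (3 * (Vale.Agent.P073.H193.cs p * (38 * Cc' + 1)) + 1)),
    fun C₁' hC₁' hCC => ?_⟩
  have d1 : Cc' ≤ C₁' := (le_max_left _ _).trans hC₁'
  have d2 : 3 * (3 * (Vale.Agent.P073.H193.cs p * (38 * Cc' + 1)) + 1) ≤ C₁' :=
    (le_max_right _ _).trans hC₁'
  intro c₀ n δ j Ω Λ v w ρ M h J₀ J P Z K D C Ys _ ε om εL lam osc hε T
  have HN : RowP D C C₀ (n / 128) Ys sc fun {_ _ _ _} Y₅ =>
      ∃ (τ ε' : M.κ → ℝ) (t4 : (D.dat C).S₀ → ℝ) (t5 : pG C J₀ → ℝ), RowNum Y₅ τ ε' t4 t5 := by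
    have h1 : RowP D C C₀ (n / 128) Ys sc fun {X _ _ _} Y₅ =>
      ∃ t4 t5, RowNum Y₅ (tau1 M X.bn) ε t4 t5 := row_rowNum D C hC₀ hε fun _ => one_pos
    exact h1.mono fun {X _ _ _} Y₅ ⟨t4, t5, H⟩ => ⟨tau1 M X.bn, ε, t4, t5, H⟩
  have HT : RowP D C C₀ (n / 128) Ys sc fun Y₅ => TFaces Y₅ kT kT' :=
    row_tfaces D C hC₀ le_rfl (le_max_right _ _) (le_max_left _ _)
  have HL : RowP D C C₀ (n / 128) Ys sc fun Y₅ => LipF C₁ C₁' Y₅ :=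
    row_lip D C hC₀ hp hε T HN HT a1 a2 a3 c1 c2 (le_max_left _ _) b2 d2 b3 (b3.trans hCC)
  have HC : RowP D C C₀ (n / 128) Ys sc fun Y₅ => CellF p 3 D₀ C₁ C₁' ε εL lam Y₅ :=
    row_cell D C hC₀ hp le_rfl hD₀ hε T.εL_pos T.lam_pos HN HT (a1.trans b1) (a2.trans b1)
      (a3.trans b1) (c1.trans d1) (c2.trans d1) hCC
  exact (HL.and HC).mono fun Y₅ H _ _ => H

end Vale.Agent.P073.Top880
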