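import Vale.Agent.P073.H399.T1
import Vale.Agent.P073.H399.Grid

/-!
# P073 / H399: first step, the big discs inside the cells
-/

open Set Metric Topology Filter

namespace P073.H399

open P073 P073.H339

theorem rmf_sub (o p q : ℝ × ℝ) (τ : ℝ) : rmf o (τ, τ) p - rmf o (τ, τ) q = τ • (p - q) := by
  unfold rmf
  refine Prod.ext ?_ ?_
  · simp only [Prod.fst_sub, Prod.smul_fst, smul_eq_mul]; ring
  · simp only [Prod.snd_sub, Prod.smul_snd, smul_eq_mul]; ring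

/-- the statement `t1small` in a unit cell -/
theorem t1cell {η : ℝ} (hη : 0 < η) : ∃ τ₀ : ℝ, 0 < τ₀ ∧ τ₀ < 1 / 2 ∧ ∀ τ : ℝ, τ₀ ≤ τ → τ < 1 / 2 →
    ∃ ρ > 0, ∀ (o : ℝ × ℝ) (Q Q' : Set (ℝ × ℝ)) (φ : ConHomeo Q Q'),
    rc (o.1 - τ) (o.1 + τ) (o.2 - τ) (o.2 + τ) ⊆ Q →
    (∀ x ∈ rc (o.1 - τ) (o.1 + τ) (o.2 - τ) (o.2 + τ), ‖φ.toFun x - x‖ ≤ ρ) →
    ∃ K : ConHomeo (rc (o.1 - 1 / 2) (o.1 + 1 / 2) (o.2 - 1 / 2) (o.2 + 1 / 2))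
      (rc (o.1 - 1 / 2) (o.1 + 1 / 2) (o.2 - 1 / 2) (o.2 + 1 / 2)),
      (∀ x ∈ rc (o.1 - τ) (o.1 + τ) (o.2 - τ) (o.2 + τ), K.toFun x = φ.toFun x) ∧
      (∀ x ∈ rb (o.1 - 1 / 2) (o.1 + 1 / 2) (o.2 - 1 / 2) (o.2 + 1 / 2), K.toFun x = x) ∧
      ∀ x ∈ rc (o.1 - 1 / 2) (o.1 + 1 / 2) (o.2 - 1 / 2) (o.2 + 1 / 2), ‖K.toFun x - x‖ ≤ η := by
  obtain ⟨w₁, hw₁, H⟩ := t1small hη
  refine ⟨1 / (2 * (1 + w₁)), by positivity, ?_, ?_⟩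
  · rw [div_lt_div_iff₀ (by positivity) (by norm_num)]
    linarith
  intro τ hτ0 hτ1
  have hτ : 0 < τ := lt_of_lt_of_le (by positivity) hτ0
  obtain ⟨w, hw⟩ : ∃ w, w = 1 / (2 * τ) - 1 := ⟨_, rfl⟩
  have hwτ : (1 + w) * τ = 1 / 2 := by rw [hw]; field_simp; ring
  have hw0 : 0 < w := by
    rw [hw, sub_pos, lt_div_iff₀ (by positivity)]; linarith
  have hww : w ≤ w₁ := by
    rw [div_le_iff₀ (by positivity)] at hτ0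
    have : (1 + w) * τ ≤ (1 + w₁) * τ := by rw [hwτ]; linarith
    have := le_of_mul_le_mul_right this hτ
    linarith
  obtain ⟨ρ, hρ, H'⟩ := H w hw0 hww
  refine ⟨τ * ρ, by positivity, ?_⟩
  intro o Q Q' φ hsub hφ
  have e1 : rmf o (τ, τ) '' closedBall 0 1 = rc (o.1 - τ) (o.1 + τ) (o.2 - τ) (o.2 + τ) := by
    rw [rmf_image_closedBall (h := (τ, τ)) hτ hτ]; simp only [one_mul]
  have e2 : rmf o (τ, τ) '' closedBall 0 (1 + w) =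
      rc (o.1 - 1 / 2) (o.1 + 1 / 2) (o.2 - 1 / 2) (o.2 + 1 / 2) := by
    rw [rmf_image_closedBall (h := (τ, τ)) hτ hτ]; simp only [hwτ]
  have e3 : rmf o (τ, τ) '' sphere 0 (1 + w) =
      rb (o.1 - 1 / 2) (o.1 + 1 / 2) (o.2 - 1 / 2) (o.2 + 1 / 2) := by
    rw [rmf_image_sphere (h := (τ, τ)) hτ hτ]; simp only [hwτ]
  let A := rmH o (τ, τ) hτ hτ
  have Ainj : Function.Injective (rmf o (τ, τ)) := fun p q h => by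
    rw [← rmi_rmf (o := o) (h := (τ, τ)) hτ hτ p, h, rmi_rmf (h := (τ, τ)) hτ hτ]
  let A1 : ConHomeo (closedBall (0 : ℝ × ℝ) 1) (rc (o.1 - τ) (o.1 + τ) (o.2 - τ) (o.2 + τ)) :=
    (A.restr (conicalSet_closedBall_prod 1) (subset_univ _)).cast rfl e1
  let φ1 := φ.restr (conicalSet_rc (o.1 - τ) (o.1 + τ) (o.2 - τ) (o.2 + τ)) hsub
  let A2 := A.symm.restr φ1.conicalSet_right (subset_univ _)
  let ψ := A1.trans (φ1.trans A2)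
  have hψ : ∀ x, ψ.toFun x = rmi o (τ, τ) (φ.toFun (rmf o (τ, τ) x)) := fun x => rfl
  have m1 : ∀ x ∈ closedBall (0 : ℝ × ℝ) 1, rmf o (τ, τ) x ∈
      rc (o.1 - τ) (o.1 + τ) (o.2 - τ) (o.2 + τ) := fun x hx => by
    rw [← e1]; exact mem_image_of_mem _ hx
  obtain ⟨K, k1, k2, k3⟩ := H' _ ψ (by
    intro x hx
    have h1 := hφ _ (m1 x hx)
    have h2 : φ.toFun (rmf o (τ, τ) x) - rmf o (τ, τ) x = τ • (ψ.toFun x - x) := by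
      rw [← rmf_sub o, hψ, rmf_rmi (h := (τ, τ)) hτ hτ]
    rw [h2, norm_smul, Real.norm_of_nonneg hτ.le] at h1
    exact le_of_mul_le_mul_left h1 hτ)
  let A3 : ConHomeo (closedBall (0 : ℝ × ℝ) (1 + w))
      (rc (o.1 - 1 / 2) (o.1 + 1 / 2) (o.2 - 1 / 2) (o.2 + 1 / 2)) :=
    (A.restr (conicalSet_closedBall_prod (1 + w)) (subset_univ _)).cast rfl e2
  have hK : ∀ x, (A3.symm.trans (K.trans A3)).toFun x =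
      rmf o (τ, τ) (K.toFun (rmi o (τ, τ) x)) := fun x => rfl
  refine ⟨A3.symm.trans (K.trans A3), ?_, ?_, ?_⟩
  · intro x hx
    rw [← e1] at hx
    obtain ⟨z, hz, rfl⟩ := hx
    rw [hK, rmi_rmf (h := (τ, τ)) hτ hτ, k1 hz, hψ, rmf_rmi (h := (τ, τ)) hτ hτ]
  · intro x hx
    rw [← e3] at hx
    obtain ⟨z, hz, rfl⟩ := hx
    rw [hK, rmi_rmf (h := (τ, τ)) hτ hτ, k2 z hz]
  · intro x hx
    rw [← e2] at hx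
    obtain ⟨z, hz, rfl⟩ := hx
    rw [hK, rmi_rmf (h := (τ, τ)) hτ hτ, rmf_sub, norm_smul, Real.norm_of_nonneg hτ.le]
    have h1 := k3 z hz
    have h2 := norm_nonneg (K.toFun z - z)
    nlinarith

/-- **First step.** -/
theorem step1 {m : ℕ} (hm : 1 ≤ m) {η : ℝ} (hη : 0 < η) :
    ∃ σ₀ : ℝ, 0 < σ₀ ∧ ∀ σ : ℝ, 0 < σ → σ ≤ σ₀ → ∃ ρ > 0,
    ∀ φ : ConHomeo (rc 0 (m:ℝ) 0 m) (rc 0 (m:ℝ) 0 m), (∀ x ∈ rc 0 (m:ℝ) 0 m, ‖φ.toFun x - x‖ ≤ ρ) →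
    ∀ X : Set (ℝ × ℝ), X ⊆ rc 0 (m:ℝ) 0 m → (∀ x ∈ X, φ.toFun x = x) →
    (∀ x ∈ X, ∃ i j : ℕ, i < m ∧ j < m ∧ x ∈ rc ((i:ℝ) + σ) (i + 1 - σ) (j + σ) (j + 1 - σ)) →
    (∀ x ∈ X, ∀ y ∈ X, ‖x - y‖ ≤ 1 → x = y) →
    ∃ K : ConHomeo (rc 0 (m:ℝ) 0 m) (rc 0 (m:ℝ) 0 m),
      (∀ i j : ℕ, i < m → j < m → ∀ x ∈ rc ((i:ℝ) + σ) (i + 1 - σ) (j + σ) (j + 1 - σ),
        K.toFun x = φ.toFun x) ∧ (∀ x ∈ rb 0 (m:ℝ) 0 m, K.toFun x = x) ∧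
      (∀ x ∈ rc 0 (m:ℝ) 0 m, ‖K.toFun x - x‖ ≤ η) ∧
      IsoE (rc 0 (m:ℝ) 0 m) (rb 0 m 0 m ∪ X) 1 K := by
  obtain ⟨τ₀, h0, h1, H⟩ := t1cell hη
  refine ⟨1 / 2 - τ₀, by linarith, fun σ hσ hσ1 => ?_⟩
  obtain ⟨ρ, hρ, H'⟩ := H (1 / 2 - σ) (by linarith) (by linarith)
  refine ⟨ρ, hρ, fun φ hφ X hXQ hXφ hXD hXs => ?_⟩
  have hT := tiles_cell hm
  have cellD : ∀ i j : ℕ, rc ((i:ℝ) + 1 / 2 - (1 / 2 - σ)) ((i:ℝ) + 1 / 2 + (1 / 2 - σ))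
      ((j:ℝ) + 1 / 2 - (1 / 2 - σ)) ((j:ℝ) + 1 / 2 + (1 / 2 - σ)) =
      rc ((i:ℝ) + σ) (i + 1 - σ) (j + σ) (j + 1 - σ) := by
    intro i j
    congr 1 <;> ring
  have cellC : ∀ i j : ℕ, rc ((i:ℝ) + 1 / 2 - 1 / 2) ((i:ℝ) + 1 / 2 + 1 / 2)
      ((j:ℝ) + 1 / 2 - 1 / 2) ((j:ℝ) + 1 / 2 + 1 / 2) = rc (i:ℝ) (i + 1) j (j + 1) := by
    intro i j
    congr 1 <;> ring
  have cellB : ∀ i j : ℕ, rb ((i:ℝ) + 1 / 2 - 1 / 2) ((i:ℝ) + 1 / 2 + 1 / 2)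
      ((j:ℝ) + 1 / 2 - 1 / 2) ((j:ℝ) + 1 / 2 + 1 / 2) = rb (i:ℝ) (i + 1) j (j + 1) := by
    intro i j
    congr 1 <;> ring
  have cellDQ : ∀ i j : ℕ, i < m → j < m →
      rc ((i:ℝ) + σ) (i + 1 - σ) (j + σ) (j + 1 - σ) ⊆ rc 0 (m:ℝ) 0 m := by
    rintro i j hi hj x ⟨⟨a1, a2⟩, a3, a4⟩
    have b1 : (0:ℝ) ≤ i := Nat.cast_nonneg i
    have b2 : (0:ℝ) ≤ j := Nat.cast_nonneg j
    have b3 : (i:ℝ) + 1 ≤ m := by exact_mod_cast hi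
    have b4 : (j:ℝ) + 1 ≤ m := by exact_mod_cast hj
    exact ⟨⟨by linarith, by linarith⟩, by linarith, by linarith⟩
  have ex : ∀ i j : ℕ, i < m → j < m →
      ∃ K : ConHomeo (rc (i:ℝ) (i + 1) j (j + 1)) (rc (i:ℝ) (i + 1) j (j + 1)),
      (∀ x ∈ rc ((i:ℝ) + σ) (i + 1 - σ) (j + σ) (j + 1 - σ), K.toFun x = φ.toFun x) ∧
      (∀ x ∈ rb (i:ℝ) (i + 1) j (j + 1), K.toFun x = x) ∧
      ∀ x ∈ rc (i:ℝ) (i + 1) j (j + 1), ‖K.toFun x - x‖ ≤ η := by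
    intro i j hi hj
    have H2 := H' ((i:ℝ) + 1 / 2, (j:ℝ) + 1 / 2) _ _ φ
    simp only [cellD, cellC, cellB] at H2
    obtain ⟨K, a1, a2, a3⟩ := H2 (cellDQ i j hi hj) (fun x hx => hφ x (cellDQ i j hi hj hx))
    exact ⟨K.cast (cellC i j) (cellC i j), a1, a2, a3⟩
  choose k k1 k2 k3 using fun ab : Fin m × Fin m => ex ab.1 ab.2 ab.1.2 ab.2.2
  obtain ⟨K, hK, -⟩ := hT.exists_glue k k2
  have hKD : ∀ i j : ℕ, i < m → j < m → ∀ x ∈ rc ((i:ℝ) + σ) (i + 1 - σ) (j + σ) (j + 1 - σ),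
      K.toFun x = φ.toFun x := by
    intro i j hi hj x hx
    have hx' : x ∈ rc (i:ℝ) (i + 1) j (j + 1) := by
      obtain ⟨⟨a1, a2⟩, a3, a4⟩ := hx
      exact ⟨⟨by linarith, by linarith⟩, by linarith, by linarith⟩
    rw [hK (⟨i, hi⟩, ⟨j, hj⟩) hx']
    exact k1 (⟨i, hi⟩, ⟨j, hj⟩) x hx
  have cover : ∀ x ∈ rc 0 (m:ℝ) 0 m, ∃ ab : Fin m × Fin m,
      x ∈ rc ((ab.1:ℕ):ℝ) (((ab.1:ℕ):ℝ) + 1) ((ab.2:ℕ):ℝ) (((ab.2:ℕ):ℝ) + 1) := by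
    intro x hx
    rw [hT.cov] at hx
    rcases hx with h | h
    · exact absurd h (notMem_empty x)
    · exact mem_iUnion.1 h
  have hKB : ∀ ab : Fin m × Fin m, ∀ x ∈ rb ((ab.1:ℕ):ℝ) (((ab.1:ℕ):ℝ) + 1) ((ab.2:ℕ):ℝ)
      (((ab.2:ℕ):ℝ) + 1), K.toFun x = x := fun ab x hx => by
    rw [hK ab (rb_subset _ _ _ _ hx)]; exact k2 ab x hx
  have hKbd : ∀ x ∈ rb 0 (m:ℝ) 0 m, K.toFun x = x := by
    intro x hx
    obtain ⟨ab, hab⟩ := cover x hx.1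
    exact hKB ab x ((iv_cell m).rb_sub (iv_cell m) hx hab)
  have hKX : ∀ x ∈ X, K.toFun x = x := by
    intro x hx
    obtain ⟨i, j, hi, hj, hij⟩ := hXD x hx
    rw [hKD i j hi hj x hij, hXφ x hx]
  refine ⟨K, hKD, hKbd, ?_, ?_⟩
  · intro x hx
    obtain ⟨ab, hab⟩ := cover x hx
    rw [hK ab hab]
    exact k3 ab x hab
  · refine hT.isoE zero_le_one ?_ ?_ ?_ (fun x hx => absurd hx (notMem_empty x)) hKB ?_ ?_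
    · intro i x hx y hy
      exact (iv_cell m).diam (iv_cell m) hx hy
    · exact union_subset (rb_subset _ _ _ _) hXQ
    · rintro i x (hx | hx) y (hy | hy) hxi hyi hxb hyb
      · exact absurd ((iv_cell m).rb_sub (iv_cell m) hx hxi) hxb
      · exact absurd ((iv_cell m).rb_sub (iv_cell m) hx hxi) hxb
      · exact absurd ((iv_cell m).rb_sub (iv_cell m) hy hyi) hyb
      · exact hXs x hx y hy ((iv_cell m).diam (iv_cell m) hxi hyi)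
    · intro i
      rw [(hK i).image_eq, (k i).image_eq]
    · rintro x (hx | hx)
      · exact hKbd x hx
      · exact hKX x hx

end P073.H399
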