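import Vale.Agent.P073.H399.Ann6

/-!
# P073 / H399: a small homeomorphism of the unit square onto its image extends to the
slightly larger square by a small homeomorphism which is the identity on the boundary
-/

open Set Metric Topology Filter

namespace P073.H399

open P073 P073.H339

/-- the reflected map -/
theorem exists_refl {M : Set (ℝ × ℝ)} (φ : ConHomeo (closedBall (0 : ℝ × ℝ) 1) M) :
    ∃ φ' : ConHomeo (closedBall (0 : ℝ × ℝ) 1) (sg '' M), ∀ x, φ'.toFun x = sg (φ.toFun (sg x)) := by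
  let s1 : ConHomeo (closedBall (0 : ℝ × ℝ) 1) (closedBall (0 : ℝ × ℝ) 1) :=
    (sgH.restr (conicalSet_closedBall_prod 1) (subset_univ _)).cast rfl (sg_image_closedBall 1)
  let s2 : ConHomeo M (sg '' M) := sgH.restr φ.conicalSet_right (subset_univ _)
  exact ⟨s1.trans (φ.trans s2), fun x => rfl⟩

theorem pl_near {υ : ℕ → ℝ} {N : ℕ} {δ : ℝ} (hN : 0 < N) (hm : ∀ j < N, υ j < υ (j + 1))
    (hc : ∀ j : ℕ, j ≤ N → |υ j - 4 * j / N| ≤ δ) {j : ℕ} (hj : j < N) {t : ℝ} (h0 : (j:ℝ) ≤ t)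
    (h1 : t ≤ j + 1) : |pl υ N t - 4 * j / N| ≤ δ + 4 / N := by
  have hN' : (0:ℝ) < N := by exact_mod_cast hN
  have e1 := hc j hj.le
  have e2 := hc (j + 1) hj
  have e3 : (4 * ((j + 1 : ℕ) : ℝ) / N) = 4 * j / N + 4 / N := by push_cast; field_simp
  have e4 := hm j hj
  have hNpos : (0:ℝ) < 4 / N := by positivity
  rw [pl_sq hj h0 h1]
  rw [e3] at e2
  rw [abs_le] at e1 e2 ⊢
  have k1 : 0 ≤ (υ (j + 1) - υ j) * (t - j) := mul_nonneg (by linarith) (by linarith)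
  have k2 : (υ (j + 1) - υ j) * (t - j) ≤ (υ (j + 1) - υ j) * 1 :=
    mul_le_mul_of_nonneg_left (by linarith) (by linarith)
  constructor <;> linarith [e1.1, e1.2, e2.1, e2.2]

theorem inner_surj {υ : ℕ → ℝ} {N : ℕ} {x : ℝ} (h : x ∈ Icc (υ 0) (υ N)) :
    ∃ t ∈ Icc (0:ℝ) N, pl υ N t = x := by
  have h1 := intermediate_value_Icc (Nat.cast_nonneg N : (0:ℝ) ≤ N) (continuous_pl υ N).continuousOn
  have e0 : pl υ N 0 = υ 0 := by
    have := pl_nat (v := υ) (Nat.zero_le N)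
    simpa using this
  rw [e0, pl_nat (le_refl N)] at h1
  exact h1 h

theorem inner_range {υ : ℕ → ℝ} {N : ℕ} (hm : ∀ j < N, υ j < υ (j + 1)) {t : ℝ}
    (ht : t ∈ Icc (0:ℝ) N) : pl υ N t ∈ Icc (υ 0) (υ N) := by
  have hmono := (pl_strictMono hm).monotoneOn
  have h0 : ((0:ℕ):ℝ) ∈ Icc (0:ℝ) N := cast_mem (Nat.zero_le N)
  have h1 := hmono h0 ht (by simpa using ht.1)
  have h2 := hmono ht (cast_mem (le_refl N)) ht.2
  rw [pl_nat (Nat.zero_le N)] at h1
  rw [pl_nat (le_refl N)] at h2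
  exact ⟨h1, h2⟩

theorem sphere_eq_outer {N : ℕ} {w : ℝ} (hN0 : 0 < N) (hR0 : 0 < 1 + w) :
    sphere (0 : ℝ × ℝ) (1 + w) = (fun t : ℝ => (1 + w) • cc (4 * t / N)) '' Icc 0 (N:ℝ) ∪
      (fun t : ℝ => sg ((1 + w) • cc (4 * t / N))) '' Icc 0 (N:ℝ) := by
  have hNpos : (0:ℝ) < N := by exact_mod_cast hN0
  apply Subset.antisymm
  · intro p hp
    have hp' : ‖p‖ = 1 + w := mem_sphere_zero_iff_norm.1 hp
    have key : ∀ q : ℝ × ℝ, ‖q‖ = 1 + w → 0 ≤ q.2 →
        ∃ t ∈ Icc (0:ℝ) N, (1 + w) • cc (4 * t / N) = q := by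
      intro q hq hq0
      have h1 : (1 + w)⁻¹ • q ∈ sphere (0 : ℝ × ℝ) 1 := by
        rw [mem_sphere_zero_iff_norm, norm_smul, hq, norm_inv, Real.norm_of_nonneg hR0.le]
        field_simp
      obtain ⟨t, ⟨ht0, ht4⟩, he⟩ := exists_cc h1 (by
        rw [Prod.smul_snd, smul_eq_mul]; positivity)
      refine ⟨N * t / 4, ⟨by positivity, ?_⟩, ?_⟩
      · rw [div_le_iff₀ (by norm_num : (0:ℝ) < 4)]
        nlinarith
      · have : 4 * (N * t / 4) / (N:ℝ) = t := by field_simp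
        rw [this, ← he, smul_smul, mul_inv_cancel₀ hR0.ne', one_smul]
    rcases le_total 0 p.2 with h | h
    · obtain ⟨t, ht, e⟩ := key p hp' h
      exact Or.inl ⟨t, ht, e⟩
    · obtain ⟨t, ht, e⟩ := key (sg p) (by rw [norm_sg]; exact hp') (by rw [sg_snd]; linarith)
      refine Or.inr ⟨t, ht, ?_⟩
      simp only [e, sg_sg]
  · rintro _ (⟨t, ht, rfl⟩ | ⟨t, ht, rfl⟩)
    · rw [mem_sphere_zero_iff_norm]; exact outer_norm hN0 hR0 ht
    · simp only [mem_sphere_zero_iff_norm, norm_sg]; exact outer_norm hN0 hR0 ht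

/-- **T1small** -/
theorem t1small {η : ℝ} (hη : 0 < η) : ∃ w₁ > 0, ∀ w : ℝ, 0 < w → w ≤ w₁ → ∃ ρ > 0,
    ∀ (M : Set (ℝ × ℝ)) (φ : ConHomeo (closedBall (0 : ℝ × ℝ) 1) M),
    (∀ x ∈ closedBall (0 : ℝ × ℝ) 1, ‖φ.toFun x - x‖ ≤ ρ) →
    ∃ K : ConHomeo (closedBall (0 : ℝ × ℝ) (1 + w)) (closedBall (0 : ℝ × ℝ) (1 + w)),
      EqOn K.toFun φ.toFun (closedBall 0 1) ∧ (∀ x ∈ sphere (0 : ℝ × ℝ) (1 + w), K.toFun x = x) ∧
      ∀ x ∈ closedBall (0 : ℝ × ℝ) (1 + w), ‖K.toFun x - x‖ ≤ η := by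
  obtain ⟨k, hk⟩ := exists_nat_ge (8 / η)
  obtain ⟨N, hNk⟩ : ∃ N : ℕ, N = 4 * k + 2 := ⟨_, rfl⟩
  have hN0 : 0 < N := by omega
  have hN2 : 2 ≤ N := by omega
  have hNpos : (0:ℝ) < N := by exact_mod_cast hN0
  have hNR : (N:ℝ) = 4 * k + 2 := by rw [hNk]; push_cast; ring
  have hN2R : (2:ℝ) ≤ N := by exact_mod_cast hN2
  have h4N : 4 / (N:ℝ) ≤ η / 8 := by
    rw [div_le_iff₀ hNpos, hNR]
    rw [div_le_iff₀ hη] at hk
    linarith
  refine ⟨η / 8, by linarith, fun w hw hw1 => ?_⟩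
  obtain ⟨ρ, hρdef⟩ : ∃ ρ : ℝ, ρ = min (w / 2) (min (1 / (6 * N)) (η / 64)) := ⟨_, rfl⟩
  have hρ : 0 < ρ := by rw [hρdef]; positivity
  have hρw : ρ ≤ w / 2 := hρdef ▸ min_le_left _ _
  have hρN : ρ ≤ 1 / (6 * N) := hρdef ▸ (min_le_right _ _).trans (min_le_left _ _)
  have hρη : ρ ≤ η / 64 := hρdef ▸ (min_le_right _ _).trans (min_le_right _ _)
  have h3ρ : 3 * ρ < 1 / N := by
    have e : (1:ℝ) / (6 * N) = 1 / N / 6 := by field_simp
    rw [e] at hρN
    have : (0:ℝ) < 1 / N := by positivity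
    linarith
  have h1N : (1:ℝ) / N ≤ 1 / 2 := one_div_le_one_div_of_le (by norm_num) hN2R
  refine ⟨ρ, hρ, fun M φ hφ => ?_⟩
  have hR : 1 + ρ < 1 + w := by linarith
  have hR1 : 1 < 1 + w := by linarith
  have hR0 : 0 < 1 + w := by linarith
  obtain ⟨υ, s, p1, p2, p3, p4, p5, p6, p7⟩ := exists_hits hNk hρ h3ρ hR φ hφ
  obtain ⟨φ', hφ'⟩ := exists_refl φ
  have hφ'c : ∀ x ∈ closedBall (0 : ℝ × ℝ) 1, ‖φ'.toFun x - x‖ ≤ ρ := by
    intro x hx
    have hx' : sg x ∈ closedBall (0 : ℝ × ℝ) 1 := by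
      rw [mem_closedBall_zero_iff, norm_sg]; exact mem_closedBall_zero_iff.1 hx
    have h1 := hφ _ hx'
    rw [hφ']
    have h2 : sg (φ.toFun (sg x)) - x = sg (φ.toFun (sg x) - sg x) := by
      rw [← sg_sub, sg_sg]
    rw [h2, norm_sg]; exact h1
  obtain ⟨υ', s', q1, q2, q3, q4, q5, q6, q7⟩ := exists_hits hNk hρ h3ρ hR φ' hφ'c
  -- the two ends
  have ends : ∀ j : ℕ, j ≤ N → sg (cc (4 * j / N)) = cc (4 * j / N) →
      cc (υ j) = sg (cc (υ' j)) := by
    intro j hj he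
    have hm1 := (p1 j hj).mem.2
    have hm2 := (q1 j hj).mem.2
    have c1 : cc (υ j) ∈ closedBall (0 : ℝ × ℝ) 1 := by
      rw [mem_closedBall_zero_iff]; exact (norm_cc hm1.1 hm1.2).le
    have c2 : sg (cc (υ' j)) ∈ closedBall (0 : ℝ × ℝ) 1 := by
      rw [mem_closedBall_zero_iff, norm_sg]; exact (norm_cc hm2.1 hm2.2).le
    have e1 : φ.toFun (cc (υ j)) = s j • cc (4 * j / N) := p6 j hj
    have e2 : φ.toFun (sg (cc (υ' j))) = s' j • cc (4 * j / N) := by
      have := q6 j hj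
      rw [hφ'] at this
      rw [← sg_sg (φ.toFun (sg (cc (υ' j)))), this, sg_smul, he]
    have hss : s j = s' j := by
      rcases lt_trichotomy (s j) (s' j) with h | h | h
      · exact absurd (e2 ▸ φ.mapsTo c2) (p7 j hj _ h (q5 j hj).le)
      · exact h
      · refine absurd ?_ (q7 j hj _ h (p5 j hj).le)
        refine ⟨s j • cc (4 * j / N), e1 ▸ φ.mapsTo c1, ?_⟩
        rw [sg_smul, he]
    apply φ.injOn c1 c2
    rw [e1, e2, hss]
  have hN1 := le_refl N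
  have e40 : (4 * ((0:ℕ):ℝ) / N) = 0 := by simp
  have e4N : (4 * (N:ℝ) / N) = 4 := by field_simp
  have cc0 : sg (cc 0) = cc 0 := by
    rw [cc_one (by norm_num) (by norm_num)]
    exact Prod.ext rfl (by simp)
  have cc4 : sg (cc 4) = cc 4 := by
    rw [cc_three (by norm_num) (by norm_num)]
    exact Prod.ext rfl (by simp)
  have end0 := ends 0 (Nat.zero_le N) (by rw [e40]; exact cc0)
  have endN := ends N hN1 (by rw [e4N]; exact cc4)
  have a0 := p2 0 (Nat.zero_le N)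
  have a0' := q2 0 (Nat.zero_le N)
  have aN := p2 N hN1
  have aN' := q2 N hN1
  rw [e40, sub_zero] at a0 a0'
  rw [e4N] at aN aN'
  have hhalf : 3 * ρ < 1 / 2 := by linarith
  have b0 := abs_le.1 a0
  have b0' := abs_le.1 a0'
  have bN := abs_le.1 aN
  have bN' := abs_le.1 aN'
  have u0 : υ' 0 = -υ 0 := by
    rcases cc_eq_sg (by linarith) (by linarith) (by linarith) (by linarith) end0 with h | h
    · exact h.2
    · linarith [h.1]
  have uN : υ' N = 8 - υ N := by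
    rcases cc_eq_sg (by linarith) (by linarith) (by linarith) (by linarith) endN with h | h
    · linarith [h.1]
    · exact h.2
  -- cover of the sphere
  have cover : ∀ u ∈ sphere (0 : ℝ × ℝ) 1, (∃ t ∈ Icc (υ 0) (υ N), u = cc t) ∨
      ∃ t ∈ Icc (υ' 0) (υ' N), u = sg (cc t) := by
    intro u hu
    rcases le_total 0 u.2 with h | h
    · exact cover_half (by linarith) (by linarith) u0 uN hu h
    · have hu' : sg u ∈ sphere (0 : ℝ × ℝ) 1 := by
        rw [mem_sphere_zero_iff_norm, norm_sg]; exact mem_sphere_zero_iff_norm.1 hu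
      rcases cover_half (p := υ' 0) (q := υ' N) (p' := υ 0) (q' := υ N) (by linarith) (by linarith)
        (by linarith) (by linarith) hu' (by rw [sg_snd]; linarith) with ⟨t, ht, e⟩ | ⟨t, ht, e⟩
      · right; exact ⟨t, ht, by rw [← e, sg_sg]⟩
      · left; exact ⟨t, ht, sg_injective e⟩
  have sph : ∀ {x : ℝ}, x ∈ Icc (-1:ℝ) 5 → cc x ∈ sphere (0 : ℝ × ℝ) 1 := fun hx => by
    rw [mem_sphere_zero_iff_norm]; exact norm_cc hx.1 hx.2
  have sph' : ∀ {x : ℝ}, x ∈ Icc (-1:ℝ) 5 → sg (cc x) ∈ sphere (0 : ℝ × ℝ) 1 := fun hx => by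
    rw [mem_sphere_zero_iff_norm, norm_sg]; exact norm_cc hx.1 hx.2
  have hDA := ladDom hN0 hR1 p1 p3
  have hDB := (ladDom hN0 hR1 q1 q3).refl
  rw [sg_preimage_closedBall, sg_preimage_sphere, sg_preimage_closedBall] at hDB
  have hTA := ladTar hN0 hR1 φ p1 p3 p4 p5 p6 p7
  have hTB := (ladTar hN0 hR1 φ' q1 q3 q4 q5 q6 q7).refl
  rw [sg_preimage_closedBall, sg_preimage_sphere, preimage_image_eq _ sg_injective] at hTB
  simp only [hφ', sg_sg] at hTB
  obtain ⟨hball, hMd⟩ := ball_subset_image hρ (by linarith) φ hφ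
  have hMn : ∀ x ∈ M, ‖x‖ < 1 + w := by
    intro x hx
    rw [← φ.image_eq] at hx
    obtain ⟨u, hu, rfl⟩ := hx
    have h1 := hφ u hu
    have h2 : ‖φ.toFun u‖ ≤ ‖φ.toFun u - u‖ + ‖u‖ := by
      have := norm_add_le (φ.toFun u - u) u
      rwa [sub_add_cancel] at this
    have h3 := mem_closedBall_zero_iff.1 hu
    linarith
  have hN01 : ∀ j : ℕ, j = 0 ∨ j = N → (j:ℝ) = 0 ∨ (j:ℝ) = N := by
    rintro j (h | h)
    · left; rw [h]; simp
    · right; rw [h]
  have pl0 : ∀ v : ℕ → ℝ, pl v N 0 = v 0 := fun v => by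
    have := pl_nat (v := v) (Nat.zero_le N)
    simpa using this
  have hCeq := sphere_eq_outer hN0 hR0
  have hBeq : sphere (0 : ℝ × ℝ) 1 = (fun t : ℝ => cc (pl υ N t)) '' Icc 0 (N:ℝ) ∪
      (fun t : ℝ => sg (cc (pl υ' N t))) '' Icc 0 (N:ℝ) := by
    apply Subset.antisymm
    · intro u hu
      rcases cover u hu with ⟨x, hx, rfl⟩ | ⟨x, hx, rfl⟩
      · obtain ⟨t, ht, rfl⟩ := inner_surj hx
        exact Or.inl ⟨t, ht, rfl⟩
      · obtain ⟨t, ht, rfl⟩ := inner_surj hx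
        exact Or.inr ⟨t, ht, rfl⟩
    · rintro _ (⟨t, ht, rfl⟩ | ⟨t, ht, rfl⟩)
      · exact sph (inner_mem p1 p3 ht)
      · exact sph' (inner_mem q1 q3 ht)
  have hCi : ∀ x ∈ Icc 0 (N:ℝ), ∀ y ∈ Icc 0 (N:ℝ),
      (fun t : ℝ => (1 + w) • cc (4 * t / N)) x = (fun t : ℝ => sg ((1 + w) • cc (4 * t / N))) y →
      x = 0 ∨ x = N := by
    intro x hx y hy he
    simp only [sg_smul] at he
    have he' := smul_right_injective _ hR0.ne' he
    obtain ⟨x0, x4⟩ := ang_mem hN0 hx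
    obtain ⟨y0, y4⟩ := ang_mem hN0 hy
    rcases cc_eq_sg (by linarith) (by linarith) (by linarith) (by linarith) he' with h | h
    · left
      have h5 : 4 * x / N = 0 := by linarith [h.2]
      rw [div_eq_iff hNpos.ne'] at h5
      linarith
    · right
      have h5 : 4 * x / N = 4 := by linarith [h.2]
      rw [div_eq_iff hNpos.ne'] at h5
      linarith
  have hBi : ∀ x ∈ Icc 0 (N:ℝ), ∀ y ∈ Icc 0 (N:ℝ),
      (fun t : ℝ => cc (pl υ N t)) x = (fun t : ℝ => sg (cc (pl υ' N t))) y → x = 0 ∨ x = N := by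
    intro x hx y hy he
    obtain ⟨x0, x1⟩ := inner_range p3 hx
    obtain ⟨y0, y1⟩ := inner_range q3 hy
    have hinj := (pl_strictMono p3).injOn
    rcases cc_eq_sg (by linarith) (by linarith) (by linarith) (by linarith) he with h | h
    · left
      apply hinj hx ⟨le_refl _, hNpos.le⟩
      rw [pl0]; linarith [h.2]
    · right
      apply hinj hx ⟨hNpos.le, le_refl _⟩
      rw [pl_nat hN1]; linarith [h.2]
  have hS : AnnS N (closedBall 0 (1 + w)) (sphere 0 (1 + w)) (closedBall 0 1) (sphere 0 1)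
      (fun t : ℝ => (1 + w) • cc (4 * t / N)) (fun t => cc (pl υ N t))
      (fun t => sg ((1 + w) • cc (4 * t / N))) (fun t => sg (cc (pl υ' N t))) := by
    refine ⟨hDA, hDB, ambDisc_closedBall 0 hR0, ambDisc_closedBall 0 one_pos, ?_, ?_, hCeq, hBeq,
      hCi, hBi, ?_, ?_, ?_, ?_⟩
    · rw [disjoint_left]
      intro x hx hx'
      rw [mem_sphere_zero_iff_norm] at hx
      rw [mem_closedBall_zero_iff] at hx'
      linarith
    · exact closedBall_subset_closedBall hR1.le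
    · simp only [mul_zero, zero_div, sg_smul, cc0]
    · simp only [e4N, sg_smul, cc4]
    · simp only [pl0]; exact end0
    · simp only [pl_nat hN1]; exact endN
  have hS' : AnnS N (closedBall 0 (1 + w)) (sphere 0 (1 + w)) M (φ.toFun '' sphere 0 1)
      (fun t : ℝ => (1 + w) • cc (4 * t / N)) (fun t => φ.toFun (cc (pl υ N t)))
      (fun t => sg ((1 + w) • cc (4 * t / N))) (fun t => φ.toFun (sg (cc (pl υ' N t)))) := by
    refine ⟨hTA, hTB, ambDisc_closedBall 0 hR0, hMd, ?_, ?_, hCeq, ?_,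
      hCi, ?_, hS.a0, hS.aN, ?_, ?_⟩
    · rw [disjoint_left]
      intro x hx hx'
      rw [mem_sphere_zero_iff_norm] at hx
      have := hMn x hx'
      linarith
    · intro x hx
      exact mem_closedBall_zero_iff.2 (hMn x hx).le
    · rw [hBeq, image_union, image_image, image_image]
    · intro x hx y hy he
      exact hBi x hx y hy (φ.injOn (sphere_subset_closedBall (sph (inner_mem p1 p3 hx)))
        (sphere_subset_closedBall (sph' (inner_mem q1 q3 hy))) he)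
    · simp only [pl0]; rw [end0]
    · simp only [pl_nat hN1]; rw [endN]
  -- closeness
  have est : ∀ (v : ℕ → ℝ), (∀ j < N, v j < v (j + 1)) →
      (∀ j : ℕ, j ≤ N → |v j - 4 * j / N| ≤ 3 * ρ) → ∀ j < N, ∀ p ∈ dSq j,
      ‖(1 + w) • cc (4 * p.1 / N) - cc (4 * j / N)‖ ≤ η / 2 ∧
      ‖cc (pl v N p.1) - cc (4 * j / N)‖ ≤ η / 2 - ρ := by
    intro v hv hv' j hj p hp
    obtain ⟨⟨h1, h2⟩, h3⟩ := hp.1
    constructor
    · have hang : 4 * p.1 / N ∈ Icc (-1:ℝ) 5 := by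
        apply ang_mem5 hN0
        have : (j:ℝ) + 1 ≤ N := by exact_mod_cast hj
        exact ⟨(Nat.cast_nonneg j).trans h1, h2.trans this⟩
      have e1 : (1 + w) • cc (4 * p.1 / N) - cc (4 * j / N) =
          w • cc (4 * p.1 / N) + (cc (4 * p.1 / N) - cc (4 * j / N)) := by module
      rw [e1]
      refine (norm_add_le _ _).trans ?_
      rw [norm_smul, norm_cc hang.1 hang.2, mul_one, Real.norm_of_nonneg hw.le]
      have e2 := cc_lip (4 * p.1 / N) (4 * j / N)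
      have e3 : |4 * p.1 / N - 4 * j / N| ≤ 4 / N := by
        rw [← sub_div, abs_of_nonneg (by apply div_nonneg _ hNpos.le; linarith)]
        apply div_le_div_of_nonneg_right _ hNpos.le
        linarith
      linarith
    · have e2 := cc_lip (pl v N p.1) (4 * j / N)
      have e3 := pl_near hN0 hv hv' hj h1 h2
      linarith
  have near : ∀ x ∈ closedBall (0 : ℝ × ℝ) 1, ∀ z : ℝ × ℝ, ‖x - z‖ ≤ η / 2 - ρ →
      ‖φ.toFun x - z‖ ≤ η / 2 := by
    intro x hx z hz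
    have e1 : φ.toFun x - z = (φ.toFun x - x) + (x - z) := by abel
    rw [e1]
    have := hφ x hx
    exact (norm_add_le _ _).trans (by linarith)
  have inI : ∀ j < N, ∀ p ∈ dSq j, p.1 ∈ Icc (0:ℝ) N := by
    intro j hj p hp
    obtain ⟨⟨h1, h2⟩, h3⟩ := hp.1
    have : (j:ℝ) + 1 ≤ N := by exact_mod_cast hj
    exact ⟨(Nat.cast_nonneg j).trans h1, h2.trans this⟩
  obtain ⟨K, k1, k2, k3⟩ := AnnS.homeo φ hS hS' hN2 (r := η / 2) (by linarith)
    (fun j => cc (4 * j / N)) (fun j => sg (cc (4 * j / N)))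
    (by
      intro j hj p hp
      obtain ⟨h1, h2⟩ := est υ p3 p2 j hj p hp
      have hpp := hp.1.2
      refine ⟨lmap_mem_closedBall hpp.1 hpp.2 h1 (by linarith),
        lmap_mem_closedBall hpp.1 hpp.2 h1 ?_⟩
      exact near _ (sphere_subset_closedBall (sph (inner_mem p1 p3 (inI j hj p hp)))) _ h2)
    (by
      intro j hj p hp
      obtain ⟨h1, h2⟩ := est υ' q3 q2 j hj p hp
      have hpp := hp.1.2
      have h1' : ‖sg ((1 + w) • cc (4 * p.1 / N)) - sg (cc (4 * j / N))‖ ≤ η / 2 := by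
        rw [sg_sub, norm_sg]; exact h1
      have h2' : ‖sg (cc (pl υ' N p.1)) - sg (cc (4 * j / N))‖ ≤ η / 2 - ρ := by
        rw [sg_sub, norm_sg]; exact h2
      refine ⟨lmap_mem_closedBall hpp.1 hpp.2 h1' (by linarith),
        lmap_mem_closedBall hpp.1 hpp.2 h1' ?_⟩
      exact near _ (sphere_subset_closedBall (sph' (inner_mem q1 q3 (inI j hj p hp)))) _ h2')
  refine ⟨K, k1, k2, ?_⟩
  intro x hx
  by_cases hxM : x ∈ closedBall (0 : ℝ × ℝ) 1
  · rw [k1 hxM]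
    exact (hφ x hxM).trans (by linarith)
  · have := k3 x hx hxM
    linarith

end P073.H399
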